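import Vale.Agent.P067.MathlibUsed
import Vale.Agent.P067.FinalDefs
attribute [-instance] ProperSMul.toContinuousSMul IsTopologicalTorsor.toContinuousSMul IdemSemiring.toCanonicallyOrderedAdd IdemSemiring.toMulLeftMono IdemSemiring.toMulRightMono AddQuantale.instAddLeftMono AddQuantale.instAddRightMono Quantale.instMulLeftMono Quantale.instMulRightMono FiniteDimensional.rclike_to_real IsScalarTower.complexToReal FiniteDimensional.complexToReal

set_option linter.all false

section

section

/-!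
# P067, basic chain calculus

Simplices are finsets `s : Finset α`.  Chains are `Finset α →₀ k` with `CharP k 2`, so there are no
signs.  The empty simplex is included, so homology is reduced.  Everything is indexed by the SIZE
(number of vertices) of simplices, not by dimension.
-/

set_option autoImplicit false

open Finset

namespace Vale.Agent.P067

variable {α : Type*} {k : Type*} [Field k]

attribute [local instance] Classical.propDecidable

/-- Boundary operator (characteristic two, no signs, augmented: `bd {v} = ∅`). -/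
noncomputable def bd : (Finset α →₀ k) →ₗ[k] (Finset α →₀ k) :=
  Finsupp.lsum k (fun s => ∑ v ∈ s, Finsupp.lsingle (s.erase v))

/-- Cone operator with apex `x`; it is zero on simplices which already contain `x`. -/
noncomputable def cone (x : α) : (Finset α →₀ k) →ₗ[k] (Finset α →₀ k) :=
  Finsupp.lsum k (fun s => if x ∈ s then 0 else Finsupp.lsingle (insert x s))

/-- Link of `x` in the chain `c`: sum of `c s • (s.erase x)` over `s ∋ x`. -/
noncomputable def lk (x : α) : (Finset α →₀ k) →ₗ[k] (Finset α →₀ k) :=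
  Finsupp.lsum k (fun s => if x ∈ s then Finsupp.lsingle (s.erase x) else 0)

/-- Part of the chain made of simplices not containing `x`. -/
noncomputable def del (x : α) : (Finset α →₀ k) →ₗ[k] (Finset α →₀ k) :=
  Finsupp.lsum k (fun s => if x ∈ s then 0 else Finsupp.lsingle s)

/-- The chain `c` is supported on simplices of `K` with exactly `q` vertices. -/
def ChainIn (K : Set (Finset α)) (q : ℕ) (c : Finset α →₀ k) : Prop :=
  ∀ s ∈ c.support, s ∈ K ∧ s.card = q

/-- `K` is closed under passing to subsets. -/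
def DownClosed (K : Set (Finset α)) : Prop := ∀ s ∈ K, ∀ t, t ⊆ s → t ∈ K

/-- Reduced homology of `K` with coefficients in `k` vanishes in size `q` (dimension `q-1`). -/
def Acyc (k : Type*) [Field k] (K : Set (Finset α)) (q : ℕ) : Prop :=
  ∀ c : Finset α →₀ k, ChainIn K q c → bd c = 0 → ∃ y : Finset α →₀ k, ChainIn K (q + 1) y ∧ bd y = c

/-- Relative homology of `(K, K₀)` vanishes in size `q`. -/
def RelAcyc (k : Type*) [Field k] (K K₀ : Set (Finset α)) (q : ℕ) : Prop :=
  ∀ c : Finset α →₀ k, ChainIn K q c → (∀ s ∈ (bd c).support, s ∈ K₀) →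
    ∃ y : Finset α →₀ k, ChainIn K (q + 1) y ∧ ∀ s ∈ (c + bd y).support, s ∈ K₀

theorem bd_single (s : Finset α) (a : k) :
    bd (Finsupp.single s a) = ∑ v ∈ s, Finsupp.single (s.erase v) a := by
  simp only [bd, Finsupp.lsum_single, LinearMap.sum_apply, Finsupp.lsingle_apply]

theorem cone_single (x : α) (s : Finset α) (a : k) :
    cone x (Finsupp.single s a) = if x ∈ s then 0 else Finsupp.single (insert x s) a := by
  simp only [cone, Finsupp.lsum_single]
  split_ifs <;> simp

theorem lk_single (x : α) (s : Finset α) (a : k) :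
    lk x (Finsupp.single s a) = if x ∈ s then Finsupp.single (s.erase x) a else 0 := by
  simp only [lk, Finsupp.lsum_single]
  split_ifs <;> simp

theorem del_single (x : α) (s : Finset α) (a : k) :
    del x (Finsupp.single s a) = if x ∈ s then 0 else Finsupp.single s a := by
  simp only [del, Finsupp.lsum_single]
  split_ifs <;> simp

theorem add_self_zero [CharP k 2] (c : Finset α →₀ k) : c + c = 0 := by
  ext s
  simp [CharTwo.add_self_eq_zero]

theorem bd_bd [CharP k 2] (c : Finset α →₀ k) : bd (bd c) = 0 := by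
  have : (bd ∘ₗ bd : (Finset α →₀ k) →ₗ[k] (Finset α →₀ k)) = 0 := by
    apply Finsupp.lhom_ext
    intro s a
    simp only [LinearMap.comp_apply, bd_single, map_sum, LinearMap.zero_apply]
    rw [Finset.sum_sigma']
    apply Finset.sum_involution (fun x _ => ⟨x.2, x.1⟩)
    · rintro ⟨v, w⟩ h
      simp only [Finset.mem_sigma, Finset.mem_erase] at h
      rw [Finset.erase_right_comm]
      exact add_self_zero _
    · rintro ⟨v, w⟩ h _
      simp only [Finset.mem_sigma, Finset.mem_erase] at h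
      intro heq
      have : w = v := congrArg Sigma.fst heq
      exact h.2.1 this
    · rintro ⟨v, w⟩ h
      rfl
    · rintro ⟨v, w⟩ h
      simp only [Finset.mem_sigma, Finset.mem_erase] at h ⊢
      exact ⟨h.2.2, fun e => h.2.1 e.symm, h.1⟩
  exact LinearMap.congr_fun this c

theorem bd_cone [CharP k 2] (x : α) (c : Finset α →₀ k) :
    bd (cone x c) = c + cone x (bd c) := by
  have : (bd ∘ₗ cone x : (Finset α →₀ k) →ₗ[k] (Finset α →₀ k)) =
      LinearMap.id + cone x ∘ₗ bd := by
    apply Finsupp.lhom_ext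
    intro s a
    simp only [LinearMap.comp_apply, cone_single, LinearMap.add_apply, LinearMap.id_apply, bd_single, map_sum]
    by_cases hx : x ∈ s
    · simp only [hx, if_true, map_zero]
      rw [← Finset.add_sum_erase s _ hx]
      have h0 : ∑ v ∈ s.erase x, (if x ∈ s.erase v then (0 : Finset α →₀ k)
          else Finsupp.single (insert x (s.erase v)) a) = 0 := by
        apply Finset.sum_eq_zero
        intro v hv
        rw [Finset.mem_erase] at hv
        have : x ∈ s.erase v := Finset.mem_erase.2 ⟨fun e => hv.1 e.symm, hx⟩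
        simp [this]
      rw [h0]
      simp [Finset.insert_erase hx, add_self_zero]
    · simp only [hx, if_false, bd_single]
      rw [Finset.sum_insert hx, Finset.erase_insert hx]
      congr 1
      apply Finset.sum_congr rfl
      intro v hv
      have hxv : x ≠ v := fun e => hx (e ▸ hv)
      have : x ∉ s.erase v := fun h => hx (Finset.mem_of_mem_erase h)
      simp only [this, if_false]
      rw [Finset.erase_insert_of_ne hxv]
  exact LinearMap.congr_fun this c

theorem cone_lk_add_del (x : α) (c : Finset α →₀ k) : cone x (lk x c) + del x c = c := by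
  have : (cone x ∘ₗ lk x + del x : (Finset α →₀ k) →ₗ[k] (Finset α →₀ k)) = LinearMap.id := by
    apply Finsupp.lhom_ext
    intro s a
    simp only [LinearMap.comp_apply, LinearMap.add_apply, LinearMap.id_apply, lk_single,
      del_single]
    by_cases hx : x ∈ s
    · simp [hx, cone_single, Finset.insert_erase hx]
    · simp [hx]
  exact LinearMap.congr_fun this c

/-- Vertex elimination: replace the star of `x` in `c` by a filling `y` of the link. -/
theorem elim_vertex [CharP k 2] (x : α) (c y : Finset α →₀ k) (hy : bd y = lk x c) :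
    c + bd (cone x y) = del x c + y := by
  have h1 := cone_lk_add_del x c
  have h2 := add_self_zero (cone x (lk x c))
  rw [bd_cone, hy]
  calc c + (y + cone x (lk x c)) = (cone x (lk x c) + del x c) + (y + cone x (lk x c)) := by rw [h1]
    _ = (del x c + y) + (cone x (lk x c) + cone x (lk x c)) := by abel
    _ = del x c + y := by rw [h2, add_zero]

end Vale.Agent.P067
end
end

section

section

/-!
# P067, geometry of the complex: definitions

`F = ZMod p`, `R = F[t]/(t^m)`, `V = ι → R`, `W0 = F^ι` (constant vectors), `G = SL(V)`.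
A form is `g • W0`.  A vertex is `W + tS`, `W` a form, `S < W` a proper `F`-subspace.
A simplex is `{W + tS : S ∈ c}`, `c` a chain of proper subspaces of `W`.
-/

set_option autoImplicit false

open Polynomial

namespace Vale.Agent.P067

attribute [local instance] Classical.propDecidable

section ring

variable (p m : ℕ)

/-- The truncated polynomial ring `R = F[t]/(t^m)`, `F = ZMod p`. -/
abbrev Rg : Type := AdjoinRoot ((X : (ZMod p)[X]) ^ m)

/-- The variable `t` of `R`. -/
noncomputable def tt : Rg p m := AdjoinRoot.root _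

theorem tt_pow : tt p m ^ m = 0 := by
  have h := AdjoinRoot.mk_self (f := ((X : (ZMod p)[X]) ^ m))
  rw [map_pow] at h
  exact h

/-- Coefficient of `t^c`, for `r : R`. -/
noncomputable def co [Fact p.Prime] (c : ℕ) : Rg p m →ₗ[ZMod p] ZMod p :=
  (lcoeff (ZMod p) c) ∘ₗ AdjoinRoot.modByMonicHom (monic_X_pow m)

end ring

variable {p m : ℕ} [Fact p.Prime]

theorem co_mk (c : ℕ) (f : (ZMod p)[X]) (hc : c < m) :
    co p m c (AdjoinRoot.mk _ f) = f.coeff c := by
  simp only [co, LinearMap.comp_apply, AdjoinRoot.modByMonicHom_mk, lcoeff_apply]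
  conv_rhs => rw [← modByMonic_add_div f ((X : (ZMod p)[X]) ^ m)]
  rw [coeff_add, coeff_X_pow_mul', if_neg (by omega), add_zero]

theorem co_of_le (c : ℕ) (hc : m ≤ c) (r : Rg p m) : co p m c r = 0 := by
  obtain ⟨f, rfl⟩ := AdjoinRoot.mk_surjective r
  simp only [co, LinearMap.comp_apply, AdjoinRoot.modByMonicHom_mk, lcoeff_apply]
  apply coeff_eq_zero_of_degree_lt
  refine lt_of_lt_of_le (degree_modByMonic_lt f (monic_X_pow m)) ?_
  rw [degree_X_pow]
  exact_mod_cast hc

theorem Rg_ext {r s : Rg p m} (h : ∀ c < m, co p m c r = co p m c s) : r = s := by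
  obtain ⟨f, rfl⟩ := AdjoinRoot.mk_surjective r
  obtain ⟨g, rfl⟩ := AdjoinRoot.mk_surjective s
  rw [AdjoinRoot.mk_eq_mk, X_pow_dvd_iff]
  intro c hc
  have := h c hc
  rw [co_mk c f hc, co_mk c g hc] at this
  rw [coeff_sub, this, sub_self]

theorem co_zero_mul_t (r : Rg p m) (hm : 0 < m) : co p m 0 (tt p m * r) = 0 := by
  obtain ⟨f, rfl⟩ := AdjoinRoot.mk_surjective r
  have : tt p m * AdjoinRoot.mk _ f = AdjoinRoot.mk ((X : (ZMod p)[X]) ^ m) (X * f) := by
    rw [map_mul]; rfl
  rw [this, co_mk 0 _ hm]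
  simp

theorem co_succ_mul_t (c : ℕ) (hc : c + 1 < m) (r : Rg p m) :
    co p m (c + 1) (tt p m * r) = co p m c r := by
  obtain ⟨f, rfl⟩ := AdjoinRoot.mk_surjective r
  have : tt p m * AdjoinRoot.mk _ f = AdjoinRoot.mk ((X : (ZMod p)[X]) ^ m) (X * f) := by
    rw [map_mul]; rfl
  rw [this, co_mk _ _ hc, co_mk _ _ (by omega), coeff_X_mul]

theorem co_algebraMap (c : ℕ) (hm : 0 < m) (a : ZMod p) :
    co p m c (algebraMap (ZMod p) (Rg p m) a) = if c = 0 then a else 0 := by
  rcases lt_or_ge c m with hc | hc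
  · have : algebraMap (ZMod p) (Rg p m) a = AdjoinRoot.mk _ (C a) := rfl
    rw [this, co_mk _ _ hc, coeff_C]
  · rw [co_of_le c hc, if_neg (by omega)]

instance finite_Rg : Finite (Rg p m) := by
  let b := (AdjoinRoot.powerBasis' (monic_X_pow m : ((X : (ZMod p)[X]) ^ m).Monic)).basis
  exact Finite.of_equiv _ b.equivFun.toEquiv.symm

section module

variable {ι : Type}

/-- The free module `V = ι → R`. -/
abbrev VV (ι : Type) (p m : ℕ) : Type := ι → Rg p m

/-- Subspaces over `F = ZMod p` of `V`. -/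
abbrev Sb (ι : Type) (p m : ℕ) [Fact p.Prime] : Type := Submodule (ZMod p) (VV ι p m)

/-- The group `G = SL(V)`. -/
abbrev GG (ι : Type) (p m : ℕ) [Fintype ι] [DecidableEq ι] : Type :=
  SpecialLinearGroup (Rg p m) (VV ι p m)

/-- Constant vectors. -/
noncomputable def cst (ι : Type) (p m : ℕ) [Fact p.Prime] : (ι → ZMod p) →ₗ[ZMod p] VV ι p m :=
  LinearMap.pi (fun i => (Algebra.linearMap (ZMod p) (Rg p m)) ∘ₗ LinearMap.proj i)

/-- The coefficient vector of `t^c`. -/
noncomputable def cof (ι : Type) (p m : ℕ) [Fact p.Prime] (c : ℕ) :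
    VV ι p m →ₗ[ZMod p] (ι → ZMod p) :=
  LinearMap.pi (fun i => (co p m c) ∘ₗ LinearMap.proj i)

/-- Multiplication by `t` on `V`, as an `F`-linear map. -/
noncomputable def tm (ι : Type) (p m : ℕ) [Fact p.Prime] : VV ι p m →ₗ[ZMod p] VV ι p m :=
  (Algebra.lsmul (ZMod p) (ZMod p) (VV ι p m) (tt p m))

/-- The standard form: the constant vectors. -/
noncomputable def W0 (ι : Type) (p m : ℕ) [Fact p.Prime] : Sb ι p m := LinearMap.range (cst ι p m)

theorem tm_apply (x : VV ι p m) : tm ι p m x = tt p m • x := rfl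

theorem cst_apply (v : ι → ZMod p) (i : ι) :
    cst ι p m v i = algebraMap (ZMod p) (Rg p m) (v i) := rfl

theorem cof_apply (c : ℕ) (x : VV ι p m) (i : ι) : cof ι p m c x i = co p m c (x i) := rfl

theorem VV_ext {x y : VV ι p m} (h : ∀ c < m, cof ι p m c x = cof ι p m c y) : x = y := by
  funext i
  apply Rg_ext
  intro c hc
  exact congrFun (h c hc) i

theorem cof_cst (c : ℕ) (hm : 0 < m) (v : ι → ZMod p) :
    cof ι p m c (cst ι p m v) = if c = 0 then v else 0 := by
  funext i
  rw [cof_apply, cst_apply, co_algebraMap c hm]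
  split_ifs <;> rfl

theorem cof_zero_tm (hm : 0 < m) (x : VV ι p m) : cof ι p m 0 (tm ι p m x) = 0 := by
  funext i
  exact co_zero_mul_t _ hm

theorem cof_succ_tm (c : ℕ) (hc : c + 1 < m) (x : VV ι p m) :
    cof ι p m (c + 1) (tm ι p m x) = cof ι p m c x := by
  funext i
  exact co_succ_mul_t c hc _

theorem cof_of_le (c : ℕ) (hc : m ≤ c) (x : VV ι p m) : cof ι p m c x = 0 := by
  funext i
  exact co_of_le c hc _

variable [Fintype ι] [DecidableEq ι]

instance smulComm_GG : SMulCommClass (GG ι p m) (ZMod p) (VV ι p m) where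
  smul_comm g a x := by
    rw [← algebraMap_smul (Rg p m) a x, smul_comm, algebraMap_smul]

open scoped Pointwise

/-- Forms: translates of the standard form. -/
def IsForm (Wf : Sb ι p m) : Prop := ∃ g : GG ι p m, Wf = g • W0 ι p m

/-- The vertex `W + tS`. -/
noncomputable def vtx (Wf S : Sb ι p m) : Sb ι p m := Wf ⊔ S.map (tm ι p m)

/-- `Sp Λ = {x ∈ Λ : t x ∈ Λ}`. -/
noncomputable def Sp (L : Sb ι p m) : Sb ι p m := L ⊓ L.comap (tm ι p m)

/-- The simplicial complex `X`. -/
def XX (ι : Type) [Fintype ι] [DecidableEq ι] (p m : ℕ) [Fact p.Prime] :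
    Set (Finset (Sb ι p m)) :=
  {σ | ∃ Wf : Sb ι p m, IsForm Wf ∧ ∃ c : Finset (Sb ι p m),
    IsChain (· ≤ ·) (c : Set (Sb ι p m)) ∧ (∀ S ∈ c, S < Wf) ∧ σ = c.image (vtx Wf)}

theorem smul_tm (g : GG ι p m) (S : Sb ι p m) :
    g • (S.map (tm ι p m)) = (g • S).map (tm ι p m) := by
  ext x
  simp only [Submodule.mem_smul_pointwise_iff_exists, Submodule.mem_map]
  constructor
  · rintro ⟨_, ⟨y, hy, rfl⟩, rfl⟩
    exact ⟨g • y, ⟨y, hy, rfl⟩, (smul_comm g (tt p m) y).symm⟩
  · rintro ⟨_, ⟨y, hy, rfl⟩, rfl⟩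
    exact ⟨_, ⟨y, hy, rfl⟩, smul_comm g (tt p m) y⟩

theorem smul_vtx (g : GG ι p m) (Wf S : Sb ι p m) : g • vtx Wf S = vtx (g • Wf) (g • S) := by
  rw [vtx, vtx, Submodule.smul_sup', smul_tm]

instance finite_VV : Finite (VV ι p m) := inferInstance

instance finite_Sb : Finite (Sb ι p m) := inferInstance

end module

end Vale.Agent.P067
end
end

section

section

/-!
# P067, weights, norms and the local hypotheses

`top` is the set of top simplices of a pure complex, all of size `N`.
A finset `s` is a face iff `0 < W top s`.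
Cochains are total functions `Finset α → ZMod 2`; only the values on faces matter.
-/

set_option autoImplicit false

open Finset

namespace Vale.Agent.P067

attribute [local instance] Classical.propDecidable

variable {α : Type*}

/-- Number of top simplices containing `s`. -/
noncomputable def W (top : Finset (Finset α)) (s : Finset α) : ℕ :=
  (top.filter (fun C => s ⊆ C)).card

/-- Coboundary of a cochain: `dd f ρ = ∑_{v ∈ ρ} f (ρ \ v)`. -/
noncomputable def dd (f : Finset α → ZMod 2) (ρ : Finset α) : ZMod 2 :=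
  ∑ v ∈ ρ, f (ρ.erase v)

/-- Weighted norm in size `q`, localized at `σ`:
total weight of the `τ` of size `q`, disjoint from `σ`, with `g τ ≠ 0`. -/
noncomputable def nrmL [Fintype α] (top : Finset (Finset α)) (σ : Finset α) (q : ℕ)
    (g : Finset α → ZMod 2) : ℕ :=
  ∑ τ ∈ (univ : Finset (Finset α)).filter
    (fun τ => τ.card = q ∧ Disjoint τ σ ∧ g τ ≠ 0), W top (σ ∪ τ)

/-- Weighted norm in size `q`. -/
noncomputable def nrm [Fintype α] (top : Finset (Finset α)) (q : ℕ)
    (g : Finset α → ZMod 2) : ℕ :=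
  ∑ τ ∈ (univ : Finset (Finset α)).filter
    (fun τ => τ.card = q ∧ g τ ≠ 0), W top τ

/-- Localization of a cochain at `σ`. -/
noncomputable def loc (f : Finset α → ZMod 2) (σ : Finset α) (τ : Finset α) : ZMod 2 := f (σ ∪ τ)

/-- `g` (in size `q`) is minimal in the link of `σ`. -/
def MinAt [Fintype α] (top : Finset (Finset α)) (σ : Finset α) (q : ℕ)
    (g : Finset α → ZMod 2) : Prop :=
  ∀ h : Finset α → ZMod 2, nrmL top σ q g ≤ nrmL top σ q (fun τ => g τ + dd h τ)

/-- `f` (in size `s`) is locally minimal: minimal in the links of all nonempty faces. -/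
def LocMin [Fintype α] (top : Finset (Finset α)) (s : ℕ) (f : Finset α → ZMod 2) : Prop :=
  ∀ σ : Finset α, σ.Nonempty → 0 < W top σ → σ.card < s → MinAt top σ (s - σ.card) (loc f σ)

/-- HYP(beta): coboundary inequality with constant `β` in the links of all nonempty faces. -/
def LinkExp [Fintype α] (top : Finset (Finset α)) (N : ℕ) (β : ℝ) : Prop :=
  ∀ σ : Finset α, σ.Nonempty → 0 < W top σ → ∀ q : ℕ, 1 ≤ q → q + σ.card + 1 ≤ N →
    ∀ g : Finset α → ZMod 2, ∃ h : Finset α → ZMod 2,
      β * (nrmL top σ q (fun τ => g τ + dd h τ) : ℝ) ≤ (nrmL top σ (q + 1) (dd g) : ℝ)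

/-- Spectral gap inequality at the face `θ`. -/
def SpecGap [Fintype α] (top : Finset (Finset α)) (N : ℕ) (θ : Finset α) (lam : ℝ) : Prop :=
  ∀ g : α → ℝ,
    (∑ u ∈ univ.filter (· ∉ θ), ∑ v ∈ univ.filter (fun v => v ∉ θ ∧ v ≠ u),
        (W top (insert u (insert v θ)) : ℝ) * g u * g v) ≤
      ((N : ℝ) - θ.card - 1) *
        (lam * (∑ v ∈ univ.filter (· ∉ θ), (W top (insert v θ) : ℝ) * g v ^ 2) +
          (1 - lam) * (∑ v ∈ univ.filter (· ∉ θ), (W top (insert v θ) : ℝ) * g v) ^ 2 /
            (((N : ℝ) - θ.card) * W top θ))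

/-- HYP(lambda): edges inside a vertex set `B` in the link of any face `θ` are controlled. -/
def EdgeMix [Fintype α] (top : Finset (Finset α)) (N : ℕ) (lam : ℝ) : Prop :=
  ∀ θ : Finset α, 0 < W top θ → θ.card + 2 ≤ N → ∀ B : Finset α, Disjoint B θ →
    (∑ u ∈ B, ∑ v ∈ B.erase u, (W top (insert u (insert v θ)) : ℝ)) ≤
      ((N : ℝ) - θ.card - 1) *
        (lam * (∑ v ∈ B, (W top (insert v θ) : ℝ)) +
          (∑ v ∈ B, (W top (insert v θ) : ℝ)) ^ 2 / (((N : ℝ) - θ.card) * W top θ))

/-- The link graph of `θ` is connected. -/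
def LinkConn (top : Finset (Finset α)) (θ : Finset α) : Prop :=
  ∀ A : Set α, (∀ u v, u ∉ θ → v ∉ θ → u ≠ v → 0 < W top (insert u (insert v θ)) →
      (u ∈ A ↔ v ∈ A)) →
    ∀ u v, u ∉ θ → v ∉ θ → 0 < W top (insert u θ) → 0 < W top (insert v θ) →
      (u ∈ A ↔ v ∈ A)

end Vale.Agent.P067
end
end

section

section

/-! # P067, geometry: forms and vertices (F1) -/

set_option autoImplicit false

open Finset

namespace Vale.Agent.P067

attribute [local instance] Classical.propDecidable

open scoped Pointwise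

set_option linter.unusedSectionVars false

variable {p m : ℕ} [Fact p.Prime] {ι : Type} [Fintype ι] [DecidableEq ι]

/-! ### (F1) -/

theorem isForm_W0 : IsForm (W0 ι p m) := ⟨1, (one_smul _ _).symm⟩

theorem IsForm.smul {Wf : Sb ι p m} (hW : IsForm Wf) (g : GG ι p m) : IsForm (g • Wf) := by
  obtain ⟨h, rfl⟩ := hW
  exact ⟨g * h, (mul_smul _ _ _).symm⟩

theorem cst_injective (hm : 0 < m) : Function.Injective (cst ι p m) := by
  intro v w h
  have := congrArg (cof ι p m 0) h
  rwa [cof_cst _ hm, cof_cst _ hm, if_pos rfl, if_pos rfl] at this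

theorem finrank_W0 (hm : 0 < m) : Module.finrank (ZMod p) (W0 ι p m) = Fintype.card ι := by
  rw [W0, LinearMap.finrank_range_of_inj (cst_injective hm)]
  simp only [Module.finrank_fintype_fun_eq_card]

theorem mem_W0_iff (hm : 0 < m) (x : VV ι p m) :
    x ∈ W0 ι p m ↔ ∀ c, 1 ≤ c → cof ι p m c x = 0 := by
  constructor
  · rintro ⟨v, rfl⟩ c hc
    rw [cof_cst _ hm, if_neg (by omega)]
  · intro h
    refine ⟨cof ι p m 0 x, VV_ext fun c hc => ?_⟩
    rw [cof_cst _ hm]
    split_ifs with h0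
    · rw [h0]
    · rw [h c (by omega)]

theorem eq_cst_of_mem_W0 (hm : 0 < m) {x : VV ι p m} (hx : x ∈ W0 ι p m) :
    x = cst ι p m (cof ι p m 0 x) := by
  obtain ⟨v, rfl⟩ := hx
  rw [cof_cst _ hm, if_pos rfl]

theorem finrank_smul_Sb (g : GG ι p m) (S : Sb ι p m) :
    Module.finrank (ZMod p) (g • S : Sb ι p m) = Module.finrank (ZMod p) S := by
  rw [Submodule.pointwise_smul_def]
  apply LinearEquiv.finrank_eq
  exact (Submodule.equivMapOfInjective _ (MulAction.injective g) S).symm

theorem smul_inf_Sb (g : GG ι p m) (S T : Sb ι p m) : g • (S ⊓ T) = g • S ⊓ g • T := by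
  rw [Submodule.pointwise_smul_def, Submodule.map_inf _ (MulAction.injective g)]
  rfl

theorem smul_le_smul_Sb (g : GG ι p m) {S T : Sb ι p m} : g • S ≤ g • T ↔ S ≤ T := by
  rw [Submodule.pointwise_smul_def, Submodule.pointwise_smul_def]
  exact Submodule.map_le_map_iff_of_injective (MulAction.injective g) _ _

theorem smul_lt_smul_Sb (g : GG ι p m) {S T : Sb ι p m} : g • S < g • T ↔ S < T := by
  rw [lt_iff_le_not_ge, lt_iff_le_not_ge, smul_le_smul_Sb, smul_le_smul_Sb]

theorem smul_bot_Sb (g : GG ι p m) : g • (⊥ : Sb ι p m) = ⊥ := Submodule.smul_bot' g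

theorem finrank_form (hm : 0 < m) {Wf : Sb ι p m} (hW : IsForm Wf) :
    Module.finrank (ZMod p) Wf = Fintype.card ι := by
  obtain ⟨g, rfl⟩ := hW
  rw [finrank_smul_Sb, finrank_W0 hm]

theorem W0_inf_tm (hm : 2 ≤ m) : W0 ι p m ⊓ (W0 ι p m).map (tm ι p m) = ⊥ := by
  rw [eq_bot_iff]
  rintro x ⟨hx, y, hy, rfl⟩
  have hy' := eq_cst_of_mem_W0 (by omega) hy
  have h1 := (mem_W0_iff (by omega) _).1 hx 1 le_rfl
  rw [cof_succ_tm 0 (by omega)] at h1
  rw [hy', h1, map_zero, map_zero]
  exact Submodule.zero_mem _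

theorem form_inf_tm (hm : 2 ≤ m) {Wf : Sb ι p m} (hW : IsForm Wf) :
    Wf ⊓ Wf.map (tm ι p m) = ⊥ := by
  obtain ⟨g, rfl⟩ := hW
  rw [← smul_tm, ← smul_inf_Sb, W0_inf_tm hm, smul_bot_Sb]

theorem tm_inj_on_form (hm : 2 ≤ m) {Wf : Sb ι p m} (hW : IsForm Wf) {x : VV ι p m}
    (hx : x ∈ Wf) (h : tm ι p m x = 0) : x = 0 := by
  obtain ⟨g, rfl⟩ := hW
  obtain ⟨y, hy, rfl⟩ := (Submodule.mem_smul_pointwise_iff_exists _ _ _).1 hx
  have h2 : g • (tm ι p m y) = 0 := by
    rw [← h]
    exact smul_comm g (tt p m) y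
  rw [smul_eq_zero_iff_eq] at h2
  have h1 : cof ι p m 1 (tm ι p m y) = 0 := by rw [h2, map_zero]
  rw [cof_succ_tm 0 (by omega)] at h1
  rw [eq_cst_of_mem_W0 (by omega) hy, h1, map_zero, smul_zero]

theorem finrank_map_tm (hm : 2 ≤ m) {Wf S : Sb ι p m} (hW : IsForm Wf) (hS : S ≤ Wf) :
    Module.finrank (ZMod p) (S.map (tm ι p m)) = Module.finrank (ZMod p) S := by
  have hinj : Function.Injective ((tm ι p m).domRestrict S) := by
    rw [← LinearMap.ker_eq_bot, LinearMap.ker_eq_bot']
    rintro ⟨x, hx⟩ h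
    exact Subtype.ext (tm_inj_on_form hm hW (hS hx) h)
  rw [← LinearMap.finrank_range_of_inj hinj, LinearMap.range_domRestrict]

theorem form_inf_map_tm (hm : 2 ≤ m) {Wf S : Sb ι p m} (hW : IsForm Wf) (hS : S ≤ Wf) :
    Wf ⊓ S.map (tm ι p m) = ⊥ := by
  rw [eq_bot_iff, ← form_inf_tm hm hW]
  exact inf_le_inf_left _ (Submodule.map_mono hS)

theorem finrank_vtx (hm : 2 ≤ m) {Wf S : Sb ι p m} (hW : IsForm Wf) (hS : S ≤ Wf) :
    Module.finrank (ZMod p) (vtx Wf S) = Fintype.card ι + Module.finrank (ZMod p) S := by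
  have h := Submodule.finrank_sup_add_finrank_inf_eq Wf (S.map (tm ι p m))
  rw [form_inf_map_tm hm hW hS, finrank_bot, add_zero, finrank_form (by omega) hW,
    finrank_map_tm hm hW hS] at h
  exact h

theorem Sp_smul (g : GG ι p m) (L : Sb ι p m) : Sp (g • L) = g • Sp L := by
  ext x
  simp only [Sp, Submodule.mem_inf, Submodule.mem_comap, Submodule.mem_smul_pointwise_iff_exists]
  constructor
  · rintro ⟨⟨y, hy, rfl⟩, z, hz, h⟩
    refine ⟨y, ⟨hy, ?_⟩, rfl⟩
    have h2 : g • (tm ι p m y) = tm ι p m (g • y) := smul_comm g (tt p m) y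
    rw [← h2] at h
    rw [← MulAction.injective g h]
    exact hz
  · rintro ⟨y, ⟨hy, hty⟩, rfl⟩
    exact ⟨⟨y, hy, rfl⟩, tm ι p m y, hty, smul_comm g (tt p m) y⟩

theorem Sp_mono {L L' : Sb ι p m} (h : L ≤ L') : Sp L ≤ Sp L' :=
  inf_le_inf h (Submodule.comap_mono h)

theorem Sp_le (L : Sb ι p m) : Sp L ≤ L := inf_le_left

theorem tm_Sp_le (L : Sb ι p m) : (Sp L).map (tm ι p m) ≤ L := by
  rw [Submodule.map_le_iff_le_comap]
  exact inf_le_right

theorem Sp_vtx_W0 (hm : 3 ≤ m) {S : Sb ι p m} (hS : S ≤ W0 ι p m) :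
    Sp (vtx (W0 ι p m) S) = S := by
  have hm0 : 0 < m := by omega
  apply le_antisymm
  · rintro x ⟨hx, htx⟩
    rw [SetLike.mem_coe, vtx, Submodule.mem_sup] at hx
    rw [SetLike.mem_coe, Submodule.mem_comap, vtx, Submodule.mem_sup] at htx
    obtain ⟨w, hw, _, ⟨s, hs, rfl⟩, rfl⟩ := hx
    obtain ⟨w', hw', _, ⟨s', hs', rfl⟩, h⟩ := htx
    have e1 := congrArg (cof ι p m 1) h
    have e2 := congrArg (cof ι p m 2) h
    simp only [map_add] at e1 e2
    rw [(mem_W0_iff hm0 _).1 hw' 1 le_rfl, cof_succ_tm 0 (by omega), cof_succ_tm 0 (by omega),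
      cof_succ_tm 0 (by omega), cof_zero_tm hm0, zero_add, add_zero] at e1
    rw [(mem_W0_iff hm0 _).1 hw' 2 (by omega), cof_succ_tm 1 (by omega),
      cof_succ_tm 1 (by omega), cof_succ_tm 1 (by omega), cof_succ_tm 0 (by omega),
      (mem_W0_iff hm0 _).1 hw 1 le_rfl, (mem_W0_iff hm0 _).1 (hS hs') 1 le_rfl,
      zero_add, zero_add] at e2
    have hs0 : s = 0 := by rw [eq_cst_of_mem_W0 hm0 (hS hs), ← e2, map_zero]
    have hw0 : w = s' := by
      rw [eq_cst_of_mem_W0 hm0 hw, eq_cst_of_mem_W0 hm0 (hS hs'), e1]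
    rw [hs0, map_zero, add_zero, hw0]
    exact hs'
  · intro x hx
    refine ⟨?_, ?_⟩
    · exact Submodule.mem_sup_left (hS hx)
    · exact Submodule.mem_sup_right ⟨x, hx, rfl⟩

/-- (F1) the subspace `S` can be recovered from the vertex `W + tS`. -/
theorem Sp_vtx (hm : 3 ≤ m) {Wf S : Sb ι p m} (hW : IsForm Wf) (hS : S ≤ Wf) :
    Sp (vtx Wf S) = S := by
  obtain ⟨g, rfl⟩ := hW
  have h1 : S = g • (g⁻¹ • S) := by rw [smul_inv_smul]
  have h2 : g⁻¹ • S ≤ W0 ι p m := by
    rw [← smul_le_smul_Sb g, smul_inv_smul]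
    exact hS
  rw [h1, ← smul_vtx, Sp_smul, Sp_vtx_W0 hm h2]

theorem vtx_le_vtx_iff (hm : 3 ≤ m) {Wf S S' : Sb ι p m} (hW : IsForm Wf) (hS : S ≤ Wf)
    (hS' : S' ≤ Wf) : vtx Wf S ≤ vtx Wf S' ↔ S ≤ S' := by
  constructor
  · intro h
    have := Sp_mono h
    rwa [Sp_vtx hm hW hS, Sp_vtx hm hW hS'] at this
  · intro h
    exact sup_le_sup_left (Submodule.map_mono h) _

theorem vtx_lt_vtx_iff (hm : 3 ≤ m) {Wf S S' : Sb ι p m} (hW : IsForm Wf) (hS : S ≤ Wf)
    (hS' : S' ≤ Wf) : vtx Wf S < vtx Wf S' ↔ S < S' := by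
  rw [lt_iff_le_not_ge, lt_iff_le_not_ge, vtx_le_vtx_iff hm hW hS hS',
    vtx_le_vtx_iff hm hW hS' hS]

theorem vtx_injOn (hm : 3 ≤ m) {Wf : Sb ι p m} (hW : IsForm Wf) :
    Set.InjOn (vtx Wf) {S | S ≤ Wf} := by
  intro S hS S' hS' h
  rw [← Sp_vtx hm hW hS, ← Sp_vtx hm hW hS', h]

/-- `X` is closed under passing to subsets. -/
theorem downClosed_XX : DownClosed (XX ι p m) := by
  rintro s ⟨Wf, hW, c, hc, hlt, rfl⟩ t ht
  obtain ⟨c', hc', rfl⟩ := Finset.subset_image_iff.1 ht
  exact ⟨Wf, hW, c', hc.mono (by exact_mod_cast hc'), fun S hS => hlt S (hc' hS), rfl⟩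

/-- `G` acts on `X`. -/
theorem smul_mem_XX (g : GG ι p m) {σ : Finset (Sb ι p m)} (hσ : σ ∈ XX ι p m) :
    σ.image (fun x => g • x) ∈ XX ι p m := by
  obtain ⟨Wf, hW, c, hc, hlt, rfl⟩ := hσ
  refine ⟨g • Wf, hW.smul g, c.image (fun x => g • x), ?_, ?_, ?_⟩
  · intro x hx y hy hxy
    rw [Finset.coe_image] at hx hy
    obtain ⟨a, ha, rfl⟩ := hx
    obtain ⟨b, hb, rfl⟩ := hy
    have hab : a ≠ b := fun e => hxy (by rw [e])
    rcases hc ha hb hab with h | h
    · exact Or.inl ((smul_le_smul_Sb g).2 h)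
    · exact Or.inr ((smul_le_smul_Sb g).2 h)
  · intro S hS
    obtain ⟨a, ha, rfl⟩ := Finset.mem_image.1 hS
    exact (smul_lt_smul_Sb g).2 (hlt a ha)
  · rw [Finset.image_image, Finset.image_image]
    apply Finset.image_congr
    intro S _
    exact smul_vtx g Wf S

end Vale.Agent.P067
end
end

section

section

/-! # P067, geometry: complements are forms (F2) -/

set_option autoImplicit false

open Finset Polynomial

namespace Vale.Agent.P067

attribute [local instance] Classical.propDecidable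

open scoped Pointwise

set_option linter.unusedSectionVars false

variable {p m : ℕ} [Fact p.Prime] {ι : Type} [Fintype ι] [DecidableEq ι]

theorem det_one_add_X_smul (M : Matrix ι ι (ZMod p)) (hM : M * M = 0) :
    (1 + (X : (ZMod p)[X]) • (M.map C)).det = 1 := by
  have hnil : IsNilpotent (-M) := ⟨2, by rw [pow_two, neg_mul_neg, hM]⟩
  have h := Matrix.isUnit_charpolyRev_of_isNilpotent hnil
  obtain ⟨r, hr, hr2⟩ := Polynomial.isUnit_iff.1 h
  have h0 : eval 0 (-M).charpolyRev = 1 := Matrix.eval_charpolyRev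
  rw [← hr2, eval_C] at h0
  rw [h0, map_one] at hr2
  rw [hr2, Matrix.charpolyRev]
  congr 1
  rw [Matrix.map_neg _ (fun a => map_neg C a), smul_neg, sub_neg_eq_add]

theorem det_one_add_tt_smul (M : Matrix ι ι (ZMod p)) (hM : M * M = 0) :
    (1 + tt p m • (M.map (algebraMap (ZMod p) (Rg p m)))).det = 1 := by
  have h := congrArg (AdjoinRoot.mk ((X : (ZMod p)[X]) ^ m)) (det_one_add_X_smul M hM)
  rw [map_one, RingHom.map_det] at h
  rw [← h]
  congr 1
  ext i j
  simp only [Matrix.add_apply, Matrix.smul_apply, Matrix.map_apply, RingHom.mapMatrix_apply,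
    map_add, smul_eq_mul, map_mul, Matrix.one_apply]
  congr 1
  split_ifs <;> simp

/-- The action on constant vectors of an element of `SL_n(R)`. -/
theorem toLin_smul (A : Matrix.SpecialLinearGroup ι (Rg p m)) (x : VV ι p m) :
    (Matrix.SpecialLinearGroup.toLin'_equiv A : GG ι p m) • x = (A : Matrix ι ι (Rg p m)).mulVec x :=
  rfl

theorem map_mulVec_cst (M : Matrix ι ι (ZMod p)) (v : ι → ZMod p) :
    (M.map (algebraMap (ZMod p) (Rg p m))).mulVec (cst ι p m v) = cst ι p m (M.mulVec v) := by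
  funext i
  rw [cst_apply, Matrix.mulVec, Matrix.mulVec, dotProduct, dotProduct, map_sum]
  apply Finset.sum_congr rfl
  intro j _
  rw [map_mul]
  rfl

theorem exists_unip (f : (ι → ZMod p) →ₗ[ZMod p] (ι → ZMod p)) (hf : ∀ v, f (f v) = 0) (m : ℕ) :
    ∃ g : GG ι p m, ∀ v, g • cst ι p m v = cst ι p m v + tm ι p m (cst ι p m (f v)) := by
  have hM : LinearMap.toMatrix' f * LinearMap.toMatrix' f = 0 := by
    rw [← LinearMap.toMatrix'_comp]
    have : f.comp f = 0 := LinearMap.ext hf
    rw [this, map_zero]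
  let A : Matrix.SpecialLinearGroup ι (Rg p m) :=
    ⟨1 + tt p m • ((LinearMap.toMatrix' f).map (algebraMap (ZMod p) (Rg p m))),
      det_one_add_tt_smul _ hM⟩
  refine ⟨Matrix.SpecialLinearGroup.toLin'_equiv A, fun v => ?_⟩
  rw [toLin_smul]
  change (1 + tt p m • ((LinearMap.toMatrix' f).map (algebraMap (ZMod p) (Rg p m)))).mulVec _ = _
  rw [Matrix.add_mulVec, Matrix.one_mulVec, Matrix.smul_mulVec, map_mulVec_cst,
    LinearMap.toMatrix'_mulVec]
  rfl

/-- (F2), standard form: a complement of `tS` in `W0 + tS` which contains `S` is a form. -/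
theorem compl_W0 (hm : 2 ≤ m) {S W' : Sb ι p m} (hS : S ≤ W0 ι p m) (hSW : S ≤ W')
    (hinf : W' ⊓ S.map (tm ι p m) = ⊥) (hsup : W' ⊔ S.map (tm ι p m) = vtx (W0 ι p m) S) :
    ∃ f : (ι → ZMod p) →ₗ[ZMod p] (ι → ZMod p), (∀ v, cst ι p m (f v) ∈ S) ∧
      (∀ v, cst ι p m v ∈ S → f v = 0) ∧
      ∀ x, x ∈ W' ↔ ∃ v, x = cst ι p m v + tm ι p m (cst ι p m (f v)) := by
  have hm0 : 0 < m := by omega
  have key : ∀ i : ι, ∃ s : ι → ZMod p, cst ι p m s ∈ S ∧
      cst ι p m (Pi.single i 1) + tm ι p m (cst ι p m s) ∈ W' := by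
    intro i
    have h1 : cst ι p m (Pi.single i 1) ∈ W' ⊔ S.map (tm ι p m) := by
      rw [hsup]
      exact Submodule.mem_sup_left ⟨_, rfl⟩
    obtain ⟨w, hw, _, ⟨s, hs, rfl⟩, h⟩ := Submodule.mem_sup.1 h1
    refine ⟨cof ι p m 0 (-s), ?_, ?_⟩
    · rw [← eq_cst_of_mem_W0 hm0 (hS (S.neg_mem hs))]
      exact S.neg_mem hs
    · rw [← eq_cst_of_mem_W0 hm0 (hS (S.neg_mem hs)), ← h, map_neg]
      simpa using hw
  choose s hs hs' using key
  let f : (ι → ZMod p) →ₗ[ZMod p] (ι → ZMod p) := (Pi.basisFun (ZMod p) ι).constr (ZMod p) s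
  have hf : ∀ v, f v = ∑ i, v i • s i := by
    intro v
    simp only [f, Module.Basis.constr_apply_fintype]
    rfl
  have h1 : ∀ v, cst ι p m (f v) ∈ S := by
    intro v
    rw [hf, map_sum]
    apply Submodule.sum_mem
    intro i _
    rw [map_smul]
    exact S.smul_mem _ (hs i)
  have h2 : ∀ v, cst ι p m v + tm ι p m (cst ι p m (f v)) ∈ W' := by
    intro v
    have : cst ι p m v + tm ι p m (cst ι p m (f v)) =
        ∑ i, v i • (cst ι p m (Pi.single i 1) + tm ι p m (cst ι p m (s i))) := by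
      rw [hf]
      simp only [smul_add, Finset.sum_add_distrib, map_sum, map_smul]
      congr 1
      conv_lhs => rw [pi_eq_sum_univ' v]
      rw [map_sum]
      apply Finset.sum_congr rfl
      intro i _
      rw [← map_smul]
    rw [this]
    apply Submodule.sum_mem
    intro i _
    exact W'.smul_mem _ (hs' i)
  have h3 : ∀ v, cst ι p m v ∈ S → f v = 0 := by
    intro v hv
    have h4 : tm ι p m (cst ι p m (f v)) ∈ W' ⊓ S.map (tm ι p m) := by
      refine ⟨?_, ⟨_, h1 v, rfl⟩⟩
      have := W'.sub_mem (h2 v) (hSW hv)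
      rwa [add_sub_cancel_left] at this
    rw [hinf, Submodule.mem_bot] at h4
    have h5 := tm_inj_on_form hm isForm_W0 (hS (h1 v)) h4
    exact cst_injective hm0 (h5.trans (map_zero _).symm)
  refine ⟨f, h1, h3, fun x => ⟨fun hx => ?_, ?_⟩⟩
  · have hx' : x ∈ vtx (W0 ι p m) S := by
      rw [← hsup]
      exact Submodule.mem_sup_left hx
    obtain ⟨_, ⟨v, rfl⟩, _, ⟨r, hr, rfl⟩, rfl⟩ := Submodule.mem_sup.1 hx'
    refine ⟨v, ?_⟩
    have h6 : tm ι p m (r - cst ι p m (f v)) ∈ W' ⊓ S.map (tm ι p m) := by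
      refine ⟨?_, ⟨_, S.sub_mem hr (h1 v), rfl⟩⟩
      have := W'.sub_mem hx (h2 v)
      rw [map_sub]
      simpa only [SetLike.mem_coe, add_sub_add_left_eq_sub] using this
    rw [hinf, Submodule.mem_bot] at h6
    rw [map_sub, sub_eq_zero] at h6
    rw [h6]
  · rintro ⟨v, rfl⟩
    exact h2 v

/-- (F2): a complement of `tS` in `W + tS` which contains `S` is a form. -/
theorem isForm_of_compl (hm : 2 ≤ m) {Wf S W' : Sb ι p m} (hW : IsForm Wf) (hS : S ≤ Wf)
    (hSW : S ≤ W') (hinf : W' ⊓ S.map (tm ι p m) = ⊥)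
    (hsup : W' ⊔ S.map (tm ι p m) = vtx Wf S) : IsForm W' := by
  obtain ⟨g, rfl⟩ := hW
  have e1 : ∀ T : Sb ι p m, T = g • (g⁻¹ • T) := fun T => by rw [smul_inv_smul]
  have hS' : g⁻¹ • S ≤ W0 ι p m := by
    rw [← smul_le_smul_Sb g, smul_inv_smul]; exact hS
  have hSW' : g⁻¹ • S ≤ g⁻¹ • W' := (smul_le_smul_Sb _).2 hSW
  have hinf' : g⁻¹ • W' ⊓ (g⁻¹ • S).map (tm ι p m) = ⊥ := by
    rw [← smul_tm, ← smul_inf_Sb, hinf, smul_bot_Sb]
  have hsup' : g⁻¹ • W' ⊔ (g⁻¹ • S).map (tm ι p m) = vtx (W0 ι p m) (g⁻¹ • S) := by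
    rw [← smul_tm, ← Submodule.smul_sup', hsup, smul_vtx, inv_smul_smul]
  obtain ⟨f, hf1, hf2, hf3⟩ := compl_W0 hm hS' hSW' hinf' hsup'
  obtain ⟨h, hh⟩ := exists_unip f (fun v => hf2 _ (hf1 v)) m
  have : g⁻¹ • W' = h • W0 ι p m := by
    ext x
    rw [hf3, Submodule.mem_smul_pointwise_iff_exists]
    constructor
    · rintro ⟨v, rfl⟩
      exact ⟨cst ι p m v, ⟨v, rfl⟩, hh v⟩
    · rintro ⟨_, ⟨v, rfl⟩, rfl⟩
      exact ⟨v, hh v⟩
  rw [e1 W', this]
  exact isForm_W0.smul h |>.smul g

end Vale.Agent.P067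
end
end

section

section

/-!
# P067, geometry of the complex: links of vertices (F3)
-/

set_option autoImplicit false

open Finset

namespace Vale.Agent.P067

attribute [local instance] Classical.propDecidable

open scoped Pointwise

set_option linter.unusedSectionVars false

variable {p m : ℕ} [Fact p.Prime] {ι : Type} [Fintype ι] [DecidableEq ι]

/-- The class `C_Λ`. -/
def CL (L : Sb ι p m) : Set (Sb ι p m) :=
  {Z | Sp L < Z ∧ Z < L ∧ (Z ⊓ (Sp L ⊔ (Sp L).map (tm ι p m)) = Sp L ∨
    Z ⊔ (Sp L).map (tm ι p m) = L)}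

/-- From a neighbour `Λ'` of `Λ` to an element of `C_Λ`. -/
noncomputable def zz (L L' : Sb ι p m) : Sb ι p m := if L' < L then L' else Sp L'

/-- From an element of `C_Λ` to a neighbour of `Λ`. -/
noncomputable def yy (L Z : Sb ι p m) : Sb ι p m :=
  if Fintype.card ι ≤ Module.finrank (ZMod p) Z then Z else L ⊔ Z.map (tm ι p m)

/-- Every vertex is `W + tS`. -/
theorem exists_vtx {L : Sb ι p m} {σ : Finset (Sb ι p m)} (hσ : σ ∈ XX ι p m) (hL : L ∈ σ) :
    ∃ Wf S : Sb ι p m, IsForm Wf ∧ S < Wf ∧ L = vtx Wf S := by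
  obtain ⟨Wf, hW, c, hc, hlt, rfl⟩ := hσ
  obtain ⟨S, hS, rfl⟩ := Finset.mem_image.1 hL
  exact ⟨Wf, S, hW, hlt S hS, rfl⟩

theorem exists_vtx' {L : Sb ι p m} (hL : {L} ∈ XX ι p m) :
    ∃ Wf S : Sb ι p m, IsForm Wf ∧ S < Wf ∧ L = vtx Wf S :=
  exists_vtx hL (Finset.mem_singleton_self _)

/-- Dimensions around a vertex. -/
theorem finrank_vertex (hm : 3 ≤ m) {L : Sb ι p m} (hL : {L} ∈ XX ι p m) :
    Module.finrank (ZMod p) L = Fintype.card ι + Module.finrank (ZMod p) (Sp L) ∧
      Module.finrank (ZMod p) (Sp L) < Fintype.card ι ∧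
      Sp L ⊓ (Sp L).map (tm ι p m) = ⊥ ∧
      Module.finrank (ZMod p) ((Sp L).map (tm ι p m)) = Module.finrank (ZMod p) (Sp L) ∧
      Sp L ⊔ (Sp L).map (tm ι p m) ≤ L := by
  obtain ⟨Wf, S, hW, hS, rfl⟩ := exists_vtx' hL
  rw [Sp_vtx hm hW hS.le]
  refine ⟨finrank_vtx (by omega) hW hS.le, ?_, ?_, finrank_map_tm (by omega) hW hS.le, ?_⟩
  · rw [← finrank_form (by omega) hW]
    exact Submodule.finrank_lt_finrank_of_lt hS
  · rw [eq_bot_iff, ← form_inf_map_tm (by omega) hW hS.le]
    exact inf_le_inf_right _ hS.le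
  · exact sup_le_sup_right hS.le _

/-- Elements of `C_Λ` of small dimension. -/
theorem CL_upper (hm : 3 ≤ m) {L Z : Sb ι p m} (hL : {L} ∈ XX ι p m) (hZ : Z ∈ CL L)
    (h : Module.finrank (ZMod p) Z < Fintype.card ι) :
    Z ⊓ (Sp L ⊔ (Sp L).map (tm ι p m)) = Sp L := by
  rcases hZ.2.2 with h1 | h1
  · exact h1
  · exfalso
    obtain ⟨d1, d2, d3, d4, d5⟩ := finrank_vertex hm hL
    have h2 := Submodule.finrank_add_le_finrank_add_finrank Z ((Sp L).map (tm ι p m))
    rw [h1, d4, d1] at h2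
    omega

/-- Elements of `C_Λ` of large dimension. -/
theorem CL_lower (hm : 3 ≤ m) {L Z : Sb ι p m} (hL : {L} ∈ XX ι p m) (hZ : Z ∈ CL L)
    (h : Fintype.card ι ≤ Module.finrank (ZMod p) Z) :
    Z ⊔ (Sp L).map (tm ι p m) = L := by
  rcases hZ.2.2 with h1 | h1
  · obtain ⟨d1, d2, d3, d4, d5⟩ := finrank_vertex hm hL
    have h2 := Submodule.finrank_sup_add_finrank_inf_eq Z ((Sp L).map (tm ι p m))
    have h3 : Z ⊓ (Sp L).map (tm ι p m) = ⊥ := by
      rw [eq_bot_iff, ← d3]
      refine le_inf ?_ inf_le_right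
      refine le_trans ?_ h1.le
      exact inf_le_inf_left _ le_sup_right
    rw [h3, finrank_bot, add_zero, d4] at h2
    have hle : Z ⊔ (Sp L).map (tm ι p m) ≤ L := sup_le hZ.2.1.le (le_sup_right.trans d5)
    apply Submodule.eq_of_le_of_finrank_le hle
    rw [h2, d1]
    omega
  · exact h1

theorem vtx_sup_map {Wf S T : Sb ι p m} (h : S ≤ T) :
    vtx Wf S ⊔ T.map (tm ι p m) = vtx Wf T := by
  have h2 : S.map (tm ι p m) ⊔ T.map (tm ι p m) = T.map (tm ι p m) :=
    sup_eq_right.2 (Submodule.map_mono h)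
  rw [vtx, vtx, sup_assoc, h2]

/-- (F3), from simplices to chains. -/
theorem chain_of_link (hm : 3 ≤ m) {L : Sb ι p m} {τ : Finset (Sb ι p m)} (hτ : L ∉ τ)
    (h : insert L τ ∈ XX ι p m) :
    (∀ L' ∈ τ, zz L L' ∈ CL L ∧ yy L (zz L L') = L') ∧
      IsChain (· ≤ ·) ((τ.image (zz L) : Finset (Sb ι p m)) : Set (Sb ι p m)) := by
  obtain ⟨Wf, hW, c, hc, hlt, hσ⟩ := h
  have hLm : L ∈ c.image (vtx Wf) := by rw [← hσ]; exact Finset.mem_insert_self _ _
  obtain ⟨S0, hS0, rfl⟩ := Finset.mem_image.1 hLm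
  have hS0W := hlt S0 hS0
  have hSp0 := Sp_vtx hm hW hS0W.le
  -- description of the neighbours
  have hnb : ∀ L' ∈ τ, ∃ S ∈ c, vtx Wf S = L' ∧
      ((S < S0 ∧ zz (vtx Wf S0) L' = vtx Wf S) ∨ (S0 < S ∧ zz (vtx Wf S0) L' = S)) := by
    intro L' hL'
    have hL'm : L' ∈ c.image (vtx Wf) := by rw [← hσ]; exact Finset.mem_insert_of_mem hL'
    obtain ⟨S, hS, rfl⟩ := Finset.mem_image.1 hL'm
    refine ⟨S, hS, rfl, ?_⟩
    have hne : S ≠ S0 := fun e => hτ (by rw [← e]; exact hL')
    rcases hc hS hS0 hne with h1 | h1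
    · left
      have h2 : S < S0 := lt_of_le_of_ne h1 hne
      exact ⟨h2, if_pos ((vtx_lt_vtx_iff hm hW (hlt S hS).le hS0W.le).2 h2)⟩
    · right
      have h2 : S0 < S := lt_of_le_of_ne h1 hne.symm
      refine ⟨h2, ?_⟩
      rw [zz, if_neg, Sp_vtx hm hW (hlt S hS).le]
      rw [vtx_lt_vtx_iff hm hW (hlt S hS).le hS0W.le]
      exact lt_asymm h2
  constructor
  · intro L' hL'
    obtain ⟨S, hS, rfl, ⟨h1, h2⟩ | ⟨h1, h2⟩⟩ := hnb L' hL'
    · rw [h2]
      refine ⟨⟨?_, ?_, ?_⟩, ?_⟩
      · rw [hSp0]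
        exact lt_of_lt_of_le hS0W le_sup_left
      · exact (vtx_lt_vtx_iff hm hW (hlt S hS).le hS0W.le).2 h1
      · right
        rw [hSp0, vtx_sup_map h1.le]
      · rw [yy, if_pos]
        rw [finrank_vtx (by omega) hW (hlt S hS).le]
        omega
    · rw [h2]
      refine ⟨⟨?_, ?_, ?_⟩, ?_⟩
      · rw [hSp0]; exact h1
      · exact lt_of_lt_of_le (hlt S hS) le_sup_left
      · left
        rw [hSp0]
        apply le_antisymm
        · intro x hx
          obtain ⟨hx1, hx2⟩ := hx
          obtain ⟨a, ha, b, hb, rfl⟩ := Submodule.mem_sup.1 hx2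
          have hbW : b ∈ Wf ⊓ S0.map (tm ι p m) := by
            refine ⟨?_, hb⟩
            have := Wf.sub_mem ((hlt S hS).le hx1) (hS0W.le ha)
            rwa [add_sub_cancel_left] at this
          rw [form_inf_map_tm (by omega) hW hS0W.le, Submodule.mem_bot] at hbW
          rw [hbW, add_zero]
          exact ha
        · exact le_inf h1.le le_sup_left
      · rw [yy, if_neg, vtx_sup_map h1.le]
        have := Submodule.finrank_lt_finrank_of_lt (hlt S hS)
        rw [finrank_form (by omega) hW] at this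
        omega
  · intro x hx y hy hxy
    rw [Finset.coe_image] at hx hy
    obtain ⟨A, hA, rfl⟩ := hx
    obtain ⟨B, hB, rfl⟩ := hy
    obtain ⟨S, hS, rfl, hS'⟩ := hnb A hA
    obtain ⟨T, hT, rfl, hT'⟩ := hnb B hB
    have hne : S ≠ T := fun e => hxy (by rw [e])
    rcases hS' with ⟨h1, h2⟩ | ⟨h1, h2⟩ <;> rcases hT' with ⟨h3, h4⟩ | ⟨h3, h4⟩
    · rw [h2, h4]
      rcases hc hS hT hne with h5 | h5
      · exact Or.inl ((vtx_le_vtx_iff hm hW (hlt S hS).le (hlt T hT).le).2 h5)
      · exact Or.inr ((vtx_le_vtx_iff hm hW (hlt T hT).le (hlt S hS).le).2 h5)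
    · rw [h2, h4]
      exact Or.inr ((hlt T hT).le.trans le_sup_left)
    · rw [h2, h4]
      exact Or.inl ((hlt S hS).le.trans le_sup_left)
    · rw [h2, h4]
      exact hc hS hT hne

/-- A complement between two subspaces. -/
theorem exists_between_compl {F V : Type*} [Field F] [AddCommGroup V] [Module F V]
    {A B N L : Submodule F V} (hAB : A ≤ B) (hA : A ⊓ N = ⊥) (hB : B ⊔ N = L) :
    ∃ W' : Submodule F V, A ≤ W' ∧ W' ≤ B ∧ W' ⊓ N = ⊥ ∧ W' ⊔ N = L := by
  obtain ⟨C, hC⟩ := Submodule.exists_isCompl (A ⊔ B ⊓ N)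
  have hX : A ⊔ B ⊓ N ≤ B := sup_le hAB inf_le_left
  refine ⟨A ⊔ C ⊓ B, le_sup_left, sup_le hAB inf_le_right, ?_, ?_⟩
  · rw [eq_bot_iff]
    rintro x ⟨hx1, hx2⟩
    obtain ⟨a, ha, c, hc, rfl⟩ := Submodule.mem_sup.1 hx1
    have h1 : c ∈ (A ⊔ B ⊓ N) ⊓ C := by
      refine ⟨?_, hc.1⟩
      have h2 : (a + c) - a ∈ A ⊔ B ⊓ N := by
        apply Submodule.sub_mem
        · exact Submodule.mem_sup_right ⟨B.add_mem (hAB ha) hc.2, hx2⟩
        · exact Submodule.mem_sup_left ha
      rwa [add_sub_cancel_left] at h2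
    rw [hC.inf_eq_bot, Submodule.mem_bot] at h1
    rw [h1, add_zero] at hx2 ⊢
    rw [← hA]
    exact ⟨ha, hx2⟩
  · have h1 : (A ⊔ C ⊓ B) ⊔ B ⊓ N = B := by
      have h2 : (A ⊔ C ⊓ B) ⊔ B ⊓ N = (A ⊔ B ⊓ N) ⊔ C ⊓ B := by
        rw [sup_assoc, sup_assoc, sup_comm (C ⊓ B)]
      rw [h2, ← sup_inf_assoc_of_le C hX, hC.sup_eq_top, top_inf_eq]
    apply le_antisymm
    · rw [← hB]
      exact sup_le_sup_right (sup_le hAB inf_le_right) _
    · rw [← hB]
      refine sup_le ?_ le_sup_right
      conv_lhs => rw [← h1]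
      exact sup_le_sup_left inf_le_right _

theorem exists_top_of_chain {U : Finset (Sb ι p m)} (hU : U.Nonempty)
    (hc : IsChain (· ≤ ·) (U : Set (Sb ι p m))) : ∃ Z ∈ U, ∀ Z' ∈ U, Z' ≤ Z := by
  obtain ⟨Z, hZ, hmax⟩ := Finset.exists_max_image U (fun Z => Module.finrank (ZMod p) Z) hU
  refine ⟨Z, hZ, fun Z' hZ' => ?_⟩
  by_cases e : Z' = Z
  · exact e.le
  rcases hc hZ' hZ e with h | h
  · exact h
  · exact (Submodule.eq_of_le_of_finrank_le h (hmax Z' hZ')).ge

theorem exists_bot_of_chain {U : Finset (Sb ι p m)} (hU : U.Nonempty)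
    (hc : IsChain (· ≤ ·) (U : Set (Sb ι p m))) : ∃ Z ∈ U, ∀ Z' ∈ U, Z ≤ Z' := by
  obtain ⟨Z, hZ, hmax⟩ := Finset.exists_min_image U (fun Z => Module.finrank (ZMod p) Z) hU
  refine ⟨Z, hZ, fun Z' hZ' => ?_⟩
  by_cases e : Z = Z'
  · exact e.le
  rcases hc hZ hZ' e with h | h
  · exact h
  · exact (Submodule.eq_of_le_of_finrank_le h (hmax Z' hZ')).ge

/-- (F3), from chains to simplices. -/
theorem link_of_chain (hm : 3 ≤ m) {L : Sb ι p m} (hL : {L} ∈ XX ι p m)
    {c : Finset (Sb ι p m)} (hc : ∀ Z ∈ c, Z ∈ CL L)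
    (hch : IsChain (· ≤ ·) (c : Set (Sb ι p m))) :
    insert L (c.image (yy L)) ∈ XX ι p m ∧ (∀ Z ∈ c, zz L (yy L Z) = Z ∧ yy L Z ≠ L) := by
  obtain ⟨d1, d2, d3, d4, d5⟩ := finrank_vertex hm hL
  set S0 := Sp L with hS0
  set N := S0.map (tm ι p m) with hN
  set n := Fintype.card ι with hn
  -- the extended chain
  have hS0L : S0 ≤ L := Sp_le L
  set c' : Finset (Sb ι p m) := insert S0 (insert L c) with hc'
  have hc'S : ∀ Z ∈ c', S0 ≤ Z := by
    intro Z hZ
    rcases Finset.mem_insert.1 hZ with rfl | hZ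
    · exact le_rfl
    rcases Finset.mem_insert.1 hZ with rfl | hZ
    · exact hS0L
    · exact (hc Z hZ).1.le
  have hc'L : ∀ Z ∈ c', Z ≤ L := by
    intro Z hZ
    rcases Finset.mem_insert.1 hZ with rfl | hZ
    · exact hS0L
    rcases Finset.mem_insert.1 hZ with rfl | hZ
    · exact le_rfl
    · exact (hc Z hZ).2.1.le
  have hch' : IsChain (· ≤ ·) (c' : Set (Sb ι p m)) := by
    rw [hc', Finset.coe_insert, Finset.coe_insert]
    refine (hch.insert ?_).insert ?_
    · intro b hb _
      exact Or.inr (hc b hb).2.1.le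
    · intro b hb _
      left
      exact hc'S b (Finset.mem_insert_of_mem (by exact_mod_cast hb))
  set U := c'.filter (fun Z : Sb ι p m => Module.finrank (ZMod p) Z < n) with hU
  set D := c'.filter (fun Z : Sb ι p m => n ≤ Module.finrank (ZMod p) Z) with hD
  have hUne : U.Nonempty :=
    ⟨S0, Finset.mem_filter.2 ⟨Finset.mem_insert_self _ _, d2⟩⟩
  have hDne : D.Nonempty :=
    ⟨L, Finset.mem_filter.2 ⟨Finset.mem_insert_of_mem (Finset.mem_insert_self _ _), by omega⟩⟩
  obtain ⟨Zu, hZu, hZumax⟩ := exists_top_of_chain hUne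
    (hch'.mono (by exact_mod_cast Finset.filter_subset _ _))
  obtain ⟨Zl, hZl, hZlmin⟩ := exists_bot_of_chain hDne
    (hch'.mono (by exact_mod_cast Finset.filter_subset _ _))
  have hUN : ∀ Z ∈ U, Z ⊓ N = ⊥ := by
    intro Z hZ
    obtain ⟨hZ1, hZ2⟩ := Finset.mem_filter.1 hZ
    rcases Finset.mem_insert.1 hZ1 with rfl | hZ1
    · exact d3
    rcases Finset.mem_insert.1 hZ1 with rfl | hZ1
    · omega
    · have h1 := CL_upper hm hL (hc Z hZ1) hZ2
      rw [eq_bot_iff, ← d3]
      refine le_inf ?_ inf_le_right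
      refine le_trans ?_ h1.le
      exact inf_le_inf_left _ le_sup_right
  have hDN : ∀ Z ∈ D, Z ⊔ N = L := by
    intro Z hZ
    obtain ⟨hZ1, hZ2⟩ := Finset.mem_filter.1 hZ
    rcases Finset.mem_insert.1 hZ1 with rfl | hZ1
    · omega
    rcases Finset.mem_insert.1 hZ1 with h | hZ1
    · rw [h]
      exact sup_eq_left.2 (le_sup_right.trans d5)
    · exact CL_lower hm hL (hc Z hZ1) hZ2
  have hul : Zu ≤ Zl := by
    obtain ⟨h1, h2⟩ := Finset.mem_filter.1 hZu
    obtain ⟨h3, h4⟩ := Finset.mem_filter.1 hZl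
    have hne : Zu ≠ Zl := fun e => by rw [e] at h2; omega
    rcases hch' h1 h3 hne with h | h
    · exact h
    · exfalso
      have := Submodule.finrank_mono h
      omega
  obtain ⟨W', hW1, hW2, hW3, hW4⟩ := exists_between_compl hul (hUN Zu hZu) (hDN Zl hZl)
  have hS0W' : S0 ≤ W' :=
    (hZumax S0 (Finset.mem_filter.2 ⟨Finset.mem_insert_self _ _, d2⟩)).trans hW1
  -- `W'` is a form
  have hform : IsForm W' := by
    obtain ⟨Wf, S, hWf, hS, hLeq⟩ := exists_vtx' hL
    have hSeq : S0 = S := by rw [hS0, hLeq, Sp_vtx hm hWf hS.le]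
    refine isForm_of_compl (by omega) hWf (S := S0) (by rw [hSeq]; exact hS.le) hS0W' hW3 ?_
    rw [hW4, hLeq, hSeq]
  have hLvtx : L = vtx W' S0 := hW4.symm
  -- upper elements
  have hup : ∀ Z ∈ c, Module.finrank (ZMod p) Z < n →
      S0 ≤ Z ∧ Z < W' ∧ yy L Z = vtx W' Z := by
    intro Z hZ hdim
    have hZc' : Z ∈ c' := Finset.mem_insert_of_mem (Finset.mem_insert_of_mem hZ)
    have hZU : Z ∈ U := Finset.mem_filter.2 ⟨hZc', hdim⟩
    have hle : Z ≤ W' := (hZumax Z hZU).trans hW1
    refine ⟨hc'S Z hZc', lt_of_le_of_ne hle ?_, ?_⟩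
    · intro e
      rw [e, finrank_form (by omega) hform] at hdim
      exact lt_irrefl _ hdim
    · rw [yy, if_neg (by omega)]
      conv_lhs => rw [hLvtx]
      exact vtx_sup_map (hc'S Z hZc')
  -- lower elements
  have hlow : ∀ Z ∈ c, n ≤ Module.finrank (ZMod p) Z →
      ∃ S, S < S0 ∧ yy L Z = vtx W' S ∧ Z = vtx W' S := by
    intro Z hZ hdim
    have hZc' : Z ∈ c' := Finset.mem_insert_of_mem (Finset.mem_insert_of_mem hZ)
    have hZD : Z ∈ D := Finset.mem_filter.2 ⟨hZc', hdim⟩
    have hW'Z : W' ≤ Z := hW2.trans (hZlmin Z hZD)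
    have hZeq : Z = vtx W' (S0 ⊓ Z.comap (tm ι p m)) := by
      apply le_antisymm
      · intro x hx
        have hxL : x ∈ W' ⊔ N := by rw [hW4]; exact hc'L Z hZc' hx
        obtain ⟨w, hw, _, ⟨s, hs, rfl⟩, rfl⟩ := Submodule.mem_sup.1 hxL
        refine Submodule.add_mem_sup hw ⟨s, ⟨hs, ?_⟩, rfl⟩
        have := Z.sub_mem hx (hW'Z hw)
        rwa [add_sub_cancel_left] at this
      · refine sup_le hW'Z ?_
        rw [Submodule.map_le_iff_le_comap]
        exact inf_le_right
    refine ⟨S0 ⊓ Z.comap (tm ι p m), ?_, ?_, hZeq⟩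
    · refine lt_of_le_of_ne inf_le_left ?_
      intro e
      rw [e, ← hLvtx] at hZeq
      exact absurd hZeq (hc Z hZ).2.1.ne
    · rw [yy, if_pos hdim]
      exact hZeq
  have hψ : ∀ Z ∈ c, Sp (yy L Z) < W' ∧ yy L Z = vtx W' (Sp (yy L Z)) ∧
      ((S0 < Sp (yy L Z) ∧ Sp (yy L Z) = Z) ∨
        (Sp (yy L Z) < S0 ∧ yy L Z = Z)) := by
    intro Z hZ
    rcases lt_or_ge (Module.finrank (ZMod p) Z) n with hdim | hdim
    · obtain ⟨h1, h2, h3⟩ := hup Z hZ hdim
      have h4 : Sp (yy L Z) = Z := by rw [h3, Sp_vtx hm hform h2.le]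
      rw [h4]
      exact ⟨h2, h3, Or.inl ⟨(hc Z hZ).1, rfl⟩⟩
    · obtain ⟨S, h1, h2, h3⟩ := hlow Z hZ hdim
      have h4 : Sp (yy L Z) = S := by rw [h2, Sp_vtx hm hform (h1.le.trans hS0W')]
      rw [h4]
      exact ⟨lt_of_lt_of_le h1 hS0W', h2, Or.inr ⟨h1, by rw [h2, ← h3]⟩⟩
  constructor
  · have hS0W'' : S0 < W' := by
      refine lt_of_le_of_ne hS0W' ?_
      intro e
      rw [e, finrank_form (by omega) hform] at d2
      exact lt_irrefl _ d2
    refine ⟨W', hform, insert S0 (c.image (fun Z => Sp (yy L Z))), ?_, ?_, ?_⟩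
    · rw [Finset.coe_insert]
      refine IsChain.insert ?_ ?_
      · intro x hx y hy hxy
        rw [Finset.coe_image] at hx hy
        obtain ⟨A, hA, rfl⟩ := hx
        obtain ⟨B, hB, rfl⟩ := hy
        have hAB : A ≠ B := fun e => hxy (by rw [e])
        obtain ⟨-, -, hA'⟩ := hψ A hA
        obtain ⟨-, -, hB'⟩ := hψ B hB
        rcases hA' with ⟨h1, h2⟩ | ⟨h1, h2⟩ <;> rcases hB' with ⟨h3, h4⟩ | ⟨h3, h4⟩
        · simp only [h2, h4]
          exact hch hA hB hAB
        · right
          exact (h3.trans h1).le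
        · left
          exact (h1.trans h3).le
        · simp only [h2, h4]
          rcases hch hA hB hAB with h | h
          · exact Or.inl (Sp_mono h)
          · exact Or.inr (Sp_mono h)
      · intro x hx _
        rw [Finset.coe_image] at hx
        obtain ⟨A, hA, rfl⟩ := hx
        rcases (hψ A hA).2.2 with ⟨h1, -⟩ | ⟨h1, -⟩
        · exact Or.inl h1.le
        · exact Or.inr h1.le
    · intro S hS
      rcases Finset.mem_insert.1 hS with rfl | hS
      · exact hS0W''
      · obtain ⟨A, hA, rfl⟩ := Finset.mem_image.1 hS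
        exact (hψ A hA).1
    · rw [Finset.image_insert, ← hLvtx, Finset.image_image]
      congr 1
      apply Finset.image_congr
      intro Z hZ
      exact (hψ Z hZ).2.1
  · intro Z hZ
    obtain ⟨h1, h2, h3⟩ := hψ Z hZ
    rcases h3 with ⟨h3, h4⟩ | ⟨h3, h4⟩
    · have h5 : L ≤ yy L Z := by
        rw [h2, h4]
        conv_lhs => rw [hLvtx]
        exact (vtx_le_vtx_iff hm hform hS0W' (by rw [← h4]; exact h1.le)).2 (by rw [← h4]; exact h3.le)
      refine ⟨?_, ?_⟩
      · rw [zz, if_neg (fun h => absurd (lt_of_lt_of_le h h5) (lt_irrefl _)), h4]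
      · intro e
        rw [e, ← hS0] at h3
        exact lt_irrefl _ h3
    · rw [h4]
      have h5 := (hc Z hZ).2.1
      exact ⟨if_pos h5, h5.ne⟩

end Vale.Agent.P067
end
end

section

section

/-! # P067, geometry: the set of top simplices -/

set_option autoImplicit false

open Finset

namespace Vale.Agent.P067

attribute [local instance] Classical.propDecidable

open scoped Pointwise

variable {p m : ℕ} [Fact p.Prime] {ι : Type} [Fintype ι] [DecidableEq ι]

/-- The top simplices of `X`. -/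
noncomputable def topX (ι : Type) [Fintype ι] [DecidableEq ι] (p m : ℕ) [Fact p.Prime] :
    Finset (Finset (Sb ι p m)) :=
  (Set.toFinite {σ | σ ∈ XX ι p m ∧ σ.card = Fintype.card ι}).toFinset

theorem mem_topX {σ : Finset (Sb ι p m)} :
    σ ∈ topX ι p m ↔ σ ∈ XX ι p m ∧ σ.card = Fintype.card ι := by
  simp only [topX, Set.Finite.mem_toFinset, Set.mem_ofPred_eq]

end Vale.Agent.P067
end
end

section

section

/-!
# P067, geometry of the complex: purity and transitivity on top simplices (F6)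
-/

set_option autoImplicit false

open Finset

namespace Vale.Agent.P067

attribute [local instance] Classical.propDecidable

open scoped Pointwise

set_option linter.unusedSectionVars false

section flags

variable {F U : Type*} [Field F] [AddCommGroup U] [Module F U] [FiniteDimensional F U]

theorem exists_finrank_between {lo hi : Submodule F U} (h : lo ≤ hi) (j : ℕ)
    (h1 : Module.finrank F lo ≤ j) (h2 : j ≤ Module.finrank F hi) :
    ∃ Z : Submodule F U, lo ≤ Z ∧ Z ≤ hi ∧ Module.finrank F Z = j := by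
  obtain ⟨k, hk⟩ : ∃ k, j = Module.finrank F lo + k := ⟨j - Module.finrank F lo, by omega⟩
  induction k generalizing lo with
  | zero => exact ⟨lo, le_rfl, h, by omega⟩
  | succ k ih =>
    have hne : ¬ hi ≤ lo := by
      intro h3
      have := Submodule.finrank_mono h3
      omega
    obtain ⟨x, hx, hxlo⟩ := SetLike.not_le_iff_exists.1 hne
    have hle : lo ⊔ Submodule.span F {x} ≤ hi :=
      sup_le h ((Submodule.span_singleton_le_iff_mem _ _).2 hx)
    have hlt : lo < lo ⊔ Submodule.span F {x} := by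
      refine lt_of_le_of_ne le_sup_left ?_
      intro e
      apply hxlo
      rw [e]
      exact Submodule.mem_sup_right (Submodule.mem_span_singleton_self x)
    have hd1 := Submodule.finrank_lt_finrank_of_lt hlt
    have hd2 := Submodule.finrank_add_le_finrank_add_finrank lo (Submodule.span F {x})
    have hd3 : Module.finrank F (Submodule.span F {x}) ≤ 1 := by
      have := finrank_span_le_card (R := F) ({x} : Set U)
      simpa using this
    obtain ⟨Z, hZ1, hZ2, hZ3⟩ := ih hle (by omega) (by omega)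
    exact ⟨Z, le_sup_left.trans hZ1, hZ2, hZ3⟩

theorem exists_top_of_chain' {A : Finset (Submodule F U)} (hA : A.Nonempty)
    (hc : IsChain (· ≤ ·) (A : Set (Submodule F U))) : ∃ Z ∈ A, ∀ Z' ∈ A, Z' ≤ Z := by
  obtain ⟨Z, hZ, hmax⟩ := Finset.exists_max_image A (fun Z => Module.finrank F Z) hA
  refine ⟨Z, hZ, fun Z' hZ' => ?_⟩
  by_cases e : Z' = Z
  · exact e.le
  rcases hc hZ' hZ e with h | h
  · exact h
  · exact (Submodule.eq_of_le_of_finrank_le h (hmax Z' hZ')).ge

theorem exists_bot_of_chain' {A : Finset (Submodule F U)} (hA : A.Nonempty)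
    (hc : IsChain (· ≤ ·) (A : Set (Submodule F U))) : ∃ Z ∈ A, ∀ Z' ∈ A, Z ≤ Z' := by
  obtain ⟨Z, hZ, hmax⟩ := Finset.exists_min_image A (fun Z => Module.finrank F Z) hA
  refine ⟨Z, hZ, fun Z' hZ' => ?_⟩
  by_cases e : Z = Z'
  · exact e.le
  rcases hc hZ hZ' e with h | h
  · exact h
  · exact (Submodule.eq_of_le_of_finrank_le h (hmax Z' hZ')).ge

theorem chain_finrank_injOn {c : Set (Submodule F U)} (hc : IsChain (· ≤ ·) c) :
    Set.InjOn (fun Z : Submodule F U => Module.finrank F Z) c := by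
  intro A hA B hB h
  by_contra hne
  rcases hc hA hB hne with h1 | h1
  · exact hne (Submodule.eq_of_le_of_finrank_le h1 h.ge)
  · exact hne (Submodule.eq_of_le_of_finrank_le h1 h.le).symm

/-- A chain of proper subspaces can be refined to a full flag. -/
theorem exists_full_chain {Wf : Submodule F U} {n : ℕ} (hn : Module.finrank F Wf = n)
    {c : Finset (Submodule F U)} (hc : IsChain (· ≤ ·) (c : Set (Submodule F U)))
    (hlt : ∀ S ∈ c, S < Wf) :
    ∃ c' : Finset (Submodule F U), c ⊆ c' ∧ IsChain (· ≤ ·) (c' : Set (Submodule F U)) ∧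
      (∀ S ∈ c', S < Wf) ∧ c'.card = n := by
  have hcard : ∀ c : Finset (Submodule F U), IsChain (· ≤ ·) (c : Set (Submodule F U)) →
      (∀ S ∈ c, S < Wf) → c.image (fun Z : Submodule F U => Module.finrank F Z) ⊆ range n := by
    intro c _ hlt j hj
    obtain ⟨S, hS, rfl⟩ := Finset.mem_image.1 hj
    rw [Finset.mem_range, ← hn]
    exact Submodule.finrank_lt_finrank_of_lt (hlt S hS)
  have hcard' : ∀ c : Finset (Submodule F U), IsChain (· ≤ ·) (c : Set (Submodule F U)) →
      (c.image (fun Z : Submodule F U => Module.finrank F Z)).card = c.card := by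
    intro c hc
    exact Finset.card_image_of_injOn (chain_finrank_injOn hc)
  obtain ⟨k, hk⟩ : ∃ k, n = c.card + k := by
    refine ⟨n - c.card, ?_⟩
    have h1 := Finset.card_le_card (hcard c hc hlt)
    rw [hcard' c hc, Finset.card_range] at h1
    omega
  induction k generalizing c with
  | zero => exact ⟨c, Finset.Subset.refl _, hc, hlt, by omega⟩
  | succ k ih =>
    obtain ⟨j, hj, hjc⟩ : ∃ j ∈ range n, j ∉ c.image (fun Z : Submodule F U => Module.finrank F Z) := by
      by_contra hcon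
      push Not at hcon
      have h1 := Finset.card_le_card (show range n ⊆ _ from fun j hj => hcon j hj)
      rw [hcard' c hc, Finset.card_range] at h1
      omega
    rw [Finset.mem_range] at hj
    have hjc' : ∀ S ∈ c, Module.finrank F S ≠ j := fun S hS e => hjc (Finset.mem_image.2 ⟨S, hS, e⟩)
    set A := insert (⊥ : Submodule F U) (c.filter (fun S : Submodule F U => Module.finrank F S < j)) with hA
    set B := insert Wf (c.filter (fun S : Submodule F U => j < Module.finrank F S)) with hB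
    have hAc : IsChain (· ≤ ·) (A : Set (Submodule F U)) := by
      rw [hA, Finset.coe_insert]
      refine (hc.mono (by exact_mod_cast Finset.filter_subset _ _)).insert ?_
      intro b _ _
      exact Or.inl bot_le
    have hBc : IsChain (· ≤ ·) (B : Set (Submodule F U)) := by
      rw [hB, Finset.coe_insert]
      refine (hc.mono (by exact_mod_cast Finset.filter_subset _ _)).insert ?_
      intro b hb _
      exact Or.inr (hlt b (Finset.mem_filter.1 (by exact_mod_cast hb)).1).le
    obtain ⟨lo, hlo, hlomax⟩ := exists_top_of_chain' ⟨_, Finset.mem_insert_self _ _⟩ hAc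
    obtain ⟨hi, hhi, hhimin⟩ := exists_bot_of_chain' ⟨_, Finset.mem_insert_self _ _⟩ hBc
    have hlo' : Module.finrank F lo ≤ j ∧ (lo = ⊥ ∨ lo ∈ c ∧ Module.finrank F lo < j) := by
      rcases Finset.mem_insert.1 hlo with h | h
      · rw [h, finrank_bot]
        exact ⟨Nat.zero_le _, Or.inl rfl⟩
      · have := Finset.mem_filter.1 h
        exact ⟨this.2.le, Or.inr this⟩
    have hhi' : j < Module.finrank F hi ∧ hi ≤ Wf ∧ (hi = Wf ∨ hi ∈ c) := by
      rcases Finset.mem_insert.1 hhi with h | h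
      · rw [h]
        exact ⟨by omega, le_rfl, Or.inl rfl⟩
      · have := Finset.mem_filter.1 h
        exact ⟨this.2, (hlt hi this.1).le, Or.inr this.1⟩
    have hlohi : lo ≤ hi := by
      rcases hlo'.2 with h | ⟨h, h'⟩
      · rw [h]; exact bot_le
      rcases hhi'.2.2 with h2 | h2
      · rw [h2]; exact (hlt lo h).le
      · have hne : lo ≠ hi := by
          intro e
          rw [e] at h'
          have := hhi'.1
          omega
        rcases hc h h2 hne with h3 | h3
        · exact h3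
        · have := Submodule.finrank_mono h3
          have := hhi'.1
          omega
    obtain ⟨Z, hZ1, hZ2, hZ3⟩ := exists_finrank_between hlohi j hlo'.1 hhi'.1.le
    have hZlt : Z < Wf := by
      refine lt_of_le_of_ne (hZ2.trans hhi'.2.1) ?_
      intro e
      rw [e] at hZ3
      omega
    have hZc : Z ∉ c := fun h => hjc' Z h hZ3
    obtain ⟨c', h1, h2, h3, h4⟩ := ih (c := insert Z c) (by
        rw [Finset.coe_insert]
        refine hc.insert ?_
        intro S hS _
        rcases lt_or_gt_of_ne (hjc' S hS) with h | h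
        · right
          exact (hlomax S (Finset.mem_insert_of_mem (Finset.mem_filter.2 ⟨hS, h⟩))).trans hZ1
        · left
          exact hZ2.trans (hhimin S (Finset.mem_insert_of_mem (Finset.mem_filter.2 ⟨hS, h⟩))))
      (by
        intro S hS
        rcases Finset.mem_insert.1 hS with rfl | hS
        · exact hZlt
        · exact hlt S hS)
      (by rw [Finset.card_insert_of_notMem hZc]; omega)
    exact ⟨c', (Finset.subset_insert _ _).trans h1, h2, h3, h4⟩

/-- The flag spanned by a sequence of vectors. -/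
theorem span_flag {n : ℕ} (S : ℕ → Submodule F U) (hS : ∀ k ≤ n, Module.finrank F (S k) = k)
    (hmono : ∀ k < n, S k ≤ S (k + 1)) (b : ℕ → U) (hb : ∀ k < n, b k ∈ S (k + 1) ∧ b k ∉ S k) :
    ∀ k ≤ n, Submodule.span F (b '' {j | j < k}) = S k := by
  intro k
  induction k with
  | zero =>
    intro _
    have h0 : S 0 = ⊥ := Submodule.finrank_eq_zero.1 (hS 0 (Nat.zero_le _))
    rw [h0]
    simp
  | succ k ih =>
    intro hk
    have e : {j | j < k + 1} = insert k {j : ℕ | j < k} := by
      ext j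
      simp only [Set.mem_ofPred_eq, Set.mem_insert_iff]
      omega
    rw [e, Set.image_insert_eq, Submodule.span_insert, ih (by omega)]
    have hle : Submodule.span F {b k} ⊔ S k ≤ S (k + 1) :=
      sup_le ((Submodule.span_singleton_le_iff_mem _ _).2 (hb k (by omega)).1) (hmono k (by omega))
    apply Submodule.eq_of_le_of_finrank_le hle
    rw [hS (k + 1) hk]
    have hlt : S k < Submodule.span F {b k} ⊔ S k := by
      refine lt_of_le_of_ne le_sup_right ?_
      intro e
      apply (hb k (by omega)).2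
      rw [e]
      exact Submodule.mem_sup_left (Submodule.mem_span_singleton_self _)
    have := Submodule.finrank_lt_finrank_of_lt hlt
    rw [hS k (by omega)] at this
    omega

/-- A full flag of proper subspaces as a sequence. -/
theorem exists_seq_of_flag {n : ℕ} (hn : Module.finrank F U = n) {c : Finset (Submodule F U)}
    (hc : IsChain (· ≤ ·) (c : Set (Submodule F U))) (hlt : ∀ S ∈ c, S < ⊤) (hcard : c.card = n) :
    ∃ S : ℕ → Submodule F U, (∀ k ≤ n, Module.finrank F (S k) = k) ∧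
      (∀ k < n, S k ≤ S (k + 1)) ∧ (∀ T, T ∈ c ↔ ∃ k < n, T = S k) ∧ S n = ⊤ := by
  have h1 : c.image (fun Z : Submodule F U => Module.finrank F Z) = range n := by
    apply Finset.eq_of_subset_of_card_le
    · intro j hj
      obtain ⟨S, hS, rfl⟩ := Finset.mem_image.1 hj
      rw [Finset.mem_range, ← hn]
      exact Submodule.finrank_lt (hlt S hS).ne
    · rw [Finset.card_image_of_injOn (chain_finrank_injOn hc), hcard, Finset.card_range]
  have h2 : ∀ k : ℕ, ∃ S : Submodule F U, (k < n → S ∈ c ∧ Module.finrank F S = k) ∧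
      (¬ k < n → S = ⊤) := by
    intro k
    by_cases hk : k < n
    · have : k ∈ c.image (fun Z : Submodule F U => Module.finrank F Z) := by
        rw [h1]; exact Finset.mem_range.2 hk
      obtain ⟨S, hS, hS'⟩ := Finset.mem_image.1 this
      exact ⟨S, fun _ => ⟨hS, hS'⟩, fun h => absurd hk h⟩
    · exact ⟨⊤, fun h => absurd h hk, fun _ => rfl⟩
  choose S hS1 hS2 using h2
  refine ⟨S, ?_, ?_, ?_, hS2 n (lt_irrefl _)⟩
  · intro k hk
    rcases Nat.lt_or_ge k n with h | h
    · exact (hS1 k h).2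
    · rw [hS2 k (by omega), finrank_top, hn]
      omega
  · intro k hk
    rcases Nat.lt_or_ge (k + 1) n with h | h
    · have hne : S k ≠ S (k + 1) := by
        intro e
        have h3 := (hS1 k hk).2
        rw [e, (hS1 (k + 1) h).2] at h3
        omega
      rcases hc (hS1 k hk).1 (hS1 (k + 1) h).1 hne with h4 | h4
      · exact h4
      · have := Submodule.finrank_mono h4
        rw [(hS1 k hk).2, (hS1 (k + 1) h).2] at this
        omega
    · rw [hS2 (k + 1) (by omega)]
      exact le_top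
  · intro T
    constructor
    · intro hT
      have hTn : Module.finrank F T < n := by
        rw [← hn]
        exact Submodule.finrank_lt (hlt T hT).ne
      refine ⟨Module.finrank F T, hTn, ?_⟩
      exact chain_finrank_injOn hc hT (hS1 _ hTn).1 (hS1 _ hTn).2.symm
    · rintro ⟨k, hk, rfl⟩
      exact (hS1 k hk).1

/-- `SL(U)` is transitive on full flags. -/
theorem exists_det_one_flag {n : ℕ} (hn : Module.finrank F U = n)
    {c c' : Finset (Submodule F U)}
    (hc : IsChain (· ≤ ·) (c : Set (Submodule F U))) (hlt : ∀ S ∈ c, S < ⊤) (hcard : c.card = n)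
    (hc' : IsChain (· ≤ ·) (c' : Set (Submodule F U))) (hlt' : ∀ S ∈ c', S < ⊤)
    (hcard' : c'.card = n) :
    ∃ h : U →ₗ[F] U, LinearMap.det h = 1 ∧ c' = c.image (fun S => S.map h) := by
  obtain ⟨S, hS1, hS2, hS3, hS4⟩ := exists_seq_of_flag hn hc hlt hcard
  obtain ⟨T, hT1, hT2, hT3, hT4⟩ := exists_seq_of_flag hn hc' hlt' hcard'
  rcases Nat.eq_zero_or_pos n with h0 | hpos
  · refine ⟨LinearMap.id, LinearMap.det_id, ?_⟩
    have e1 : c = ∅ := by rw [← Finset.card_eq_zero, hcard, h0]
    have e2 : c' = ∅ := by rw [← Finset.card_eq_zero, hcard', h0]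
    rw [e1, e2, Finset.image_empty]
  have key : ∀ S : ℕ → Submodule F U, (∀ k ≤ n, Module.finrank F (S k) = k) →
      (∀ k < n, S k ≤ S (k + 1)) → ∃ b : ℕ → U, ∀ k < n, b k ∈ S (k + 1) ∧ b k ∉ S k := by
    intro S hS1 hS2
    have : ∀ k : ℕ, ∃ x : U, k < n → x ∈ S (k + 1) ∧ x ∉ S k := by
      intro k
      by_cases hk : k < n
      · have hne : ¬ S (k + 1) ≤ S k := by
          intro h
          have := Submodule.finrank_mono h
          rw [hS1 (k + 1) (by omega), hS1 k (by omega)] at this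
          omega
        obtain ⟨x, hx, hx'⟩ := SetLike.not_le_iff_exists.1 hne
        exact ⟨x, fun _ => ⟨hx, hx'⟩⟩
      · exact ⟨0, fun h => absurd h hk⟩
    choose b hb using this
    exact ⟨b, hb⟩
  have basis : ∀ S : ℕ → Submodule F U, (∀ k ≤ n, Module.finrank F (S k) = k) →
      (∀ k < n, S k ≤ S (k + 1)) → S n = ⊤ → ∀ b : ℕ → U,
      (∀ k < n, b k ∈ S (k + 1) ∧ b k ∉ S k) →
      ∃ B : Module.Basis (Fin n) F U, ∀ i : Fin n, B i = b i := by
    intro S hS1 hS2 hS4 b hb
    have h1 := span_flag S hS1 hS2 b hb n le_rfl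
    rw [hS4] at h1
    have h2 : b '' {j | j < n} = Set.range (fun i : Fin n => b i) := by
      ext x
      constructor
      · rintro ⟨j, hj, rfl⟩
        exact ⟨⟨j, hj⟩, rfl⟩
      · rintro ⟨i, rfl⟩
        exact ⟨i, i.2, rfl⟩
    rw [h2] at h1
    refine ⟨basisOfTopLeSpanOfCardEqFinrank (fun i : Fin n => b i) h1.ge (by simp only [Fintype.card_fin, hn]), ?_⟩
    intro i
    simp
  obtain ⟨b, hb⟩ := key S hS1 hS2
  obtain ⟨b', hb'⟩ := key T hT1 hT2
  obtain ⟨B, hB⟩ := basis S hS1 hS2 hS4 b hb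
  obtain ⟨B', hB'⟩ := basis T hT1 hT2 hT4 b' hb'
  set δ : F := B.det B' with hδ
  have hδ0 : δ ≠ 0 := (B.isUnit_det B').ne_zero
  -- rescale the first vector
  set b'' : ℕ → U := fun k => if k = 0 then δ⁻¹ • b' 0 else b' k with hb''def
  have hb'' : ∀ k < n, b'' k ∈ T (k + 1) ∧ b'' k ∉ T k := by
    intro k hk
    rw [hb''def]
    by_cases h : k = 0
    · subst h
      simp only [if_true]
      refine ⟨(T 1).smul_mem _ (hb' 0 hk).1, fun h => (hb' 0 hk).2 ?_⟩
      have := (T 0).smul_mem δ h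
      rwa [smul_smul, mul_inv_cancel₀ hδ0, one_smul] at this
    · simp only [if_neg h]
      exact hb' k hk
  have hdet : B.det (fun i : Fin n => b'' i) = 1 := by
    have e : (fun i : Fin n => b'' i) = Function.update (⇑B') ⟨0, hpos⟩ (δ⁻¹ • B' ⟨0, hpos⟩) := by
      funext i
      by_cases hi : i = ⟨0, hpos⟩
      · subst hi
        simp [hb''def, hB']
      · rw [Function.update_of_ne hi, hB']
        have : (i : ℕ) ≠ 0 := fun h => hi (Fin.ext h)
        simp [hb''def, this]
    rw [e, AlternatingMap.map_update_smul, Function.update_eq_self, ← hδ, smul_eq_mul,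
      inv_mul_cancel₀ hδ0]
  refine ⟨B.constr F (fun i : Fin n => b'' i), ?_, ?_⟩
  · have h1 := B.det_comp (B.constr F (fun i : Fin n => b'' i)) B
    rw [B.det_self, mul_one] at h1
    rw [← h1, ← hdet]
    congr 1
    funext i
    simp only [Function.comp_apply, Module.Basis.constr_apply_fintype, Module.Basis.equivFun_self, ite_smul, one_smul, zero_smul, sum_ite_eq, mem_univ, ↓reduceIte]
  · have hmap : ∀ k ≤ n, (S k).map (B.constr F (fun i : Fin n => b'' i)) = T k := by
      intro k hk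
      rw [← span_flag S hS1 hS2 b hb k hk, ← span_flag T hT1 hT2 b'' hb'' k hk,
        Submodule.map_span]
      congr 1
      rw [← Set.image_comp]
      apply Set.image_congr
      intro j hj
      have hj' : j < n := lt_of_lt_of_le hj hk
      have := B.constr_basis F (fun i : Fin n => b'' i) ⟨j, hj'⟩
      rw [hB] at this
      exact this
    ext Z
    rw [hT3, Finset.mem_image]
    constructor
    · rintro ⟨k, hk, rfl⟩
      exact ⟨S k, (hS3 _).2 ⟨k, hk, rfl⟩, hmap k hk.le⟩
    · rintro ⟨Y, hY, rfl⟩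
      obtain ⟨k, hk, rfl⟩ := (hS3 _).1 hY
      exact ⟨k, hk, hmap k hk.le⟩

end flags

variable {p m : ℕ} [Fact p.Prime] {ι : Type} [Fintype ι] [DecidableEq ι]

/-- Lifting an endomorphism of `F^n` of determinant one. -/
theorem exists_lift (h : (ι → ZMod p) →ₗ[ZMod p] (ι → ZMod p)) (hdet : LinearMap.det h = 1)
    (m : ℕ) : ∃ g : GG ι p m, ∀ v, g • cst ι p m v = cst ι p m (h v) := by
  let A : Matrix.SpecialLinearGroup ι (ZMod p) := ⟨LinearMap.toMatrix' h, by
    rw [LinearMap.det_toMatrix', hdet]⟩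
  let A' : Matrix.SpecialLinearGroup ι (Rg p m) :=
    Matrix.SpecialLinearGroup.map (algebraMap (ZMod p) (Rg p m)) A
  refine ⟨Matrix.SpecialLinearGroup.toLin'_equiv A', fun v => ?_⟩
  rw [toLin_smul]
  change ((LinearMap.toMatrix' h).map (algebraMap (ZMod p) (Rg p m))).mulVec _ = _
  rw [map_mulVec_cst, LinearMap.toMatrix'_mulVec]

/-- Purity. -/
theorem exists_topX (hm : 3 ≤ m) {σ : Finset (Sb ι p m)} (hσ : σ ∈ XX ι p m) :
    ∃ C ∈ topX ι p m, σ ⊆ C := by
  obtain ⟨Wf, hW, c, hc, hlt, rfl⟩ := hσ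
  have hfr : Module.finrank (ZMod p) Wf = Fintype.card ι := finrank_form (by omega) hW
  obtain ⟨c', h1, h2, h3, h4⟩ := exists_full_chain hfr hc hlt
  have hinj : Set.InjOn (vtx Wf) (c' : Set (Sb ι p m)) :=
    (vtx_injOn hm hW).mono (fun S hS => (h3 S hS).le)
  have hcard : (c'.image (vtx Wf)).card = Fintype.card ι := by
    rw [Finset.card_image_of_injOn hinj]
    exact h4
  have hmem : c'.image (vtx Wf) ∈ XX ι p m := ⟨Wf, hW, c', h2, h3, rfl⟩
  exact ⟨c'.image (vtx Wf), mem_topX.2 ⟨hmem, hcard⟩, Finset.image_subset_image h1⟩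

theorem W_topX_pos_iff (hm : 3 ≤ m) (σ : Finset (Sb ι p m)) :
    0 < W (topX ι p m) σ ↔ σ ∈ XX ι p m := by
  rw [W, Finset.card_pos]
  constructor
  · rintro ⟨C, hC⟩
    obtain ⟨h1, h2⟩ := Finset.mem_filter.1 hC
    exact downClosed_XX C (mem_topX.1 h1).1 σ h2
  · intro h
    obtain ⟨C, h1, h2⟩ := exists_topX hm h
    exact ⟨C, Finset.mem_filter.2 ⟨h1, h2⟩⟩

/-- Every top simplex is a translate of a full flag in the standard form. -/
theorem exists_standard {C : Finset (Sb ι p m)} (hm : 3 ≤ m) (hC : C ∈ topX ι p m) :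
    ∃ (g : GG ι p m) (c : Finset (Submodule (ZMod p) (ι → ZMod p))),
      IsChain (· ≤ ·) (c : Set (Submodule (ZMod p) (ι → ZMod p))) ∧ (∀ S ∈ c, S < ⊤) ∧
      c.card = Fintype.card ι ∧
      C = c.image (fun S => g • vtx (W0 ι p m) (S.map (cst ι p m))) := by
  rw [mem_topX] at hC
  obtain ⟨⟨Wf, ⟨g, rfl⟩, c, hc, hlt, hCeq⟩, hcard⟩ := hC
  have hm0 : 0 < m := by omega
  have hle : ∀ S ∈ c, ∃ T : Submodule (ZMod p) (ι → ZMod p), T < ⊤ ∧
      S = g • (T.map (cst ι p m)) := by
    intro S hS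
    have h1 : g⁻¹ • S < W0 ι p m := by
      rw [← smul_lt_smul_Sb g, smul_inv_smul]
      exact hlt S hS
    refine ⟨(g⁻¹ • S).comap (cst ι p m), ?_, ?_⟩
    · rw [lt_top_iff_ne_top]
      intro e
      apply absurd h1
      apply not_lt_of_ge
      rintro _ ⟨v, rfl⟩
      have h2 : v ∈ (g⁻¹ • S).comap (cst ι p m) := by rw [e]; exact Submodule.mem_top
      exact h2
    · rw [Submodule.map_comap_eq_of_le h1.le, smul_inv_smul]
  choose! T hT1 hT2 using hle
  have hTinj : ∀ S ∈ c, ∀ S' ∈ c, T S ≤ T S' ↔ S ≤ S' := by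
    intro S hS S' hS'
    conv_rhs => rw [hT2 S hS, hT2 S' hS', smul_le_smul_Sb]
    exact (Submodule.map_le_map_iff_of_injective (cst_injective hm0) _ _).symm
  refine ⟨g, c.image T, ?_, ?_, ?_, ?_⟩
  · intro x hx y hy hxy
    rw [Finset.coe_image] at hx hy
    obtain ⟨A, hA, rfl⟩ := hx
    obtain ⟨B, hB, rfl⟩ := hy
    have hAB : A ≠ B := fun e => hxy (by rw [e])
    rcases hc hA hB hAB with h | h
    · exact Or.inl ((hTinj A hA B hB).2 h)
    · exact Or.inr ((hTinj B hB A hA).2 h)
  · intro S hS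
    obtain ⟨A, hA, rfl⟩ := Finset.mem_image.1 hS
    exact hT1 A hA
  · have hinj : Set.InjOn (vtx (g • W0 ι p m)) (c : Set (Sb ι p m)) :=
      (vtx_injOn hm (isForm_W0.smul g)).mono (fun S hS => (hlt S hS).le)
    have hinj2 : Set.InjOn T (c : Set (Sb ι p m)) := by
      intro S hS S' hS' h
      exact le_antisymm ((hTinj S hS S' hS').1 h.le) ((hTinj S' hS' S hS).1 h.ge)
    rw [Finset.card_image_of_injOn hinj2, ← hcard, hCeq, Finset.card_image_of_injOn hinj]
  · rw [hCeq, Finset.image_image]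
    apply Finset.image_congr
    intro S hS
    simp only [Function.comp_apply]
    rw [smul_vtx, ← hT2 S hS]

/-- `G` acts transitively on top simplices. -/
theorem topX_transitive (hm : 3 ≤ m) {C C' : Finset (Sb ι p m)} (hC : C ∈ topX ι p m)
    (hC' : C' ∈ topX ι p m) : ∃ g : GG ι p m, C' = C.image (fun x => g • x) := by
  obtain ⟨g, c, h1, h2, h3, rfl⟩ := exists_standard hm hC
  obtain ⟨g', c', h1', h2', h3', rfl⟩ := exists_standard hm hC'
  obtain ⟨h, hdet, hcc⟩ := exists_det_one_flag (n := Fintype.card ι) (by simp only [Module.finrank_fintype_fun_eq_card]) h1 h2 h3 h1' h2' h3'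
  obtain ⟨f, hf⟩ := exists_lift h hdet m
  have hfS : ∀ S : Submodule (ZMod p) (ι → ZMod p),
      f • (S.map (cst ι p m)) = (S.map h).map (cst ι p m) := by
    intro S
    ext x
    simp only [Submodule.mem_smul_pointwise_iff_exists, Submodule.mem_map]
    constructor
    · rintro ⟨_, ⟨v, hv, rfl⟩, rfl⟩
      exact ⟨h v, ⟨v, hv, rfl⟩, (hf v).symm⟩
    · rintro ⟨_, ⟨v, hv, rfl⟩, rfl⟩
      exact ⟨_, ⟨v, hv, rfl⟩, hf v⟩
  have hbij : Function.Surjective h := by
    have : IsUnit h := by
      rw [LinearMap.isUnit_iff_isUnit_det, hdet]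
      exact isUnit_one
    exact ((Module.End.isUnit_iff h).1 this).2
  have hfW : f • W0 ι p m = W0 ι p m := by
    have e : W0 ι p m = (⊤ : Submodule (ZMod p) (ι → ZMod p)).map (cst ι p m) := by
      rw [W0, LinearMap.range_eq_map]
    rw [e, hfS, Submodule.map_top h, LinearMap.range_eq_top.2 hbij]
  refine ⟨g' * f * g⁻¹, ?_⟩
  rw [hcc, Finset.image_image, Finset.image_image]
  apply Finset.image_congr
  intro S _
  simp only [Function.comp_apply]
  rw [mul_smul, mul_smul, inv_smul_smul, smul_vtx f, hfW, hfS]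

theorem imgSb_smul_subset_iff (g : GG ι p m) (σ τ : Finset (Sb ι p m)) :
    σ.image (fun x => g • x) ⊆ τ.image (fun x => g • x) ↔ σ ⊆ τ :=
  Finset.image_subset_image_iff (MulAction.injective g)

theorem imgSb_inv_smul (g : GG ι p m) (σ : Finset (Sb ι p m)) :
    (σ.image (fun x => g⁻¹ • x)).image (fun x => g • x) = σ := by
  rw [Finset.image_image]
  conv_rhs => rw [← Finset.image_id (s := σ)]
  apply Finset.image_congr
  intro x _
  simp

theorem smul_mem_topX (g : GG ι p m) {σ : Finset (Sb ι p m)} (hσ : σ ∈ topX ι p m) :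
    σ.image (fun x => g • x) ∈ topX ι p m := by
  rw [mem_topX] at hσ ⊢
  exact ⟨smul_mem_XX g hσ.1, by rw [Finset.card_image_of_injective _ (MulAction.injective g), hσ.2]⟩

theorem W_smul (g : GG ι p m) (σ : Finset (Sb ι p m)) :
    W (topX ι p m) (σ.image (fun x => g • x)) = W (topX ι p m) σ := by
  rw [W, W]
  symm
  apply Finset.card_bij (fun C _ => C.image (fun x => g • x))
  · intro C hC
    obtain ⟨h1, h2⟩ := Finset.mem_filter.1 hC
    exact Finset.mem_filter.2 ⟨smul_mem_topX g h1, Finset.image_subset_image h2⟩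
  · intro C _ C' _ h
    exact Finset.image_injective (MulAction.injective g) h
  · intro C hC
    obtain ⟨h1, h2⟩ := Finset.mem_filter.1 hC
    refine ⟨C.image (fun x => g⁻¹ • x), Finset.mem_filter.2 ⟨smul_mem_topX _ h1, ?_⟩,
      imgSb_inv_smul g C⟩
    rw [← imgSb_smul_subset_iff g, imgSb_inv_smul]
    exact h2

end Vale.Agent.P067
end
end

section

section

/-! # P067, geometry of the complex: bounded degree and many vertices (F7) -/

set_option autoImplicit false

set_option linter.unusedSectionVars false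

open Finset Polynomial

namespace Vale.Agent.P067

attribute [local instance] Classical.propDecidable

open scoped Pointwise

/-! ### Bounded degree -/

section degree

variable {p m : ℕ} [Fact p.Prime] {ι : Type} [Fintype ι] [DecidableEq ι]

/-- The finset of the subspaces of `v`. -/
noncomputable def subsOf (v : Sb ι p m) : Finset (Sb ι p m) :=
  (Set.toFinite {Z : Sb ι p m | Z ≤ v}).toFinset

theorem mem_subsOf {v Z : Sb ι p m} : Z ∈ subsOf v ↔ Z ≤ v := by
  simp only [subsOf, Set.Finite.mem_toFinset, Set.mem_ofPred_eq]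

/-- The finset of the elements of `v`. -/
noncomputable def eltsOf (v : Sb ι p m) : Finset (VV ι p m) :=
  (Set.toFinite (v : Set (VV ι p m))).toFinset

theorem mem_eltsOf {v : Sb ι p m} {x : VV ι p m} : x ∈ eltsOf v ↔ x ∈ v := by
  simp [eltsOf]

theorem card_eltsOf (v : Sb ι p m) :
    (eltsOf v).card = p ^ Module.finrank (ZMod p) v := by
  have h1 : (eltsOf v).card = Nat.card v := by
    rw [eltsOf, ← Set.ncard_eq_toFinset_card]
    rfl
  rw [h1, Module.natCard_eq_pow_finrank (K := ZMod p), Nat.card_zmod]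

theorem card_subsOf_le (v : Sb ι p m) :
    (subsOf v).card ≤ 2 ^ (p ^ Module.finrank (ZMod p) v) := by
  rw [← card_eltsOf, ← Finset.card_powerset]
  apply Finset.card_le_card_of_injOn (fun Z => eltsOf Z)
  · intro Z hZ
    rw [Finset.mem_coe, mem_subsOf] at hZ
    rw [Finset.mem_coe, Finset.mem_powerset]
    intro x hx
    rw [mem_eltsOf] at hx ⊢
    exact hZ hx
  · intro Z _ Z' _ h
    ext x
    have h' : eltsOf Z = eltsOf Z' := h
    rw [← mem_eltsOf, h', mem_eltsOf]

theorem W_topX_le_aux (hm : 3 ≤ m) (v : Sb ι p m) :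
    W (topX ι p m) {v} ≤ (subsOf v).powerset.card := by
  unfold W
  apply Finset.card_le_card_of_injOn (fun C => (C.erase v).image (zz v))
  · intro C hC
    rw [Finset.mem_coe, Finset.mem_filter, Finset.singleton_subset_iff] at hC
    obtain ⟨hC, hvC⟩ := hC
    have h1 : insert v (C.erase v) ∈ XX ι p m := by
      rw [Finset.insert_erase hvC]
      exact (mem_topX.1 hC).1
    obtain ⟨h2, -⟩ := chain_of_link hm (Finset.notMem_erase v C) h1
    rw [Finset.mem_coe, Finset.mem_powerset]
    intro Z hZ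
    obtain ⟨L', hL', rfl⟩ := Finset.mem_image.1 hZ
    rw [mem_subsOf]
    exact (h2 L' hL').1.2.1.le
  · intro C hC C' hC' h
    rw [Finset.mem_coe, Finset.mem_filter, Finset.singleton_subset_iff] at hC hC'
    have h1 : insert v (C.erase v) ∈ XX ι p m := by
      rw [Finset.insert_erase hC.2]
      exact (mem_topX.1 hC.1).1
    have h1' : insert v (C'.erase v) ∈ XX ι p m := by
      rw [Finset.insert_erase hC'.2]
      exact (mem_topX.1 hC'.1).1
    obtain ⟨h2, -⟩ := chain_of_link hm (Finset.notMem_erase v C) h1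
    obtain ⟨h2', -⟩ := chain_of_link hm (Finset.notMem_erase v C') h1'
    have e : C.erase v = ((C.erase v).image (zz v)).image (yy v) := by
      rw [Finset.image_image]
      ext L'
      rw [Finset.mem_image]
      constructor
      · intro hL'
        exact ⟨L', hL', (h2 L' hL').2⟩
      · rintro ⟨L, hL, rfl⟩
        rw [Function.comp_apply, (h2 L hL).2]
        exact hL
    have e' : C'.erase v = ((C'.erase v).image (zz v)).image (yy v) := by
      rw [Finset.image_image]
      ext L'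
      rw [Finset.mem_image]
      constructor
      · intro hL'
        exact ⟨L', hL', (h2' L' hL').2⟩
      · rintro ⟨L, hL, rfl⟩
        rw [Function.comp_apply, (h2' L hL).2]
        exact hL
    have h3 : (C.erase v).image (zz v) = (C'.erase v).image (zz v) := h
    rw [← Finset.insert_erase hC.2, ← Finset.insert_erase hC'.2, e, e', h3]

end degree

/-- Bounded degree, uniformly in `m`. -/
theorem W_topX_le (ι : Type) [Fintype ι] [DecidableEq ι] (p : ℕ) [Fact p.Prime] :
    ∃ D' : ℕ, ∀ m, 3 ≤ m → ∀ v : Sb ι p m, W (topX ι p m) {v} ≤ D' := by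
  refine ⟨2 ^ (2 ^ (p ^ (2 * Fintype.card ι))), fun m hm v => ?_⟩
  by_cases hv : {v} ∈ XX ι p m
  · refine (W_topX_le_aux hm v).trans ?_
    rw [Finset.card_powerset]
    obtain ⟨d1, d2, -⟩ := finrank_vertex hm hv
    apply Nat.pow_le_pow_right (by norm_num)
    refine (card_subsOf_le v).trans ?_
    apply Nat.pow_le_pow_right (by norm_num)
    apply Nat.pow_le_pow_right (Fact.out : p.Prime).pos
    omega
  · have h0 : W (topX ι p m) {v} = 0 := by
      unfold W
      rw [Finset.card_eq_zero, Finset.filter_eq_empty_iff]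
      intro C hC hvC
      exact hv (downClosed_XX C (mem_topX.1 hC).1 {v} hvC)
    rw [h0]
    exact Nat.zero_le _

/-! ### Many vertices -/

section many

variable {p m : ℕ} [Fact p.Prime] {ι : Type} [Fintype ι] [DecidableEq ι]

theorem co_tt_pow (c d : ℕ) (hc : c < m) :
    co p m c (tt p m ^ d) = if c = d then 1 else 0 := by
  have : tt p m ^ d = AdjoinRoot.mk ((X : (ZMod p)[X]) ^ m) (X ^ d) := by
    rw [map_pow]; rfl
  rw [this, co_mk c _ hc, coeff_X_pow]

/-- The matrix `1 + t^c E_{ij}`. -/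
noncomputable def mTr (i j : ι) (hij : i ≠ j) (c : ℕ) : Matrix.SpecialLinearGroup ι (Rg p m) :=
  ⟨Matrix.transvection i j (tt p m ^ c), Matrix.det_transvection_of_ne i j hij _⟩

/-- The element `1 + t^c E_{ij}` of `G`. -/
noncomputable def gTr (i j : ι) (hij : i ≠ j) (c : ℕ) : GG ι p m :=
  Matrix.SpecialLinearGroup.toLin'_equiv (mTr i j hij c)

theorem gTr_smul (i j : ι) (hij : i ≠ j) (c : ℕ) (x : VV ι p m) :
    gTr (m := m) (p := p) i j hij c • x = x + Pi.single i (tt p m ^ c * x j) := by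
  rw [gTr, toLin_smul]
  change (Matrix.transvection i j (tt p m ^ c)).mulVec x = _
  rw [Matrix.transvection, Matrix.add_mulVec, Matrix.one_mulVec, Matrix.single_mulVec]
  rfl

theorem gTr_form_injective (i j : ι) (hij : i ≠ j) {c d : ℕ} (hc : 1 ≤ c) (hcm : c < m)
    (h : gTr (m := m) (p := p) i j hij c • W0 ι p m = gTr (m := m) (p := p) i j hij d • W0 ι p m) :
    c = d := by
  have hm0 : 0 < m := by omega
  by_contra hcd
  have h1 : gTr (m := m) (p := p) i j hij c • cst ι p m (Pi.single j 1) ∈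
      gTr (m := m) (p := p) i j hij d • W0 ι p m := by
    rw [← h]
    exact Submodule.smul_mem_pointwise_smul _ _ _ ⟨_, rfl⟩
  obtain ⟨_, ⟨v, rfl⟩, h2⟩ := (Submodule.mem_smul_pointwise_iff_exists _ _ _).1 h1
  rw [gTr_smul, gTr_smul] at h2
  have hj := congrFun h2 j
  have hi := congrFun h2 i
  simp only [cst_apply, Pi.add_apply, Pi.single_eq_of_ne hij.symm, add_zero, Pi.single_eq_same, map_one, mul_one, Pi.single_eq_of_ne hij, map_zero, zero_add] at hj hi
  rw [hj, mul_one] at hi
  have h3 := congrArg (co p m c) hi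
  rw [map_add, co_algebraMap c hm0, if_neg (by omega), zero_add, co_tt_pow c d hcm,
    co_tt_pow c c hcm, if_neg hcd, if_pos rfl] at h3
  exact zero_ne_one h3

theorem singleton_form_mem_XX (hm : 0 < m) (hι : 1 ≤ Fintype.card ι) {Wf : Sb ι p m}
    (hW : IsForm Wf) : {Wf} ∈ XX ι p m := by
  refine ⟨Wf, hW, {⊥}, ?_, ?_, ?_⟩
  · rw [Finset.coe_singleton]
    exact IsChain.singleton
  · intro S hS
    rw [Finset.mem_singleton] at hS
    rw [hS, bot_lt_iff_ne_bot]
    intro e
    have h1 := finrank_form hm hW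
    rw [e, finrank_bot] at h1
    omega
  · rw [Finset.image_singleton, vtx, Submodule.map_bot, sup_bot_eq]

end many

/-- Many vertices. -/
theorem many_vertices {ι : Type} [Fintype ι] [DecidableEq ι] (hι : 2 ≤ Fintype.card ι) (p : ℕ)
    [Fact p.Prime] (M : ℕ) :
    ∃ m, 3 ≤ m ∧ ∃ A : Finset (Sb ι p m), M ≤ A.card ∧ ∀ v ∈ A, {v} ∈ XX ι p m := by
  obtain ⟨i, j, hij⟩ := Fintype.exists_pair_of_one_lt_card (α := ι) (by omega)
  refine ⟨M + 3, by omega, (Finset.range M).image
    (fun c => gTr (m := M + 3) (p := p) i j hij (c + 1) • W0 ι p (M + 3)), ?_, ?_⟩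
  · rw [Finset.card_image_of_injOn, Finset.card_range]
    intro c hc d hd h
    rw [Finset.mem_coe, Finset.mem_range] at hc
    have := gTr_form_injective i j hij (by omega) (by omega) h
    omega
  · intro v hv
    obtain ⟨c, -, rfl⟩ := Finset.mem_image.1 hv
    exact singleton_form_mem_XX (by omega) (by omega) (isForm_W0.smul _)

end Vale.Agent.P067
end
end

section

section

/-!
# P067, geometry of the complex: umbrella file

(F1) GeomForm, (F2) GeomComp, (F3) GeomF3, (F6) GeomF6, (F7) GeomF7.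
-/
end
end

section

section

/-! # P067, pointwise formulas and support bounds for the chain operators -/

set_option autoImplicit false

open Finset

namespace Vale.Agent.P067

variable {α : Type*} {k : Type*} [Field k]

attribute [local instance] Classical.propDecidable

theorem lk_apply (x : α) (c : Finset α →₀ k) (s : Finset α) :
    lk x c s = if x ∈ s then 0 else c (insert x s) := by
  induction c using Finsupp.induction_linear with
  | zero => simp only [map_zero, Finsupp.coe_zero, Pi.zero_apply, ite_self]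
  | add f g hf hg =>
    rw [map_add, Finsupp.add_apply, hf, hg, Finsupp.add_apply]
    split_ifs <;> simp
  | single t a =>
    rw [lk_single]
    by_cases hxt : x ∈ t
    · rw [if_pos hxt, Finsupp.single_apply, Finsupp.single_apply]
      by_cases hxs : x ∈ s
      · rw [if_pos hxs, if_neg]
        rintro rfl
        exact notMem_erase x t hxs
      · rw [if_neg hxs]
        have : (t.erase x = s) ↔ (t = insert x s) := by
          constructor
          · rintro rfl
            rw [insert_erase hxt]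
          · rintro rfl
            rw [erase_insert hxs]
        simp [this]
    · rw [if_neg hxt]
      split_ifs with hxs
      · simp
      · rw [Finsupp.coe_zero, Pi.zero_apply, Finsupp.single_apply, if_neg]
        rintro rfl
        exact hxt (mem_insert_self _ _)

theorem del_apply (x : α) (c : Finset α →₀ k) (s : Finset α) :
    del x c s = if x ∈ s then 0 else c s := by
  induction c using Finsupp.induction_linear with
  | zero => simp only [map_zero, Finsupp.coe_zero, Pi.zero_apply, ite_self]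
  | add f g hf hg =>
    rw [map_add, Finsupp.add_apply, hf, hg, Finsupp.add_apply]
    split_ifs <;> simp
  | single t a =>
    rw [del_single]
    by_cases hxt : x ∈ t
    · rw [if_pos hxt]
      split_ifs with hxs
      · simp
      · rw [Finsupp.coe_zero, Pi.zero_apply, Finsupp.single_apply, if_neg]
        rintro rfl
        exact hxs hxt
    · rw [if_neg hxt, Finsupp.single_apply]
      split_ifs with h1 h2 h2
      · subst h1
        exact absurd h2 hxt
      · rfl
      · rfl
      · rfl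

theorem cone_apply (x : α) (c : Finset α →₀ k) (s : Finset α) :
    cone x c s = if x ∈ s then c (s.erase x) else 0 := by
  induction c using Finsupp.induction_linear with
  | zero => simp only [map_zero, Finsupp.coe_zero, Pi.zero_apply, ite_self]
  | add f g hf hg =>
    rw [map_add, Finsupp.add_apply, hf, hg, Finsupp.add_apply]
    split_ifs <;> simp
  | single t a =>
    rw [cone_single]
    by_cases hxt : x ∈ t
    · rw [if_pos hxt]
      split_ifs with hxs
      · rw [Finsupp.coe_zero, Pi.zero_apply, Finsupp.single_apply, if_neg]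
        rintro rfl
        exact notMem_erase x s hxt
      · simp
    · rw [if_neg hxt, Finsupp.single_apply, Finsupp.single_apply]
      by_cases hxs : x ∈ s
      · rw [if_pos hxs]
        have : (insert x t = s) ↔ (t = s.erase x) := by
          constructor
          · rintro rfl
            rw [erase_insert hxt]
          · rintro rfl
            rw [insert_erase hxs]
        simp [this]
      · rw [if_neg hxs, if_neg]
        rintro rfl
        exact hxs (mem_insert_self _ _)

theorem mem_support_lk {x : α} {c : Finset α →₀ k} {s : Finset α} :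
    s ∈ (lk x c).support ↔ x ∉ s ∧ insert x s ∈ c.support := by
  rw [Finsupp.mem_support_iff, lk_apply, Finsupp.mem_support_iff]
  by_cases h : x ∈ s <;> simp [h]

theorem mem_support_del {x : α} {c : Finset α →₀ k} {s : Finset α} :
    s ∈ (del x c).support ↔ x ∉ s ∧ s ∈ c.support := by
  rw [Finsupp.mem_support_iff, del_apply, Finsupp.mem_support_iff]
  by_cases h : x ∈ s <;> simp [h]

theorem mem_support_cone {x : α} {c : Finset α →₀ k} {s : Finset α} :
    s ∈ (cone x c).support ↔ x ∈ s ∧ s.erase x ∈ c.support := by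
  rw [Finsupp.mem_support_iff, cone_apply, Finsupp.mem_support_iff]
  by_cases h : x ∈ s <;> simp [h]

theorem exists_of_mem_support_cone {x : α} {c : Finset α →₀ k} {s : Finset α}
    (h : s ∈ (cone x c).support) : ∃ t ∈ c.support, x ∉ t ∧ s = insert x t := by
  rw [mem_support_cone] at h
  exact ⟨s.erase x, h.2, notMem_erase _ _, (insert_erase h.1).symm⟩

theorem card_support_cone_le (x : α) (c : Finset α →₀ k) :
    (cone x c).support.card ≤ c.support.card := by
  refine card_le_card_of_injOn (fun s => s.erase x) ?_ ?_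
  · intro s hs
    exact (mem_support_cone.1 hs).2
  · intro s hs t ht hst
    have h1 := (mem_support_cone.1 hs).1
    have h2 := (mem_support_cone.1 ht).1
    have : insert x (s.erase x) = insert x (t.erase x) := congrArg (insert x) hst
    rwa [insert_erase h1, insert_erase h2] at this

theorem card_support_lk_eq (x : α) (c : Finset α →₀ k) :
    (lk x c).support.card = (c.support.filter (fun s => x ∈ s)).card := by
  refine card_bij' (fun s _ => insert x s) (fun s _ => s.erase x) ?_ ?_ ?_ ?_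
  · intro s hs
    rw [mem_filter]
    exact ⟨(mem_support_lk.1 hs).2, mem_insert_self _ _⟩
  · intro s hs
    rw [mem_filter] at hs
    rw [mem_support_lk]
    exact ⟨notMem_erase _ _, by rw [insert_erase hs.2]; exact hs.1⟩
  · intro s hs
    exact erase_insert (mem_support_lk.1 hs).1
  · intro s hs
    exact insert_erase (mem_filter.1 hs).2

theorem support_del (x : α) (c : Finset α →₀ k) :
    (del x c).support = c.support.filter (fun s => x ∉ s) := by
  ext s
  rw [mem_support_del, mem_filter, and_comm]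

theorem card_support_lk_add_del (x : α) (c : Finset α →₀ k) :
    (lk x c).support.card + (del x c).support.card = c.support.card := by
  rw [card_support_lk_eq, support_del]
  exact card_filter_add_card_filter_not (s := c.support) (fun s => x ∈ s)

theorem card_support_add_le (c d : Finset α →₀ k) :
    (c + d).support.card ≤ c.support.card + d.support.card :=
  (card_le_card Finsupp.support_add).trans (card_union_le _ _)

theorem bd_lk (x : α) (c : Finset α →₀ k) : bd (lk x c) = lk x (bd c) := by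
  induction c using Finsupp.induction_linear with
  | zero => simp
  | add f g hf hg => simp only [map_add, hf, hg]
  | single s c =>
    rw [lk_single, bd_single, map_sum]
    by_cases h : x ∈ s
    · rw [if_pos h, bd_single, ← Finset.add_sum_erase _ _ h, lk_single,
        if_neg (notMem_erase x s), zero_add]
      refine Finset.sum_congr rfl (fun y hy => ?_)
      rw [mem_erase] at hy
      rw [lk_single, if_pos (mem_erase.2 ⟨fun h' => hy.1 h'.symm, h⟩), erase_right_comm]
    · rw [if_neg h, map_zero, Finset.sum_eq_zero]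
      intro y hy
      rw [lk_single, if_neg (fun h' => h (mem_of_mem_erase h'))]

theorem chainIn_zero (K : Set (Finset α)) (q : ℕ) : ChainIn K q (0 : Finset α →₀ k) := by
  intro s hs
  simp at hs

theorem ChainIn.add {K : Set (Finset α)} {q : ℕ} {c d : Finset α →₀ k}
    (hc : ChainIn K q c) (hd : ChainIn K q d) : ChainIn K q (c + d) := by
  intro s hs
  rcases mem_union.1 (Finsupp.support_add hs) with h | h
  · exact hc s h
  · exact hd s h

end Vale.Agent.P067
end
end

section

section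

/-! # P067, module M2: the abstract filling theorem (see blueprint part 2) -/

set_option autoImplicit false

open Finset

namespace Vale.Agent.P067

attribute [local instance] Classical.propDecidable

universe u

/-- Generic extension property up to `N` simultaneous conditions. -/
structure GenExt {α : Type u} [Lattice α] (C : Set α) (B T : α) (rk : α → ℕ) (N : ℕ) : Prop where
  mem_lt : ∀ x ∈ C, B < x ∧ x < T
  B_lt_T : B < T
  rk_B : rk B = 0
  rk_mono : ∀ x ∈ insert B (insert T C), ∀ y ∈ insert B (insert T C), x < y → rk x < rk y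
  gen : ∀ T' ∈ insert T C, ∀ A : Finset α, A.card ≤ N →
    (∀ S ∈ A, S ∈ insert B C ∧ S < T' ∧ rk S + 2 ≤ rk T') →
    ∃ v, v ≤ T' ∧ ∀ S ∈ A, S ⊔ v ∈ C ∧ S < S ⊔ v ∧ S ⊔ v < T'

/-- Chains of elements of `C` below `T'`, disjoint from and compatible with the chain `τ`. -/
def LkC {α : Type u} [Lattice α] (C : Set α) (T' : α) (τ : Finset α) : Set (Finset α) :=
  {ρ | (∀ x ∈ ρ, x ∈ C ∧ x < T') ∧ Disjoint ρ τ ∧ IsChain (· ≤ ·) ((ρ ∪ τ : Finset α) : Set α)}

theorem GenExt.mono {α : Type u} [Lattice α] {C : Set α} {B T : α} {rk : α → ℕ} {N N' : ℕ}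
    (h : GenExt C B T rk N) (hN : N' ≤ N) : GenExt C B T rk N' :=
  ⟨h.mem_lt, h.B_lt_T, h.rk_B, h.rk_mono, fun T' hT' A hA => h.gen T' hT' A (hA.trans hN)⟩

section

variable {α : Type u} [Lattice α] {C : Set α} {B T : α} {rk : α → ℕ} {N : ℕ}

theorem comparable_of_LkC {T' : α} {τ ρ : Finset α} (h : ρ ∈ LkC C T' τ) {x y : α}
    (hx : x ∈ ρ ∪ τ) (hy : y ∈ ρ ∪ τ) : x ≤ y ∨ y ≤ x :=
  h.2.2.total (by simpa using hx) (by simpa using hy)

theorem downClosed_LkC (T' : α) (τ : Finset α) : DownClosed (LkC C T' τ) := by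
  intro s hs t hts
  refine ⟨fun x hx => hs.1 x (hts hx), disjoint_of_subset_left hts hs.2.1, hs.2.2.mono ?_⟩
  intro x hx
  simp only [coe_union, Set.mem_union, mem_coe] at hx ⊢
  exact hx.imp (fun h => hts h) id

theorem insert_mem_LkC {T' a : α} {τ ρ : Finset α} (hρ : ρ ∈ LkC C T' τ) (haC : a ∈ C)
    (haT : a < T') (haτ : a ∉ τ) (hcmp : ∀ x ∈ ρ ∪ τ, a ≤ x ∨ x ≤ a) :
    insert a ρ ∈ LkC C T' τ := by
  refine ⟨?_, ?_, ?_⟩
  · intro x hx
    rcases mem_insert.1 hx with rfl | hx
    · exact ⟨haC, haT⟩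
    · exact hρ.1 x hx
  · rw [disjoint_insert_left]
    exact ⟨haτ, hρ.2.1⟩
  · rw [insert_union, coe_insert]
    exact hρ.2.2.insert (fun b hb _ => hcmp b (by simpa using hb))

theorem insert_mem_LkC_of_link {T' a : α} {τ ρ : Finset α} (haC : a ∈ C)
    (haT : a < T') (haτ : a ∉ τ) (hρ : ρ ∈ LkC C T' (insert a τ)) :
    insert a ρ ∈ LkC C T' τ := by
  refine ⟨?_, ?_, ?_⟩
  · intro x hx
    rcases mem_insert.1 hx with rfl | hx
    · exact ⟨haC, haT⟩
    · exact hρ.1 x hx
  · rw [disjoint_insert_left]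
    exact ⟨haτ, disjoint_of_subset_right (subset_insert _ _) hρ.2.1⟩
  · have := hρ.2.2
    rwa [union_insert, ← insert_union] at this

theorem mem_link_of_insert_mem {T' a : α} {τ ρ : Finset α} (haρ : a ∉ ρ)
    (hρ : insert a ρ ∈ LkC C T' τ) : ρ ∈ LkC C T' (insert a τ) := by
  refine ⟨fun x hx => hρ.1 x (mem_insert_of_mem hx), ?_, ?_⟩
  · rw [disjoint_insert_right]
    exact ⟨haρ, disjoint_of_subset_left (subset_insert _ _) hρ.2.1⟩
  · have := hρ.2.2
    rwa [insert_union, ← union_insert] at this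

theorem mem_LkC_of_mem_link {T' a : α} {τ ρ : Finset α}
    (hρ : ρ ∈ LkC C T' (insert a τ)) : ρ ∈ LkC C T' τ := by
  refine ⟨hρ.1, disjoint_of_subset_right (subset_insert _ _) hρ.2.1, hρ.2.2.mono ?_⟩
  intro x hx
  simp only [coe_union, Set.mem_union, mem_coe, mem_insert] at hx ⊢
  tauto

/-- Comparable elements of the chain part with equal rank are equal. -/
theorem eq_of_rk_eq (hG : GenExt C B T rk N) {x y : α} (hx : x ∈ C) (hy : y ∈ C)
    (hxy : x ≤ y ∨ y ≤ x) (hr : rk x = rk y) : x = y := by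
  by_contra hne
  rcases hxy with h | h
  · exact absurd (hG.rk_mono x (by simp [hx]) y (by simp [hy]) (lt_of_le_of_ne h hne)) (by omega)
  · exact absurd (hG.rk_mono y (by simp [hy]) x (by simp [hx])
      (lt_of_le_of_ne h (Ne.symm hne))) (by omega)

end

section steps

variable {α : Type u} [Lattice α] {k : Type} [Field k] [CharP k 2] {C : Set α} {B T : α}
  {rk : α → ℕ} {N : ℕ}

/-- Step 1: eliminate the vertices of the top rank. -/
theorem fill_step1 (hG : GenExt C B T rk N) {T' : α} {τ : Finset α} (q s C' : ℕ)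
    (hfill : 1 ≤ q → ∀ H ∈ C, H < T' → H ∉ τ → IsChain (· ≤ ·) ((insert H τ : Finset α) : Set α) →
      ∀ c : Finset α →₀ k, ChainIn (LkC C T' (insert H τ)) (q - 1) c → bd c = 0 →
        c.support.card ≤ s → ∃ y : Finset α →₀ k, ChainIn (LkC C T' (insert H τ)) q y ∧ bd y = c ∧
          y.support.card ≤ C') (n : ℕ) :
    ∀ c : Finset α →₀ k, ChainIn (LkC C T' τ) q c → bd c = 0 →
      (c.support.filter (fun σ => ∃ x ∈ σ, rk x + 1 = rk T')).card ≤ n → n ≤ s →
      ∃ y : Finset α →₀ k, ChainIn (LkC C T' τ) (q + 1) y ∧ y.support.card ≤ n * C' ∧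
        (c + bd y).support.card ≤ c.support.card + n * C' ∧
        ∀ σ ∈ (c + bd y).support, ∀ x ∈ σ, rk x + 1 ≠ rk T' := by
  induction n with
  | zero =>
    intro c hc _ hn _
    refine ⟨0, chainIn_zero _ _, by simp, by simp, ?_⟩
    rw [Nat.le_zero, card_eq_zero] at hn
    intro σ hσ x hx hr
    rw [map_zero, add_zero] at hσ
    have : σ ∈ c.support.filter (fun σ => ∃ x ∈ σ, rk x + 1 = rk T') :=
      mem_filter.2 ⟨hσ, x, hx, hr⟩
    rw [hn] at this
    exact absurd this (notMem_empty _)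
  | succ n ih =>
    intro c hc hbd hn hns
    by_cases hex : ∃ σ ∈ c.support, ∃ x ∈ σ, rk x + 1 = rk T'
    swap
    · refine ⟨0, chainIn_zero _ _, by simp, by simp only [map_zero, add_zero, le_add_iff_nonneg_right, zero_le], ?_⟩
      intro σ hσ x hx hr
      rw [map_zero, add_zero] at hσ
      exact hex ⟨σ, hσ, x, hx, hr⟩
    obtain ⟨σ, hσ, H, hH, hrH⟩ := hex
    have hσK := hc σ hσ
    have hq : 1 ≤ q := by
      rw [← hσK.2]
      exact card_pos.2 ⟨H, hH⟩
    have hHC : H ∈ C := (hσK.1.1 H hH).1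
    have hHT : H < T' := (hσK.1.1 H hH).2
    have hHτ : H ∉ τ := fun h => disjoint_left.1 hσK.1.2.1 hH h
    have hchain : IsChain (· ≤ ·) ((insert H τ : Finset α) : Set α) := by
      refine hσK.1.2.2.mono ?_
      intro x hx
      simp only [coe_insert, Set.mem_insert_iff, mem_coe] at hx
      simp only [coe_union, Set.mem_union, mem_coe]
      rcases hx with rfl | hx
      · exact Or.inl hH
      · exact Or.inr hx
    have hLcard : (lk H c).support.card ≤ s := by
      rw [card_support_lk_eq]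
      refine le_trans (card_le_card ?_) (hn.trans hns)
      intro t ht
      rw [mem_filter] at ht ⊢
      exact ⟨ht.1, H, ht.2, hrH⟩
    have hLin : ChainIn (LkC C T' (insert H τ)) (q - 1) (lk H c) := by
      intro t ht
      rw [mem_support_lk] at ht
      have h2 := hc _ ht.2
      refine ⟨mem_link_of_insert_mem ht.1 h2.1, ?_⟩
      rw [card_insert_of_notMem ht.1] at h2
      omega
    have hLbd : bd (lk H c) = 0 := by rw [bd_lk, hbd, map_zero]
    obtain ⟨y, hy1, hy2, hy3⟩ := hfill hq H hHC hHT hHτ hchain (lk H c) hLin hLbd hLcard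
    -- new chain
    have helim : c + bd (cone H y) = del H c + y := elim_vertex H c y hy2
    set c1 : Finset α →₀ k := del H c + y with hc1
    have hHy : ∀ t ∈ y.support, H ∉ t := by
      intro t ht h
      exact disjoint_left.1 (hy1 t ht).1.2.1 h (mem_insert_self _ _)
    have hcone : ChainIn (LkC C T' τ) (q + 1) (cone H y) := by
      intro t ht
      obtain ⟨t', ht', hn', rfl⟩ := exists_of_mem_support_cone ht
      refine ⟨insert_mem_LkC_of_link hHC hHT hHτ (hy1 t' ht').1, ?_⟩
      rw [card_insert_of_notMem hn', (hy1 t' ht').2]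
    have hc1in : ChainIn (LkC C T' τ) q c1 := by
      refine ChainIn.add ?_ ?_
      · intro t ht
        exact hc t (mem_support_del.1 ht).2
      · intro t ht
        exact ⟨mem_LkC_of_mem_link (hy1 t ht).1, (hy1 t ht).2⟩
    have hc1bd : bd c1 = 0 := by
      rw [← helim, map_add, hbd, bd_bd, add_zero]
    have hsub : c1.support.filter (fun σ => ∃ x ∈ σ, rk x + 1 = rk T') ⊆
        (c.support.filter (fun σ => ∃ x ∈ σ, rk x + 1 = rk T')).erase σ := by
      intro t ht
      rw [mem_filter] at ht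
      obtain ⟨ht, x, hx, hrx⟩ := ht
      rcases mem_union.1 (Finsupp.support_add ht) with h | h
      · rw [mem_support_del] at h
        rw [mem_erase, mem_filter]
        refine ⟨?_, h.2, x, hx, hrx⟩
        rintro rfl
        exact h.1 hH
      · exfalso
        have h1 := (hy1 t h).1
        have hcmp : x ≤ H ∨ H ≤ x := comparable_of_LkC h1 (mem_union_left _ hx)
          (mem_union_right _ (mem_insert_self _ _))
        have : x = H := eq_of_rk_eq hG (h1.1 x hx).1 hHC hcmp (by omega)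
        subst this
        exact hHy t h hx
    have hcard1 : (c1.support.filter (fun σ => ∃ x ∈ σ, rk x + 1 = rk T')).card ≤ n := by
      have hmem : σ ∈ c.support.filter (fun σ => ∃ x ∈ σ, rk x + 1 = rk T') :=
        mem_filter.2 ⟨hσ, H, hH, hrH⟩
      have := card_le_card hsub
      rw [card_erase_of_mem hmem] at this
      omega
    obtain ⟨z, hz1, hz2, hz3, hz4⟩ := ih c1 hc1in hc1bd hcard1 (by omega)
    have hsum : c + bd (cone H y + z) = c1 + bd z := by
      rw [map_add, ← add_assoc, helim]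
    refine ⟨cone H y + z, hcone.add hz1, ?_, ?_, ?_⟩
    · refine (card_support_add_le _ _).trans ?_
      have := card_support_cone_le H y
      rw [Nat.succ_mul]
      omega
    · rw [hsum]
      refine hz3.trans ?_
      have h1 : c1.support.card ≤ (del H c).support.card + y.support.card :=
        card_support_add_le _ _
      have h2 := card_support_lk_add_del H c
      rw [Nat.succ_mul]
      omega
    · rw [hsum]
      exact hz4

/-- Step 2: eliminate the vertices above `Sl` which do not contain `v`. -/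
theorem fill_step2 {T' Sl v : α} {τ : Finset α} (q : ℕ) (A : Finset α)
    (hτ : ∀ x ∈ τ, x ≤ Sl)
    (hA : ∀ S ∈ A, S ⊔ v ∈ C ∧ S < S ⊔ v ∧ S ⊔ v < T') (n : ℕ) :
    ∀ c : Finset α →₀ k, ChainIn (LkC C T' τ) q c → bd c = 0 →
      (∀ σ ∈ c.support, ∀ x ∈ σ, Sl < x → ¬ v ≤ x → x ∈ A) →
      (A.filter (fun x => Sl < x ∧ ¬ v ≤ x ∧ ∃ σ ∈ c.support, x ∈ σ)).card ≤ n →
      ∃ y : Finset α →₀ k, ChainIn (LkC C T' τ) (q + 1) y ∧
        y.support.card ≤ n * c.support.card ∧
        (c + bd y).support.card ≤ c.support.card ∧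
        ∀ σ ∈ (c + bd y).support, ∀ x ∈ σ, Sl < x → v ≤ x := by
  induction n with
  | zero =>
    intro c hc _ hcA hn
    refine ⟨0, chainIn_zero _ _, by simp, by simp only [map_zero, add_zero, Std.le_refl], ?_⟩
    rw [Nat.le_zero, card_eq_zero] at hn
    intro σ hσ x hx hSx
    rw [map_zero, add_zero] at hσ
    by_contra hv
    have : x ∈ A.filter (fun x => Sl < x ∧ ¬ v ≤ x ∧ ∃ σ ∈ c.support, x ∈ σ) :=
      mem_filter.2 ⟨hcA σ hσ x hx hSx hv, hSx, hv, σ, hσ, hx⟩
    rw [hn] at this
    exact absurd this (notMem_empty _)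
  | succ n ih =>
    intro c hc hbd hcA hn
    by_cases hex : (A.filter (fun x => Sl < x ∧ ¬ v ≤ x ∧ ∃ σ ∈ c.support, x ∈ σ)).Nonempty
    swap
    · rw [not_nonempty_iff_eq_empty] at hex
      refine ⟨0, chainIn_zero _ _, by simp, by simp, ?_⟩
      intro σ hσ x hx hSx
      rw [map_zero, add_zero] at hσ
      by_contra hv
      have : x ∈ A.filter (fun x => Sl < x ∧ ¬ v ≤ x ∧ ∃ σ ∈ c.support, x ∈ σ) :=
        mem_filter.2 ⟨hcA σ hσ x hx hSx hv, hSx, hv, σ, hσ, hx⟩
      rw [hex] at this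
      exact absurd this (notMem_empty _)
    obtain ⟨S, hSmax⟩ := exists_maximal hex
    have hSmem : S ∈ A.filter (fun x => Sl < x ∧ ¬ v ≤ x ∧ ∃ σ ∈ c.support, x ∈ σ) := hSmax.1
    rw [mem_filter] at hSmem
    obtain ⟨hSA, hSlS, hvS, σ0, hσ0, hSσ0⟩ := hSmem
    obtain ⟨hSv1, hSv2, hSv3⟩ := hA S hSA
    set a := S ⊔ v with ha
    have hSτ : S ∉ τ := fun h => absurd (hτ S h) (not_le_of_gt hSlS)
    have haτ : a ∉ τ := fun h => absurd (hτ a h) (not_le_of_gt (hSlS.trans hSv2))
    have hLbd : bd (lk S c) = 0 := by rw [bd_lk, hbd, map_zero]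
    set y : Finset α →₀ k := cone a (lk S c) with hy
    have hybd : bd y = lk S c := by
      rw [hy, bd_cone, hLbd, map_zero, add_zero]
    have helim : c + bd (cone S y) = del S c + y := elim_vertex S c y hybd
    -- comparability of `a` with the elements of simplices in the star of `S`
    have hcmp : ∀ t ∈ (lk S c).support, ∀ x ∈ (insert S t) ∪ τ, a ≤ x ∨ x ≤ a := by
      intro t ht x hx
      have h2 := (mem_support_lk.1 ht).2
      have hK := (hc _ h2).1
      rcases mem_union.1 hx with hx' | hx'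
      · rcases comparable_of_LkC hK (mem_union_left _ (mem_insert_self S t)) hx with h | h
        · rcases eq_or_lt_of_le h with rfl | hlt
          · exact Or.inr hSv2.le
          · left
            have hvx : v ≤ x := by
              by_contra hv
              have hSlx : Sl < x := hSlS.trans hlt
              have hxm : x ∈ A.filter (fun x => Sl < x ∧ ¬ v ≤ x ∧ ∃ σ ∈ c.support, x ∈ σ) :=
                mem_filter.2 ⟨hcA _ h2 x hx' hSlx hv, hSlx, hv, _, h2, hx'⟩
              exact absurd (hSmax.2 hxm h) (not_le_of_gt hlt)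
            exact sup_le h hvx
        · exact Or.inr (h.trans hSv2.le)
      · exact Or.inr ((hτ x hx').trans (hSlS.le.trans hSv2.le))
    have hyin : ChainIn (LkC C T' τ) q y := by
      intro t ht
      obtain ⟨t', ht', hn', rfl⟩ := exists_of_mem_support_cone ht
      have h2 := mem_support_lk.1 ht'
      have h3 := hc _ h2.2
      refine ⟨insert_mem_LkC (downClosed_LkC T' τ _ h3.1 _ (subset_insert _ _)) hSv1 hSv3 haτ
        ?_, ?_⟩
      · intro x hx
        refine hcmp t' ht' x ?_
        rcases mem_union.1 hx with h | h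
        · exact mem_union_left _ (mem_insert_of_mem h)
        · exact mem_union_right _ h
      · rw [card_insert_of_notMem hn']
        rw [card_insert_of_notMem h2.1] at h3
        exact h3.2
    have hconein : ChainIn (LkC C T' τ) (q + 1) (cone S y) := by
      intro t ht
      obtain ⟨t1, ht1, hn1, rfl⟩ := exists_of_mem_support_cone ht
      obtain ⟨t', ht', hn', rfl⟩ := exists_of_mem_support_cone ht1
      have h2 := mem_support_lk.1 ht'
      have h3 := hc _ h2.2
      constructor
      · rw [Finset.insert_comm]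
        exact insert_mem_LkC h3.1 hSv1 hSv3 haτ (hcmp t' ht')
      · rw [card_insert_of_notMem hn1, card_insert_of_notMem hn']
        rw [card_insert_of_notMem h2.1] at h3
        rw [h3.2]
    set c1 : Finset α →₀ k := del S c + y with hc1
    have hc1in : ChainIn (LkC C T' τ) q c1 :=
      ChainIn.add (fun t ht => hc t (mem_support_del.1 ht).2) hyin
    have hc1bd : bd c1 = 0 := by
      rw [← helim, map_add, hbd, bd_bd, add_zero]
    have hc1card : c1.support.card ≤ c.support.card := by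
      have h1 : c1.support.card ≤ (del S c).support.card + y.support.card :=
        card_support_add_le _ _
      have h2 := card_support_lk_add_del S c
      have h3 : y.support.card ≤ (lk S c).support.card := card_support_cone_le a (lk S c)
      omega
    -- vertices of c1
    have hvert : ∀ t ∈ c1.support, ∀ x ∈ t, x = a ∨ (x ≠ S ∧ ∃ σ ∈ c.support, x ∈ σ) := by
      intro t ht x hx
      rcases mem_union.1 (Finsupp.support_add ht) with h | h
      · rw [mem_support_del] at h
        right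
        refine ⟨?_, t, h.2, hx⟩
        rintro rfl
        exact h.1 hx
      · obtain ⟨t', ht', hn', rfl⟩ := exists_of_mem_support_cone h
        rcases mem_insert.1 hx with rfl | hx'
        · exact Or.inl rfl
        · right
          have h2 := mem_support_lk.1 ht'
          refine ⟨?_, _, h2.2, mem_insert_of_mem hx'⟩
          rintro rfl
          exact h2.1 hx'
    have hva : v ≤ a := le_sup_right
    have hc1A : ∀ σ ∈ c1.support, ∀ x ∈ σ, Sl < x → ¬ v ≤ x → x ∈ A := by
      intro t ht x hx hSx hv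
      rcases hvert t ht x hx with rfl | ⟨_, σ, hσ, hxσ⟩
      · exact absurd hva hv
      · exact hcA σ hσ x hxσ hSx hv
    have hcard1 : (A.filter (fun x => Sl < x ∧ ¬ v ≤ x ∧ ∃ σ ∈ c1.support, x ∈ σ)).card ≤ n := by
      have hsub : A.filter (fun x => Sl < x ∧ ¬ v ≤ x ∧ ∃ σ ∈ c1.support, x ∈ σ) ⊆
          (A.filter (fun x => Sl < x ∧ ¬ v ≤ x ∧ ∃ σ ∈ c.support, x ∈ σ)).erase S := by
        intro x hx
        rw [mem_filter] at hx
        obtain ⟨hxA, hSx, hvx, t, ht, hxt⟩ := hx
        rcases hvert t ht x hxt with rfl | ⟨hne, σ, hσ, hxσ⟩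
        · exact absurd hva hvx
        · exact mem_erase.2 ⟨hne, mem_filter.2 ⟨hxA, hSx, hvx, σ, hσ, hxσ⟩⟩
      have := card_le_card hsub
      rw [card_erase_of_mem hSmax.1] at this
      omega
    obtain ⟨z, hz1, hz2, hz3, hz4⟩ := ih c1 hc1in hc1bd hc1A hcard1
    have hsum : c + bd (cone S y + z) = c1 + bd z := by
      rw [map_add, ← add_assoc, helim]
    refine ⟨cone S y + z, hconein.add hz1, ?_, ?_, ?_⟩
    · refine (card_support_add_le _ _).trans ?_
      have h1 := card_support_cone_le S y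
      have h2 : y.support.card ≤ (lk S c).support.card := card_support_cone_le a (lk S c)
      have h3 := card_support_lk_add_del S c
      have h4 : n * c1.support.card ≤ n * c.support.card := Nat.mul_le_mul_left _ hc1card
      rw [Nat.succ_mul]
      omega
    · rw [hsum]
      exact hz3.trans hc1card
    · rw [hsum]
      exact hz4

end steps

section main

variable {α : Type u} [Lattice α] {k : Type} [Field k] [CharP k 2] {C : Set α} {B T : α}
  {rk : α → ℕ}

/-- Reduction when the top element of `τ` is a coatom below `T'`. -/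
theorem LkC_eq_of_coatom {N : ℕ} (hG : GenExt C B T rk N) {T' m : α} (hT' : T' ∈ insert T C)
    {τ : Finset α} (hm : m ∈ τ) (hτ : ∀ x ∈ τ, x ∈ C ∧ x < T') (hmax : ∀ x ∈ τ, x ≤ m)
    (hrk : rk m + 1 = rk T') : LkC C T' τ = LkC C m (τ.erase m) := by
  have hmC := (hτ m hm).1
  have hmT := (hτ m hm).2
  have hτeq : insert m (τ.erase m) = τ := insert_erase hm
  ext ρ
  constructor
  · intro hρ
    refine ⟨?_, disjoint_of_subset_right (erase_subset _ _) hρ.2.1, hρ.2.2.mono ?_⟩
    · intro x hx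
      refine ⟨(hρ.1 x hx).1, ?_⟩
      have hne : x ≠ m := by
        rintro rfl
        exact disjoint_left.1 hρ.2.1 hx hm
      rcases comparable_of_LkC hρ (mem_union_left _ hx) (mem_union_right _ hm) with h | h
      · exact lt_of_le_of_ne h hne
      · exfalso
        have hlt := lt_of_le_of_ne h (Ne.symm hne)
        have h1 := hG.rk_mono m (by simp [hmC]) x (by simp [(hρ.1 x hx).1]) hlt
        have h2 := hG.rk_mono x (by simp [(hρ.1 x hx).1]) T' (by
          rcases hT' with rfl | h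
          · simp
          · simp [h]) (hρ.1 x hx).2
        omega
    · intro x hx
      simp only [coe_union, Set.mem_union, mem_coe, mem_erase] at hx ⊢
      (clear * - hx; tauto)
  · intro hρ
    refine ⟨fun x hx => ⟨(hρ.1 x hx).1, (hρ.1 x hx).2.trans hmT⟩, ?_, ?_⟩
    · rw [← hτeq, disjoint_insert_right]
      exact ⟨fun h => lt_irrefl _ (hρ.1 m h).2, hρ.2.1⟩
    · rw [← hτeq, union_insert, coe_insert]
      refine hρ.2.2.insert (fun b hb _ => Or.inr ?_)
      simp only [coe_union, Set.mem_union, mem_coe, mem_erase] at hb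
      rcases hb with hb | hb
      · exact (hρ.1 b hb).2.le
      · exact hmax b hb.2

/-- The main step, when the top element `Sl` of `insert B τ` has corank at least two in `T'`. -/
theorem fill_main {T' Sl : α} {τ : Finset α} (q s C' : ℕ) {N : ℕ}
    (hG : GenExt C B T rk N) (hN : 1 + (s + s * C') * q ≤ N)
    (hT' : T' ∈ insert T C) (hSl : Sl ∈ insert B C)
    (hSlT : Sl < T') (hrk : rk Sl + 2 ≤ rk T') (hτ : ∀ x ∈ τ, x ≤ Sl)
    (hSlτ : Sl = B ∨ Sl ∈ τ)
    (hfill : 1 ≤ q → ∀ H ∈ C, H < T' → H ∉ τ → IsChain (· ≤ ·) ((insert H τ : Finset α) : Set α) →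
      ∀ c : Finset α →₀ k, ChainIn (LkC C T' (insert H τ)) (q - 1) c → bd c = 0 →
        c.support.card ≤ s → ∃ y : Finset α →₀ k, ChainIn (LkC C T' (insert H τ)) q y ∧ bd y = c ∧
          y.support.card ≤ C')
    (c : Finset α →₀ k) (hc : ChainIn (LkC C T' τ) q c) (hbd : bd c = 0)
    (hcs : c.support.card ≤ s) :
    ∃ y : Finset α →₀ k, ChainIn (LkC C T' τ) (q + 1) y ∧ bd y = c ∧
      y.support.card ≤ s * C' + (1 + (s + s * C') * q) * (s + s * C') + (s + s * C') := by
  obtain ⟨y1, hy1, hy1s, hc1s, hc1r⟩ := fill_step1 hG q s C' hfill s c hc hbd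
    ((card_filter_le _ _).trans hcs) le_rfl
  set c1 := c + bd y1 with hc1
  have hbdin : ∀ y : Finset α →₀ k, ChainIn (LkC C T' τ) (q + 1) y →
      ChainIn (LkC C T' τ) q (bd y) := by
    intro y hy t ht
    have : bd y = y.sum (fun s a => ∑ v ∈ s, Finsupp.single (s.erase v) a) := by
      conv_lhs => rw [← Finsupp.sum_single y]
      rw [Finsupp.sum, map_sum, Finsupp.sum]
      exact sum_congr rfl (fun s _ => bd_single _ _)
    rw [this, Finsupp.sum] at ht
    obtain ⟨u, hu, hu'⟩ := Finset.mem_biUnion.1 (Finsupp.support_finsetSum ht)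
    obtain ⟨v, hv, hv'⟩ := Finset.mem_biUnion.1 (Finsupp.support_finsetSum hu')
    have hteq := Finsupp.support_single_subset hv'
    rw [mem_singleton] at hteq
    subst hteq
    refine ⟨downClosed_LkC T' τ _ (hy u hu).1 _ (erase_subset _ _), ?_⟩
    rw [card_erase_of_mem hv, (hy u hu).2]
    rfl
  have hc1in : ChainIn (LkC C T' τ) q c1 := hc.add (hbdin y1 hy1)
  have hc1bd : bd c1 = 0 := by rw [hc1, map_add, hbd, bd_bd, add_zero]
  have hc1s' : c1.support.card ≤ s + s * C' := by omega
  -- the set of conditions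
  set V : Finset α := c1.support.biUnion id with hV
  set A : Finset α := insert Sl (V.filter (fun x => Sl < x)) with hA
  have hVcard : V.card ≤ (s + s * C') * q := by
    calc V.card ≤ c1.support.card * q := card_biUnion_le_card_mul _ _ _
          (fun t ht => (hc1in t ht).2.le)
      _ ≤ _ := Nat.mul_le_mul_right _ hc1s'
  have hAcard : A.card ≤ 1 + (s + s * C') * q := by
    have h1 : A.card ≤ (V.filter (fun x => Sl < x)).card + 1 := card_insert_le Sl _
    have h2 := card_filter_le V (fun x => Sl < x)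
    omega
  obtain ⟨v, hvT, hv⟩ := hG.gen T' hT' A (hAcard.trans hN) (by
    intro S hS
    rcases mem_insert.1 hS with rfl | hS
    · exact ⟨hSl, hSlT, hrk⟩
    · rw [mem_filter] at hS
      obtain ⟨t, ht, hSt⟩ := mem_biUnion.1 hS.1
      have h1 := (hc1in t ht).1.1 S hSt
      refine ⟨Set.mem_insert_of_mem _ h1.1, h1.2, ?_⟩
      have h2 := hG.rk_mono S (by simp [h1.1]) T' (by
          rcases hT' with rfl | h
          · simp
          · simp [h]) h1.2
      have h3 := hc1r t ht S hSt
      omega)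
  obtain ⟨y2, hy2, hy2s, hc2s, hc2v⟩ := fill_step2 (k := k) (C := C) (T' := T') (Sl := Sl) (v := v)
    (τ := τ) q A hτ hv (1 + (s + s * C') * q) c1 hc1in hc1bd
    (fun t ht x hx hSx _ => mem_insert_of_mem (mem_filter.2 ⟨mem_biUnion.2 ⟨t, ht, hx⟩, hSx⟩))
    ((card_filter_le _ _).trans hAcard)
  set c2 := c1 + bd y2 with hc2
  have hc2in : ChainIn (LkC C T' τ) q c2 := hc1in.add (hbdin y2 hy2)
  have hc2bd : bd c2 = 0 := by rw [hc2, map_add, hc1bd, bd_bd, add_zero]
  obtain ⟨haC, haSl, haT⟩ := hv Sl (mem_insert_self _ _)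
  set a := Sl ⊔ v with ha
  have haτ : a ∉ τ := fun h => absurd (hτ a h) (not_le_of_gt haSl)
  have hy3 : ChainIn (LkC C T' τ) (q + 1) (cone a c2) := by
    intro t ht
    obtain ⟨t', ht', hn', rfl⟩ := exists_of_mem_support_cone ht
    have hK := hc2in t' ht'
    refine ⟨insert_mem_LkC hK.1 haC haT haτ ?_, ?_⟩
    · intro x hx
      rcases mem_union.1 hx with hx' | hx'
      · have hxC := (hK.1.1 x hx').1
        have hcmp : x ≤ Sl ∨ Sl ≤ x := by
          rcases hSlτ with h | h
          · right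
            rw [h]
            exact (hG.mem_lt x hxC).1.le
          · exact comparable_of_LkC hK.1 hx (mem_union_right _ h)
        rcases hcmp with h | h
        · exact Or.inr (h.trans haSl.le)
        · rcases eq_or_lt_of_le h with rfl | hlt
          · exact Or.inr haSl.le
          · exact Or.inl (sup_le h (hc2v t' ht' x hx' hlt))
      · exact Or.inr ((hτ x hx').trans haSl.le)
    · rw [card_insert_of_notMem hn', hK.2]
  have hy3bd : bd (cone a c2) = c2 := by rw [bd_cone, hc2bd, map_zero, add_zero]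
  refine ⟨y1 + y2 + cone a c2, (hy1.add hy2).add hy3, ?_, ?_⟩
  · rw [map_add, map_add, hy3bd, hc2, hc1]
    calc bd y1 + bd y2 + (c + bd y1 + bd y2)
        = c + (bd y1 + bd y1) + (bd y2 + bd y2) := by abel
      _ = c := by rw [add_self_zero, add_self_zero, add_zero, add_zero]
  · have h1 := card_support_add_le (y1 + y2) (cone a c2)
    have h2 := card_support_add_le y1 y2
    have h3 := card_support_cone_le a c2
    have h4 : (1 + (s + s * C') * q) * c1.support.card ≤
        (1 + (s + s * C') * q) * (s + s * C') := Nat.mul_le_mul_left _ hc1s'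
    omega

end main

/-- THEOREM M2: bounded fillings. `e = rk T' - 1 - |τ|` is the number of free ranks. -/
theorem fill (e : ℕ) : ∀ q s : ℕ, q + 1 ≤ e → ∃ C0 N0 : ℕ,
    ∀ (α : Type u) [Lattice α] (k : Type) [Field k] [CharP k 2] (C : Set α) (B T : α)
      (rk : α → ℕ), GenExt C B T rk N0 → ∀ T' ∈ insert T C, ∀ τ : Finset α,
      (∀ x ∈ τ, x ∈ C ∧ x < T') → IsChain (· ≤ ·) (τ : Set α) → rk T' = e + 1 + τ.card →
      ∀ c : Finset α →₀ k, ChainIn (LkC C T' τ) q c → bd c = 0 → c.support.card ≤ s →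
        ∃ y : Finset α →₀ k, ChainIn (LkC C T' τ) (q + 1) y ∧ bd y = c ∧
          y.support.card ≤ C0 := by
  induction e with
  | zero =>
    intro q s h
    omega
  | succ e ih =>
    intro q s hqe
    -- constants from the induction hypothesis
    have hIH : ∃ C' N' : ℕ, 1 ≤ q → ∀ (α : Type u) [Lattice α] (k : Type) [Field k] [CharP k 2]
        (C : Set α) (B T : α) (rk : α → ℕ), GenExt C B T rk N' → ∀ T' ∈ insert T C,
        ∀ τ : Finset α, (∀ x ∈ τ, x ∈ C ∧ x < T') → IsChain (· ≤ ·) (τ : Set α) →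
        rk T' = e + 1 + τ.card → ∀ c : Finset α →₀ k, ChainIn (LkC C T' τ) (q - 1) c → bd c = 0 →
        c.support.card ≤ s → ∃ y : Finset α →₀ k, ChainIn (LkC C T' τ) q y ∧ bd y = c ∧
          y.support.card ≤ C' := by
      by_cases hq : 1 ≤ q
      · obtain ⟨C', N', h⟩ := ih (q - 1) s (by omega)
        refine ⟨C', N', fun _ => ?_⟩
        rwa [Nat.sub_add_cancel hq] at h
      · exact ⟨0, 0, fun h => absurd h hq⟩
    obtain ⟨C', N', hC'⟩ := hIH
    refine ⟨s * C' + (1 + (s + s * C') * q) * (s + s * C') + (s + s * C'),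
      max N' (1 + (s + s * C') * q), ?_⟩
    intro α _ k _ _ C B T rk hG T' hT' τ
    -- induction on the cardinality of τ
    induction hn : τ.card generalizing T' τ with
    | zero =>
      intro hτ hch hrk c hc hbd hcs
      rw [card_eq_zero] at hn
      subst hn
      refine fill_main (Sl := B) q s C' hG (le_max_right _ _) hT' (Set.mem_insert _ _) ?_ ?_
        (by simp) (Or.inl rfl) ?_ c hc hbd hcs
      · rcases hT' with rfl | h
        · exact hG.B_lt_T
        · exact (hG.mem_lt _ h).1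
      · rw [hG.rk_B, hrk]
        omega
      · intro hq H hH hHT hHτ hchH
        refine hC' hq α k C B T rk (hG.mono (le_max_left _ _)) T' hT' _ ?_ hchH ?_
        · intro x hx
          rcases mem_insert.1 hx with rfl | hx
          · exact ⟨hH, hHT⟩
          · exact hτ x hx
        · rw [card_insert_of_notMem hHτ, hrk]
          simp
    | succ n ihn =>
      intro hτ hch hrk c hc hbd hcs
      have hne : τ.Nonempty := by
        rw [← card_pos]
        omega
      obtain ⟨m, hm, hmmax⟩ := exists_max_image τ rk hne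
      have hle : ∀ x ∈ τ, x ≤ m := by
        intro x hx
        rcases hch.total (mem_coe.2 hx) (mem_coe.2 hm) with h | h
        · exact h
        · rcases eq_or_lt_of_le h with h' | h'
          · exact h'.symm.le
          · have := hG.rk_mono m (by simp [(hτ m hm).1]) x (by simp [(hτ x hx).1]) h'
            have := hmmax x hx
            omega
      have hmC := (hτ m hm).1
      have hmT := (hτ m hm).2
      have hrkm : rk m < rk T' := hG.rk_mono m (by simp [hmC]) T' (by
          rcases hT' with rfl | h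
          · simp
          · simp [h]) hmT
      by_cases hcase : rk m + 1 = rk T'
      · rw [LkC_eq_of_coatom hG hT' hm hτ hle hcase] at hc ⊢
        have hcard : (τ.erase m).card = n := by
          rw [card_erase_of_mem hm, hn]
          rfl
        refine ihn m (Set.mem_insert_of_mem _ hmC) (τ.erase m) hcard ?_ ?_ ?_ c hc hbd hcs
        · intro x hx
          rw [mem_erase] at hx
          exact ⟨(hτ x hx.2).1, lt_of_le_of_ne (hle x hx.2) hx.1⟩
        · refine hch.mono ?_
          intro x hx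
          simp only [mem_coe, mem_erase] at hx ⊢
          exact hx.2
        · omega
      · refine fill_main (Sl := m) q s C' hG (le_max_right _ _) hT'
          (Set.mem_insert_of_mem _ hmC) hmT (by omega) hle (Or.inr hm) ?_ c hc hbd hcs
        intro hq H hH hHT hHτ hchH
        refine hC' hq α k C B T rk (hG.mono (le_max_left _ _)) T' hT' _ ?_ hchH ?_
        · intro x hx
          rcases mem_insert.1 hx with rfl | hx
          · exact ⟨hH, hHT⟩
          · exact hτ x hx
        · rw [card_insert_of_notMem hHτ, hn, hrk]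
          omega

end Vale.Agent.P067
end
end

section

section

/-! # P067, module M7: generic extension for the geometric classes (F4), (F5) -/

set_option autoImplicit false

open Finset

namespace Vale.Agent.P067

attribute [local instance] Classical.propDecidable

variable {F : Type*} [Field F] [Fintype F] {V : Type*} [AddCommGroup V] [Module F V]

/-- Avoidance: a subspace not contained in any of at most `|F|` subspaces has a vector
outside all of them. -/
theorem exists_avoid (T : Submodule F V) (A : Finset (Submodule F V))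
    (hA : ∀ b ∈ A, ¬ T ≤ b) (hcard : A.card ≤ Fintype.card F) :
    ∃ x ∈ T, ∀ b ∈ A, x ∉ b := by
  induction A using Finset.induction_on with
  | empty => exact ⟨0, T.zero_mem, fun b hb => absurd hb (Finset.notMem_empty b)⟩
  | insert b A hb ih =>
    rw [Finset.card_insert_of_notMem hb] at hcard
    obtain ⟨y, hyT, hy⟩ := ih (fun c hc => hA c (Finset.mem_insert_of_mem hc)) (by omega)
    by_cases hyb : y ∈ b
    · have hnot : ¬ T ≤ b := hA b (Finset.mem_insert_self _ _)
      obtain ⟨x, hxT, hxb⟩ := SetLike.not_le_iff_exists.mp hnot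
      have hex : ∃ c : F, ∀ b' ∈ A, x + c • y ∉ b' := by
        by_contra hcon
        push Not at hcon
        choose f hf1 hf2 using hcon
        have hinj : Function.Injective f := by
          intro c c' hcc
          by_contra hne
          have h1 : x + c • y ∈ f c := hf2 c
          have h2 : x + c' • y ∈ f c := by rw [hcc]; exact hf2 c'
          have h3 : (c - c') • y ∈ f c := by
            have := (f c).sub_mem h1 h2
            have heq : x + c • y - (x + c' • y) = (c - c') • y := by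
              rw [sub_smul]; abel
            rwa [heq] at this
          have h4 : y ∈ f c := by
            have hne' : c - c' ≠ 0 := sub_ne_zero.mpr hne
            have := (f c).smul_mem (c - c')⁻¹ h3
            rwa [smul_smul, inv_mul_cancel₀ hne', one_smul] at this
          exact hy _ (hf1 c) h4
        have hle : Fintype.card F ≤ A.card := by
          rw [← Fintype.card_coe A]
          exact Fintype.card_le_of_injective (fun c => (⟨f c, hf1 c⟩ : A))
            (fun c c' h => hinj (congrArg Subtype.val h))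
        omega
      obtain ⟨c, hc⟩ := hex
      refine ⟨x + c • y, T.add_mem hxT (T.smul_mem c hyT), ?_⟩
      intro b' hb'
      rcases Finset.mem_insert.mp hb' with rfl | h
      · intro hmem
        apply hxb
        have := b'.sub_mem hmem (b'.smul_mem c hyb)
        rwa [add_sub_cancel_right] at this
      · exact hc b' h
    · refine ⟨y, hyT, ?_⟩
      intro b' hb'
      rcases Finset.mem_insert.mp hb' with rfl | h
      · exact hyb
      · exact hy b' h

/-- The class `C_Λ` of blueprint (F3), in terms of `S`, `N = tS` and `Λ`. -/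
def CC (S N Λ : Submodule F V) : Set (Submodule F V) :=
  {Z | S < Z ∧ Z < Λ ∧ (Z ⊓ (S ⊔ N) = S ∨ Z ⊔ N = Λ)}

/-- Lower part of `C_Λ`. -/
def CLow (S N Λ : Submodule F V) : Set (Submodule F V) :=
  {Z | S < Z ∧ Z < Λ ∧ Z ⊔ N = Λ}

/-- rank function -/
noncomputable def rkS (S : Submodule F V) (Z : Submodule F V) : ℕ :=
  Module.finrank F Z - Module.finrank F S

section Upper

variable [FiniteDimensional F V] {S N Λ : Submodule F V}

theorem rkS_lt {Z Z' : Submodule F V} (h : S ≤ Z) (h' : Z < Z') : rkS S Z < rkS S Z' := by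
  unfold rkS
  have h1 := Submodule.finrank_mono (R := F) h
  have h2 := Submodule.finrank_lt_finrank_of_lt h'
  omega

/-- adding one generic vector stays in the class -/
theorem CC_sup_span {T' Sa : Submodule F V} (hT' : T' ≤ Λ)
    (hSa : Sa = S ∨ Sa ∈ CC S N Λ) {x : V} (hxT : x ∈ T') (hxS : x ∉ Sa)
    (hx : Sa ⊔ N ≠ Λ → x ∉ Sa ⊔ N) (hlt : Sa ⊔ Submodule.span F {x} < T') :
    Sa ⊔ Submodule.span F {x} ∈ CC S N Λ := by
  have hSSa : S ≤ Sa := by
    rcases hSa with h | h
    · exact h.ge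
    · exact h.1.le
  have hxne : Sa < Sa ⊔ Submodule.span F {x} := by
    refine lt_of_le_of_ne le_sup_left ?_
    intro h
    apply hxS
    rw [h]
    exact Submodule.mem_sup_right (Submodule.mem_span_singleton_self x)
  refine ⟨lt_of_le_of_lt hSSa hxne, lt_of_lt_of_le hlt hT', ?_⟩
  by_cases hN : Sa ⊔ N = Λ
  · right
    apply le_antisymm
    · apply sup_le (hlt.le.trans hT')
      rw [← hN]; exact le_sup_right
    · rw [← hN]
      exact sup_le_sup_right le_sup_left N
  · left
    have hup : Sa ⊓ (S ⊔ N) = S := by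
      rcases hSa with h | h
      · rw [h]; exact inf_eq_left.mpr le_sup_left
      · rcases h.2.2 with h' | h'
        · exact h'
        · exact absurd h' hN
    apply le_antisymm
    · intro y hy
      obtain ⟨hy1, hy2⟩ := Submodule.mem_inf.mp hy
      obtain ⟨a, ha, z, hz, rfl⟩ := Submodule.mem_sup.mp hy1
      obtain ⟨c, rfl⟩ := Submodule.mem_span_singleton.mp hz
      by_cases hc : c = 0
      · subst hc
        rw [zero_smul, add_zero] at hy2 ⊢
        rw [← hup]
        exact Submodule.mem_inf.mpr ⟨ha, hy2⟩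
      · exfalso
        apply hx hN
        have h1 : a + c • x ∈ Sa ⊔ N := (sup_le_sup_right hSSa N) hy2
        have h2 : c • x ∈ Sa ⊔ N := by
          have := (Sa ⊔ N).sub_mem h1 (Submodule.mem_sup_left (T := N) ha)
          rwa [add_sub_cancel_left] at this
        have := (Sa ⊔ N).smul_mem c⁻¹ h2
        rwa [smul_smul, inv_mul_cancel₀ hc, one_smul] at this
    · exact le_inf (hSSa.trans hxne.le) le_sup_left

/-- the bad subspace `Sa + N` does not contain `T'` -/
theorem CC_bad {T' Sa : Submodule F V} (hNΛ : N ≤ Λ) (hSN : S ⊓ N = ⊥)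
    (hT' : T' = Λ ∨ T' ∈ CC S N Λ) (hSa : Sa = S ∨ Sa ∈ CC S N Λ) (hlt : Sa < T')
    (hN : Sa ⊔ N ≠ Λ) : ¬ T' ≤ Sa ⊔ N := by
  intro hle
  have hSaΛ : Sa ≤ Λ := by
    rcases hT' with h | h
    · exact hlt.le.trans h.le
    · exact hlt.le.trans h.2.1.le
  have hcase : T' ⊔ N = Λ ∨ T' ⊓ (S ⊔ N) = S := by
    rcases hT' with h | h
    · left; rw [h]; exact sup_eq_left.mpr hNΛ
    · rcases h.2.2 with h' | h'
      · exact Or.inr h'
      · exact Or.inl h'
  rcases hcase with h | h
  · apply hN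
    apply le_antisymm (sup_le hSaΛ hNΛ)
    rw [← h]
    exact sup_le hle le_sup_right
  · -- T' ⊓ N = ⊥
    have h1 : T' ⊓ N ≤ ⊥ := by
      rw [← hSN]
      refine le_inf ?_ inf_le_right
      rw [← h]
      exact le_inf inf_le_left (inf_le_right.trans le_sup_right)
    have h2 : T' ≤ Sa := by
      intro y hy
      obtain ⟨a, ha, z, hz, rfl⟩ := Submodule.mem_sup.mp (hle hy)
      have hz' : z ∈ T' := by
        have := T'.sub_mem hy (hlt.le ha)
        rwa [add_sub_cancel_left] at this
      have hz0 : z ∈ T' ⊓ N := Submodule.mem_inf.mpr ⟨hz', hz⟩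
      have hz1 : z = 0 := (Submodule.mem_bot F).mp (h1 hz0)
      rw [hz1, add_zero]
      exact ha
    exact absurd (lt_of_lt_of_le hlt h2) (lt_irrefl _)

theorem sup_span_lt {T' Sa : Submodule F V} (hlt : Sa < T') {x : V} (hxT : x ∈ T')
    (hrk : rkS S Sa + 2 ≤ rkS S T') (hS : S ≤ Sa) : Sa ⊔ Submodule.span F {x} < T' := by
  refine lt_of_le_of_ne ?_ ?_
  · apply sup_le hlt.le
    rw [Submodule.span_singleton_le_iff_mem]
    exact hxT
  · intro h
    have h1 : Module.finrank F T' ≤ Module.finrank F Sa + 1 := by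
      rw [← h]
      refine (Submodule.finrank_add_le_finrank_add_finrank _ _).trans ?_
      have h5 : Module.finrank F (Submodule.span F {x}) ≤ 1 := by
        have h6 := finrank_span_le_card (R := F) ({x} : Set V)
        simpa using h6
      omega
    have h2 := Submodule.finrank_mono (R := F) hS
    unfold rkS at hrk
    omega

/-- General form of (F4): a subclass `C' ⊆ CC`, with one extra bad subspace for each `Sa`. -/
theorem genExt_general (hSΛ : S < Λ) (hNΛ : N ≤ Λ) (hSN : S ⊓ N = ⊥) (C' : Set (Submodule F V))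
    (hC' : C' ⊆ CC S N Λ) (bad : Submodule F V → Submodule F V → Submodule F V)
    (hbad : ∀ T' ∈ insert Λ C', ∀ Sa ∈ insert S C', Sa < T' → rkS S Sa + 2 ≤ rkS S T' →
      ¬ T' ≤ bad T' Sa)
    (hgood : ∀ T' ∈ insert Λ C', ∀ Sa ∈ insert S C', Sa < T' → rkS S Sa + 2 ≤ rkS S T' →
      ∀ x ∈ T', x ∉ bad T' Sa → Sa ⊔ Submodule.span F {x} ∈ CC S N Λ →
        Sa ⊔ Submodule.span F {x} ∈ C')
    (M : ℕ) (hM : 3 * M ≤ Fintype.card F) :
    ∀ T' ∈ insert Λ C', ∀ A : Finset (Submodule F V), A.card ≤ M →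
    (∀ Sa ∈ A, Sa ∈ insert S C' ∧ Sa < T' ∧ rkS S Sa + 2 ≤ rkS S T') →
    ∃ v, v ≤ T' ∧ ∀ Sa ∈ A, Sa ⊔ v ∈ C' ∧ Sa < Sa ⊔ v ∧ Sa ⊔ v < T' := by
  intro T' hT' A hA hAp
  have hT'C : T' = Λ ∨ T' ∈ CC S N Λ := by
    rcases Set.mem_insert_iff.mp hT' with h | h
    · exact Or.inl h
    · exact Or.inr (hC' h)
  have hT'Λ : T' ≤ Λ := by
    rcases hT'C with h | h
    · exact h.le
    · exact h.2.1.le
  have hSaC : ∀ Sa ∈ A, Sa = S ∨ Sa ∈ CC S N Λ := by
    intro Sa hSa
    rcases Set.mem_insert_iff.mp (hAp Sa hSa).1 with h | h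
    · exact Or.inl h
    · exact Or.inr (hC' h)
  let B1 : Finset (Submodule F V) := A
  let B2 : Finset (Submodule F V) := (A.filter (fun Sa => Sa ⊔ N ≠ Λ)).image (fun Sa => Sa ⊔ N)
  let B3 : Finset (Submodule F V) := A.image (fun Sa => bad T' Sa)
  obtain ⟨x, hxT, hx⟩ := exists_avoid T' (B1 ∪ B2 ∪ B3) (by
    intro b hb
    rcases Finset.mem_union.mp hb with hb | hb
    · rcases Finset.mem_union.mp hb with hb | hb
      · intro h
        exact absurd (lt_of_lt_of_le (hAp b hb).2.1 h) (lt_irrefl _)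
      · obtain ⟨Sa, hSa, rfl⟩ := Finset.mem_image.mp hb
        obtain ⟨hSa1, hSa2⟩ := Finset.mem_filter.mp hSa
        exact CC_bad hNΛ hSN hT'C (hSaC Sa hSa1) (hAp Sa hSa1).2.1 hSa2
    · obtain ⟨Sa, hSa, rfl⟩ := Finset.mem_image.mp hb
      obtain ⟨h1, h2, h3⟩ := hAp Sa hSa
      exact hbad T' hT' Sa h1 h2 h3) (by
    have h1 := Finset.card_union_le (B1 ∪ B2) B3
    have h2 := Finset.card_union_le B1 B2
    have h3 : B2.card ≤ A.card := (Finset.card_image_le).trans (Finset.card_filter_le _ _)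
    have h4 : B3.card ≤ A.card := Finset.card_image_le
    have h5 : B1.card = A.card := rfl
    omega)
  refine ⟨Submodule.span F {x}, ?_, ?_⟩
  · rw [Submodule.span_singleton_le_iff_mem]; exact hxT
  · intro Sa hSa
    obtain ⟨h1, h2, h3⟩ := hAp Sa hSa
    have hSSa : S ≤ Sa := by
      rcases hSaC Sa hSa with h | h
      · exact h.ge
      · exact h.1.le
    have hxS : x ∉ Sa := hx Sa (Finset.mem_union_left _ (Finset.mem_union_left _ hSa))
    have hxN : Sa ⊔ N ≠ Λ → x ∉ Sa ⊔ N := by
      intro hne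
      apply hx
      apply Finset.mem_union_left
      apply Finset.mem_union_right
      exact Finset.mem_image.mpr ⟨Sa, Finset.mem_filter.mpr ⟨hSa, hne⟩, rfl⟩
    have hxB : x ∉ bad T' Sa := by
      apply hx
      apply Finset.mem_union_right
      exact Finset.mem_image.mpr ⟨Sa, hSa, rfl⟩
    have hlt : Sa ⊔ Submodule.span F {x} < T' := sup_span_lt h2 hxT h3 hSSa
    have hmem := CC_sup_span hT'Λ (hSaC Sa hSa) hxT hxS hxN hlt
    refine ⟨hgood T' hT' Sa h1 h2 h3 x hxT hxB hmem, ?_, hlt⟩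
    refine lt_of_le_of_ne le_sup_left ?_
    intro h
    apply hxS
    rw [h]
    exact Submodule.mem_sup_right (Submodule.mem_span_singleton_self x)

theorem rk_insert_mono (hSΛ : S < Λ) (C' : Set (Submodule F V)) (hC' : C' ⊆ CC S N Λ) :
    ∀ x ∈ insert S (insert Λ C'), ∀ y ∈ insert S (insert Λ C'), x < y → rkS S x < rkS S y := by
  intro x hx y _ hxy
  apply rkS_lt _ hxy
  rcases Set.mem_insert_iff.mp hx with h | h
  · exact h.ge
  · rcases Set.mem_insert_iff.mp h with h | h
    · rw [h]; exact hSΛ.le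
    · exact (hC' h).1.le

/-- (F4) for the full class. -/
theorem genExt_CC (hSΛ : S < Λ) (hNΛ : N ≤ Λ) (hSN : S ⊓ N = ⊥) (M : ℕ)
    (hM : 3 * M ≤ Fintype.card F) : GenExt (CC S N Λ) S Λ (rkS S) M where
  mem_lt := fun x hx => ⟨hx.1, hx.2.1⟩
  B_lt_T := hSΛ
  rk_B := by unfold rkS; omega
  rk_mono := rk_insert_mono hSΛ _ (fun _ h => h)
  gen := by
    intro T' hT' A hA hAp
    obtain ⟨v, hv, h⟩ := genExt_general hSΛ hNΛ hSN (CC S N Λ) (fun _ h => h)
      (fun _ Sa => Sa) (fun T' _ Sa _ hlt _ hle => absurd (lt_of_lt_of_le hlt hle) (lt_irrefl _))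
      (fun _ _ _ _ _ _ _ _ _ h => h) M hM T' hT' A hA hAp
    exact ⟨v, hv, h⟩

/-- the subclass of elements not contained in `H` -/
def CH (S N Λ H : Submodule F V) : Set (Submodule F V) := {Z | Z ∈ CC S N Λ ∧ ¬ Z ≤ H}

/-- (F4) for the subclass of elements not contained in `H`. -/
theorem genExt_CH (H : Submodule F V) (hSΛ : S < Λ) (hNΛ : N ≤ Λ) (hSN : S ⊓ N = ⊥)
    (hΛH : ¬ Λ ≤ H) (M : ℕ)
    (hM : 3 * M ≤ Fintype.card F) : GenExt (CH S N Λ H) S Λ (rkS S) M where
  mem_lt := fun x hx => ⟨hx.1.1, hx.1.2.1⟩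
  B_lt_T := hSΛ
  rk_B := by unfold rkS; omega
  rk_mono := rk_insert_mono hSΛ _ (fun _ h => h.1)
  gen := by
    intro T' hT' A hA hAp
    obtain ⟨v, hv, h⟩ := genExt_general hSΛ hNΛ hSN (CH S N Λ H) (fun _ h => h.1)
      (fun _ _ => H) (by
        intro T' hT' Sa _ _ _
        rcases Set.mem_insert_iff.mp hT' with h | h
        · rw [h]; exact hΛH
        · exact h.2) (by
        intro T' _ Sa _ _ _ x _ hxH hmem
        refine ⟨hmem, fun hle => hxH ?_⟩
        exact hle (Submodule.mem_sup_right (Submodule.mem_span_singleton_self x)))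
      M hM T' hT' A hA hAp
    exact ⟨v, hv, h⟩

/-- the subclass of elements not containing `u` -/
def Cu (S N Λ : Submodule F V) (u : V) : Set (Submodule F V) := {Z | Z ∈ CC S N Λ ∧ u ∉ Z}

/-- (F4) for the subclass of elements not containing `u`. -/
theorem genExt_Cu (u : V) (hSΛ : S < Λ) (hNΛ : N ≤ Λ) (hSN : S ⊓ N = ⊥)
    (huS : u ∉ S) (M : ℕ)
    (hM : 3 * M ≤ Fintype.card F) : GenExt (Cu S N Λ u) S Λ (rkS S) M where
  mem_lt := fun x hx => ⟨hx.1.1, hx.1.2.1⟩
  B_lt_T := hSΛ
  rk_B := by unfold rkS; omega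
  rk_mono := rk_insert_mono hSΛ _ (fun _ h => h.1)
  gen := by
    intro T' hT' A hA hAp
    obtain ⟨v, hv, h⟩ := genExt_general hSΛ hNΛ hSN (Cu S N Λ u) (fun _ h => h.1)
      (fun _ Sa => Sa ⊔ Submodule.span F {u}) (by
        intro T' _ Sa hSa hlt hrk hle
        have hSSa : S ≤ Sa := by
          rcases Set.mem_insert_iff.mp hSa with h | h
          · exact h.ge
          · exact h.1.1.le
        have h1 := Submodule.finrank_mono (R := F) hle
        have h2 := Submodule.finrank_add_le_finrank_add_finrank (K := F) Sa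
          (Submodule.span F {u})
        have h3 : Module.finrank F (Submodule.span F {u}) ≤ 1 := by
          have h6 := finrank_span_le_card (R := F) ({u} : Set V)
          simpa using h6
        have h4 := Submodule.finrank_mono (R := F) hSSa
        unfold rkS at hrk
        omega) (by
        intro T' _ Sa hSa _ _ x _ hxu hmem
        refine ⟨hmem, fun hu => hxu ?_⟩
        have huSa : u ∉ Sa := by
          rcases Set.mem_insert_iff.mp hSa with h | h
          · rw [h]; exact huS
          · exact h.2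
        obtain ⟨a, ha, z, hz, haz⟩ := Submodule.mem_sup.mp hu
        obtain ⟨c, rfl⟩ := Submodule.mem_span_singleton.mp hz
        have hc : c ≠ 0 := by
          intro hc
          subst hc
          rw [zero_smul, add_zero] at haz
          exact huSa (haz ▸ ha)
        have h1 : c • x ∈ Sa ⊔ Submodule.span F {u} := by
          have h2 : c • x = u - a := by rw [← haz]; abel
          rw [h2]
          exact Submodule.sub_mem _
            (Submodule.mem_sup_right (Submodule.mem_span_singleton_self u))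
            (Submodule.mem_sup_left ha)
        have h3 := Submodule.smul_mem _ c⁻¹ h1
        rwa [smul_smul, inv_mul_cancel₀ hc, one_smul] at h3)
      M hM T' hT' A hA hAp
    exact ⟨v, hv, h⟩

end Upper

section Lower

variable [FiniteDimensional F V] {S N Λ : Submodule F V}

/-- rank for the dual statement (F5): codimension in `Λ`, and `dim N + 1` for `S`. -/
noncomputable def rkD (S N Λ : Submodule F V) (Z : (Submodule F V)ᵒᵈ) : ℕ :=
  if OrderDual.ofDual Z = S then Module.finrank F N + 1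
  else Module.finrank F Λ - Module.finrank F (OrderDual.ofDual Z : Submodule F V)

/-- existence of a hyperplane containing `T` and not containing any `Za ⊓ N`. -/
theorem exists_hyperplane (T : Submodule F V) (A : Finset (Submodule F V))
    (hA : ∀ b ∈ A, ¬ b ≤ T) (hcard : A.card ≤ Fintype.card F) :
    ∃ g : Module.Dual F V, T ≤ LinearMap.ker g ∧ ∀ b ∈ A, ∃ x ∈ b, g x = 1 := by
  obtain ⟨g, hg, hgA⟩ := exists_avoid (F := F) (V := Module.Dual F V)
    (Submodule.dualAnnihilator T) (A.image Submodule.dualAnnihilator) (by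
      intro b hb hle
      obtain ⟨Z, hZ, rfl⟩ := Finset.mem_image.mp hb
      exact hA Z hZ ((Subspace.dualAnnihilator_le_dualAnnihilator_iff).mp hle))
    (Finset.card_image_le.trans hcard)
  refine ⟨g, ?_, ?_⟩
  · intro x hx
    rw [LinearMap.mem_ker]
    exact (Submodule.mem_dualAnnihilator g).mp hg x hx
  · intro b hb
    have h1 := hgA _ (Finset.mem_image_of_mem _ hb)
    rw [Submodule.mem_dualAnnihilator] at h1
    push Not at h1
    obtain ⟨x, hx, hgx⟩ := h1
    refine ⟨(g x)⁻¹ • x, b.smul_mem _ hx, ?_⟩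
    rw [map_smul, smul_eq_mul, inv_mul_cancel₀ hgx]

theorem finrank_low {Z : Submodule F V} (hZ : Z ⊔ N = Λ) :
    Module.finrank F Z + Module.finrank F N
      = Module.finrank F Λ + Module.finrank F (Z ⊓ N : Submodule F V) := by
  rw [← hZ]
  exact (Submodule.finrank_sup_add_finrank_inf_eq Z N).symm

/-- (F5): generic extension for the lower link in the dual order. -/
theorem genExt_dual (hSΛ : S < Λ) (hNΛ : N ≤ Λ) (hSN : S ⊓ N = ⊥) (hne : S ⊔ N ≠ Λ) (M : ℕ)
    (hM : M ≤ Fintype.card F) :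
    GenExt (α := (Submodule F V)ᵒᵈ) {Z | OrderDual.ofDual Z ∈ CLow S N Λ}
      (OrderDual.toDual Λ) (OrderDual.toDual S) (rkD S N Λ) M where
  mem_lt := by
    intro x hx
    exact ⟨hx.2.1, hx.1⟩
  B_lt_T := hSΛ
  rk_B := by
    unfold rkD
    rw [if_neg (by simpa using hSΛ.ne')]
    exact Nat.sub_self _
  rk_mono := by
    intro x hx y hy hxy
    have hlt : OrderDual.ofDual y < OrderDual.ofDual x := hxy
    have hxΛ : OrderDual.ofDual x ≤ Λ := by
      rcases Set.mem_insert_iff.mp hx with h | h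
      · rw [h]; exact le_rfl
      · rcases Set.mem_insert_iff.mp h with h | h
        · rw [h]; exact hSΛ.le
        · exact h.2.1.le
    have hyS : S ≤ OrderDual.ofDual y := by
      rcases Set.mem_insert_iff.mp hy with h | h
      · rw [h]; exact hSΛ.le
      · rcases Set.mem_insert_iff.mp h with h | h
        · rw [h]; exact le_rfl
        · exact h.1.le
    have hxS : OrderDual.ofDual x ≠ S := fun h => absurd (lt_of_le_of_lt hyS hlt) (by rw [h]; exact lt_irrefl _)
    have hxN : OrderDual.ofDual x ⊔ N = Λ := by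
      rcases Set.mem_insert_iff.mp hx with h | h
      · rw [h]; exact sup_eq_left.mpr hNΛ
      · rcases Set.mem_insert_iff.mp h with h | h
        · exact absurd (by rw [h]; rfl) hxS
        · exact h.2.2
    have h1 := Submodule.finrank_lt_finrank_of_lt hlt
    have h2 := Submodule.finrank_mono (R := F) hxΛ
    unfold rkD
    rw [if_neg hxS]
    have h3 := finrank_low (F := F) hxN
    split_ifs with h
    · omega
    · omega
  gen := by
    intro T' hT' A hA hAp
    -- data
    set T0 : Submodule F V := OrderDual.ofDual T' with hT0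
    have hT0S : S ≤ T0 := by
      rcases Set.mem_insert_iff.mp hT' with h | h
      · rw [hT0, h]; exact le_rfl
      · exact h.1.le
    have hAC : ∀ Sa ∈ A, (OrderDual.ofDual Sa ⊔ N = Λ) ∧ OrderDual.ofDual Sa ≠ S
        ∧ OrderDual.ofDual Sa ≤ Λ := by
      intro Sa hSa
      obtain ⟨h1, h2, _⟩ := hAp Sa hSa
      have hlt : T0 < OrderDual.ofDual Sa := h2
      rcases Set.mem_insert_iff.mp h1 with h | h
      · rw [h]
        exact ⟨sup_eq_left.mpr hNΛ, hSΛ.ne', le_rfl⟩
      · exact ⟨h.2.2, h.1.ne', h.2.1.le⟩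
    obtain ⟨g, hgT, hg⟩ := exists_hyperplane T0 (A.image (fun Sa => OrderDual.ofDual Sa ⊓ N)) (by
      intro b hb hle
      obtain ⟨Sa, hSa, rfl⟩ := Finset.mem_image.mp hb
      obtain ⟨h1, h2, h3⟩ := hAp Sa hSa
      obtain ⟨hN, hSaS, hSaΛ⟩ := hAC Sa hSa
      have hlt : T0 < OrderDual.ofDual Sa := h2
      have hf := Submodule.finrank_lt_finrank_of_lt hlt
      have hrk : rkD S N Λ Sa = Module.finrank F Λ - Module.finrank F (OrderDual.ofDual Sa : Submodule F V) := by
        unfold rkD; rw [if_neg hSaS]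
      have hfr := finrank_low (F := F) hN
      have hfΛ := Submodule.finrank_mono (R := F) hSaΛ
      rcases Set.mem_insert_iff.mp hT' with h | h
      · -- T' = S
        have hT0' : T0 = S := by rw [hT0, h]; rfl
        have h4 : OrderDual.ofDual Sa ⊓ N ≤ ⊥ := by
          rw [← hSN]
          exact le_inf (hT0' ▸ hle) inf_le_right
        have h5 : Module.finrank F (OrderDual.ofDual Sa ⊓ N : Submodule F V) = 0 := by
          rw [le_bot_iff.mp h4]; exact finrank_bot F V
        have h6 : rkD S N Λ T' = Module.finrank F N + 1 := by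
          unfold rkD; rw [if_pos hT0']
        rw [hrk, h6] at h3
        omega
      · have hTN : T0 ⊔ N = Λ := h.2.2
        have h4 := finrank_low (F := F) hTN
        have h5 : Module.finrank F (OrderDual.ofDual Sa ⊓ N : Submodule F V)
            ≤ Module.finrank F (T0 ⊓ N : Submodule F V) :=
          Submodule.finrank_mono (le_inf hle inf_le_right)
        omega) (Finset.card_image_le.trans (hA.trans hM))
    refine ⟨OrderDual.toDual (LinearMap.ker g), ?_, ?_⟩
    · exact hgT
    · intro Sa hSa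
      obtain ⟨h1, h2, h3⟩ := hAp Sa hSa
      obtain ⟨hN, hSaS, hSaΛ⟩ := hAC Sa hSa
      have hlt : T0 < OrderDual.ofDual Sa := h2
      obtain ⟨w, hw, hgw⟩ := hg _ (Finset.mem_image_of_mem _ hSa)
      obtain ⟨hwSa, hwN⟩ := Submodule.mem_inf.mp hw
      have hT0le : T0 ≤ OrderDual.ofDual Sa ⊓ LinearMap.ker g := le_inf hlt.le hgT
      have hlt1 : OrderDual.ofDual Sa ⊓ LinearMap.ker g < OrderDual.ofDual Sa := by
        refine lt_of_le_of_ne inf_le_left ?_
        intro h
        have h4 : w ∈ LinearMap.ker g := by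
          have h5 : w ∈ OrderDual.ofDual Sa ⊓ LinearMap.ker g := by rw [h]; exact hwSa
          exact (Submodule.mem_inf.mp h5).2
        rw [LinearMap.mem_ker, hgw] at h4
        exact one_ne_zero h4
      have hsup : (OrderDual.ofDual Sa ⊓ LinearMap.ker g) ⊔ N = Λ := by
        apply le_antisymm
        · exact sup_le (inf_le_left.trans hSaΛ) hNΛ
        · intro y hy
          rw [← hN] at hy
          obtain ⟨z, hz, ν, hν, rfl⟩ := Submodule.mem_sup.mp hy
          refine Submodule.mem_sup.mpr ⟨z - g z • w, ?_, ν + g z • w, ?_, ?_⟩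
          · refine Submodule.mem_inf.mpr ⟨?_, ?_⟩
            · exact Submodule.sub_mem _ hz (Submodule.smul_mem _ _ hwSa)
            · rw [LinearMap.mem_ker, map_sub, map_smul, hgw, smul_eq_mul, mul_one, sub_self]
          · exact Submodule.add_mem _ hν (Submodule.smul_mem _ _ hwN)
          · abel
      have hSlt : S < OrderDual.ofDual Sa ⊓ LinearMap.ker g := by
        refine lt_of_le_of_ne (hT0S.trans hT0le) ?_
        intro h
        apply hne
        rw [h]
        exact hsup
      have hmem : OrderDual.ofDual Sa ⊓ LinearMap.ker g ∈ CLow S N Λ :=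
        ⟨hSlt, lt_of_lt_of_le hlt1 hSaΛ, hsup⟩
      refine ⟨hmem, hlt1, ?_⟩
      -- strictness above T'
      change T0 < OrderDual.ofDual Sa ⊓ LinearMap.ker g
      refine lt_of_le_of_ne hT0le ?_
      intro h
      rcases Set.mem_insert_iff.mp hT' with h' | h'
      · have hT0' : T0 = S := by rw [hT0, h']; rfl
        rw [hT0'] at h
        exact absurd hSlt (by rw [← h]; exact lt_irrefl _)
      · have hTS : T0 ≠ S := h'.1.ne'
        have h6 : rkD S N Λ T' = Module.finrank F Λ - Module.finrank F T0 := by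
          unfold rkD; rw [if_neg hTS]
        have h7 : rkD S N Λ Sa = Module.finrank F Λ - Module.finrank F (OrderDual.ofDual Sa : Submodule F V) := by
          unfold rkD; rw [if_neg hSaS]
        rw [h6, h7] at h3
        -- dim (Sa ⊓ ker g) ≥ dim Sa - 1
        have h8 : Module.finrank F (OrderDual.ofDual Sa : Submodule F V)
            ≤ Module.finrank F (OrderDual.ofDual Sa ⊓ LinearMap.ker g : Submodule F V) + 1 := by
          have h9 := Submodule.finrank_sup_add_finrank_inf_eq (OrderDual.ofDual Sa)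
            (LinearMap.ker g)
          have h10 := LinearMap.finrank_range_add_finrank_ker g
          have h11 : Module.finrank F (LinearMap.range g) ≤ 1 := by
            have := Submodule.finrank_le (LinearMap.range g)
            simpa only [ge_iff_le, Module.finrank_self] using this
          have h12 := Submodule.finrank_le (OrderDual.ofDual Sa ⊔ LinearMap.ker g)
          omega
        have h13 := Submodule.finrank_mono (R := F) (h'.2.1.le : T0 ≤ Λ)
        rw [← h] at h8
        omega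

end Lower

end Vale.Agent.P067
end
end

section

section

/-! # P067, evaluation and support formulas for `bd`, `cone`, `lk`, `del`, and `ChainIn` calculus -/

set_option autoImplicit false

open Finset

namespace Vale.Agent.P067

attribute [local instance] Classical.propDecidable

variable {α : Type*} {k : Type*} [Field k]

theorem mem_support_bd {c : Finset α →₀ k} {s : Finset α} (h : s ∈ (bd c).support) :
    ∃ v, v ∉ s ∧ insert v s ∈ c.support := by
  by_contra hcon
  have hcon' : ∀ v, v ∉ s → insert v s ∉ c.support := fun v hv hc => hcon ⟨v, hv, hc⟩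
  rw [Finsupp.mem_support_iff] at h
  apply h
  have : c = c.sum Finsupp.single := (Finsupp.sum_single c).symm
  rw [this, Finsupp.sum, map_sum, Finsupp.finsetSum_apply]
  refine Finset.sum_eq_zero fun t ht => ?_
  rw [bd_single, Finsupp.finsetSum_apply]
  refine Finset.sum_eq_zero fun v hv => ?_
  rw [Finsupp.single_apply, if_neg]
  rintro rfl
  apply hcon' v (Finset.notMem_erase v t)
  rwa [Finset.insert_erase hv]

theorem lk_bd (x : α) (c : Finset α →₀ k) : lk x (bd c) = bd (lk x c) := by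
  have : (lk x ∘ₗ bd : (Finset α →₀ k) →ₗ[k] (Finset α →₀ k)) = bd ∘ₗ lk x := by
    apply Finsupp.lhom_ext
    intro s a
    simp only [LinearMap.comp_apply, bd_single, map_sum, lk_single]
    by_cases hx : x ∈ s
    · rw [if_pos hx, bd_single, ← Finset.add_sum_erase s _ hx, if_neg (Finset.notMem_erase x s),
        zero_add]
      refine Finset.sum_congr rfl fun v hv => ?_
      rw [Finset.mem_erase] at hv
      rw [if_pos (Finset.mem_erase.2 ⟨Ne.symm hv.1, hx⟩), Finset.erase_right_comm]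
    · rw [if_neg hx, map_zero]
      refine Finset.sum_eq_zero fun v _ => ?_
      rw [if_neg]
      exact fun h => hx (Finset.mem_of_mem_erase h)
  exact LinearMap.congr_fun this c

theorem lk_eq_zero_of {x : α} {c : Finset α →₀ k} (h : ∀ s ∈ c.support, x ∉ s) : lk x c = 0 := by
  ext s
  rw [lk_apply, Finsupp.zero_apply]
  split_ifs with hx
  · rfl
  · by_contra hc
    exact h _ (Finsupp.mem_support_iff.2 hc) (Finset.mem_insert_self x s)

/-! ### `ChainIn` -/

theorem ChainIn.mono {K K' : Set (Finset α)} (h : K ⊆ K') {q : ℕ} {c : Finset α →₀ k}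
    (hc : ChainIn K q c) : ChainIn K' q c := fun s hs => ⟨h (hc s hs).1, (hc s hs).2⟩

theorem ChainIn.zero (K : Set (Finset α)) (q : ℕ) : ChainIn K q (0 : Finset α →₀ k) := by
  intro s hs; simp at hs

theorem ChainIn.smul {K : Set (Finset α)} {q : ℕ} {c : Finset α →₀ k} (a : k)
    (hc : ChainIn K q c) : ChainIn K q (a • c) := fun s hs => hc s (Finsupp.support_smul hs)

theorem ChainIn.sum {K : Set (Finset α)} {q : ℕ} {ι : Type*} {S : Finset ι}
    {f : ι → (Finset α →₀ k)} (h : ∀ i ∈ S, ChainIn K q (f i)) : ChainIn K q (∑ i ∈ S, f i) := by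
  induction S using Finset.cons_induction with
  | empty => simpa using ChainIn.zero K q
  | cons a S ha ih =>
    rw [Finset.sum_cons]
    exact (h a (Finset.mem_cons_self a S)).add
      (ih fun i hi => h i (Finset.mem_cons.2 (Or.inr hi)))

theorem ChainIn.bd {K : Set (Finset α)} (hK : DownClosed K) {q : ℕ} {c : Finset α →₀ k}
    (hc : ChainIn K (q + 1) c) : ChainIn K q (P067.bd c) := by
  intro s hs
  obtain ⟨v, hv, hvs⟩ := mem_support_bd hs
  obtain ⟨h1, h2⟩ := hc _ hvs
  refine ⟨hK _ h1 s (Finset.subset_insert v s), ?_⟩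
  rw [Finset.card_insert_of_notMem hv] at h2
  omega

theorem ChainIn.del {K : Set (Finset α)} {q : ℕ} {c : Finset α →₀ k} (x : α)
    (hc : ChainIn K q c) : ChainIn K q (P067.del x c) :=
  fun s hs => hc s (mem_support_del.1 hs).2

/-- A chain of size zero is a multiple of the empty simplex. -/
theorem eq_single_empty {K : Set (Finset α)} {c : Finset α →₀ k} (hc : ChainIn K 0 c) :
    c = Finsupp.single ∅ (c ∅) := by
  ext s
  rw [Finsupp.single_apply]
  split_ifs with h
  · rw [h]
  · by_contra hcon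
    exact h (Finset.card_eq_zero.1 (hc s (Finsupp.mem_support_iff.2 hcon)).2).symm

/-- Acyclicity in size zero means: there is a vertex (or no empty simplex). -/
theorem acyc_zero {K : Set (Finset α)} {v : α} (hv : ({v} : Finset α) ∈ K) : Acyc k K 0 := by
  intro c hc _
  refine ⟨Finsupp.single {v} (c ∅), ?_, ?_⟩
  · intro s hs
    have : s = {v} := Finset.mem_singleton.1 (Finsupp.support_single_subset hs)
    subst this
    exact ⟨hv, by simp⟩
  · rw [bd_single, Finset.sum_singleton]
    conv_rhs => rw [eq_single_empty hc]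
    congr 1
    ext w
    simp

/-- The filling of the link of `x` gives a filling of the star part. -/
theorem ChainIn.cone {K : Set (Finset α)} {x : α} {q : ℕ} {y : Finset α →₀ k}
    (hy : ∀ s ∈ y.support, insert x s ∈ K ∧ s.card = q) : ChainIn K (q + 1) (P067.cone x y) := by
  intro s hs
  obtain ⟨h1, h2⟩ := mem_support_cone.1 hs
  obtain ⟨h3, h4⟩ := hy _ h2
  rw [Finset.insert_erase h1] at h3
  refine ⟨h3, ?_⟩
  have := Finset.card_erase_add_one h1
  omega

/-- If `x` can be added to all simplices of `c`, then cycles `c` bound. -/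
theorem exists_bd_of_cone [CharP k 2] {K : Set (Finset α)} {x : α} {q : ℕ} {c : Finset α →₀ k}
    (hc : ∀ s ∈ c.support, insert x s ∈ K ∧ s.card = q) (hbd : P067.bd c = 0) :
    ∃ y : Finset α →₀ k, ChainIn K (q + 1) y ∧ P067.bd y = c :=
  ⟨P067.cone x c, ChainIn.cone hc, by rw [bd_cone, hbd, map_zero, add_zero]⟩

end Vale.Agent.P067
end
end

section

section

/-! # P067, module M2b: corollaries of the filling theorem (blueprint part 2) -/

set_option autoImplicit false

open Finset

namespace Vale.Agent.P067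

attribute [local instance] Classical.propDecidable

universe u

section ext

variable {α : Type*} {k : Type*} [Field k]

/-- Linear extension of a function on simplices. -/
noncomputable def linExt (cf : Finset α → (Finset α →₀ k)) :
    (Finset α →₀ k) →ₗ[k] (Finset α →₀ k) := Finsupp.linearCombination k cf

theorem linExt_single (cf : Finset α → (Finset α →₀ k)) (s : Finset α) (a : k) :
    linExt cf (Finsupp.single s a) = a • cf s := by
  simp [linExt]

theorem linExt_bd_single (cf : Finset α → (Finset α →₀ k)) (s : Finset α) (a : k) :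
    linExt cf (bd (Finsupp.single s a)) = a • ∑ v ∈ s, cf (s.erase v) := by
  rw [bd_single, map_sum, smul_sum]
  exact sum_congr rfl (fun v _ => linExt_single _ _ _)

theorem chainIn_single {K : Set (Finset α)} {q : ℕ} {s : Finset α} (hs : s ∈ K) (hq : s.card = q)
    (a : k) : ChainIn K q (Finsupp.single s a) := by
  intro t ht
  have := Finsupp.support_single_subset ht
  rw [mem_singleton] at this
  subst this
  exact ⟨hs, hq⟩

theorem ChainIn.linExt {K : Set (Finset α)} {q : ℕ} {cf : Finset α → (Finset α →₀ k)}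
    (hcf : ∀ ρ ∈ K, ρ.card = q → ChainIn K (q + 1) (cf ρ)) {c : Finset α →₀ k}
    (hc : ChainIn K q c) : ChainIn K (q + 1) (linExt cf c) := by
  have h : Vale.Agent.P067.linExt cf c = ∑ s ∈ c.support, c s • cf s := by
    rw [Vale.Agent.P067.linExt, Finsupp.linearCombination_apply, Finsupp.sum]
  rw [h]
  exact ChainIn.sum (fun s hs => (hcf s (hc s hs).1 (hc s hs).2).smul _)

theorem bd_linExt [CharP k 2] {K : Set (Finset α)} {q : ℕ} {cf : Finset α → (Finset α →₀ k)}
    (hcf : ∀ ρ ∈ K, ρ.card = q → Vale.Agent.P067.bd (cf ρ) =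
      Finsupp.single ρ 1 + ∑ v ∈ ρ, cf (ρ.erase v))
    {c : Finset α →₀ k} (hc : ChainIn K q c) :
    Vale.Agent.P067.bd (linExt cf c) = c + linExt cf (Vale.Agent.P067.bd c) := by
  have h : linExt cf c = ∑ s ∈ c.support, c s • cf s := by
    rw [Vale.Agent.P067.linExt, Finsupp.linearCombination_apply, Finsupp.sum]
  have h2 : c = ∑ s ∈ c.support, Finsupp.single s (c s) := (Finsupp.sum_single c).symm
  rw [h, map_sum]
  conv_rhs => rw [h2]
  rw [map_sum, map_sum, ← sum_add_distrib]
  refine sum_congr rfl (fun s hs => ?_)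
  rw [map_smul, hcf s (hc s hs).1 (hc s hs).2, linExt_bd_single, smul_add, Finsupp.smul_single,
    smul_eq_mul, mul_one]

theorem card_support_sum_le {ι : Type*} (t : Finset ι) (c : ι → (Finset α →₀ k)) (n : ℕ)
    (h : ∀ i ∈ t, (c i).support.card ≤ n) : (∑ i ∈ t, c i).support.card ≤ t.card * n := by
  induction t using Finset.induction_on with
  | empty => simp
  | insert i t hi ih =>
    rw [sum_insert hi, card_insert_of_notMem hi, Nat.succ_mul]
    refine (card_support_add_le _ _).trans ?_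
    have h1 := h i (mem_insert_self _ _)
    have h2 := ih (fun j hj => h j (mem_insert_of_mem hj))
    omega

end ext

/-- Bounded cone function on simplices with less than `m` vertices. -/
theorem exists_cone_fun_aux (e m : ℕ) : ∃ C0 N0 : ℕ,
    ∀ (α : Type u) [Lattice α] (k : Type) [Field k] [CharP k 2] (C : Set α) (B T : α)
      (rk : α → ℕ), GenExt C B T rk N0 → ∀ T' ∈ insert T C, ∀ τ : Finset α,
      (∀ x ∈ τ, x ∈ C ∧ x < T') → IsChain (· ≤ ·) (τ : Set α) → rk T' = e + 1 + τ.card →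
      ∃ cf : Finset α → (Finset α →₀ k), ∀ ρ ∈ LkC C T' τ, ρ.card < m → ρ.card + 1 ≤ e →
        ChainIn (LkC C T' τ) (ρ.card + 1) (cf ρ) ∧ (cf ρ).support.card ≤ C0 ∧
          bd (cf ρ) = Finsupp.single ρ 1 + ∑ v ∈ ρ, cf (ρ.erase v) := by
  induction m with
  | zero =>
    refine ⟨0, 0, ?_⟩
    intro α _ k _ _ C B T rk hG T' hT' τ hτ hch hrk
    exact ⟨fun _ => 0, fun ρ _ h => absurd h (Nat.not_lt_zero _)⟩
  | succ m ih =>
    obtain ⟨C0, N0, h0⟩ := ih
    by_cases hm : m + 1 ≤ e
    swap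
    · refine ⟨C0, N0, ?_⟩
      intro α _ k _ _ C B T rk hG T' hT' τ hτ hch hrk
      obtain ⟨cf, hcf⟩ := h0 α k C B T rk hG T' hT' τ hτ hch hrk
      exact ⟨cf, fun ρ hρ h1 h2 => hcf ρ hρ (by omega) h2⟩
    obtain ⟨C1, N1, h1⟩ := fill.{u} e m (1 + m * C0) hm
    refine ⟨max C0 C1, max N0 N1, ?_⟩
    intro α _ k _ _ C B T rk hG T' hT' τ hτ hch hrk
    obtain ⟨cf, hcf⟩ := h0 α k C B T rk (hG.mono (le_max_left _ _)) T' hT' τ hτ hch hrk
    set K := LkC C T' τ with hK
    have hKd : DownClosed K := downClosed_LkC T' τ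
    have hex : ∀ ρ : Finset α, ∃ y : Finset α →₀ k, ρ ∈ K → ρ.card = m →
        ChainIn K (m + 1) y ∧ bd y = Finsupp.single ρ 1 + ∑ v ∈ ρ, cf (ρ.erase v) ∧
          y.support.card ≤ C1 := by
      intro ρ
      by_cases hρ : ρ ∈ K ∧ ρ.card = m
      swap
      · exact ⟨0, fun h1 h2 => absurd ⟨h1, h2⟩ hρ⟩
      obtain ⟨hρK, hρm⟩ := hρ
      have hcard : ∀ v ∈ ρ, (ρ.erase v).card + 1 = m := by
        intro v hv
        rw [card_erase_of_mem hv, hρm]
        have : 0 < ρ.card := card_pos.2 ⟨v, hv⟩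
        omega
      have hsub : ∀ v ∈ ρ, ChainIn K m (cf (ρ.erase v)) ∧ (cf (ρ.erase v)).support.card ≤ C0 := by
        intro v hv
        have h := hcf (ρ.erase v) (hKd ρ hρK _ (erase_subset _ _)) (by have := hcard v hv; omega)
          (by have := hcard v hv; omega)
        rw [hcard v hv] at h
        exact ⟨h.1, h.2.1⟩
      have hz : ChainIn K m (Finsupp.single ρ (1:k) + ∑ v ∈ ρ, cf (ρ.erase v)) :=
        (chainIn_single hρK hρm 1).add (ChainIn.sum (fun v hv => (hsub v hv).1))
      have hzs : (Finsupp.single ρ (1:k) + ∑ v ∈ ρ, cf (ρ.erase v)).support.card ≤ 1 + m * C0 := by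
        refine (card_support_add_le _ _).trans ?_
        have h2 := card_support_sum_le ρ (fun v => cf (ρ.erase v)) C0 (fun v hv => (hsub v hv).2)
        have h3 : (Finsupp.single ρ (1:k)).support.card ≤ 1 :=
          (card_le_card Finsupp.support_single_subset).trans (by simp)
        rw [hρm] at h2
        omega
      have hzb : bd (Finsupp.single ρ (1:k) + ∑ v ∈ ρ, cf (ρ.erase v)) = 0 := by
        have h3 : ∑ v ∈ ρ, cf (ρ.erase v) = linExt cf (bd (Finsupp.single ρ (1:k))) := by
          rw [linExt_bd_single, one_smul]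
        rw [h3, map_add]
        rcases Nat.eq_zero_or_pos m with hm0 | hm0
        · have : ρ = ∅ := by
            rw [← card_eq_zero, hρm, hm0]
          subst this
          simp [bd_single]
        obtain ⟨m', rfl⟩ : ∃ m', m = m' + 1 := ⟨m - 1, by omega⟩
        rw [bd_linExt (K := K) (q := m') (fun ρ' hρ' hc' => ?_)
          (ChainIn.bd hKd (chainIn_single hρK hρm 1)), bd_bd, map_zero, add_zero, add_self_zero]
        exact (hcf ρ' hρ' (by omega) (by omega)).2.2
      obtain ⟨y, hy1, hy2, hy3⟩ := h1 α k C B T rk (hG.mono (le_max_right _ _)) T' hT' τ hτ hch hrk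
        _ hz hzb hzs
      exact ⟨y, fun _ _ => ⟨hy1, hy2, hy3⟩⟩
    choose g hg using hex
    refine ⟨fun ρ => if ρ.card = m then g ρ else cf ρ, ?_⟩
    intro ρ hρ hρm hρe
    have herase : ∀ v ∈ ρ, (if (ρ.erase v).card = m then g (ρ.erase v) else cf (ρ.erase v)) =
        cf (ρ.erase v) := by
      intro v hv
      rw [if_neg]
      have h2 : (ρ.erase v).card < ρ.card := card_erase_lt_of_mem hv
      omega
    rw [sum_congr rfl herase]
    beta_reduce
    by_cases hc : ρ.card = m
    · rw [if_pos hc, hc]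
      obtain ⟨h2, h3, h4⟩ := hg ρ hρ hc
      exact ⟨h2, h4.trans (le_max_right _ _), h3⟩
    · rw [if_neg hc]
      obtain ⟨h2, h3, h4⟩ := hcf ρ hρ (by omega) hρe
      exact ⟨h2, h3.trans (le_max_left _ _), h4⟩

/-- Bounded cone function. -/
theorem exists_cone_fun (e : ℕ) : ∃ C0 N0 : ℕ,
    ∀ (α : Type u) [Lattice α] (k : Type) [Field k] [CharP k 2] (C : Set α) (B T : α)
      (rk : α → ℕ), GenExt C B T rk N0 → ∀ T' ∈ insert T C, ∀ τ : Finset α,
      (∀ x ∈ τ, x ∈ C ∧ x < T') → IsChain (· ≤ ·) (τ : Set α) → rk T' = e + 1 + τ.card →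
      ∃ cf : Finset α → (Finset α →₀ k), ∀ ρ ∈ LkC C T' τ, ρ.card + 1 ≤ e →
        ChainIn (LkC C T' τ) (ρ.card + 1) (cf ρ) ∧ (cf ρ).support.card ≤ C0 ∧
          bd (cf ρ) = Finsupp.single ρ 1 + ∑ v ∈ ρ, cf (ρ.erase v) := by
  obtain ⟨C0, N0, h⟩ := exists_cone_fun_aux.{u} e e
  refine ⟨C0, N0, ?_⟩
  intro α _ k _ _ C B T rk hG T' hT' τ hτ hch hrk
  obtain ⟨cf, hcf⟩ := h α k C B T rk hG T' hT' τ hτ hch hrk
  exact ⟨cf, fun ρ hρ h1 => hcf ρ hρ (by omega) h1⟩

/-- Acyclicity below the top dimension. -/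
theorem acyc_LkC (e : ℕ) : ∃ N0 : ℕ,
    ∀ (α : Type u) [Lattice α] (k : Type) [Field k] [CharP k 2] (C : Set α) (B T : α)
      (rk : α → ℕ), GenExt C B T rk N0 → ∀ T' ∈ insert T C, ∀ τ : Finset α,
      (∀ x ∈ τ, x ∈ C ∧ x < T') → IsChain (· ≤ ·) (τ : Set α) → rk T' = e + 1 + τ.card →
      ∀ q, q + 1 ≤ e → Acyc k (LkC C T' τ) q := by
  obtain ⟨C0, N0, h⟩ := exists_cone_fun.{u} e
  refine ⟨N0, ?_⟩
  intro α _ k _ _ C B T rk hG T' hT' τ hτ hch hrk q hq c hc hbd
  obtain ⟨cf, hcf⟩ := h α k C B T rk hG T' hT' τ hτ hch hrk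
  refine ⟨linExt cf c, ChainIn.linExt (fun ρ hρ hc => ?_) hc, ?_⟩
  · have := (hcf ρ hρ (by omega)).1
    rwa [hc] at this
  · rw [bd_linExt (fun ρ hρ hc => (hcf ρ hρ (by omega)).2.2) hc, hbd, map_zero, add_zero]

end Vale.Agent.P067
end
end

section

section

/-! # P067: transport of acyclicity along vertex bijections -/

set_option autoImplicit false

open Finset

namespace Vale.Agent.P067

attribute [local instance] Classical.propDecidable

variable {α β : Type*} {k : Type*} [Field k]

/-- Chain map induced by a vertex map (only a chain map on simplices where `f` is injective). -/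
noncomputable def mapC (f : α → β) : (Finset α →₀ k) →ₗ[k] (Finset β →₀ k) :=
  Finsupp.lmapDomain k k (fun s => s.image f)

theorem mapC_single (f : α → β) (s : Finset α) (a : k) :
    mapC f (Finsupp.single s a) = Finsupp.single (s.image f) a := by
  simp [mapC]

theorem image_erase_of_injOn (f : α → β) (s : Finset α) (hf : Set.InjOn f (s : Set α)) {v : α}
    (hv : v ∈ s) : (s.erase v).image f = (s.image f).erase (f v) := by
  ext y
  simp only [Finset.mem_image, Finset.mem_erase]
  constructor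
  · rintro ⟨x, ⟨hxv, hxs⟩, rfl⟩
    exact ⟨fun h => hxv (hf hxs hv h), x, hxs, rfl⟩
  · rintro ⟨hy, x, hxs, rfl⟩
    exact ⟨x, ⟨fun h => hy (by rw [h]), hxs⟩, rfl⟩

/-- every chain is the sum of its simplices; induction principle on the support. -/
theorem linMap_congr {M : Type*} [AddCommMonoid M] [Module k M] (φ ψ : (Finset α →₀ k) →ₗ[k] M)
    (c : Finset α →₀ k)
    (h : ∀ s ∈ c.support, φ (Finsupp.single s (c s)) = ψ (Finsupp.single s (c s))) :
    φ c = ψ c := by
  conv_lhs => rw [← Finsupp.sum_single c]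
  conv_rhs => rw [← Finsupp.sum_single c]
  unfold Finsupp.sum
  rw [map_sum, map_sum]
  exact Finset.sum_congr rfl h

theorem bd_mapC (f : α → β) (c : Finset α →₀ k)
    (hf : ∀ s ∈ c.support, Set.InjOn f (s : Set α)) : bd (mapC f c) = mapC f (bd c) := by
  have h := linMap_congr ((bd (k := k)) ∘ₗ mapC f) (mapC f ∘ₗ bd (k := k)) c (by
    intro s hs
    have hinj := hf s hs
    simp only [LinearMap.comp_apply, mapC_single, bd_single, map_sum]
    rw [Finset.sum_image (fun x hx y hy hxy => hinj hx hy hxy)]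
    apply Finset.sum_congr rfl
    intro v hv
    rw [image_erase_of_injOn f s hinj hv])
  exact h

theorem support_mapC (f : α → β) (c : Finset α →₀ k) :
    ∀ t ∈ (mapC f c).support, ∃ s ∈ c.support, s.image f = t := by
  intro t ht
  have h : (mapC f c).support ⊆ c.support.image (fun s => s.image f) := by
    unfold mapC
    rw [Finsupp.lmapDomain_apply]
    exact Finsupp.mapDomain_support
  obtain ⟨s, hs, hst⟩ := Finset.mem_image.mp (h ht)
  exact ⟨s, hs, hst⟩

theorem mapC_mapC_of_leftInv (f : α → β) (g : β → α) (c : Finset α →₀ k)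
    (h : ∀ s ∈ c.support, ∀ x ∈ s, g (f x) = x) : mapC g (mapC f c) = c := by
  have h1 := linMap_congr (mapC (k := k) g ∘ₗ mapC f) LinearMap.id c (by
    intro s hs
    simp only [LinearMap.comp_apply, mapC_single, LinearMap.id_apply]
    congr 1
    rw [Finset.image_image]
    conv_rhs => rw [← Finset.image_id (s := s)]
    apply Finset.image_congr
    intro x hx
    exact h s hs x hx)
  exact h1

/-- Transport of `ChainIn` along an injective vertex map. -/
theorem ChainIn.mapC {K : Set (Finset α)} {K' : Set (Finset β)} {q : ℕ} (f : α → β)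
    (hf : ∀ s ∈ K, s.card = q → s.image f ∈ K' ∧ Set.InjOn f (s : Set α)) {c : Finset α →₀ k}
    (hc : ChainIn K q c) : ChainIn K' q (mapC f c) := by
  intro t ht
  obtain ⟨s, hs, rfl⟩ := support_mapC f c t ht
  obtain ⟨h1, h2⟩ := hc s hs
  refine ⟨(hf s h1 h2).1, ?_⟩
  rw [Finset.card_image_of_injOn (hf s h1 h2).2, h2]

/-- Acyclicity is transported along isomorphisms of complexes. -/
theorem acyc_of_iso {K : Set (Finset α)} {K' : Set (Finset β)} (f : α → β) (g : β → α) {q : ℕ}
    (hf : ∀ s ∈ K, s.image f ∈ K' ∧ ∀ x ∈ s, g (f x) = x)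
    (hg : ∀ r ∈ K', r.image g ∈ K ∧ ∀ y ∈ r, f (g y) = y)
    (h : Acyc k K' q) : Acyc k K q := by
  intro c hc hbd
  have hinj : ∀ s ∈ K, Set.InjOn f (s : Set α) := by
    intro s hs x hx y hy hxy
    rw [← (hf s hs).2 x hx, ← (hf s hs).2 y hy, hxy]
  have hinj' : ∀ r ∈ K', Set.InjOn g (r : Set β) := by
    intro r hr x hx y hy hxy
    rw [← (hg r hr).2 x hx, ← (hg r hr).2 y hy, hxy]
  have hc' : ChainIn K' q (mapC f c) := hc.mapC f (fun s hs _ => ⟨(hf s hs).1, hinj s hs⟩)
  have hbd' : bd (mapC f c) = 0 := by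
    rw [bd_mapC f c (fun s hs => hinj s (hc s hs).1), hbd, map_zero]
  obtain ⟨y, hy, hyb⟩ := h _ hc' hbd'
  refine ⟨mapC g y, hy.mapC g (fun r hr _ => ⟨(hg r hr).1, hinj' r hr⟩), ?_⟩
  rw [bd_mapC g y (fun r hr => hinj' r (hy r hr).1), hyb]
  exact mapC_mapC_of_leftInv f g c (fun s hs => (hf s (hc s hs).1).2)

end Vale.Agent.P067
end
end

section

section

/-! # P067, module M3: the cone method (see blueprint part 2) -/

set_option autoImplicit false

open Finset

namespace Vale.Agent.P067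

attribute [local instance] Classical.propDecidable

section actF

variable {α : Type*} {H : Type*} [Group H] [MulAction H α]

/-- Action of a group element on finsets. -/
noncomputable def actF (h : H) (σ : Finset α) : Finset α := σ.image (fun x => h • x)

theorem actF_mul (h h' : H) (σ : Finset α) : actF (h * h') σ = actF h (actF h' σ) := by
  rw [actF, actF, actF, image_image]
  exact image_congr (fun x _ => mul_smul h h' x)

theorem actF_one (σ : Finset α) : actF (1 : H) σ = σ := by
  rw [actF]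
  simp

theorem act_inv_act (h : H) (σ : Finset α) : actF h⁻¹ (actF h σ) = σ := by
  rw [← actF_mul, inv_mul_cancel, actF_one]

theorem act_act_inv (h : H) (σ : Finset α) : actF h (actF h⁻¹ σ) = σ := by
  rw [← actF_mul, mul_inv_cancel, actF_one]

theorem card_act (h : H) (σ : Finset α) : (actF h σ).card = σ.card :=
  card_image_of_injective _ (MulAction.injective h)

theorem act_erase (h : H) (σ : Finset α) (v : α) :
    actF h (σ.erase v) = (actF h σ).erase (h • v) :=
  image_erase (MulAction.injective h) σ v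

theorem sum_act {M : Type*} [AddCommMonoid M] (h : H) (σ : Finset α) (F : α → M) :
    ∑ u ∈ actF h σ, F u = ∑ v ∈ σ, F (h • v) :=
  sum_image (fun _ _ _ _ hxy => MulAction.injective h hxy)

theorem dd_act (f : Finset α → ZMod 2) (h : H) (π : Finset α) :
    dd (fun σ => f (actF h σ)) π = dd f (actF h π) := by
  rw [dd, dd, sum_act]
  exact sum_congr rfl (fun v _ => by rw [act_erase])

end actF

section ev

variable {α : Type*}

/-- Evaluation of a cochain on a chain. -/
noncomputable def ev (f : Finset α → ZMod 2) : (Finset α →₀ ZMod 2) →ₗ[ZMod 2] ZMod 2 :=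
  Finsupp.linearCombination (ZMod 2) f

theorem ev_single (f : Finset α → ZMod 2) (s : Finset α) (a : ZMod 2) :
    ev f (Finsupp.single s a) = a * f s := by
  simp [ev]

theorem ev_bd (f : Finset α → ZMod 2) (c : Finset α →₀ ZMod 2) : ev f (bd c) = ev (dd f) c := by
  have : (ev f ∘ₗ bd : (Finset α →₀ ZMod 2) →ₗ[ZMod 2] ZMod 2) = ev (dd f) := by
    apply Finsupp.lhom_ext
    intro s a
    rw [LinearMap.comp_apply, bd_single, map_sum, ev_single, dd, mul_sum]
    exact sum_congr rfl (fun v _ => ev_single _ _ _)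
  exact LinearMap.congr_fun this c

theorem exists_of_ev_ne_zero {f : Finset α → ZMod 2} {c : Finset α →₀ ZMod 2} (h : ev f c ≠ 0) :
    ∃ π ∈ c.support, f π ≠ 0 := by
  by_contra hcon
  push Not at hcon
  apply h
  rw [ev, Finsupp.linearCombination_apply, Finsupp.sum]
  exact sum_eq_zero (fun π hπ => by rw [hcon π hπ, smul_zero])

end ev

/-- Orbit counting. -/
theorem orbit_count {α : Type*} {H : Type*} [Group H] [Fintype H] [MulAction H α]
    (P : Finset α → Prop) (π : Finset α) :
    ((univ : Finset H).filter (fun h => P (actF h π))).card *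
        ((univ : Finset H).image (fun h : H => actF h π)).card =
      Fintype.card H *
        (((univ : Finset H).image (fun h : H => actF h π)).filter P).card := by
  set O := (univ : Finset H).image (fun h : H => actF h π) with hO
  set m := ((univ : Finset H).filter (fun h => actF h π = π)).card with hm
  have hfib : ∀ π' ∈ O, ((univ : Finset H).filter (fun h => actF h π = π')).card = m := by
    intro π' hπ'
    obtain ⟨h0, _, rfl⟩ := mem_image.1 hπ'
    refine card_bij' (fun h _ => h0⁻¹ * h) (fun h _ => h0 * h) ?_ ?_ ?_ ?_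
    · intro h hh
      rw [mem_filter] at hh ⊢
      refine ⟨mem_univ _, ?_⟩
      rw [actF_mul, hh.2, act_inv_act]
    · intro h hh
      rw [mem_filter] at hh ⊢
      refine ⟨mem_univ _, ?_⟩
      rw [actF_mul, hh.2]
    · intro h _
      group
    · intro h _
      group
  have hmap : ∀ h ∈ (univ : Finset H), actF h π ∈ O := fun h hh => mem_image_of_mem _ hh
  have h1 : Fintype.card H = O.card * m := by
    rw [← card_univ, card_eq_sum_card_fiberwise (f := fun h => actF h π) (t := O) hmap,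
      sum_congr rfl hfib, sum_const, smul_eq_mul]
  have h2 : ((univ : Finset H).filter (fun h => P (actF h π))).card = (O.filter P).card * m := by
    have hmap' : ∀ h ∈ (univ : Finset H).filter (fun h => P (actF h π)), actF h π ∈ O.filter P := by
      intro h hh
      rw [mem_filter] at hh ⊢
      exact ⟨hmap h (mem_univ _), hh.2⟩
    rw [card_eq_sum_card_fiberwise (f := fun h => actF h π) (t := O.filter P) hmap']
    rw [sum_congr rfl (g := fun _ => m), sum_const, smul_eq_mul]
    intro π' hπ'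
    rw [mem_filter] at hπ'
    rw [← hfib π' hπ'.1, filter_filter]
    congr 1
    ext h
    simp only [mem_filter, mem_univ, true_and]
    constructor
    · exact fun h => h.2
    · rintro rfl
      exact ⟨hπ'.2, rfl⟩
  rw [h1, h2]
  ring

/-- Coboundary inequality from a bounded cone function and a group action. -/
theorem cone_expansion {α : Type} [Fintype α] (K : Set (Finset α)) (hK : DownClosed K)
    {H : Type} [Group H] [Fintype H] [MulAction H α]
    (hHK : ∀ (h : H) (σ : Finset α), σ ∈ K → σ.image (fun x => h • x) ∈ K)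
    (w : Finset α → ℕ) (hw : ∀ (h : H) (σ : Finset α), w (σ.image (fun x => h • x)) = w σ)
    (Wtot q C0 : ℕ) (hq : 1 ≤ q)
    (horb : ∀ π ∈ K, π.card = q + 1 →
      w π * ((univ : Finset H).image (fun h : H => π.image (fun x => h • x))).card = Wtot)
    (cf : Finset α → (Finset α →₀ ZMod 2))
    (hcf : ∀ ρ ∈ K, ρ.card ≤ q → ChainIn K (ρ.card + 1) (cf ρ) ∧ (cf ρ).support.card ≤ C0 ∧
      bd (cf ρ) = Finsupp.single ρ 1 + ∑ v ∈ ρ, cf (ρ.erase v))
    (f : Finset α → ZMod 2) :
    ∃ g : Finset α → ZMod 2,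
      Wtot * (∑ τ ∈ (univ : Finset (Finset α)).filter
          (fun τ => τ ∈ K ∧ τ.card = q ∧ f τ + dd g τ ≠ 0), w τ) ≤
        C0 * (∑ τ ∈ (univ : Finset (Finset α)).filter (fun τ => τ ∈ K ∧ τ.card = q), w τ) *
          (∑ τ ∈ (univ : Finset (Finset α)).filter
            (fun τ => τ ∈ K ∧ τ.card = q + 1 ∧ dd f τ ≠ 0), w τ) := by
  have hHK' : ∀ (h : H) (σ : Finset α), σ ∈ K → actF h σ ∈ K := hHK
  have hw' : ∀ (h : H) (σ : Finset α), w (actF h σ) = w σ := hw
  set Kq : Finset (Finset α) := (univ : Finset (Finset α)).filter (fun τ => τ ∈ K ∧ τ.card = q)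
    with hKq
  set S : ℕ := ∑ τ ∈ Kq, w τ with hS
  set D : ℕ := ∑ τ ∈ (univ : Finset (Finset α)).filter
            (fun τ => τ ∈ K ∧ τ.card = q + 1 ∧ dd f τ ≠ 0), w τ with hD
  -- the candidate cochains
  let g : H → Finset α → ZMod 2 := fun h τ => ev (fun σ => f (actF h σ)) (cf (actF h⁻¹ τ))
  -- key identity
  have hkey : ∀ (h : H) (σ : Finset α), σ ∈ K → σ.card = q →
      f σ + dd (g h) σ = ev (fun π => dd f (actF h π)) (cf (actF h⁻¹ σ)) := by
    intro h σ hσ hσq
    have h1 : dd (g h) σ = ev (fun σ => f (actF h σ)) (∑ u ∈ actF h⁻¹ σ, cf ((actF h⁻¹ σ).erase u)) := by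
      rw [dd, map_sum, sum_act]
      refine sum_congr rfl (fun v _ => ?_)
      show ev _ (cf (actF h⁻¹ (σ.erase v))) = _
      rw [act_erase]
    have h2 := (hcf (actF h⁻¹ σ) (hHK' _ _ hσ) (by rw [card_act, hσq])).2.2
    have h3 : ∑ u ∈ actF h⁻¹ σ, cf ((actF h⁻¹ σ).erase u) =
        bd (cf (actF h⁻¹ σ)) + Finsupp.single (actF h⁻¹ σ) 1 := by
      rw [h2, add_comm (Finsupp.single _ _), add_assoc, add_self_zero, add_zero]
    rw [h1, h3, map_add, ev_bd, ev_single, one_mul, act_act_inv]
    have h4 : dd (fun σ => f (actF h σ)) = fun π => dd f (actF h π) := by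
      ext π
      exact dd_act f h π
    rw [h4, add_comm (f σ), add_assoc, CharTwo.add_self_eq_zero, add_zero]
  -- bound for one simplex
  have horbit : ∀ π ∈ K, π.card = q + 1 →
      Wtot * ((univ : Finset H).filter (fun h => dd f (actF h π) ≠ 0)).card ≤
        Fintype.card H * D := by
    intro π hπ hπq
    have h1 : ((univ : Finset H).filter (fun h => dd f (actF h π) ≠ 0)).card *
        ((univ : Finset H).image (fun h : H => actF h π)).card =
      Fintype.card H *
        (((univ : Finset H).image (fun h : H => actF h π)).filter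
          (fun τ => dd f τ ≠ 0)).card := by
      convert orbit_count (H := H) (fun τ => dd f τ ≠ 0) π
    have h2 : w π * ((univ : Finset H).image (fun h : H => actF h π)).card = Wtot :=
      horb π hπ hπq
    rw [← h2, mul_assoc, mul_comm (((univ : Finset H).image (fun h : H => actF h π)).card), h1,
      mul_left_comm]
    refine Nat.mul_le_mul_left _ ?_
    calc w π * (((univ : Finset H).image (fun h : H => actF h π)).filter
            (fun τ => dd f τ ≠ 0)).card
        = ∑ τ ∈ ((univ : Finset H).image (fun h : H => actF h π)).filter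
            (fun τ => dd f τ ≠ 0), w π := by rw [sum_const, smul_eq_mul, mul_comm]
      _ = ∑ τ ∈ ((univ : Finset H).image (fun h : H => actF h π)).filter
            (fun τ => dd f τ ≠ 0), w τ := by
          refine sum_congr rfl (fun τ hτ => ?_)
          obtain ⟨h, _, rfl⟩ := mem_image.1 (mem_filter.1 hτ).1
          rw [hw']
      _ ≤ D := by
          refine sum_le_sum_of_subset ?_
          intro τ hτ
          rw [mem_filter] at hτ
          obtain ⟨h, _, rfl⟩ := mem_image.1 hτ.1
          rw [mem_filter]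
          exact ⟨mem_univ _, hHK' _ _ hπ, by rw [card_act, hπq], hτ.2⟩
  -- sum over the group
  let nh : H → ℕ := fun h => ∑ τ ∈ (univ : Finset (Finset α)).filter
          (fun τ => τ ∈ K ∧ τ.card = q ∧ f τ + dd (g h) τ ≠ 0), w τ
  have hnh : ∀ h : H, nh h ≤
      ∑ ρ ∈ Kq, w ρ * ((cf ρ).support.filter (fun π => dd f (actF h π) ≠ 0)).card := by
    intro h
    calc nh h = ∑ τ ∈ Kq.filter (fun τ => f τ + dd (g h) τ ≠ 0), w τ := by
          refine sum_congr ?_ (fun _ _ => rfl)
          ext τ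
          simp only [hKq, mem_filter, mem_univ, true_and]
          (clear * -; tauto)
      _ ≤ ∑ τ ∈ Kq.filter (fun τ => f τ + dd (g h) τ ≠ 0),
            w τ * ((cf (actF h⁻¹ τ)).support.filter (fun π => dd f (actF h π) ≠ 0)).card := by
          refine sum_le_sum (fun τ hτ => ?_)
          rw [mem_filter, hKq, mem_filter] at hτ
          have h1 := hτ.2
          rw [hkey h τ hτ.1.2.1 hτ.1.2.2] at h1
          obtain ⟨π, hπ, hπ'⟩ := exists_of_ev_ne_zero h1
          have : 1 ≤ ((cf (actF h⁻¹ τ)).support.filter (fun π => dd f (actF h π) ≠ 0)).card :=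
            card_pos.2 ⟨π, mem_filter.2 ⟨hπ, hπ'⟩⟩
          calc w τ = w τ * 1 := (mul_one _).symm
            _ ≤ _ := Nat.mul_le_mul_left _ this
      _ ≤ ∑ τ ∈ Kq,
            w τ * ((cf (actF h⁻¹ τ)).support.filter (fun π => dd f (actF h π) ≠ 0)).card :=
          sum_le_sum_of_subset (filter_subset _ _)
      _ = _ := by
          refine sum_bij' (fun τ _ => actF h⁻¹ τ) (fun ρ _ => actF h ρ) ?_ ?_ ?_ ?_ ?_
          · intro τ hτ
            rw [hKq, mem_filter] at hτ ⊢
            exact ⟨mem_univ _, hHK' _ _ hτ.2.1, by rw [card_act, hτ.2.2]⟩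
          · intro τ hτ
            rw [hKq, mem_filter] at hτ ⊢
            exact ⟨mem_univ _, hHK' _ _ hτ.2.1, by rw [card_act, hτ.2.2]⟩
          · intro τ _
            exact act_act_inv h τ
          · intro τ _
            exact act_inv_act h τ
          · intro τ _
            rw [hw']
  have hsum : Wtot * ∑ h : H, nh h ≤ Fintype.card H * (C0 * S * D) := by
    calc Wtot * ∑ h : H, nh h
        ≤ Wtot * ∑ h : H, ∑ ρ ∈ Kq,
            w ρ * ((cf ρ).support.filter (fun π => dd f (actF h π) ≠ 0)).card :=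
          Nat.mul_le_mul_left _ (sum_le_sum (fun h _ => hnh h))
      _ = ∑ ρ ∈ Kq, w ρ * ∑ π ∈ (cf ρ).support,
            (Wtot * ((univ : Finset H).filter (fun h => dd f (actF h π) ≠ 0)).card) := by
          rw [sum_comm, mul_sum]
          refine sum_congr rfl (fun ρ _ => ?_)
          rw [← mul_sum, mul_left_comm, ← mul_sum]
          congr 2
          simp only [card_filter]
          rw [sum_comm]
      _ ≤ ∑ ρ ∈ Kq, w ρ * (C0 * (Fintype.card H * D)) := by
          refine sum_le_sum (fun ρ hρ => Nat.mul_le_mul_left _ ?_)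
          rw [hKq, mem_filter] at hρ
          obtain ⟨h1, h2, _⟩ := hcf ρ hρ.2.1 hρ.2.2.le
          calc ∑ π ∈ (cf ρ).support,
                (Wtot * ((univ : Finset H).filter (fun h => dd f (actF h π) ≠ 0)).card)
              ≤ ∑ π ∈ (cf ρ).support, Fintype.card H * D := by
                refine sum_le_sum (fun π hπ => ?_)
                have h3 := h1 π hπ
                exact horbit π h3.1 (by rw [h3.2, hρ.2.2])
            _ = (cf ρ).support.card * (Fintype.card H * D) := by rw [sum_const, smul_eq_mul]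
            _ ≤ _ := Nat.mul_le_mul_right _ h2
      _ = Fintype.card H * (C0 * S * D) := by
          rw [← sum_mul, hS]
          ring
  -- pick a good group element
  have hex : ∃ h : H, Wtot * nh h ≤ C0 * S * D := by
    by_contra hcon
    push Not at hcon
    have : Fintype.card H * (C0 * S * D) < Wtot * ∑ h : H, nh h := by
      calc Fintype.card H * (C0 * S * D) = ∑ _h : H, C0 * S * D := by
            rw [sum_const, card_univ, smul_eq_mul]
        _ < ∑ h : H, Wtot * nh h := sum_lt_sum_of_nonempty univ_nonempty (fun h _ => hcon h)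
        _ = _ := by rw [mul_sum]
    omega
  obtain ⟨h, hh⟩ := hex
  exact ⟨g h, hh⟩

end Vale.Agent.P067
end
end

section

section

/-! # P067: basic lemmas on weights (from helper378) -/

set_option autoImplicit false

open Finset

namespace Vale.Agent.P067

attribute [local instance] Classical.propDecidable

variable {α : Type*}

theorem W_anti (top : Finset (Finset α)) {s t : Finset α} (h : s ⊆ t) : W top t ≤ W top s :=
  card_le_card (monotone_filter_right _ (fun _ _ hC => h.trans hC))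

theorem W_pos_iff {top : Finset (Finset α)} {s : Finset α} :
    0 < W top s ↔ ∃ C ∈ top, s ⊆ C := by
  simp only [W, card_pos, Finset.Nonempty, mem_filter]

theorem card_le_of_W_pos {top : Finset (Finset α)} {N : ℕ} (hN : ∀ C ∈ top, C.card = N)
    {s : Finset α} (h : 0 < W top s) : s.card ≤ N := by
  obtain ⟨C, hC, hs⟩ := W_pos_iff.1 h
  exact (card_le_card hs).trans (hN C hC).le

/-- Double counting over the vertices outside `θ`. -/
theorem sum_W_insert [Fintype α] (top : Finset (Finset α)) {N : ℕ}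
    (hN : ∀ C ∈ top, C.card = N) (θ : Finset α) :
    ∑ v ∈ univ \ θ, W top (insert v θ) = (N - θ.card) * W top θ := by
  simp only [W, card_filter]
  rw [sum_comm, mul_sum]
  refine sum_congr rfl (fun C hC => ?_)
  by_cases hθ : θ ⊆ C
  · have h1 : ∀ v ∈ univ \ θ, (if insert v θ ⊆ C then 1 else 0) = if v ∈ C \ θ then 1 else 0 := by
      intro v hv
      have hv' : v ∉ θ := by simpa only [mem_sdiff, mem_univ, true_and] using hv
      simp [insert_subset_iff, hθ, hv']
    rw [sum_congr rfl h1, if_pos hθ, ← card_filter, mul_one, ← hN C hC, ← card_sdiff_of_subset hθ]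
    congr 1
    ext v
    simp only [mem_sdiff, mem_filter, mem_univ, true_and, and_iff_right_iff_imp, and_imp, imp_self, implies_true]
  · have h1 : ∀ v ∈ univ \ θ, (if insert v θ ⊆ C then 1 else 0) = 0 := by
      intro v _
      rw [if_neg]
      intro h
      exact hθ ((subset_insert v θ).trans h)
    rw [sum_congr rfl h1, if_neg hθ]
    simp only [sum_const_zero, mul_zero]

end Vale.Agent.P067
end
end

section

section

/-! # P067: link expansion from cone functions and typed transitivity -/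

set_option autoImplicit false

open Finset

namespace Vale.Agent.P067

attribute [local instance] Classical.propDecidable

/-- A group acting on a pure complex, preserving types, transitively on top simplices. -/
structure TypedTrans {α : Type} (G : Type) [Group G] [MulAction G α] (top : Finset (Finset α))
    (ty : α → ℕ) : Prop where
  inv : ∀ (g : G), ∀ C ∈ top, C.image (fun x => g • x) ∈ top
  ty_inv : ∀ (g : G) (x : α), ty (g • x) = ty x
  ty_inj : ∀ C ∈ top, Set.InjOn ty (C : Set α)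
  trans : ∀ C ∈ top, ∀ C' ∈ top, ∃ g : G, C.image (fun x => g • x) = C'

/-- The link of `σ` as a complex. -/
def linkK {α : Type*} (top : Finset (Finset α)) (σ : Finset α) : Set (Finset α) :=
  {τ | Disjoint τ σ ∧ 0 < W top (σ ∪ τ)}

variable {α : Type} {G : Type} [Group G] [MulAction G α]

theorem image_smul_smul (g h : G) (s : Finset α) :
    (s.image (fun x => h • x)).image (fun x => g • x) = s.image (fun x => (g * h) • x) := by
  rw [Finset.image_image]
  congr 1
  ext x
  simp [mul_smul]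

theorem image_one_smul (s : Finset α) : s.image (fun x => (1 : G) • x) = s := by
  simp

theorem W_smul_of_invariant (top : Finset (Finset α)) (hinv : ∀ (g : G), ∀ C ∈ top, C.image (fun x => g • x) ∈ top)
    (g : G) (s : Finset α) : W top (s.image (fun x => g • x)) = W top s := by
  have key : ∀ (g : G) (s : Finset α), W top s ≤ W top (s.image (fun x => g • x)) := by
    intro g s
    unfold W
    apply Finset.card_le_card_of_injOn (fun C => C.image (fun x => g • x))
    · intro C hC
      rw [Finset.mem_coe, Finset.mem_filter] at hC ⊢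
      exact ⟨hinv g C hC.1, Finset.image_subset_image hC.2⟩
    · intro C _ C' _ h
      exact Finset.image_injective (MulAction.injective g) h
  apply le_antisymm
  · have := key g⁻¹ (s.image (fun x => g • x))
    rwa [image_smul_smul, inv_mul_cancel, image_one_smul] at this
  · exact key g s

/-- Setwise stabilizer of a finset. -/
def stabF (G : Type) [Group G] [MulAction G α] (σ : Finset α) : Subgroup G where
  carrier := {g | σ.image (fun x => g • x) = σ}
  mul_mem' := by
    intro a b ha hb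
    rw [Set.mem_ofPred_eq] at ha hb ⊢
    rw [← image_smul_smul, hb, ha]
  one_mem' := image_one_smul σ
  inv_mem' := by
    intro a ha
    rw [Set.mem_ofPred_eq] at ha ⊢
    conv_lhs => rw [← ha]
    rw [image_smul_smul, inv_mul_cancel, image_one_smul]

theorem linkK_down (top : Finset (Finset α)) (σ : Finset α) : DownClosed (linkK top σ) := by
  intro s hs t hts
  exact ⟨Finset.disjoint_of_subset_left hts hs.1,
    lt_of_lt_of_le hs.2 (W_anti top (Finset.union_subset_union_right hts))⟩

theorem orbit_weight [Fintype G] (top : Finset (Finset α)) (ty : α → ℕ)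
    (hT : TypedTrans G top ty) (σ π : Finset α) (hW : 0 < W top (σ ∪ π)) :
    W top (σ ∪ π) *
      ((univ : Finset (stabF G σ)).image (fun h : stabF G σ => π.image (fun x => h • x))).card =
      W top σ := by
  obtain ⟨C0, hC0, hsub⟩ := W_pos_iff.1 hW
  set orb := (univ : Finset (stabF G σ)).image (fun h : stabF G σ => π.image (fun x => h • x))
    with horb
  have hunion : top.filter (fun C => σ ⊆ C) =
      orb.biUnion (fun π' => top.filter (fun C => σ ∪ π' ⊆ C)) := by
    ext C
    simp only [Finset.mem_filter, Finset.mem_biUnion]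
    constructor
    · rintro ⟨hC, hσC⟩
      obtain ⟨g, hg⟩ := hT.trans C0 hC0 C hC
      have hfix : ∀ x ∈ σ, g • x = x := by
        intro x hx
        have h1 : g • x ∈ C := by
          rw [← hg]
          exact Finset.mem_image_of_mem _ (hsub (Finset.mem_union_left _ hx))
        exact hT.ty_inj C hC h1 (hσC hx) (hT.ty_inv g x)
      have hgσ : g ∈ stabF G σ := by
        show σ.image (fun x => g • x) = σ
        ext y
        simp only [Finset.mem_image]
        constructor
        · rintro ⟨x, hx, rfl⟩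
          rw [hfix x hx]; exact hx
        · intro hy
          exact ⟨y, hy, hfix y hy⟩
      refine ⟨π.image (fun x => g • x), ?_, hC, ?_⟩
      · rw [horb, Finset.mem_image]
        exact ⟨⟨g, hgσ⟩, Finset.mem_univ _, rfl⟩
      · apply Finset.union_subset hσC
        rw [← hg]
        exact Finset.image_subset_image ((Finset.subset_union_right).trans hsub)
    · rintro ⟨π', _, hC, hsub'⟩
      exact ⟨hC, (Finset.subset_union_left).trans hsub'⟩
  have hdisj : ∀ π' ∈ orb, ∀ π'' ∈ orb, π' ≠ π'' →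
      Disjoint (top.filter (fun C => σ ∪ π' ⊆ C)) (top.filter (fun C => σ ∪ π'' ⊆ C)) := by
    intro π' h' π'' h'' hne
    rw [Finset.disjoint_left]
    intro C hC hC'
    apply hne
    rw [Finset.mem_filter] at hC hC'
    have hle : ∀ π' ∈ orb, ∀ π'' ∈ orb, π' ⊆ C → π'' ⊆ C → π' ⊆ π'' := by
      intro π' h' π'' h'' hs' hs'' x hx
      rw [horb, Finset.mem_image] at h' h''
      obtain ⟨g, _, rfl⟩ := h'
      obtain ⟨g', _, rfl⟩ := h''
      rw [Finset.mem_image] at hx
      obtain ⟨y, hy, rfl⟩ := hx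
      have h1 : g' • y ∈ π.image (fun x => g' • x) := Finset.mem_image_of_mem _ hy
      have h2 : g • y ∈ C := hs' (Finset.mem_image_of_mem _ hy)
      have h3 : g • y = g' • y :=
        hT.ty_inj C hC.1 h2 (hs'' h1) ((hT.ty_inv (g : G) y).trans (hT.ty_inv (g' : G) y).symm)
      show g • y ∈ _
      rw [h3]; exact h1
    have s1 : π' ⊆ C := (Finset.subset_union_right).trans hC.2
    have s2 : π'' ⊆ C := (Finset.subset_union_right).trans hC'.2
    exact Finset.Subset.antisymm (hle _ h' _ h'' s1 s2) (hle _ h'' _ h' s2 s1)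
  have hcard : ∀ π' ∈ orb, (top.filter (fun C => σ ∪ π' ⊆ C)).card = W top (σ ∪ π) := by
    intro π' h'
    rw [horb, Finset.mem_image] at h'
    obtain ⟨g, _, rfl⟩ := h'
    have hg : σ.image (fun x => (g : G) • x) = σ := g.2
    have : σ ∪ π.image (fun x => g • x) = (σ ∪ π).image (fun x => (g : G) • x) := by
      rw [Finset.image_union, hg]
      rfl
    rw [this]
    exact W_smul_of_invariant top hT.inv (g : G) (σ ∪ π)
  have : W top σ = (top.filter (fun C => σ ⊆ C)).card := rfl
  rw [this, hunion, Finset.card_biUnion hdisj, Finset.sum_congr rfl hcard, Finset.sum_const,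
    smul_eq_mul, mul_comm]

theorem union_image_stab (σ τ : Finset α) (h : stabF G σ) :
    σ ∪ τ.image (fun x => h • x) = (σ ∪ τ).image (fun x => (h : G) • x) := by
  have hg : σ.image (fun x => (h : G) • x) = σ := h.2
  rw [Finset.image_union, hg]
  rfl

theorem sum_W_union_le [Fintype α] (top : Finset (Finset α)) (N : ℕ)
    (htop : ∀ C ∈ top, C.card = N) (σ : Finset α) (q : ℕ) :
    ∑ τ ∈ (univ : Finset (Finset α)).filter (fun τ => τ ∈ linkK top σ ∧ τ.card = q),
      W top (σ ∪ τ) ≤ 2 ^ N * W top σ := by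
  calc ∑ τ ∈ (univ : Finset (Finset α)).filter (fun τ => τ ∈ linkK top σ ∧ τ.card = q),
      W top (σ ∪ τ)
      ≤ ∑ τ : Finset α, W top (σ ∪ τ) :=
        Finset.sum_le_sum_of_subset (Finset.filter_subset _ _)
    _ = ∑ τ : Finset α, ∑ C ∈ top, if σ ∪ τ ⊆ C then 1 else 0 := by
        simp only [W, Finset.card_filter]
    _ = ∑ C ∈ top, ∑ τ : Finset α, if σ ∪ τ ⊆ C then 1 else 0 := Finset.sum_comm
    _ ≤ ∑ C ∈ top, if σ ⊆ C then 2 ^ N else 0 := by
        apply Finset.sum_le_sum
        intro C hC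
        by_cases hσ : σ ⊆ C
        · rw [if_pos hσ, ← Finset.card_filter]
          calc ((univ : Finset (Finset α)).filter (fun τ => σ ∪ τ ⊆ C)).card
              ≤ (C.powerset).card := by
                apply Finset.card_le_card
                intro τ hτ
                rw [Finset.mem_filter] at hτ
                exact Finset.mem_powerset.2 ((Finset.subset_union_right).trans hτ.2)
            _ = 2 ^ N := by rw [Finset.card_powerset, htop C hC]
        · rw [if_neg hσ]
          apply le_of_eq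
          apply Finset.sum_eq_zero
          intro τ _
          rw [if_neg]
          exact fun h => hσ ((Finset.subset_union_left).trans h)
    _ = 2 ^ N * W top σ := by
        rw [← Finset.sum_filter, Finset.sum_const, W, smul_eq_mul, mul_comm]

/-- Link expansion from bounded cone functions. -/
theorem linkExp_of_cone [Fintype α] [Fintype G] (top : Finset (Finset α)) (N : ℕ)
    (htop : ∀ C ∈ top, C.card = N) (ty : α → ℕ) (hT : TypedTrans G top ty) (C0 : ℕ)
    (hcone : ∀ σ : Finset α, σ.Nonempty → 0 < W top σ →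
      ∃ cf : Finset α → (Finset α →₀ ZMod 2), ∀ ρ ∈ linkK top σ, ρ.card + σ.card + 1 ≤ N →
        ChainIn (linkK top σ) (ρ.card + 1) (cf ρ) ∧ (cf ρ).support.card ≤ C0 ∧
          bd (cf ρ) = Finsupp.single ρ 1 + ∑ v ∈ ρ, cf (ρ.erase v)) :
    LinkExp top N (1 / ((C0 + 1 : ℝ) * 2 ^ N)) := by
  intro σ hσ hWσ q hq hqN g
  obtain ⟨cf, hcf⟩ := hcone σ hσ hWσ
  obtain ⟨h, hh⟩ := cone_expansion (H := stabF G σ) (linkK top σ) (linkK_down top σ)
    (by
      intro h τ hτ
      refine ⟨?_, ?_⟩
      · have hg : σ.image (fun x => (h : G) • x) = σ := h.2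
        have : Disjoint (τ.image (fun x => (h : G) • x)) (σ.image (fun x => (h : G) • x)) := by
          rw [Finset.disjoint_image (MulAction.injective (h : G))]
          exact hτ.1
        rw [hg] at this
        exact this
      · rw [union_image_stab, W_smul_of_invariant top hT.inv]
        exact hτ.2)
    (fun τ => W top (σ ∪ τ))
    (by
      intro h τ
      show W top (σ ∪ τ.image (fun x => h • x)) = W top (σ ∪ τ)
      rw [union_image_stab, W_smul_of_invariant top hT.inv])
    (W top σ) q C0 hq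
    (by
      intro π hπ _
      exact orbit_weight top ty hT σ π hπ.2)
    cf
    (by
      intro ρ hρ hρq
      exact hcf ρ hρ (by omega))
    g
  refine ⟨h, ?_⟩
  have hL : ∀ (r : ℕ) (u : Finset α → ZMod 2), nrmL top σ r u =
      ∑ τ ∈ (univ : Finset (Finset α)).filter
        (fun τ => τ ∈ linkK top σ ∧ τ.card = r ∧ u τ ≠ 0), W top (σ ∪ τ) := by
    intro r u
    unfold nrmL
    symm
    apply Finset.sum_subset_zero_on_sdiff
    · intro τ hτ
      rw [Finset.mem_filter] at hτ ⊢
      exact ⟨hτ.1, hτ.2.2.1, hτ.2.1.1, hτ.2.2.2⟩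
    · intro τ hτ
      rw [Finset.mem_sdiff, Finset.mem_filter, Finset.mem_filter] at hτ
      by_contra hne
      exact hτ.2 ⟨hτ.1.1, ⟨hτ.1.2.2.1, Nat.pos_of_ne_zero hne⟩, hτ.1.2.1, hτ.1.2.2.2⟩
    · intro _ _
      rfl
  rw [hL, hL]
  have hsum := sum_W_union_le top N htop σ q
  set A := ∑ τ ∈ (univ : Finset (Finset α)).filter
        (fun τ => τ ∈ linkK top σ ∧ τ.card = q ∧ g τ + dd h τ ≠ 0), W top (σ ∪ τ) with hA
  set B := ∑ τ ∈ (univ : Finset (Finset α)).filter
        (fun τ => τ ∈ linkK top σ ∧ τ.card = q + 1 ∧ dd g τ ≠ 0), W top (σ ∪ τ) with hB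
  have h1 : W top σ * A ≤ C0 * (2 ^ N * W top σ) * B :=
    le_trans hh (Nat.mul_le_mul_right _ (Nat.mul_le_mul_left _ hsum))
  have h2 : A ≤ C0 * 2 ^ N * B := by
    have : W top σ * A ≤ W top σ * (C0 * 2 ^ N * B) := by
      calc W top σ * A ≤ C0 * (2 ^ N * W top σ) * B := h1
        _ = W top σ * (C0 * 2 ^ N * B) := by ring
    exact Nat.le_of_mul_le_mul_left this hWσ
  have h3 : (A : ℝ) ≤ (C0 + 1 : ℝ) * 2 ^ N * B := by
    calc (A : ℝ) ≤ ((C0 * 2 ^ N * B : ℕ) : ℝ) := by exact_mod_cast h2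
      _ = (C0 : ℝ) * 2 ^ N * B := by push_cast; ring
      _ ≤ (C0 + 1 : ℝ) * 2 ^ N * B := by
          apply mul_le_mul_of_nonneg_right _ (Nat.cast_nonneg _)
          apply mul_le_mul_of_nonneg_right _ (by positivity)
          linarith only []
  rw [one_div, inv_mul_le_iff₀ (by positivity)]
  exact h3

end Vale.Agent.P067
end
end

section

section

/-! # P067: bridges between homology vanishing, cohomology vanishing and connectivity -/

set_option autoImplicit false

open Finset

namespace Vale.Agent.P067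

attribute [local instance] Classical.propDecidable

variable {α : Type*}

/-- Linear extension of a cochain to chains. -/
noncomputable def pairing {k : Type*} [Field k] (f : Finset α → k) :
    (Finset α →₀ k) →ₗ[k] k :=
  Finsupp.lsum k (fun s => (LinearMap.id : k →ₗ[k] k).smulRight (f s))

theorem pairing_single {k : Type*} [Field k] (f : Finset α → k) (s : Finset α) (a : k) :
    pairing f (Finsupp.single s a) = a * f s := by
  simp [pairing]

theorem pairing_eq_zero {k : Type*} [Field k] (f : Finset α → k) (c : Finset α →₀ k)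
    (h : ∀ s ∈ c.support, f s = 0) : pairing f c = 0 := by
  rw [pairing, Finsupp.lsum_apply, Finsupp.sum]
  apply Finset.sum_eq_zero
  intro s hs
  simp [h s hs]

theorem pairing_bd (f : Finset α → ZMod 2) (c : Finset α →₀ ZMod 2) :
    pairing f (bd c) = pairing (dd f) c := by
  have : (pairing f ∘ₗ bd : (Finset α →₀ ZMod 2) →ₗ[ZMod 2] ZMod 2) = pairing (dd f) := by
    apply Finsupp.lhom_ext
    intro s a
    simp only [LinearMap.comp_apply, bd_single, map_sum, pairing_single, dd, Finset.mul_sum]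
  exact LinearMap.congr_fun this c

/-- Cocycles are coboundaries if homology vanishes. -/
theorem cocycle_eq_coboundary (K : Set (Finset α)) (s : ℕ) (hK : Acyc (ZMod 2) K s)
    (f : Finset α → ZMod 2) (hf : ∀ ρ ∈ K, ρ.card = s + 1 → dd f ρ = 0) :
    ∃ e : Finset α → ZMod 2, ∀ τ ∈ K, τ.card = s → f τ = dd e τ := by
  classical
  -- the subspace of chains of size `s` in `K`
  let Cs : Submodule (ZMod 2) (Finset α →₀ ZMod 2) :=
    Finsupp.supported (ZMod 2) (ZMod 2) {τ | τ ∈ K ∧ τ.card = s}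
  let B : Cs →ₗ[ZMod 2] (Finset α →₀ ZMod 2) := bd ∘ₗ Cs.subtype
  let φ : Module.Dual (ZMod 2) Cs := pairing f ∘ₗ Cs.subtype
  have hφ : φ ∈ (LinearMap.ker B).dualAnnihilator := by
    rw [Submodule.mem_dualAnnihilator]
    rintro ⟨c, hc⟩ hker
    have hbd : bd c = 0 := by simpa [B] using hker
    obtain ⟨y, hy, hyc⟩ := hK c (fun t ht => by
      have := (Finsupp.mem_supported _ _).1 hc ht
      exact this) hbd
    show pairing f c = 0
    rw [← hyc, pairing_bd]
    exact pairing_eq_zero _ _ (fun t ht => hf t (hy t ht).1 (hy t ht).2)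
  rw [← LinearMap.range_dualMap_eq_dualAnnihilator_ker] at hφ
  obtain ⟨e, he⟩ := hφ
  refine ⟨fun σ => e (Finsupp.single σ 1), fun τ hτ hcard => ?_⟩
  have hmem : Finsupp.single τ (1 : ZMod 2) ∈ Cs := by
    rw [Finsupp.mem_supported]
    intro x hx
    have : x = τ := by simpa using Finsupp.support_single_subset hx
    rw [this]
    exact ⟨hτ, hcard⟩
  have h1 := LinearMap.congr_fun he ⟨Finsupp.single τ 1, hmem⟩
  simp only [LinearMap.dualMap_apply, B, φ, LinearMap.comp_apply, Submodule.subtype_apply,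
    bd_single, map_sum, pairing_single, one_mul] at h1
  rw [← h1]
  rfl

/-- Connectivity of the link graph from vanishing of reduced homology in size one. -/
theorem linkConn_of_acyc (top : Finset (Finset α)) (θ : Finset α)
    (h : Acyc (ZMod 2) {τ : Finset α | Disjoint τ θ ∧ 0 < W top (θ ∪ τ)} 1) :
    LinkConn top θ := by
  classical
  intro A hA u v hu hv hWu hWv
  by_contra hne
  have huv : u ≠ v := by
    rintro rfl
    exact hne Iff.rfl
  let χ : Finset α → ZMod 2 := fun s => ∑ x ∈ s, if x ∈ A then 1 else 0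
  let c : Finset α →₀ ZMod 2 := Finsupp.single {u} 1 + Finsupp.single {v} 1
  have hbd : bd c = 0 := by
    simp only [c, map_add, bd_single, Finset.sum_singleton, Finset.erase_singleton]
    exact add_self_zero _
  have hc : ChainIn {τ : Finset α | Disjoint τ θ ∧ 0 < W top (θ ∪ τ)} 1 c := by
    intro s hs
    have hs' := Finsupp.support_add hs
    rw [Finset.mem_union] at hs'
    rcases hs' with h1 | h1
    · have : s = {u} := by simpa using Finsupp.support_single_subset h1
      subst this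
      refine ⟨⟨by simpa using hu, ?_⟩, by simp⟩
      rwa [Finset.union_comm, ← Finset.insert_eq]
    · have : s = {v} := by simpa using Finsupp.support_single_subset h1
      subst this
      refine ⟨⟨by simpa using hv, ?_⟩, by simp⟩
      rwa [Finset.union_comm, ← Finset.insert_eq]
  obtain ⟨y, hy, hyc⟩ := h c hc hbd
  have h1 : pairing χ c = 0 := by
    rw [← hyc, pairing_bd]
    apply pairing_eq_zero
    intro s hs
    obtain ⟨⟨hdis, hW⟩, hcard⟩ := hy s hs
    obtain ⟨a, b, hab, rfl⟩ := Finset.card_eq_two.1 hcard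
    rw [Finset.disjoint_insert_left, Finset.disjoint_singleton_left] at hdis
    have hW' : 0 < W top (insert a (insert b θ)) := by
      have : θ ∪ {a, b} = insert a (insert b θ) := by
        ext x
        simp only [Finset.mem_union, Finset.mem_insert, Finset.mem_singleton]
        (clear * - hne hdis; tauto)
      rwa [this] at hW
    have hiff := hA a b hdis.1 hdis.2 hab hW'
    have e1 : ({a, b} : Finset α).erase a = {b} := by
      rw [Finset.erase_insert (by simpa using hab)]
    have e2 : ({a, b} : Finset α).erase b = {a} := by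
      rw [Finset.pair_comm, Finset.erase_insert (by simpa using hab.symm)]
    rw [dd, Finset.sum_pair hab, e1, e2]
    simp only [χ, Finset.sum_singleton]
    by_cases ha : a ∈ A
    · have hb : b ∈ A := hiff.1 ha
      simp [ha, hb, CharTwo.add_self_eq_zero]
    · have hb : b ∉ A := fun hb => ha (hiff.2 hb)
      simp [ha, hb]
  have h2 : pairing χ c = (if u ∈ A then 1 else 0) + (if v ∈ A then 1 else 0) := by
    simp only [c, map_add, pairing_single, χ, Finset.sum_singleton, one_mul]
  rw [h1] at h2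
  by_cases hu' : u ∈ A <;> by_cases hv' : v ∈ A
  · exact hne ⟨fun _ => hv', fun _ => hu'⟩
  · simp only [hu', ↓reduceIte, hv', add_zero, zero_ne_one] at h2
  · simp only [hu', ↓reduceIte, hv', zero_add, zero_ne_one] at h2
  · exact hne ⟨fun h => absurd h hu', fun h => absurd h hv'⟩

end Vale.Agent.P067
end
end

section

section

/-! # P067: links of `X`: cone functions, acyclicity, link expansion -/

set_option autoImplicit false

open Finset

namespace Vale.Agent.P067

attribute [local instance] Classical.propDecidable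

attribute [-instance] Submodule.decidableEq

open scoped Pointwise

section abstractCone

/-- Uniform version of `exists_cone_fun`. -/
theorem exists_cone_fun_le (n : ℕ) : ∃ C0 N0 : ℕ, ∀ e : ℕ, e ≤ n →
    ∀ (α : Type) [Lattice α] (k : Type) [Field k] [CharP k 2] (C : Set α) (B T : α)
      (rk : α → ℕ), GenExt C B T rk N0 → ∀ T' ∈ insert T C, ∀ τ : Finset α,
      (∀ x ∈ τ, x ∈ C ∧ x < T') → IsChain (· ≤ ·) (τ : Set α) → rk T' = e + 1 + τ.card →
      ∃ cf : Finset α → (Finset α →₀ k), ∀ ρ ∈ LkC C T' τ, ρ.card + 1 ≤ e →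
        ChainIn (LkC C T' τ) (ρ.card + 1) (cf ρ) ∧ (cf ρ).support.card ≤ C0 ∧
          bd (cf ρ) = Finsupp.single ρ 1 + ∑ v ∈ ρ, cf (ρ.erase v) := by
  choose C0 N0 h using exists_cone_fun.{0}
  refine ⟨(range (n + 1)).sup C0, (range (n + 1)).sup N0, ?_⟩
  intro e he α _ k _ _ C B T rk hG T' hT' τ hτ hch hrk
  have hmem : e ∈ range (n + 1) := mem_range.2 (by omega)
  obtain ⟨cf, hcf⟩ := h e α k C B T rk (hG.mono (le_sup (f := N0) hmem)) T' hT' τ hτ hch hrk
  refine ⟨cf, fun ρ hρ h1 => ?_⟩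
  obtain ⟨h2, h3, h4⟩ := hcf ρ hρ h1
  exact ⟨h2, h3.trans (le_sup (f := C0) hmem), h4⟩

/-- Transport of a cone function along an isomorphism of complexes. -/
theorem cone_fun_of_iso {α β : Type*} {k : Type*} [Field k] {K : Set (Finset α)}
    {K' : Set (Finset β)} (hK : DownClosed K) (f : α → β) (g : β → α)
    (hf : ∀ s ∈ K, s.image f ∈ K' ∧ ∀ x ∈ s, g (f x) = x)
    (hg : ∀ r ∈ K', r.image g ∈ K ∧ ∀ y ∈ r, f (g y) = y) (e C0 : ℕ)
    (cf : Finset β → (Finset β →₀ k)) (hcf : ∀ ρ ∈ K', ρ.card + 1 ≤ e →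
        ChainIn K' (ρ.card + 1) (cf ρ) ∧ (cf ρ).support.card ≤ C0 ∧
          bd (cf ρ) = Finsupp.single ρ 1 + ∑ v ∈ ρ, cf (ρ.erase v)) :
    ∃ cf' : Finset α → (Finset α →₀ k), ∀ ρ ∈ K, ρ.card + 1 ≤ e →
        ChainIn K (ρ.card + 1) (cf' ρ) ∧ (cf' ρ).support.card ≤ C0 ∧
          bd (cf' ρ) = Finsupp.single ρ 1 + ∑ v ∈ ρ, cf' (ρ.erase v) := by
  have hinj : ∀ s ∈ K, Set.InjOn f (s : Set α) := by
    intro s hs x hx y hy hxy
    rw [← (hf s hs).2 x hx, ← (hf s hs).2 y hy, hxy]
  have hinj' : ∀ r ∈ K', Set.InjOn g (r : Set β) := by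
    intro r hr x hx y hy hxy
    rw [← (hg r hr).2 x hx, ← (hg r hr).2 y hy, hxy]
  refine ⟨fun ρ => mapC g (cf (ρ.image f)), fun ρ hρ he => ?_⟩
  have hcard : (ρ.image f).card = ρ.card := card_image_of_injOn (hinj ρ hρ)
  obtain ⟨h1, h2, h3⟩ := hcf (ρ.image f) (hf ρ hρ).1 (by omega)
  rw [hcard] at h1
  refine ⟨?_, ?_, ?_⟩
  · exact h1.mapC g (fun r hr _ => ⟨(hg r hr).1, hinj' r hr⟩)
  · refine le_trans ?_ h2
    have hsub : (mapC g (cf (ρ.image f))).support ⊆
        (cf (ρ.image f)).support.image (fun s => s.image g) := by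
      intro t ht
      obtain ⟨s, hs, rfl⟩ := support_mapC g _ t ht
      exact mem_image_of_mem _ hs
    exact (card_le_card hsub).trans card_image_le
  · show bd (mapC g (cf (ρ.image f))) = _
    rw [bd_mapC g _ (fun s hs => hinj' s (h1 s hs).1), h3, map_add, mapC_single, map_sum]
    congr 1
    · rw [image_image]
      congr 1
      conv_rhs => rw [← image_id (s := ρ)]
      exact image_congr (fun x hx => (hf ρ hρ).2 x hx)
    · rw [sum_image (fun x hx y hy hxy => hinj ρ hρ hx hy hxy)]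
      refine sum_congr rfl fun v hv => ?_
      show _ = mapC g (cf ((ρ.erase v).image f))
      rw [image_erase_of_injOn f ρ (hinj ρ hρ) hv]

end abstractCone

variable {p m : ℕ} [Fact p.Prime] {ι : Type} [Fintype ι] [DecidableEq ι]

theorem CL_is_CC (L : Sb ι p m) : CL L = CC (Sp L) ((Sp L).map (tm ι p m)) L := rfl

theorem genExt_CL (hm : 3 ≤ m) {L : Sb ι p m} (hL : {L} ∈ XX ι p m) (hι : 0 < Fintype.card ι)
    (M : ℕ) (hM : 3 * M ≤ p) : GenExt (CL L) (Sp L) L (rkS (Sp L)) M := by
  obtain ⟨h1, h2, h3, h4, h5⟩ := finrank_vertex hm hL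
  rw [CL_is_CC]
  refine genExt_CC ?_ (le_sup_right.trans h5) h3 M (by rwa [ZMod.card])
  refine lt_of_le_of_ne (le_sup_left.trans h5) ?_
  intro h
  rw [← h] at h1
  omega

/-- Link of a nonempty simplex to chains. -/
theorem link_to_LkC (hm : 3 ≤ m) {σ : Finset (Sb ι p m)} {L : Sb ι p m} (hL : L ∈ σ)
    {ρ : Finset (Sb ι p m)} (hd : Disjoint ρ σ) (hρ : σ ∪ ρ ∈ XX ι p m) :
    ρ.image (zz L) ∈ LkC (CL L) L ((σ.erase L).image (zz L)) ∧ ∀ x ∈ ρ, yy L (zz L x) = x := by
  have hLρ : L ∉ ρ := fun h => (disjoint_left.1 hd h) hL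
  have hins : insert L (ρ ∪ σ.erase L) ∈ XX ι p m := by
    have : insert L (ρ ∪ σ.erase L) = σ ∪ ρ := by
      ext x
      simp only [mem_insert, mem_union, mem_erase]
      by_cases hx : x = L
      · simp [hx, hL]
      · simp [hx, or_comm]
    rwa [this]
  obtain ⟨h1, h2⟩ := chain_of_link hm (by simp [hLρ]) hins
  have hyy : ∀ x ∈ ρ ∪ σ.erase L, yy L (zz L x) = x := fun x hx => (h1 x hx).2
  refine ⟨⟨?_, ?_, ?_⟩, fun x hx => hyy x (mem_union_left _ hx)⟩
  · intro y hy
    obtain ⟨x, hx, rfl⟩ := mem_image.1 hy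
    have := (h1 x (mem_union_left _ hx)).1
    exact ⟨this, this.2.1⟩
  · rw [disjoint_left]
    intro y hy hy'
    obtain ⟨x, hx, rfl⟩ := mem_image.1 hy
    obtain ⟨x', hx', hxx⟩ := mem_image.1 hy'
    have : x' = x := by
      rw [← hyy x (mem_union_left _ hx), ← hyy x' (mem_union_right _ hx'), hxx]
    rw [this] at hx'
    exact (disjoint_left.1 hd hx) (mem_of_mem_erase hx')
  · rw [← image_union]
    exact h2

/-- Chains to link of a nonempty simplex. -/
theorem LkC_to_link (hm : 3 ≤ m) {σ : Finset (Sb ι p m)} (hσ : σ ∈ XX ι p m) {L : Sb ι p m}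
    (hL : L ∈ σ) {r : Finset (Sb ι p m)}
    (hr : r ∈ LkC (CL L) L ((σ.erase L).image (zz L))) :
    (Disjoint (r.image (yy L)) σ ∧ σ ∪ r.image (yy L) ∈ XX ι p m) ∧
      ∀ y ∈ r, zz L (yy L y) = y := by
  obtain ⟨hr1, hr2, hr3⟩ := hr
  have hσ' : insert L (σ.erase L) ∈ XX ι p m := by rwa [insert_erase hL]
  obtain ⟨h1, h2⟩ := chain_of_link hm (notMem_erase L σ) hσ'
  have hL1 : ({L} : Finset (Sb ι p m)) ∈ XX ι p m :=
    downClosed_XX σ hσ _ (singleton_subset_iff.2 hL)
  obtain ⟨h3, h4⟩ := link_of_chain hm hL1 (c := r ∪ (σ.erase L).image (zz L)) (by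
    intro Z hZ
    rcases mem_union.1 hZ with hZ | hZ
    · exact (hr1 Z hZ).1
    · obtain ⟨x, hx, rfl⟩ := mem_image.1 hZ
      exact (h1 x hx).1) hr3
  have hback : ((σ.erase L).image (zz L)).image (yy L) = σ.erase L := by
    rw [image_image]
    conv_rhs => rw [← image_id (s := σ.erase L)]
    exact image_congr (fun x hx => (h1 x hx).2)
  refine ⟨⟨?_, ?_⟩, fun y hy => (h4 y (mem_union_left _ hy)).1⟩
  · rw [disjoint_left]
    intro x hx hxσ
    obtain ⟨y, hy, rfl⟩ := mem_image.1 hx
    obtain ⟨h5, h6⟩ := h4 y (mem_union_left _ hy)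
    have : y ∈ (σ.erase L).image (zz L) :=
      mem_image.2 ⟨yy L y, mem_erase.2 ⟨h6, hxσ⟩, h5⟩
    exact (disjoint_left.1 hr2 hy) this
  · have : insert L ((r ∪ (σ.erase L).image (zz L)).image (yy L)) = σ ∪ r.image (yy L) := by
      rw [image_union, hback]
      ext x
      simp only [mem_insert, mem_union, mem_erase]
      by_cases hx : x = L
      · simp [hx, hL]
      · simp [hx, or_comm]
    rw [← this]
    exact h3

theorem linkK_topX (hm : 3 ≤ m) (σ : Finset (Sb ι p m)) :
    linkK (topX ι p m) σ = {τ | Disjoint τ σ ∧ σ ∪ τ ∈ XX ι p m} := by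
  ext τ
  exact and_congr_right fun _ => W_topX_pos_iff hm _

/-- Cone functions on the links of nonempty simplices. -/
theorem exists_cone_link (n : ℕ) : ∃ C0 p0 : ℕ, ∀ (p m : ℕ) [Fact p.Prime] (ι : Type) [Fintype ι]
    [DecidableEq ι], Fintype.card ι = n → p0 ≤ p → 3 ≤ m →
    ∀ (k : Type) [Field k] [CharP k 2] (σ : Finset (Sb ι p m)), σ.Nonempty →
      0 < W (topX ι p m) σ →
      ∃ cf : Finset (Sb ι p m) → (Finset (Sb ι p m) →₀ k), ∀ ρ ∈ linkK (topX ι p m) σ,
        ρ.card + σ.card + 1 ≤ n →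
        ChainIn (linkK (topX ι p m) σ) (ρ.card + 1) (cf ρ) ∧ (cf ρ).support.card ≤ C0 ∧
          bd (cf ρ) = Finsupp.single ρ 1 + ∑ v ∈ ρ, cf (ρ.erase v) := by
  obtain ⟨C0, N0, h⟩ := exists_cone_fun_le n
  refine ⟨C0, 3 * N0, ?_⟩
  intro p m _ ι _ _ hn hp hm k _ _ σ hσ hW
  obtain ⟨L, hL⟩ := hσ
  have hσX : σ ∈ XX ι p m := (W_topX_pos_iff hm σ).1 hW
  have hL1 : ({L} : Finset (Sb ι p m)) ∈ XX ι p m :=
    downClosed_XX σ hσX _ (singleton_subset_iff.2 hL)
  obtain ⟨f1, f2, f3, f4, f5⟩ := finrank_vertex hm hL1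
  have hG := genExt_CL hm hL1 (by omega) N0 hp
  obtain ⟨c1, c2⟩ := chain_of_link hm (notMem_erase L σ)
    (by rwa [insert_erase hL] : insert L (σ.erase L) ∈ XX ι p m)
  have hcardσ : ((σ.erase L).image (zz L)).card + 1 = σ.card := by
    rw [card_image_of_injOn, card_erase_add_one hL]
    intro x hx y hy hxy
    rw [← (c1 x hx).2, ← (c1 y hy).2, hxy]
  have hσn : σ.card ≤ n := by
    obtain ⟨C, hC, hs⟩ := W_pos_iff.1 hW
    have := (mem_topX.1 hC).2
    have := card_le_card hs
    omega
  obtain ⟨cf, hcf⟩ := h (n - σ.card) (by omega) (Sb ι p m) k (CL L) (Sp L) L (rkS (Sp L)) hG L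
    (Set.mem_insert _ _) ((σ.erase L).image (zz L)) (by
      intro x hx
      obtain ⟨y, hy, rfl⟩ := mem_image.1 hx
      exact ⟨(c1 y hy).1, (c1 y hy).1.2.1⟩) c2 (by
      unfold rkS
      omega)
  have hdown : DownClosed (linkK (topX ι p m) σ) := linkK_down _ _
  obtain ⟨cf', hcf'⟩ := cone_fun_of_iso (K := linkK (topX ι p m) σ) hdown (zz L) (yy L)
    (by
      intro s hs
      rw [linkK_topX hm] at hs
      exact link_to_LkC hm hL hs.1 hs.2)
    (by
      intro r hr
      rw [linkK_topX hm]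
      exact LkC_to_link hm hσX hL hr) (n - σ.card) C0 cf hcf
  exact ⟨cf', fun ρ hρ hc => hcf' ρ hρ (by omega)⟩

/-- Links of nonempty simplices of `X` are acyclic below the top dimension. -/
theorem acyc_linkK (n : ℕ) : ∃ p0 : ℕ, ∀ (p m : ℕ) [Fact p.Prime] (ι : Type) [Fintype ι]
    [DecidableEq ι], Fintype.card ι = n → p0 ≤ p → 3 ≤ m →
    ∀ (k : Type) [Field k] [CharP k 2] (σ : Finset (Sb ι p m)), σ.Nonempty →
      0 < W (topX ι p m) σ → ∀ q : ℕ, q + σ.card + 1 ≤ n →
      Acyc k (linkK (topX ι p m) σ) q := by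
  obtain ⟨C0, p0, h⟩ := exists_cone_link n
  refine ⟨p0, ?_⟩
  intro p m _ ι _ _ hn hp hm k _ _ σ hσ hW q hq c hc hbd
  obtain ⟨cf, hcf⟩ := h p m ι hn hp hm k σ hσ hW
  refine ⟨linExt cf c, ChainIn.linExt (fun ρ hρ hc => ?_) hc, ?_⟩
  · have := (hcf ρ hρ (by omega)).1
    rwa [hc] at this
  · rw [bd_linExt (fun ρ hρ hc => (hcf ρ hρ (by omega)).2.2) hc, hbd, map_zero, add_zero]

/-- Elements of a simplex are determined by their dimension. -/
theorem finrank_injOn (hm : 3 ≤ m) {σ : Finset (Sb ι p m)} (hσ : σ ∈ XX ι p m) :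
    Set.InjOn (fun L : Sb ι p m => Module.finrank (ZMod p) L) (σ : Set (Sb ι p m)) := by
  obtain ⟨Wf, hW, c, hc, hcW, rfl⟩ := hσ
  intro L hL L' hL' hLL
  obtain ⟨S, hS, rfl⟩ := mem_image.1 (mem_coe.1 hL)
  obtain ⟨S', hS', rfl⟩ := mem_image.1 (mem_coe.1 hL')
  have h1 : Module.finrank (ZMod p) S = Module.finrank (ZMod p) S' := by
    have h2 : Module.finrank (ZMod p) (vtx Wf S) = Module.finrank (ZMod p) (vtx Wf S') := hLL
    rw [finrank_vtx (by omega) hW (hcW S hS).le, finrank_vtx (by omega) hW (hcW S' hS').le] at h2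
    omega
  rcases hc.total (mem_coe.2 hS) (mem_coe.2 hS') with h | h
  · rw [Submodule.eq_of_le_of_finrank_eq h h1]
  · rw [Submodule.eq_of_le_of_finrank_eq h h1.symm]

/-- The action of `G` on the top simplices of `X`. -/
theorem typedTrans_topX (hm : 3 ≤ m) :
    TypedTrans (GG ι p m) (topX ι p m) (fun L => Module.finrank (ZMod p) L) where
  inv := by
    intro g C hC
    rw [mem_topX] at hC ⊢
    refine ⟨smul_mem_XX g hC.1, ?_⟩
    rw [← hC.2]
    exact card_image_of_injective _ (MulAction.injective g)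
  ty_inv := fun g L => finrank_smul_Sb g L
  ty_inj := fun C hC => finrank_injOn hm (mem_topX.1 hC).1
  trans := by
    intro C hC C' hC'
    obtain ⟨g, hg⟩ := topX_transitive hm hC hC'
    exact ⟨g, hg.symm⟩

theorem finite_GGL : Finite (GG ι p m) :=
  Finite.of_injective (fun (g : GG ι p m) (x : VV ι p m) => (g.1 x : VV ι p m))
    (fun _ _ h => SpecialLinearGroup.ext _ _ (fun x => congrFun h x))

/-- Coboundary expansion in the links of `X`, with a constant depending only on `n`. -/
theorem linkExp_topX (n : ℕ) : ∃ (β : ℝ) (p0 : ℕ), 0 < β ∧ ∀ (p m : ℕ) [Fact p.Prime] (ι : Type)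
    [Fintype ι] [DecidableEq ι] [Fintype (Sb ι p m)], Fintype.card ι = n → p0 ≤ p → 3 ≤ m →
    LinkExp (topX ι p m) n β := by
  obtain ⟨C0, p0, h⟩ := exists_cone_link n
  refine ⟨1 / ((C0 + 1 : ℝ) * 2 ^ n), p0, by positivity, ?_⟩
  intro p m _ ι _ _ _ hn hp hm
  have := finite_GGL (ι := ι) (p := p) (m := m)
  let _ : Fintype (GG ι p m) := Fintype.ofFinite _
  exact linkExp_of_cone (topX ι p m) n (fun C hC => by rw [← hn]; exact (mem_topX.1 hC).2)
    _ (typedTrans_topX hm) C0 (fun σ hσ hW => h p m ι hn hp hm (ZMod 2) σ hσ hW)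

/-- Links of nonempty simplices of `X` are connected. -/
theorem linkConn_topX (n : ℕ) : ∃ p0 : ℕ, ∀ (p m : ℕ) [Fact p.Prime] (ι : Type) [Fintype ι]
    [DecidableEq ι], Fintype.card ι = n → p0 ≤ p → 3 ≤ m →
    ∀ θ : Finset (Sb ι p m), θ.Nonempty → 0 < W (topX ι p m) θ → θ.card + 2 ≤ n →
      LinkConn (topX ι p m) θ := by
  obtain ⟨p0, h⟩ := acyc_linkK n
  refine ⟨p0, ?_⟩
  intro p m _ ι _ _ hn hp hm θ hθ hW hc
  exact linkConn_of_acyc _ _ (h p m ι hn hp hm (ZMod 2) θ hθ hW 1 (by omega))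

end Vale.Agent.P067
end
end

section

section

/-!
P067 (module M5): the abstract trickling-down step on a finite weighted graph.
-/

namespace Vale.Agent.P067

open Finset

/-- A symmetric operator all of whose eigenvalues are at most `ν` has quadratic form at most `ν`. -/
theorem inner_le_of_eigenvalues_le {E : Type*} [NormedAddCommGroup E] [InnerProductSpace ℝ E]
    [FiniteDimensional ℝ E] (T : E →ₗ[ℝ] E) (hT : T.IsSymmetric) (ν : ℝ)
    (h : ∀ (γ : ℝ) (x : E), x ≠ 0 → T x = γ • x → γ ≤ ν) (x : E) :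
    inner ℝ (T x) x ≤ ν * ‖x‖ ^ 2 := by
  classical
  set b := hT.eigenvectorBasis (n := Module.finrank ℝ E) rfl with hb
  have h1 : inner ℝ (T x) x = ∑ i, hT.eigenvalues rfl i * (b.repr x i) ^ 2 := by
    rw [← b.repr.inner_map_map (T x) x, PiLp.inner_apply]
    refine Finset.sum_congr rfl (fun i _ => ?_)
    have h2 := hT.eigenvectorBasis_apply_self_apply (n := Module.finrank ℝ E) rfl x i
    rw [← hb] at h2
    rw [h2]
    simp only [Real.ringHom_apply, RCLike.inner_apply]
    ring
  have h3 : ‖x‖ ^ 2 = ∑ i, (b.repr x i) ^ 2 := by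
    rw [← b.repr.norm_map x, EuclideanSpace.norm_sq_eq]
    simp only [Real.norm_eq_abs, sq_abs]
  rw [h1, h3, mul_sum]
  refine Finset.sum_le_sum (fun i _ => ?_)
  refine mul_le_mul_of_nonneg_right ?_ (sq_nonneg _)
  refine h _ (b i) ?_ ?_
  · exact b.orthonormal.ne_zero i
  · have := hT.apply_eigenvectorBasis (n := Module.finrank ℝ E) rfl i
    rw [← hb] at this
    simpa using this


section Core

variable {V : Type*} [Fintype V]

/-- The eigenvalue bound in a finite weighted graph: every function orthogonal to constants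
has its weighted Rayleigh quotient at most `ν`, as soon as this holds for eigenfunctions. -/
theorem quad_le_of_eigen (m : V → ℝ) (hm : ∀ v, 0 < m v)
    (w : V → V → ℝ) (hsymm : ∀ u v, w u v = w v u)
    (K : ℝ) (hK : 0 < K) (hsum : ∀ v, ∑ u, w v u = K * m v) (ν : ℝ)
    (heig : ∀ (γ : ℝ) (g : V → ℝ), (∃ v, g v ≠ 0) → ∑ v, m v * g v = 0 →
      (∀ v, ∑ u, w v u * g u = K * γ * m v * g v) → γ ≤ ν)
    (g : V → ℝ) (hg : ∑ v, m v * g v = 0) :
    ∑ u, ∑ v, w u v * g u * g v ≤ K * (ν * ∑ v, m v * g v ^ 2) := by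
  classical
  -- the symmetric matrix
  let A : Matrix V V ℝ := Matrix.of (fun v u => w v u / (K * (√(m v) * √(m u))))
  have hAapp : ∀ v u, A v u = w v u / (K * (√(m v) * √(m u))) := fun v u => rfl
  have hsq : ∀ v, √(m v) * √(m v) = m v := fun v => Real.mul_self_sqrt (hm v).le
  have hsp : ∀ v, 0 < √(m v) := fun v => Real.sqrt_pos.2 (hm v)
  have hA : A.IsHermitian := by
    refine Matrix.IsHermitian.ext (fun u v => ?_)
    rw [hAapp, hAapp, star_trivial, hsymm v u, mul_comm (√(m v))]
  let T : EuclideanSpace ℝ V →ₗ[ℝ] EuclideanSpace ℝ V := Matrix.toEuclideanLin A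
  have hT : T.IsSymmetric := Matrix.isSymmetric_toEuclideanLin_iff.2 hA
  have hTapp : ∀ (x : EuclideanSpace ℝ V) (v : V),
      (T x) v = ∑ u, w v u / (K * (√(m v) * √(m u))) * x u := by
    intro x v
    have h1 : (T x) v = ∑ u, A v u * x u := rfl
    rw [h1]
    exact Finset.sum_congr rfl (fun u _ => by rw [hAapp])
  let e : EuclideanSpace ℝ V := WithLp.toLp 2 (fun v => √(m v))
  have he : ∀ v, e v = √(m v) := fun v => rfl
  have hTe : T e = e := by
    ext v
    rw [hTapp, he]
    have : ∀ u, w v u / (K * (√(m v) * √(m u))) * e u = w v u / (K * √(m v)) := by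
      intro u
      rw [he]
      have := (hsp u).ne'
      have := (hsp v).ne'
      field_simp
    rw [Finset.sum_congr rfl (fun u _ => this u), ← Finset.sum_div, hsum]
    have h1 := (hsp v).ne'
    rw [div_eq_iff (by positivity)]
    linear_combination (-K) * hsq v
  let U : Submodule ℝ (EuclideanSpace ℝ V) := (Submodule.span ℝ {e})ᗮ
  have hUmem : ∀ x : EuclideanSpace ℝ V, x ∈ U ↔ ∑ v, √(m v) * x v = 0 := by
    intro x
    simp only [U]
    rw [Submodule.mem_orthogonal_singleton_iff_inner_right, PiLp.inner_apply]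
    simp only [he, RCLike.inner_apply, Real.ringHom_apply, mul_comm]
  have hUinv : ∀ x ∈ U, T x ∈ U := by
    intro x hx
    simp only [U] at hx ⊢
    rw [Submodule.mem_orthogonal_singleton_iff_inner_right] at hx ⊢
    rw [← hT e x, hTe, hx]
  have hTU : (T.restrict hUinv).IsSymmetric := hT.restrict_invariant hUinv
  -- eigenvalue bound on U
  have hbound : ∀ (γ : ℝ) (x : U), x ≠ 0 → (T.restrict hUinv) x = γ • x → γ ≤ ν := by
    intro γ x hx hxe
    have hxe' : T (x : EuclideanSpace ℝ V) = γ • (x : EuclideanSpace ℝ V) := by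
      have := congrArg Subtype.val hxe
      simpa only [LinearMap.coe_restrict_apply, SetLike.val_smul] using this
    refine heig γ (fun v => (x : EuclideanSpace ℝ V) v / √(m v)) ?_ ?_ ?_
    · by_contra hcon
      push Not at hcon
      apply hx
      ext v
      have := hcon v
      rw [div_eq_zero_iff] at this
      rcases this with h | h
      · simpa only [ZeroMemClass.coe_zero, PiLp.zero_apply] using h
      · exact absurd h (hsp v).ne'
    · have := (hUmem x).1 x.2
      rw [← this]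
      refine Finset.sum_congr rfl (fun v _ => ?_)
      have h1 := (hsp v).ne'
      rw [mul_div_assoc', div_eq_iff h1]
      linear_combination (-(x : EuclideanSpace ℝ V) v) * hsq v
    · intro v
      have h1 : (T (x : EuclideanSpace ℝ V)) v = γ * (x : EuclideanSpace ℝ V) v := by
        rw [hxe']; simp
      rw [hTapp] at h1
      have h2 : ∑ u, w v u * ((x : EuclideanSpace ℝ V) u / √(m u)) =
          K * √(m v) * ∑ u, w v u / (K * (√(m v) * √(m u))) * (x : EuclideanSpace ℝ V) u := by
        rw [Finset.mul_sum]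
        refine Finset.sum_congr rfl (fun u _ => ?_)
        have := (hsp u).ne'
        have := (hsp v).ne'
        (clear hsymm hsum ν heig g hg A hAapp hsq hA T hT hTapp he hTe hUmem hUinv hTU γ hx hxe hxe' h1; field_simp)
      rw [h2, h1]
      have h3 := (hsp v).ne'
      have h4 : (x : EuclideanSpace ℝ V) v = √(m v) * ((x : EuclideanSpace ℝ V) v / √(m v)) := by
        (clear * - h3; field_simp)
      calc K * √(m v) * (γ * (x : EuclideanSpace ℝ V) v)
          = K * √(m v) * (γ * (√(m v) * ((x : EuclideanSpace ℝ V) v / √(m v)))) := by rw [← h4]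
        _ = K * γ * (√(m v) * √(m v)) * ((x : EuclideanSpace ℝ V) v / √(m v)) := by ring
        _ = _ := by rw [hsq]
  -- conclusion for g
  let x : EuclideanSpace ℝ V := WithLp.toLp 2 (fun v => √(m v) * g v)
  have hx : ∀ v, x v = √(m v) * g v := fun v => rfl
  have hxU : x ∈ U := by
    rw [hUmem, ← hg]
    refine Finset.sum_congr rfl (fun v _ => ?_)
    rw [hx, ← mul_assoc, hsq]
  have hfin := inner_le_of_eigenvalues_le (T.restrict hUinv) hTU ν hbound ⟨x, hxU⟩
  have hin : inner ℝ ((T.restrict hUinv) ⟨x, hxU⟩) (⟨x, hxU⟩ : U) = inner ℝ (T x) x := rfl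
  have hno : ‖(⟨x, hxU⟩ : U)‖ ^ 2 = ∑ v, m v * g v ^ 2 := by
    have : ‖(⟨x, hxU⟩ : U)‖ = ‖x‖ := rfl
    rw [this, EuclideanSpace.norm_sq_eq]
    refine Finset.sum_congr rfl (fun v _ => ?_)
    rw [Real.norm_eq_abs, sq_abs, hx, mul_pow, sq (√(m v)), hsq]
  have hin2 : K * inner ℝ (T x) x = ∑ u, ∑ v, w u v * g u * g v := by
    rw [PiLp.inner_apply, Finset.mul_sum]
    refine Finset.sum_congr rfl (fun u _ => ?_)
    have : inner ℝ ((T x) u) (x u) = x u * (T x) u := by simp
    rw [this, hTapp, Finset.mul_sum, Finset.mul_sum]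
    refine Finset.sum_congr rfl (fun v _ => ?_)
    rw [hx, hx]
    have := (hsp u).ne'
    have := (hsp v).ne'
    (clear hsymm hsum ν heig hg hAapp hsq hA hT hTapp e he hTe U hUmem hUinv hTU hbound hx hxU hfin hin hno; field_simp)
  rw [hin, hno] at hfin
  rw [← hin2]
  exact mul_le_mul_of_nonneg_left hfin hK.le

/-- **Trickling down, abstract step.** -/
theorem trickle_core (m : V → ℝ) (hm : ∀ v, 0 < m v)
    (w : V → V → ℝ) (hsymm : ∀ u v, w u v = w v u) (hnn : ∀ u v, 0 ≤ w u v)
    (K : ℝ) (hK : 0 < K) (hsum : ∀ v, ∑ u, w v u = K * m v)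
    (conn : ∀ g : V → ℝ, (∀ u v, 0 < w u v → g u = g v) → ∀ u v, g u = g v)
    (lam : ℝ) (hlam : lam < 1)
    (hloc : ∀ g : V → ℝ, ∑ u, ∑ v, w u v * g u * g v ≤
      K * (lam * ∑ v, m v * g v ^ 2) + (1 - lam) * ∑ v, (∑ u, w v u * g u) ^ 2 / (K * m v))
    (g : V → ℝ) :
    ∑ u, ∑ v, w u v * g u * g v ≤
      K * (lam / (1 - lam) * ∑ v, m v * g v ^ 2 +
        (1 - lam / (1 - lam)) * ((∑ v, m v * g v) ^ 2 / ∑ v, m v)) := by
  classical
  set ν := lam / (1 - lam) with hν
  have h1l : 0 < 1 - lam := by linarith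
  -- eigenfunctions
  have heig : ∀ (γ : ℝ) (g : V → ℝ), (∃ v, g v ≠ 0) → ∑ v, m v * g v = 0 →
      (∀ v, ∑ u, w v u * g u = K * γ * m v * g v) → γ ≤ ν := by
    intro γ g hg0 hgm hge
    set S := ∑ v, m v * g v ^ 2 with hS
    have hSpos : 0 < S := by
      obtain ⟨v, hv⟩ := hg0
      refine Finset.sum_pos' (fun u _ => mul_nonneg (hm u).le (sq_nonneg _)) ⟨v, mem_univ v, ?_⟩
      exact mul_pos (hm v) (by positivity)
    have hquad : ∑ u, ∑ v, w u v * g u * g v = K * γ * S := by
      rw [hS, Finset.mul_sum]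
      refine Finset.sum_congr rfl (fun u _ => ?_)
      have : ∑ v, w u v * g u * g v = g u * ∑ v, w u v * g v := by
        rw [Finset.mul_sum]
        exact Finset.sum_congr rfl (fun v _ => by ring)
      rw [this, hge u]
      ring
    have hloc' := hloc g
    have hsecond : ∑ v, (∑ u, w v u * g u) ^ 2 / (K * m v) = K * γ ^ 2 * S := by
      rw [hS, Finset.mul_sum]
      refine Finset.sum_congr rfl (fun v _ => ?_)
      rw [hge v]
      have := (hm v).ne'
      (clear * - this hK; field_simp)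
    rw [hquad, hsecond] at hloc'
    have hkey : γ ≤ lam + (1 - lam) * γ ^ 2 := by
      have h2 : K * S * γ ≤ K * S * (lam + (1 - lam) * γ ^ 2) := by nlinarith only [hloc']
      exact le_of_mul_le_mul_left h2 (by (clear * - hK hSpos; positivity))
    -- γ < 1
    have hdir : ∑ u, ∑ v, w u v * (g u - g v) ^ 2 = 2 * K * (1 - γ) * S := by
      have e1 : ∑ u, ∑ v, w u v * g u ^ 2 = K * S := by
        rw [hS, Finset.mul_sum]
        refine Finset.sum_congr rfl (fun u _ => ?_)
        rw [← Finset.sum_mul, hsum u]; ring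
      have e2 : ∑ u, ∑ v, w u v * g v ^ 2 = K * S := by
        rw [Finset.sum_comm, hS, Finset.mul_sum]
        refine Finset.sum_congr rfl (fun v _ => ?_)
        rw [← Finset.sum_mul]
        have : ∑ u, w u v = K * m v := by
          rw [← hsum v]
          exact Finset.sum_congr rfl (fun u _ => hsymm u v)
        rw [this]; ring
      have e3 : ∑ u, ∑ v, w u v * (g u - g v) ^ 2 =
          ∑ u, ∑ v, w u v * g u ^ 2 + ∑ u, ∑ v, w u v * g v ^ 2 -
            2 * ∑ u, ∑ v, w u v * g u * g v := by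
        rw [Finset.mul_sum, ← Finset.sum_add_distrib, ← Finset.sum_sub_distrib]
        refine Finset.sum_congr rfl (fun u _ => ?_)
        rw [Finset.mul_sum, ← Finset.sum_add_distrib, ← Finset.sum_sub_distrib]
        exact Finset.sum_congr rfl (fun v _ => by ring)
      rw [e3, e1, e2, hquad]; ring
    have hdnn : ∀ u v, 0 ≤ w u v * (g u - g v) ^ 2 :=
      fun u v => mul_nonneg (hnn u v) (sq_nonneg _)
    have hγ1 : γ < 1 := by
      rcases lt_trichotomy γ 1 with h | h | h
      · exact h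
      · exfalso
        have hz : ∑ u, ∑ v, w u v * (g u - g v) ^ 2 = 0 := by rw [hdir, h]; ring
        have hz1 : ∀ u v, w u v * (g u - g v) ^ 2 = 0 := by
          intro u v
          have h3 := (Finset.sum_eq_zero_iff_of_nonneg
            (fun u _ => Finset.sum_nonneg (fun v _ => hdnn u v))).1 hz u (mem_univ u)
          exact (Finset.sum_eq_zero_iff_of_nonneg (fun v _ => hdnn u v)).1 h3 v (mem_univ v)
        have hconst : ∀ u v, g u = g v := by
          refine conn g (fun u v huv => ?_)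
          have := hz1 u v
          rcases mul_eq_zero.1 this with h4 | h4
          · exact absurd h4 huv.ne'
          · have := pow_eq_zero_iff (two_ne_zero) |>.1 h4
            linarith only [this]
        obtain ⟨v, hv⟩ := hg0
        have h5 : ∑ u, m u * g u = (∑ u, m u) * g v := by
          rw [Finset.sum_mul]
          exact Finset.sum_congr rfl (fun u _ => by rw [hconst u v])
        rw [h5] at hgm
        rcases mul_eq_zero.1 hgm with h6 | h6
        · have : 0 < ∑ u, m u := Finset.sum_pos (fun u _ => hm u) ⟨v, mem_univ v⟩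
          linarith only [h6, this]
        · exact hv h6
      · exfalso
        have h7 : 0 ≤ 2 * K * (1 - γ) * S := by
          rw [← hdir]
          exact Finset.sum_nonneg (fun u _ => Finset.sum_nonneg (fun v _ => hdnn u v))
        have h8 : 2 * K * (1 - γ) * S < 0 := by
          have : 0 < 2 * K * S := by (clear * - hK hSpos; positivity)
          nlinarith only [h, this]
        linarith only [h7, h8]
    rw [hν, le_div_iff₀ h1l]
    nlinarith only [hkey, hγ1]
  -- decomposition
  rcases isEmpty_or_nonempty V with hV | hV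
  · simp
  set M := ∑ v, m v with hM
  have hMpos : 0 < M := Finset.sum_pos (fun u _ => hm u) Finset.univ_nonempty
  set c := (∑ v, m v * g v) / M with hc
  have hcM : c * M = ∑ v, m v * g v := by rw [hc]; (clear * - hMpos; field_simp)
  let g' : V → ℝ := fun v => g v - c
  have hg' : ∑ v, m v * g' v = 0 := by
    simp only [g', mul_sub, Finset.sum_sub_distrib]
    rw [← hcM, ← Finset.sum_mul, ← hM]; ring
  have hq := quad_le_of_eigen m hm w hsymm K hK hsum ν heig g' hg'
  have hB : ∑ u, ∑ v, w u v * g u * g v =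
      K * c ^ 2 * M + ∑ u, ∑ v, w u v * g' u * g' v := by
    have e1 : ∀ u, ∑ v, w u v * g u * g v = ∑ v, w u v * g' u * g' v +
        c * ∑ v, w u v * g' v + c * g' u * (K * m u) + c ^ 2 * (K * m u) := by
      intro u
      rw [← hsum u, Finset.mul_sum, Finset.mul_sum, Finset.mul_sum, ← Finset.sum_add_distrib,
        ← Finset.sum_add_distrib, ← Finset.sum_add_distrib]
      refine Finset.sum_congr rfl (fun v _ => ?_)
      simp only [g']
      ring
    rw [Finset.sum_congr rfl (fun u _ => e1 u), Finset.sum_add_distrib, Finset.sum_add_distrib,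
      Finset.sum_add_distrib]
    have e2 : ∑ u, c * ∑ v, w u v * g' v = 0 := by
      rw [← Finset.mul_sum, Finset.sum_comm]
      have : ∀ v, ∑ u, w u v * g' v = K * (m v * g' v) := by
        intro v
        rw [← Finset.sum_mul]
        have : ∑ u, w u v = K * m v := by
          rw [← hsum v]
          exact Finset.sum_congr rfl (fun u _ => hsymm u v)
        rw [this]; ring
      rw [Finset.sum_congr rfl (fun v _ => this v), ← Finset.mul_sum, hg']
      ring
    have e3 : ∑ u, c * g' u * (K * m u) = 0 := by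
      have : ∀ u, c * g' u * (K * m u) = (c * K) * (m u * g' u) := fun u => by ring
      rw [Finset.sum_congr rfl (fun u _ => this u), ← Finset.mul_sum, hg']
      ring
    have e4 : ∑ u, c ^ 2 * (K * m u) = K * c ^ 2 * M := by
      rw [hM, Finset.mul_sum]
      exact Finset.sum_congr rfl (fun u _ => by ring)
    rw [e2, e3, e4]; ring
  have hsqn : ∑ v, m v * g v ^ 2 = c ^ 2 * M + ∑ v, m v * g' v ^ 2 := by
    have e1 : ∀ v, m v * g v ^ 2 = m v * g' v ^ 2 + 2 * c * (m v * g' v) + c ^ 2 * m v := by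
      intro v; simp only [g']; ring
    rw [Finset.sum_congr rfl (fun v _ => e1 v), Finset.sum_add_distrib, Finset.sum_add_distrib,
      ← Finset.mul_sum, ← Finset.mul_sum, hg', ← hM]
    ring
  have hcc : (∑ v, m v * g v) ^ 2 / M = c ^ 2 * M := by
    rw [← hcM]; (clear * - hMpos; field_simp)
  rw [hB, hsqn, hcc]
  have : K * (ν * (c ^ 2 * M + ∑ v, m v * g' v ^ 2) + (1 - ν) * (c ^ 2 * M)) =
      K * c ^ 2 * M + K * (ν * ∑ v, m v * g' v ^ 2) := by ring
  rw [this]
  linarith only [hq]

theorem sum_subtype_of_zero {α : Type*} [Fintype α] (p : α → Prop) [DecidablePred p]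
    (f : α → ℝ) (hf : ∀ v, ¬ p v → f v = 0) : ∑ v : {v // p v}, f v = ∑ v, f v := by
  classical
  rw [← Finset.sum_subtype (univ.filter p) (by simp only [mem_filter, mem_univ, true_and, implies_true]) f, sum_filter_of_ne]
  intro v _ hv
  by_contra h
  exact hv (hf v h)

/-- **Trickling down, abstract step**, allowing vertices of weight `0`. -/
theorem trickle_core' (m : V → ℝ) (hm : ∀ v, 0 ≤ m v)
    (w : V → V → ℝ) (hsymm : ∀ u v, w u v = w v u) (hnn : ∀ u v, 0 ≤ w u v)
    (K : ℝ) (hK : 0 < K) (hsum : ∀ v, ∑ u, w v u = K * m v)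
    (conn : ∀ g : V → ℝ, (∀ u v, 0 < w u v → g u = g v) →
      ∀ u v, 0 < m u → 0 < m v → g u = g v)
    (lam : ℝ) (hlam : lam < 1)
    (hloc : ∀ g : V → ℝ, ∑ u, ∑ v, w u v * g u * g v ≤
      K * (lam * ∑ v, m v * g v ^ 2) + (1 - lam) * ∑ v, (∑ u, w v u * g u) ^ 2 / (K * m v))
    (g : V → ℝ) :
    ∑ u, ∑ v, w u v * g u * g v ≤
      K * (lam / (1 - lam) * ∑ v, m v * g v ^ 2 +
        (1 - lam / (1 - lam)) * ((∑ v, m v * g v) ^ 2 / ∑ v, m v)) := by
  classical
  have hw0 : ∀ v, ¬ 0 < m v → ∀ u, w v u = 0 := by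
    intro v hv u
    have h0 : m v = 0 := le_antisymm (not_lt.1 hv) (hm v)
    have h1 : ∑ u, w v u = 0 := by rw [hsum, h0, mul_zero]
    exact (Finset.sum_eq_zero_iff_of_nonneg (fun u _ => hnn v u)).1 h1 u (mem_univ u)
  have hw0' : ∀ v, ¬ 0 < m v → ∀ u, w u v = 0 := fun v hv u => by rw [hsymm, hw0 v hv]
  have hm0 : ∀ v, ¬ 0 < m v → m v = 0 := fun v hv => le_antisymm (not_lt.1 hv) (hm v)
  -- translation of the sums
  have hS1 : ∀ g : V → ℝ, ∑ u : {v // 0 < m v}, ∑ v : {v // 0 < m v}, w u v * g u * g v =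
      ∑ u, ∑ v, w u v * g u * g v := by
    intro g
    rw [sum_subtype_of_zero (fun v => 0 < m v)
      (fun u => ∑ v : {v // 0 < m v}, w u v * g u * g v)]
    · refine Finset.sum_congr rfl (fun u _ => ?_)
      rw [sum_subtype_of_zero (fun v => 0 < m v) (fun v => w u v * g u * g v)]
      intro v hv
      rw [hw0' v hv u]; ring
    · intro v hv
      refine Finset.sum_eq_zero (fun u _ => ?_)
      rw [hw0 v hv]; ring
  have hS2 : ∀ g : V → ℝ, ∑ v : {v // 0 < m v}, m v * g v ^ 2 = ∑ v, m v * g v ^ 2 := by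
    intro g
    refine sum_subtype_of_zero (fun v => 0 < m v) (fun v => m v * g v ^ 2) (fun v hv => ?_)
    rw [hm0 v hv]; ring
  have hS3 : ∀ g : V → ℝ, ∑ v : {v // 0 < m v}, m v * g v = ∑ v, m v * g v := by
    intro g
    refine sum_subtype_of_zero (fun v => 0 < m v) (fun v => m v * g v) (fun v hv => ?_)
    rw [hm0 v hv]; ring
  have hS4 : ∑ v : {v // 0 < m v}, m v = ∑ v, m v :=
    sum_subtype_of_zero (fun v => 0 < m v) (fun v => m v) hm0
  have hS5 : ∀ (g : V → ℝ) (v : V), ∑ u : {v // 0 < m v}, w v u * g u = ∑ u, w v u * g u := by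
    intro g v
    refine sum_subtype_of_zero (fun v => 0 < m v) (fun u => w v u * g u) (fun u hu => ?_)
    rw [hw0' u hu]; ring
  have hS6 : ∀ (g : V → ℝ), ∑ v : {v // 0 < m v}, (∑ u, w v u * g u) ^ 2 / (K * m v) =
      ∑ v, (∑ u, w v u * g u) ^ 2 / (K * m v) := by
    intro g
    refine sum_subtype_of_zero (fun v => 0 < m v)
      (fun v => (∑ u, w v u * g u) ^ 2 / (K * m v)) (fun v hv => ?_)
    rw [hm0 v hv]; simp only [mul_zero, div_zero]
  -- extension of functions
  let ext : ({v // 0 < m v} → ℝ) → V → ℝ := fun g v => if h : 0 < m v then g ⟨v, h⟩ else 0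
  have hext : ∀ (g : {v // 0 < m v} → ℝ) (v : {v // 0 < m v}), ext g v = g v := by
    intro g v
    simp only [ext]
    rw [dif_pos v.2]
  have hcore := trickle_core (V := {v // 0 < m v}) (fun v => m v) (fun v => v.2)
    (fun u v => w u v) (fun u v => hsymm u v) (fun u v => hnn u v) K hK
    (by
      intro v
      have h1 := hS5 (fun _ => 1) v
      simp only [mul_one] at h1
      rw [h1, hsum])
    (by
      intro g hg u v
      have h1 := conn (ext g) (by
        intro a b hab
        by_cases ha : 0 < m a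
        · by_cases hb : 0 < m b
          · have h2 := hg ⟨a, ha⟩ ⟨b, hb⟩ hab
            rw [← hext g ⟨a, ha⟩, ← hext g ⟨b, hb⟩] at h2
            exact h2
          · exact absurd (hw0' b hb a) hab.ne'
        · exact absurd (hw0 a ha b) hab.ne') u v u.2 v.2
      rwa [hext, hext] at h1)
    lam hlam
    (by
      intro g
      have h1 := hloc (ext g)
      rw [← hS1, ← hS2, ← hS6] at h1
      simp only [hext] at h1
      refine h1.trans (le_of_eq ?_)
      congr 1
      congr 1
      refine Finset.sum_congr rfl (fun v _ => ?_)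
      rw [← hS5]
      simp only [hext])
    (fun v => g v)
  have e1 := hS1 g
  have e2 := hS2 g
  have e3 := hS3 g
  rw [e1, e2, e3, hS4] at hcore
  exact hcore

end Core

end Vale.Agent.P067
end
end

section

section

/-!
P067 (module M5): spectral gaps of links of a pure complex, and trickling down.
-/

namespace Vale.Agent.P067

open Finset

attribute [local instance] Classical.propDecidable

variable {α : Type*}

/-- vertex weight in the link of `θ`. -/
noncomputable def mW (top : Finset (Finset α)) (θ : Finset α) (v : α) : ℝ :=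
  if v ∈ θ then 0 else (W top (insert v θ) : ℝ)

/-- edge weight in the link of `θ`. -/
noncomputable def wW (top : Finset (Finset α)) (θ : Finset α) (u v : α) : ℝ :=
  if u ∈ θ ∨ v ∈ θ ∨ u = v then 0 else (W top (insert u (insert v θ)) : ℝ)

/-- `SpecGapM top N θ lam`: the second eigenvalue of the link graph of `θ` is at most `lam`. -/
def SpecGapM [Fintype α] (top : Finset (Finset α)) (N : ℕ) (θ : Finset α) (lam : ℝ) : Prop :=
  ∀ g : α → ℝ, ∑ u, ∑ v, wW top θ u v * g u * g v ≤
    ((N : ℝ) - θ.card - 1) * (lam * ∑ v, mW top θ v * g v ^ 2 +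
      (1 - lam) * ((∑ v, mW top θ v * g v) ^ 2 / (((N : ℝ) - θ.card) * W top θ)))

/-- The link graph of `θ` is connected (formulated by functions constant on edges). -/
def LinkConnM (top : Finset (Finset α)) (θ : Finset α) : Prop :=
  ∀ g : α → ℝ, (∀ u v, u ∉ θ → v ∉ θ → u ≠ v → 0 < W top (insert u (insert v θ)) → g u = g v) →
    ∀ u v, u ∉ θ → v ∉ θ → 0 < W top (insert u θ) → 0 < W top (insert v θ) → g u = g v

theorem mW_nonneg (top : Finset (Finset α)) (θ : Finset α) (v : α) : 0 ≤ mW top θ v := by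
  unfold mW; split_ifs <;> simp

theorem wW_nonneg (top : Finset (Finset α)) (θ : Finset α) (u v : α) : 0 ≤ wW top θ u v := by
  unfold wW; split_ifs <;> simp

theorem wW_symm (top : Finset (Finset α)) (θ : Finset α) (u v : α) :
    wW top θ u v = wW top θ v u := by
  unfold wW
  rw [Finset.insert_comm u v θ]
  have : (u ∈ θ ∨ v ∈ θ ∨ u = v) ↔ (v ∈ θ ∨ u ∈ θ ∨ v = u) := by
    rw [eq_comm]; tauto
  simp only [this]

theorem mW_insert (top : Finset (Finset α)) {θ : Finset α} {v : α} (hv : v ∉ θ) (u : α) :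
    mW top (insert v θ) u = wW top θ v u := by
  unfold mW wW
  rw [Finset.insert_comm v u θ]
  have : (u ∈ insert v θ) ↔ (v ∈ θ ∨ u ∈ θ ∨ v = u) := by
    rw [Finset.mem_insert, eq_comm]; tauto
  simp only [this]

section Fin

variable [Fintype α]

theorem sum_mW (top : Finset (Finset α)) {N : ℕ} (hN : ∀ C ∈ top, C.card = N) (θ : Finset α) :
    ∑ v, mW top θ v = ((N : ℝ) - θ.card) * W top θ := by
  have h1 : ∑ v, mW top θ v = ∑ v ∈ univ \ θ, (W top (insert v θ) : ℝ) := by
    rw [← Finset.sum_subset (Finset.subset_univ (univ \ θ))]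
    · refine Finset.sum_congr rfl (fun v hv => ?_)
      have : v ∉ θ := by simpa only [mem_sdiff, mem_univ, true_and] using hv
      simp [mW, this]
    · intro v _ hv
      have : v ∈ θ := by simpa only [mem_sdiff, mem_univ, true_and, Decidable.not_not] using hv
      simp [mW, this]
  rw [h1]
  have h2 := sum_W_insert top hN θ
  by_cases hθ : 0 < W top θ
  · have h3 := card_le_of_W_pos hN hθ
    have h4 : ((∑ v ∈ univ \ θ, W top (insert v θ) : ℕ) : ℝ) = (((N - θ.card) * W top θ : ℕ) : ℝ) := by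
      rw [h2]
    push_cast [Nat.cast_sub h3] at h4
    exact h4
  · have h3 : W top θ = 0 := by omega
    rw [h3]
    have h4 : ∀ v ∈ univ \ θ, (W top (insert v θ) : ℝ) = 0 := by
      intro v _
      have := W_anti top (subset_insert v θ)
      have : W top (insert v θ) = 0 := by omega
      simp [this]
    rw [Finset.sum_congr rfl h4]
    simp only [sum_const_zero, CharP.cast_eq_zero, mul_zero]

theorem sum_wW (top : Finset (Finset α)) {N : ℕ} (hN : ∀ C ∈ top, C.card = N) (θ : Finset α)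
    (v : α) : ∑ u, wW top θ v u = ((N : ℝ) - θ.card - 1) * mW top θ v := by
  by_cases hv : v ∈ θ
  · simp only [wW, hv, true_or, ↓reduceIte, sum_const_zero, mW, mul_zero]
  · have h1 : ∀ u, wW top θ v u = mW top (insert v θ) u := fun u => (mW_insert top hv u).symm
    rw [Finset.sum_congr rfl (fun u _ => h1 u), sum_mW top hN, Finset.card_insert_of_notMem hv]
    have h2 : mW top θ v = W top (insert v θ) := by simp [mW, hv]
    rw [h2]
    push_cast
    ring

omit [Fintype α] in
theorem wW_insert (top : Finset (Finset α)) {θ : Finset α} {v : α} (hv : v ∉ θ) (u u' : α) :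
    wW top (insert v θ) u u' =
      if u ∈ θ ∨ u' ∈ θ ∨ u = u' then 0 else mW top (insert u (insert u' θ)) v := by
  by_cases h : u ∈ θ ∨ u' ∈ θ ∨ u = u'
  · rw [if_pos h]
    unfold wW
    rw [if_pos]
    rcases h with h | h | h
    · left; exact mem_insert_of_mem h
    · right; left; exact mem_insert_of_mem h
    · right; right; exact h
  · rw [if_neg h]
    push Not at h
    obtain ⟨h1, h2, h3⟩ := h
    unfold wW mW
    have e1 : (u ∈ insert v θ ∨ u' ∈ insert v θ ∨ u = u') ↔ v ∈ insert u (insert u' θ) := by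
      simp only [mem_insert]
      constructor
      · rintro ((h | h) | (h | h) | h)
        · left; exact h.symm
        · exact absurd h h1
        · right; left; exact h.symm
        · exact absurd h h2
        · exact absurd h h3
      · rintro (h | h | h)
        · left; left; exact h.symm
        · right; left; left; exact h.symm
        · exact absurd h hv
    have e2 : insert u (insert u' (insert v θ)) = insert v (insert u (insert u' θ)) := by
      ext x; simp only [mem_insert]; (clear * - e1 h3; tauto)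
    rw [e2]
    simp only [e1]

/-- Summing the edge weights of the links of the vertices. -/
theorem sum_wW_insert (top : Finset (Finset α)) {N : ℕ} (hN : ∀ C ∈ top, C.card = N)
    (θ : Finset α) (u u' : α) :
    ∑ v, (if v ∈ θ then 0 else wW top (insert v θ) u u') =
      ((N : ℝ) - θ.card - 2) * wW top θ u u' := by
  by_cases h : u ∈ θ ∨ u' ∈ θ ∨ u = u'
  · have h1 : ∀ v, (if v ∈ θ then 0 else wW top (insert v θ) u u') = 0 := by
      intro v
      by_cases hv : v ∈ θ
      · rw [if_pos hv]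
      · rw [if_neg hv, wW_insert top hv, if_pos h]
    rw [Finset.sum_congr rfl (fun v _ => h1 v)]
    have : wW top θ u u' = 0 := by unfold wW; rw [if_pos h]
    rw [this]; simp only [sum_const_zero, mul_zero]
  · have h1 : ∀ v, (if v ∈ θ then 0 else wW top (insert v θ) u u') =
        mW top (insert u (insert u' θ)) v := by
      intro v
      by_cases hv : v ∈ θ
      · rw [if_pos hv]
        unfold mW
        rw [if_pos (mem_insert_of_mem (mem_insert_of_mem hv))]
      · rw [if_neg hv, wW_insert top hv, if_neg h]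
    rw [Finset.sum_congr rfl (fun v _ => h1 v), sum_mW top hN]
    have h2 : wW top θ u u' = W top (insert u (insert u' θ)) := by unfold wW; rw [if_neg h]
    push Not at h
    obtain ⟨h3, h4, h5⟩ := h
    rw [h2, Finset.card_insert_of_notMem (by simp [h3, h5]), Finset.card_insert_of_notMem h4]
    push_cast
    ring

/-- **Trickling down.** -/
theorem SpecGapM.trickle {top : Finset (Finset α)} {N : ℕ} (hN : ∀ C ∈ top, C.card = N)
    {θ : Finset α} (hcard : θ.card + 3 ≤ N) {lam : ℝ} (hlam : lam < 1)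
    (conn : LinkConnM top θ)
    (h : ∀ v, v ∉ θ → 0 < W top (insert v θ) → SpecGapM top N (insert v θ) lam) :
    SpecGapM top N θ (lam / (1 - lam)) := by
  classical
  have hcardR : (θ.card : ℝ) + 3 ≤ N := by exact_mod_cast hcard
  set K : ℝ := (N : ℝ) - θ.card - 1 with hK
  have hKpos : 0 < K := by rw [hK]; linarith only [hcardR]
  have hK1 : 0 < K - 1 := by rw [hK]; linarith only [hcardR]
  intro g
  have hcore := trickle_core' (mW top θ) (mW_nonneg top θ) (wW top θ) (wW_symm top θ)
    (wW_nonneg top θ) K hKpos (fun v => sum_wW top hN θ v)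
    (by
      intro g hg u v hu hv
      have hmu : u ∉ θ ∧ 0 < W top (insert u θ) := by
        unfold mW at hu
        split_ifs at hu with h1
        · exact absurd hu (lt_irrefl _)
        · exact ⟨h1, by exact_mod_cast hu⟩
      have hmv : v ∉ θ ∧ 0 < W top (insert v θ) := by
        unfold mW at hv
        split_ifs at hv with h1
        · exact absurd hv (lt_irrefl _)
        · exact ⟨h1, by exact_mod_cast hv⟩
      refine conn g (fun a b ha hb hab hW => ?_) u v hmu.1 hmv.1 hmu.2 hmv.2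
      refine hg a b ?_
      unfold wW
      rw [if_neg (by (clear * - hmu hmv ha hb hab; tauto))]
      exact_mod_cast hW)
    lam hlam
    (by
      intro g
      -- sum of local inequalities
      have hsum : ∑ v, (if v ∈ θ then 0 else ∑ u, ∑ u', wW top (insert v θ) u u' * g u * g u') ≤
          ∑ v, (if v ∈ θ then 0 else (K - 1) * (lam * ∑ u, wW top θ v u * g u ^ 2 +
            (1 - lam) * ((∑ u, wW top θ v u * g u) ^ 2 / (K * mW top θ v)))) := by
        refine Finset.sum_le_sum (fun v _ => ?_)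
        by_cases hv : v ∈ θ
        · rw [if_pos hv, if_pos hv]
        · rw [if_neg hv, if_neg hv]
          by_cases hW : 0 < W top (insert v θ)
          · have h1 := h v hv hW g
            have h2 : (((insert v θ).card : ℕ) : ℝ) = θ.card + 1 := by
              rw [Finset.card_insert_of_notMem hv]; push_cast; ring
            have h3 : mW top θ v = W top (insert v θ) := by simp [mW, hv]
            rw [h2] at h1
            have h4 : (N : ℝ) - (θ.card + 1) - 1 = K - 1 := by rw [hK]; ring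
            have h5 : (N : ℝ) - (θ.card + 1) = K := by rw [hK]; ring
            rw [h4, h5] at h1
            simp only [mW_insert top hv] at h1
            rw [h3]
            exact h1
          · have h0 : W top (insert v θ) = 0 := by omega
            have h3 : mW top θ v = 0 := by simp [mW, hv, h0]
            have h4 : ∀ u, wW top θ v u = 0 := by
              intro u
              have h5 := sum_wW top hN θ v
              rw [h3, mul_zero] at h5
              exact (Finset.sum_eq_zero_iff_of_nonneg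
                (fun u _ => wW_nonneg top θ v u)).1 h5 u (mem_univ u)
            have h6 : ∀ u u', wW top (insert v θ) u u' = 0 := by
              intro u u'
              have h5 := sum_wW top hN (insert v θ) u
              rw [mW_insert top hv, h4, mul_zero] at h5
              exact (Finset.sum_eq_zero_iff_of_nonneg
                (fun u' _ => wW_nonneg top (insert v θ) u u')).1 h5 u' (mem_univ u')
            simp only [h6, zero_mul, sum_const_zero, h4, mul_zero, ne_eq, OfNat.ofNat_ne_zero, not_false_eq_true, zero_pow, zero_div, add_zero, Std.le_refl]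
      have hL : ∑ v, (if v ∈ θ then 0 else ∑ u, ∑ u', wW top (insert v θ) u u' * g u * g u') =
          (K - 1) * ∑ u, ∑ u', wW top θ u u' * g u * g u' := by
        have e1 : ∀ v, (if v ∈ θ then 0 else
            ∑ u, ∑ u', wW top (insert v θ) u u' * g u * g u') =
            ∑ u, ∑ u', (if v ∈ θ then 0 else wW top (insert v θ) u u') * (g u * g u') := by
          intro v
          by_cases hv : v ∈ θ
          · simp only [hv, ↓reduceIte, zero_mul, sum_const_zero]
          · simp only [if_neg hv]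
            refine Finset.sum_congr rfl (fun u _ => Finset.sum_congr rfl (fun u' _ => ?_))
            ring
        rw [Finset.sum_congr rfl (fun v _ => e1 v), Finset.sum_comm, Finset.mul_sum]
        refine Finset.sum_congr rfl (fun u _ => ?_)
        rw [Finset.sum_comm, Finset.mul_sum]
        refine Finset.sum_congr rfl (fun u' _ => ?_)
        rw [← Finset.sum_mul, sum_wW_insert top hN]
        have : (N : ℝ) - θ.card - 2 = K - 1 := by rw [hK]; ring
        rw [this]; ring
      have hR : ∑ v, (if v ∈ θ then 0 else (K - 1) * (lam * ∑ u, wW top θ v u * g u ^ 2 +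
            (1 - lam) * ((∑ u, wW top θ v u * g u) ^ 2 / (K * mW top θ v)))) =
          (K - 1) * (K * (lam * ∑ v, mW top θ v * g v ^ 2) +
            (1 - lam) * ∑ v, (∑ u, wW top θ v u * g u) ^ 2 / (K * mW top θ v)) := by
        have e1 : ∀ v, (if v ∈ θ then 0 else (K - 1) * (lam * ∑ u, wW top θ v u * g u ^ 2 +
            (1 - lam) * ((∑ u, wW top θ v u * g u) ^ 2 / (K * mW top θ v)))) =
            (K - 1) * (lam * ∑ u, wW top θ v u * g u ^ 2 +
            (1 - lam) * ((∑ u, wW top θ v u * g u) ^ 2 / (K * mW top θ v))) := by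
          intro v
          by_cases hv : v ∈ θ
          · have h1 : ∀ u, wW top θ v u = 0 := by intro u; simp [wW, hv]
            simp only [h1, zero_mul, sum_const_zero, mul_zero, ne_eq, OfNat.ofNat_ne_zero, not_false_eq_true, zero_pow, zero_div, add_zero, ite_self]
          · rw [if_neg hv]
        rw [Finset.sum_congr rfl (fun v _ => e1 v), ← Finset.mul_sum, Finset.sum_add_distrib,
          ← Finset.mul_sum, ← Finset.mul_sum]
        have e2 : ∑ v, ∑ u, wW top θ v u * g u ^ 2 = K * ∑ v, mW top θ v * g v ^ 2 := by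
          rw [Finset.sum_comm, Finset.mul_sum]
          refine Finset.sum_congr rfl (fun u _ => ?_)
          rw [← Finset.sum_mul]
          have : ∑ v, wW top θ v u = K * mW top θ u := by
            rw [← sum_wW top hN θ u]
            exact Finset.sum_congr rfl (fun v _ => wW_symm top θ v u)
          rw [this]; ring
        rw [e2]; ring
      rw [hL, hR] at hsum
      exact le_of_mul_le_mul_left hsum hK1)
    g
  rw [sum_mW top hN] at hcore
  exact hcore

/-- Monotonicity of the spectral gap condition. -/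
theorem SpecGapM.mono {top : Finset (Finset α)} {N : ℕ} (hN : ∀ C ∈ top, C.card = N)
    {θ : Finset α} (hcard : θ.card + 1 ≤ N) {lam lam' : ℝ} (hle : lam ≤ lam')
    (h : SpecGapM top N θ lam) : SpecGapM top N θ lam' := by
  intro g
  refine (h g).trans ?_
  have hcardR : (θ.card : ℝ) + 1 ≤ N := by exact_mod_cast hcard
  have hK : 0 ≤ (N : ℝ) - θ.card - 1 := by linarith only [hcardR]
  refine mul_le_mul_of_nonneg_left ?_ hK
  have hCS : (∑ v, mW top θ v * g v) ^ 2 / (((N : ℝ) - θ.card) * W top θ) ≤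
      ∑ v, mW top θ v * g v ^ 2 := by
    rw [← sum_mW top hN]
    have hnn : 0 ≤ ∑ v, mW top θ v := Finset.sum_nonneg (fun v _ => mW_nonneg top θ v)
    have h2 : 0 ≤ ∑ v, mW top θ v * g v ^ 2 :=
      Finset.sum_nonneg (fun v _ => mul_nonneg (mW_nonneg top θ v) (sq_nonneg _))
    rcases hnn.eq_or_lt with h0 | hpos
    · rw [← h0]; simpa only [div_zero, ge_iff_le] using h2
    · rw [div_le_iff₀ hpos]
      have := Finset.sum_mul_sq_le_sq_mul_sq univ (fun v => √(mW top θ v))
        (fun v => √(mW top θ v) * g v)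
      have e1 : ∀ v, √(mW top θ v) * (√(mW top θ v) * g v) = mW top θ v * g v := by
        intro v; rw [← mul_assoc, Real.mul_self_sqrt (mW_nonneg top θ v)]
      have e2 : ∀ v, √(mW top θ v) ^ 2 = mW top θ v := fun v =>
        Real.sq_sqrt (mW_nonneg top θ v)
      have e3 : ∀ v, (√(mW top θ v) * g v) ^ 2 = mW top θ v * g v ^ 2 := by
        intro v; rw [mul_pow, e2]
      simp only [e1, e2, e3] at this
      rw [mul_comm]
      exact this
  nlinarith only [hle, hCS]

/-- **Iterated trickling down**: from a gap `lam0` for all codimension-two faces to all faces. -/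
theorem SpecGapM.iterate {top : Finset (Finset α)} {N : ℕ} (hN : ∀ C ∈ top, C.card = N)
    (hconn : ∀ θ : Finset α, 0 < W top θ → θ.card + 3 ≤ N → LinkConnM top θ)
    {lam0 : ℝ} (h0 : 0 ≤ lam0) (hlam : N * lam0 < 1)
    (hbase : ∀ θ : Finset α, 0 < W top θ → θ.card + 2 = N → SpecGapM top N θ lam0)
    (θ : Finset α) (hW : 0 < W top θ) (hθ : θ.card + 2 ≤ N) :
    SpecGapM top N θ (lam0 / (1 - N * lam0)) := by
  have key : ∀ k : ℕ, ∀ θ : Finset α, 0 < W top θ → θ.card + 2 + k = N →
      SpecGapM top N θ (lam0 / (1 - k * lam0)) := by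
    intro k
    induction k with
    | zero =>
      intro θ hW hθ
      have := hbase θ hW (by omega)
      simpa using this
    | succ k ih =>
      intro θ hW hθ
      have hkN : ((k : ℝ) + 1) ≤ N := by
        have : k + 1 ≤ N := by omega
        exact_mod_cast this
      have hk1 : ((k : ℝ) + 1) * lam0 < 1 := by nlinarith only [hlam, hkN]
      have hk0 : (k : ℝ) * lam0 < 1 := by nlinarith only [hk1]
      have hpos : 0 < 1 - (k : ℝ) * lam0 := by linarith only [h0, hk1]
      have hpos1 : 0 < 1 - ((k : ℝ) + 1) * lam0 := by linarith only [hk1]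
      have hlt : lam0 / (1 - k * lam0) < 1 := by
        rw [div_lt_one hpos]; linarith only [hk1]
      have hstep := SpecGapM.trickle hN (θ := θ) (by omega) hlt (hconn θ hW (by omega))
        (fun v hv hWv => ih (insert v θ) hWv (by
          rw [Finset.card_insert_of_notMem hv]; omega))
      have heq : lam0 / (1 - k * lam0) / (1 - lam0 / (1 - k * lam0)) =
          lam0 / (1 - ((k + 1 : ℕ) : ℝ) * lam0) := by
        have h1 : 1 - lam0 / (1 - k * lam0) = (1 - (k + 1) * lam0) / (1 - k * lam0) := by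
          rw [eq_div_iff hpos.ne', sub_mul, div_mul_cancel₀ _ hpos.ne']
          ring
        push_cast
        rw [h1, div_div_div_cancel_right₀ hpos.ne']
      rw [heq] at hstep
      exact hstep
  obtain ⟨k, hk⟩ : ∃ k, θ.card + 2 + k = N := ⟨N - (θ.card + 2), by omega⟩
  refine SpecGapM.mono hN (by omega) ?_ (key k θ hW hk)
  have hkN : (k : ℝ) ≤ N := by
    have : k ≤ N := by omega
    exact_mod_cast this
  have hpos : 0 < 1 - (N : ℝ) * lam0 := by linarith only [hlam]
  refine div_le_div_of_nonneg_left h0 hpos ?_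
  nlinarith only [h0, hkN]

/-- **HYP(lambda)** for sets of vertices, from the spectral gap. -/
theorem SpecGapM.edges_le {top : Finset (Finset α)} {N : ℕ}
    {θ : Finset α} (hθ : θ.card + 1 ≤ N) {lam : ℝ} (hlam : 0 ≤ lam)
    (h : SpecGapM top N θ lam) (B : Finset α) (hB : ∀ v ∈ B, v ∉ θ) :
    ∑ u ∈ B, ∑ v ∈ B.erase u, (W top (insert u (insert v θ)) : ℝ) ≤
      ((N : ℝ) - θ.card - 1) * (lam * ∑ v ∈ B, (W top (insert v θ) : ℝ) +
        (∑ v ∈ B, (W top (insert v θ) : ℝ)) ^ 2 / (((N : ℝ) - θ.card) * W top θ)) := by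
  have hcardR : (θ.card : ℝ) + 1 ≤ N := by exact_mod_cast hθ
  have hK : 0 ≤ (N : ℝ) - θ.card - 1 := by linarith only [hcardR]
  have h1 := h (fun v => if v ∈ B then 1 else 0)
  have e1 : ∑ u, ∑ v, wW top θ u v * (if u ∈ B then (1 : ℝ) else 0) * (if v ∈ B then 1 else 0) =
      ∑ u ∈ B, ∑ v ∈ B.erase u, (W top (insert u (insert v θ)) : ℝ) := by
    have e11 : ∀ u, ∑ v, wW top θ u v * (if u ∈ B then (1 : ℝ) else 0) *
        (if v ∈ B then 1 else 0) =
        if u ∈ B then ∑ v ∈ B.erase u, (W top (insert u (insert v θ)) : ℝ) else 0 := by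
      intro u
      by_cases hu : u ∈ B
      · simp only [if_pos hu, mul_one, mul_ite, mul_zero]
        rw [← Finset.sum_filter]
        simp only [Finset.filter_mem_eq_inter, Finset.univ_inter]
        rw [← Finset.sum_erase_add _ _ hu]
        have e12 : wW top θ u u = 0 := by unfold wW; rw [if_pos]; (clear * -; tauto)
        rw [e12, add_zero]
        refine Finset.sum_congr rfl (fun v hv => ?_)
        rw [Finset.mem_erase] at hv
        unfold wW
        rw [if_neg]
        have := hB u hu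
        have := hB v hv.2
        have := hv.1
        (clear top N hθ lam hlam h hcardR hK h1 e12; tauto)
      · simp only [hu, ↓reduceIte, mul_zero, mul_ite, mul_one, ite_self, sum_const_zero]
    rw [Finset.sum_congr rfl (fun u _ => e11 u), ← Finset.sum_filter]
    simp only [Finset.filter_mem_eq_inter, Finset.univ_inter]
  have e2 : ∑ v, mW top θ v * (if v ∈ B then (1 : ℝ) else 0) =
      ∑ v ∈ B, (W top (insert v θ) : ℝ) := by
    simp only [mul_ite, mul_one, mul_zero]
    rw [← Finset.sum_filter]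
    simp only [Finset.filter_mem_eq_inter, Finset.univ_inter]
    refine Finset.sum_congr rfl (fun v hv => ?_)
    simp [mW, hB v hv]
  have e3 : ∑ v, mW top θ v * (if v ∈ B then (1 : ℝ) else 0) ^ 2 =
      ∑ v ∈ B, (W top (insert v θ) : ℝ) := by
    rw [← e2]
    refine Finset.sum_congr rfl (fun v _ => ?_)
    split_ifs <;> simp
  rw [e1, e2, e3] at h1
  refine h1.trans (mul_le_mul_of_nonneg_left ?_ hK)
  have hq : 0 ≤ (∑ v ∈ B, (W top (insert v θ) : ℝ)) ^ 2 / (((N : ℝ) - θ.card) * W top θ) := by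
    have : 0 ≤ (N : ℝ) - θ.card := by linarith only [hcardR]
    (clear * - this; positivity)
  nlinarith only [hlam, hq]

/-- Translation to the common definition of the spectral gap. -/
theorem specGapM_iff (top : Finset (Finset α)) (N : ℕ) (θ : Finset α) (lam : ℝ) :
    SpecGapM top N θ lam ↔ SpecGap top N θ lam := by
  have key : ∀ g : α → ℝ,
      (∑ u, ∑ v, wW top θ u v * g u * g v =
        ∑ u ∈ univ.filter (· ∉ θ), ∑ v ∈ univ.filter (fun v => v ∉ θ ∧ v ≠ u),
        (W top (insert u (insert v θ)) : ℝ) * g u * g v) ∧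
      (∑ v, mW top θ v * g v ^ 2 =
        ∑ v ∈ univ.filter (· ∉ θ), (W top (insert v θ) : ℝ) * g v ^ 2) ∧
      (∑ v, mW top θ v * g v =
        ∑ v ∈ univ.filter (· ∉ θ), (W top (insert v θ) : ℝ) * g v) := by
    intro g
    refine ⟨?_, ?_, ?_⟩
    · rw [Finset.sum_filter]
      refine Finset.sum_congr rfl (fun u _ => ?_)
      by_cases hu : u ∈ θ
      · simp only [wW, hu, true_or, ↓reduceIte, zero_mul, sum_const_zero, not_true_eq_false]
      · rw [if_pos hu, Finset.sum_filter]
        refine Finset.sum_congr rfl (fun v _ => ?_)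
        by_cases hv : v ∈ θ
        · simp [wW, hv]
        · by_cases huv : v = u
          · simp [wW, huv]
          · have huv' : ¬ u = v := fun h => huv h.symm
            simp [wW, hu, hv, huv, huv']
    · rw [Finset.sum_filter]
      refine Finset.sum_congr rfl (fun v _ => ?_)
      by_cases hv : v ∈ θ <;> simp [mW, hv]
    · rw [Finset.sum_filter]
      refine Finset.sum_congr rfl (fun v _ => ?_)
      by_cases hv : v ∈ θ <;> simp [mW, hv]
  unfold SpecGapM SpecGap
  refine forall_congr' (fun g => ?_)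
  obtain ⟨h1, h2, h3⟩ := key g
  rw [h1, h2, h3, mul_div_assoc]

omit [Fintype α] in
theorem linkConnM_of_linkConn {top : Finset (Finset α)} {θ : Finset α} (h : LinkConn top θ) :
    LinkConnM top θ := by
  intro g hg u v hu hv hWu hWv
  have := h {x | g x = g v} (fun a b ha hb hab hW => by
    have := hg a b ha hb hab hW
    simp [this]) u v hu hv hWu hWv
  exact this.2 rfl

end Fin

end Vale.Agent.P067
end
end

section

section

/-!
# P067, module M8a: spectral gap of a link which is a bipartite incidence graph (abstract part)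
-/

set_option autoImplicit false

open Finset

namespace Vale.Agent.P067

attribute [local instance] Classical.propDecidable

/-- Quadratic inequality for a biregular bipartite graph with a spectral bound. -/
theorem bip_quad {ι κ : Type*} (A : Finset ι) (B : Finset κ) (w : ι → κ → ℝ)
    (DA DB : ℝ) (hDA0 : 0 ≤ DA) (hDB0 : 0 ≤ DB)
    (hA : ∀ a ∈ A, ∑ b ∈ B, w a b = DA) (hB : ∀ b ∈ B, ∑ a ∈ A, w a b = DB)
    (lam : ℝ) (hlam : 0 < lam)
    (hC : ∀ q : ι → ℝ, ∑ a ∈ A, q a = 0 →
      ∑ b ∈ B, (∑ a ∈ A, w a b * q a) ^ 2 ≤ lam ^ 2 * DA * DB * ∑ a ∈ A, q a ^ 2)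
    (E : ℝ) (hE : E = DA * A.card) (f : ι → ℝ) (g : κ → ℝ) :
    2 * ∑ a ∈ A, ∑ b ∈ B, w a b * f a * g b ≤
      lam * (DA * ∑ a ∈ A, f a ^ 2 + DB * ∑ b ∈ B, g b ^ 2) +
        (1 - lam) * ((DA * ∑ a ∈ A, f a + DB * ∑ b ∈ B, g b) ^ 2 / (2 * E)) := by
  -- total mass computed in two ways
  have hE1 : ∑ a ∈ A, ∑ b ∈ B, w a b = DA * A.card := by
    rw [Finset.sum_congr rfl hA, Finset.sum_const, nsmul_eq_mul]; ring
  have hE2 : ∑ a ∈ A, ∑ b ∈ B, w a b = DB * B.card := by
    rw [Finset.sum_comm, Finset.sum_congr rfl hB, Finset.sum_const, nsmul_eq_mul]; ring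
  have hEB : E = DB * B.card := by rw [hE, ← hE1, hE2]
  have hE0 : 0 ≤ E := by rw [hE]; (clear * - hDA0; positivity)
  rcases hE0.eq_or_lt with hz | hEpos
  · -- degenerate case
    have hDAz : DA * A.card = 0 := by rw [← hE, ← hz]
    have hDBz : DB * B.card = 0 := by rw [← hEB, ← hz]
    have hrhs : 0 ≤ lam * (DA * ∑ a ∈ A, f a ^ 2 + DB * ∑ b ∈ B, g b ^ 2) +
        (1 - lam) * ((DA * ∑ a ∈ A, f a + DB * ∑ b ∈ B, g b) ^ 2 / (2 * E)) := by
      rw [← hz]
      simp only [mul_zero, div_zero, add_zero]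
      have : 0 ≤ ∑ a ∈ A, f a ^ 2 := Finset.sum_nonneg (fun _ _ => sq_nonneg _)
      have : 0 ≤ ∑ b ∈ B, g b ^ 2 := Finset.sum_nonneg (fun _ _ => sq_nonneg _)
      (clear * - hlam hDA0 hDB0; positivity)
    refine le_trans (le_of_eq ?_) hrhs
    rcases mul_eq_zero.1 hDBz with h | h
    · rcases mul_eq_zero.1 hDAz with h' | h'
      · -- both degrees zero : use hC on mean zero part; the form vanishes
        have hcol : ∀ q : ι → ℝ, ∑ a ∈ A, q a = 0 → ∀ b ∈ B, ∑ a ∈ A, w a b * q a = 0 := by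
          intro q hq b hb
          have h1 := hC q hq
          rw [h', mul_zero, zero_mul, zero_mul] at h1
          have h2 := (Finset.sum_eq_zero_iff_of_nonneg (fun b _ => sq_nonneg _)).1
            (le_antisymm h1 (Finset.sum_nonneg (fun b _ => sq_nonneg _))) b hb
          exact pow_eq_zero_iff (two_ne_zero) |>.1 h2
        rcases A.eq_empty_or_nonempty with hAe | hAne
        · simp [hAe]
        have hAc : (0 : ℝ) < A.card := by exact_mod_cast hAne.card_pos
        have key : ∀ b ∈ B, ∑ a ∈ A, w a b * f a = 0 := by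
          intro b hb
          set c := (∑ a ∈ A, f a) / A.card with hc
          have h3 := hcol (fun a => f a - c) (by
            rw [Finset.sum_sub_distrib, Finset.sum_const, nsmul_eq_mul, hc, mul_div_assoc',
              mul_div_cancel_left₀ _ hAc.ne', sub_self]) b hb
          have h4 : ∑ a ∈ A, w a b * (f a - c) = ∑ a ∈ A, w a b * f a - c * ∑ a ∈ A, w a b := by
            rw [Finset.mul_sum, ← Finset.sum_sub_distrib]
            exact Finset.sum_congr rfl (fun a _ => by ring)
          rw [h4, hB b hb, h] at h3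
          linarith only [h3]
        have h5 : ∑ a ∈ A, ∑ b ∈ B, w a b * f a * g b =
            ∑ b ∈ B, (∑ a ∈ A, w a b * f a) * g b := by
          rw [Finset.sum_comm]
          exact Finset.sum_congr rfl (fun b _ => by rw [Finset.sum_mul])
        rw [h5, Finset.sum_eq_zero (fun b hb => by rw [key b hb, zero_mul]), mul_zero]
      · have : A = ∅ := by
          have : A.card = 0 := by exact_mod_cast h'
          exact Finset.card_eq_zero.1 this
        simp [this]
    · have : B = ∅ := by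
        have : B.card = 0 := by exact_mod_cast h
        exact Finset.card_eq_zero.1 this
      simp [this]
  -- main case
  have hDApos : 0 < DA := by
    rcases hDA0.eq_or_lt with h | h
    · rw [hE, ← h, zero_mul] at hEpos; exact absurd hEpos (lt_irrefl _)
    · exact h
  have hDBpos : 0 < DB := by
    rcases hDB0.eq_or_lt with h | h
    · rw [hEB, ← h, zero_mul] at hEpos; exact absurd hEpos (lt_irrefl _)
    · exact h
  have hAc : (0 : ℝ) < A.card := by
    rcases Nat.eq_zero_or_pos A.card with h | h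
    · rw [hE, h] at hEpos; simp at hEpos
    · exact_mod_cast h
  have hBc : (0 : ℝ) < B.card := by
    rcases Nat.eq_zero_or_pos B.card with h | h
    · rw [hEB, h] at hEpos; simp at hEpos
    · exact_mod_cast h
  set a0 := (∑ a ∈ A, f a) / A.card with ha0
  set b0 := (∑ b ∈ B, g b) / B.card with hb0
  have hfs : ∑ a ∈ A, f a = A.card * a0 := by
    rw [ha0, mul_div_assoc', mul_div_cancel_left₀ _ hAc.ne']
  have hgs : ∑ b ∈ B, g b = B.card * b0 := by
    rw [hb0, mul_div_assoc', mul_div_cancel_left₀ _ hBc.ne']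
  set P : ι → ℝ := fun a => f a - a0 with hP
  set Q : κ → ℝ := fun b => g b - b0 with hQ
  have hPs : ∑ a ∈ A, P a = 0 := by
    simp only [hP]
    rw [Finset.sum_sub_distrib, hfs, Finset.sum_const, nsmul_eq_mul]; ring
  have hQs : ∑ b ∈ B, Q b = 0 := by
    simp only [hQ]
    rw [Finset.sum_sub_distrib, hgs, Finset.sum_const, nsmul_eq_mul]; ring
  have hf2 : ∑ a ∈ A, f a ^ 2 = A.card * a0 ^ 2 + ∑ a ∈ A, P a ^ 2 := by
    have : ∀ a ∈ A, f a ^ 2 = P a ^ 2 + 2 * a0 * P a + a0 ^ 2 := fun a _ => by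
      simp only [hP]; ring
    rw [Finset.sum_congr rfl this, Finset.sum_add_distrib, Finset.sum_add_distrib,
      ← Finset.mul_sum, hPs, Finset.sum_const, nsmul_eq_mul]; ring
  have hg2 : ∑ b ∈ B, g b ^ 2 = B.card * b0 ^ 2 + ∑ b ∈ B, Q b ^ 2 := by
    have : ∀ b ∈ B, g b ^ 2 = Q b ^ 2 + 2 * b0 * Q b + b0 ^ 2 := fun b _ => by
      simp only [hQ]; ring
    rw [Finset.sum_congr rfl this, Finset.sum_add_distrib, Finset.sum_add_distrib,
      ← Finset.mul_sum, hQs, Finset.sum_const, nsmul_eq_mul]; ring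
  have hfg : ∑ a ∈ A, ∑ b ∈ B, w a b * f a * g b =
      E * a0 * b0 + ∑ b ∈ B, (∑ a ∈ A, w a b * P a) * Q b := by
    have e1 : ∑ a ∈ A, ∑ b ∈ B, w a b * f a * g b =
        ∑ b ∈ B, ∑ a ∈ A, (w a b * P a * Q b + b0 * (w a b * P a) + a0 * Q b * w a b +
          a0 * b0 * w a b) := by
      rw [Finset.sum_comm]
      refine Finset.sum_congr rfl (fun b _ => Finset.sum_congr rfl (fun a _ => ?_))
      simp only [hP, hQ]; ring
    rw [e1]
    simp only [Finset.sum_add_distrib]
    have e2 : ∑ b ∈ B, ∑ a ∈ A, w a b * P a * Q b =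
        ∑ b ∈ B, (∑ a ∈ A, w a b * P a) * Q b :=
      Finset.sum_congr rfl (fun b _ => by rw [Finset.sum_mul])
    have e3 : ∑ b ∈ B, ∑ a ∈ A, b0 * (w a b * P a) = 0 := by
      rw [Finset.sum_comm]
      have : ∀ a ∈ A, ∑ b ∈ B, b0 * (w a b * P a) = b0 * DA * P a := by
        intro a ha
        rw [← hA a ha, Finset.mul_sum, Finset.sum_mul]
        exact Finset.sum_congr rfl (fun b _ => by ring)
      rw [Finset.sum_congr rfl this, ← Finset.mul_sum, hPs, mul_zero]
    have e4 : ∑ b ∈ B, ∑ a ∈ A, a0 * Q b * w a b = 0 := by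
      have : ∀ b ∈ B, ∑ a ∈ A, a0 * Q b * w a b = a0 * DB * Q b := by
        intro b hb
        rw [← hB b hb, Finset.mul_sum, Finset.sum_mul]
        exact Finset.sum_congr rfl (fun b _ => by ring)
      rw [Finset.sum_congr rfl this, ← Finset.mul_sum, hQs, mul_zero]
    have e5 : ∑ b ∈ B, ∑ a ∈ A, a0 * b0 * w a b = E * a0 * b0 := by
      rw [Finset.sum_comm]
      have : ∑ a ∈ A, ∑ b ∈ B, a0 * b0 * w a b = a0 * b0 * ∑ a ∈ A, ∑ b ∈ B, w a b := by
        rw [Finset.mul_sum]
        exact Finset.sum_congr rfl (fun a _ => by rw [Finset.mul_sum])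
      rw [this, hE1, hE]; ring
    rw [e2, e3, e4, e5]; ring
  have hcross : 2 * ∑ b ∈ B, (∑ a ∈ A, w a b * P a) * Q b ≤
      lam * (DA * ∑ a ∈ A, P a ^ 2 + DB * ∑ b ∈ B, Q b ^ 2) := by
    have h1 : ∀ b ∈ B, 2 * ((∑ a ∈ A, w a b * P a) * Q b) ≤
        (∑ a ∈ A, w a b * P a) ^ 2 / (lam * DB) + lam * DB * Q b ^ 2 := by
      intro b _
      set x := ∑ a ∈ A, w a b * P a
      have hpos : 0 < lam * DB := by positivity
      have h2 : 0 ≤ (x - lam * DB * Q b) ^ 2 / (lam * DB) := by (clear * - hlam hDBpos; positivity)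
      have h3 : (x - lam * DB * Q b) ^ 2 / (lam * DB) =
          x ^ 2 / (lam * DB) + lam * DB * Q b ^ 2 - 2 * (x * Q b) := by
        field_simp
        ring
      linarith only [h2, h3]
    rw [Finset.mul_sum]
    refine (Finset.sum_le_sum h1).trans ?_
    rw [Finset.sum_add_distrib, ← Finset.sum_div, ← Finset.mul_sum]
    have h2 : (∑ b ∈ B, (∑ a ∈ A, w a b * P a) ^ 2) / (lam * DB) ≤
        lam * DA * ∑ a ∈ A, P a ^ 2 := by
      rw [div_le_iff₀ (by positivity)]
      refine (hC P hPs).trans (le_of_eq ?_)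
      ring
    linarith only [h2]
  rw [hfg, hf2, hg2, hfs, hgs]
  have hfrac : (DA * (A.card * a0) + DB * (B.card * b0)) ^ 2 / (2 * E) = E * (a0 + b0) ^ 2 / 2 := by
    have : DA * (A.card * a0) + DB * (B.card * b0) = E * (a0 + b0) := by
      have h1 : DA * (A.card * a0) = E * a0 := by rw [hE]; ring
      have h2 : DB * (B.card * b0) = E * b0 := by rw [hEB]; ring
      rw [h1, h2]; ring
    rw [this]
    (clear * - hEpos; field_simp)
  rw [hfrac]
  have hsq : 0 ≤ (1 + lam) / 2 * E * (a0 - b0) ^ 2 := by (clear * - hlam hEpos; positivity)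
  have h3 : DA * (A.card * a0 ^ 2 + ∑ a ∈ A, P a ^ 2) =
      E * a0 ^ 2 + DA * ∑ a ∈ A, P a ^ 2 := by rw [hE]; ring
  have h4 : DB * (B.card * b0 ^ 2 + ∑ b ∈ B, Q b ^ 2) =
      E * b0 ^ 2 + DB * ∑ b ∈ B, Q b ^ 2 := by rw [hEB]; ring
  rw [h3, h4]
  linarith

/-- Positivity of the quadratic form of an equivalence relation. -/
theorem equiv_quad_nonneg {ι : Type*} (A : Finset ι) (r : ι → ι → Prop)
    (hrefl : ∀ a ∈ A, r a a) (hsymm : ∀ a ∈ A, ∀ b ∈ A, r a b → r b a)
    (htrans : ∀ a ∈ A, ∀ b ∈ A, ∀ c ∈ A, r a b → r b c → r a c) (q : ι → ℝ) :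
    0 ≤ ∑ a ∈ A, ∑ b ∈ A, (if r a b then q a * q b else 0) := by
  -- restrict to the subtype and use classes
  let cls : ι → Finset ι := fun a => A.filter (fun b => r a b)
  have hcls : ∀ a ∈ A, ∀ b ∈ A, (r a b ↔ cls a = cls b) := by
    intro a ha b hb
    constructor
    · intro h
      ext c
      simp only [cls, mem_filter]
      constructor
      · rintro ⟨hc, hac⟩
        exact ⟨hc, htrans b hb a ha c hc (hsymm a ha b hb h) hac⟩
      · rintro ⟨hc, hbc⟩
        exact ⟨hc, htrans a ha b hb c hc h hbc⟩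
    · intro h
      have : b ∈ cls b := by simp only [cls, mem_filter]; exact ⟨hb, hrefl b hb⟩
      rw [← h] at this
      exact (mem_filter.1 this).2
  have h1 : ∑ a ∈ A, ∑ b ∈ A, (if r a b then q a * q b else 0) =
      ∑ s ∈ A.image cls, (∑ a ∈ A.filter (fun a => cls a = s), q a) ^ 2 := by
    have h2 : ∀ a ∈ A, ∑ b ∈ A, (if r a b then q a * q b else 0) =
        ∑ s ∈ A.image cls, (if cls a = s then q a else 0) *
          ∑ b ∈ A.filter (fun b => cls b = s), q b := by
      intro a ha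
      rw [Finset.sum_eq_single (cls a)]
      · rw [if_pos rfl, Finset.mul_sum, Finset.sum_filter]
        refine Finset.sum_congr rfl (fun b hb => ?_)
        by_cases h : r a b
        · rw [if_pos h, if_pos ((hcls a ha b hb).1 h).symm]
        · rw [if_neg h, if_neg (fun h' => h ((hcls a ha b hb).2 h'.symm))]
      · intro s _ hs
        rw [if_neg (fun h => hs h.symm), zero_mul]
      · intro h
        exact absurd (mem_image_of_mem cls ha) h
    rw [Finset.sum_congr rfl h2, Finset.sum_comm]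
    refine Finset.sum_congr rfl (fun s _ => ?_)
    rw [← Finset.sum_mul, sq, ← Finset.sum_filter]
  rw [h1]
  exact Finset.sum_nonneg (fun s _ => sq_nonneg _)

/-- The point-line inequality. -/
theorem incidence_ineq {ι κ : Type*} (A : Finset ι) (B : Finset κ) (I : ι → κ → Prop)
    (DA : ℝ) (hA : ∀ a ∈ A, ∑ b ∈ B, (if I a b then (1 : ℝ) else 0) = DA)
    (huniq : ∀ a ∈ A, ∀ a' ∈ A, a ≠ a' → ∀ b ∈ B, ∀ b' ∈ B, I a b → I a' b → I a b' → I a' b' →
      b = b')
    (htrans : ∀ a ∈ A, ∀ b ∈ A, ∀ c ∈ A, a ≠ b → b ≠ c → a ≠ c → (∀ l ∈ B, ¬ (I a l ∧ I b l)) →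
      (∀ l ∈ B, ¬ (I b l ∧ I c l)) → (∀ l ∈ B, ¬ (I a l ∧ I c l)))
    (q : ι → ℝ) :
    ∑ b ∈ B, (∑ a ∈ A, (if I a b then (1 : ℝ) else 0) * q a) ^ 2 ≤
      DA * ∑ a ∈ A, q a ^ 2 + (∑ a ∈ A, q a) ^ 2 := by
  let r : ι → ι → Prop := fun a a' => a = a' ∨ ∀ l ∈ B, ¬ (I a l ∧ I a' l)
  have hpos := equiv_quad_nonneg A r (fun a _ => Or.inl rfl)
    (by
      rintro a _ b _ (h | h)
      · exact Or.inl h.symm
      · exact Or.inr (fun l hl hh => h l hl hh.symm))
    (by
      rintro a ha b hb c hc h1 h2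
      by_cases hab : a = b
      · rw [hab]; exact h2
      by_cases hbc : b = c
      · rw [← hbc]; exact h1
      by_cases hac : a = c
      · exact Or.inl hac
      right
      have h1' : ∀ l ∈ B, ¬ (I a l ∧ I b l) := h1.resolve_left hab
      have h2' : ∀ l ∈ B, ¬ (I b l ∧ I c l) := h2.resolve_left hbc
      exact htrans a ha b hb c hc hab hbc hac h1' h2')
    q
  -- expand the square
  have hexp : ∑ b ∈ B, (∑ a ∈ A, (if I a b then (1 : ℝ) else 0) * q a) ^ 2 =
      ∑ a ∈ A, ∑ a' ∈ A, (∑ b ∈ B, (if I a b ∧ I a' b then (1 : ℝ) else 0)) * (q a * q a') := by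
    have h1 : ∀ b ∈ B, (∑ a ∈ A, (if I a b then (1 : ℝ) else 0) * q a) ^ 2 =
        ∑ a ∈ A, ∑ a' ∈ A, (if I a b ∧ I a' b then (1 : ℝ) else 0) * (q a * q a') := by
      intro b _
      rw [sq, Finset.sum_mul_sum]
      refine Finset.sum_congr rfl (fun a _ => Finset.sum_congr rfl (fun a' _ => ?_))
      by_cases h1 : I a b <;> by_cases h2 : I a' b <;> simp [h1, h2]
    rw [Finset.sum_congr rfl h1, Finset.sum_comm]
    refine Finset.sum_congr rfl (fun a _ => ?_)
    rw [Finset.sum_comm]
    exact Finset.sum_congr rfl (fun a' _ => by rw [Finset.sum_mul])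
  have hterm : ∀ a ∈ A, ∀ a' ∈ A,
      (∑ b ∈ B, (if I a b ∧ I a' b then (1 : ℝ) else 0)) * (q a * q a') =
      (if a = a' then DA * (q a * q a') else 0) + q a * q a' -
        (if r a a' then q a * q a' else 0) := by
    intro a ha a' ha'
    by_cases haa : a = a'
    · subst haa
      have h1 : ∑ b ∈ B, (if I a b ∧ I a b then (1 : ℝ) else 0) = DA := by
        rw [← hA a ha]
        exact Finset.sum_congr rfl (fun b _ => by simp)
      have h2 : r a a := Or.inl rfl
      rw [h1, if_pos rfl, if_pos h2]; ring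
    · rw [if_neg haa]
      by_cases hr : r a a'
      · rw [if_pos hr]
        have h3 : ∀ l ∈ B, ¬ (I a l ∧ I a' l) := hr.resolve_left haa
        rw [Finset.sum_eq_zero (fun b hb => by rw [if_neg (h3 b hb)])]
        ring
      · rw [if_neg hr]
        simp only [r, not_or] at hr
        have h4 := hr.2
        push Not at h4
        obtain ⟨l, hl, hal, hal'⟩ := h4
        rw [Finset.sum_eq_single l]
        · rw [if_pos ⟨hal, hal'⟩]; ring
        · intro b hb hbl
          rw [if_neg]
          rintro ⟨h5, h6⟩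
          exact hbl (huniq a ha a' ha' haa b hb l hl h5 h6 hal hal')
        · intro h; exact absurd hl h
  have hsum : ∑ a ∈ A, ∑ a' ∈ A,
      (∑ b ∈ B, (if I a b ∧ I a' b then (1 : ℝ) else 0)) * (q a * q a') =
      DA * ∑ a ∈ A, q a ^ 2 + (∑ a ∈ A, q a) ^ 2 -
        ∑ a ∈ A, ∑ a' ∈ A, (if r a a' then q a * q a' else 0) := by
    rw [Finset.sum_congr rfl (fun a ha => Finset.sum_congr rfl (fun a' ha' => hterm a ha a' ha'))]
    simp only [Finset.sum_sub_distrib, Finset.sum_add_distrib]
    congr 1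
    congr 1
    · rw [Finset.mul_sum]
      refine Finset.sum_congr rfl (fun a ha => ?_)
      rw [Finset.sum_ite_eq, if_pos ha]; ring
    · rw [sq, Finset.sum_mul_sum]
  have hpos' : 0 ≤ ∑ a ∈ A, ∑ a' ∈ A, (if r a a' then q a * q a' else 0) := by
    convert hpos
  rw [hexp, hsum]
  linarith

section Cx

variable {α : Type*} [Fintype α]

/-- Spectral gap of a codimension two face whose link is a biregular bipartite graph. -/
theorem specGap_of_bip (top : Finset (Finset α)) (N : ℕ) (htop : ∀ C ∈ top, C.card = N)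
    (θ : Finset α) (hθ : θ.card + 2 = N) (A B : Finset α)
    (hAθ : ∀ a ∈ A, a ∉ θ) (hBθ : ∀ b ∈ B, b ∉ θ) (hAB : Disjoint A B)
    (hsupp : ∀ v, v ∉ θ → 0 < W top (insert v θ) → v ∈ A ∨ v ∈ B)
    (hAA : ∀ a ∈ A, ∀ a' ∈ A, a ≠ a' → W top (insert a (insert a' θ)) = 0)
    (hBB : ∀ b ∈ B, ∀ b' ∈ B, b ≠ b' → W top (insert b (insert b' θ)) = 0)
    (DA DB : ℝ) (hDA : ∀ a ∈ A, (W top (insert a θ) : ℝ) = DA)
    (hDB : ∀ b ∈ B, (W top (insert b θ) : ℝ) = DB) (hDA0 : 0 ≤ DA) (hDB0 : 0 ≤ DB)
    (lam : ℝ) (hlam : 0 < lam)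
    (hC : ∀ q : α → ℝ, ∑ a ∈ A, q a = 0 →
      ∑ b ∈ B, (∑ a ∈ A, (W top (insert a (insert b θ)) : ℝ) * q a) ^ 2 ≤
        lam ^ 2 * DA * DB * ∑ a ∈ A, q a ^ 2) :
    SpecGap top N θ lam := by
  rw [← specGapM_iff]
  intro g
  have hNθ : (N : ℝ) - θ.card = 2 := by rw [← hθ]; push_cast; ring
  have hK : (N : ℝ) - θ.card - 1 = 1 := by rw [hNθ]; norm_num
  -- weights
  have hwAB : ∀ a ∈ A, ∀ b ∈ B, wW top θ a b = W top (insert a (insert b θ)) := by
    intro a ha b hb
    have hab : a ≠ b := fun h => (Finset.disjoint_left.1 hAB ha) (h ▸ hb)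
    unfold wW
    rw [if_neg]
    have := hAθ a ha
    have := hBθ b hb
    (clear top N htop hθ hsupp hAA hBB DA DB hDA hDB hDA0 hDB0 lam hlam hC g hNθ hK; tauto)
  have hout : ∀ v, v ∉ A → v ∉ B → mW top θ v = 0 := by
    intro v hvA hvB
    unfold mW
    split_ifs with h
    · rfl
    · have : W top (insert v θ) = 0 := by
        by_contra h0
        rcases hsupp v h (Nat.pos_of_ne_zero h0) with h1 | h1
        · exact hvA h1
        · exact hvB h1
      simp [this]
  have hwout : ∀ u, u ∉ A → u ∉ B → ∀ v, wW top θ u v = 0 := by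
    intro u huA huB v
    have h1 := sum_wW top htop θ u
    rw [hout u huA huB, mul_zero] at h1
    exact (Finset.sum_eq_zero_iff_of_nonneg (fun v _ => wW_nonneg top θ u v)).1 h1 v (mem_univ v)
  have hwAA : ∀ a ∈ A, ∀ a' ∈ A, wW top θ a a' = 0 := by
    intro a ha a' ha'
    unfold wW
    split_ifs with h
    · rfl
    · push Not at h
      rw [hAA a ha a' ha' h.2.2]; simp
  have hwBB : ∀ b ∈ B, ∀ b' ∈ B, wW top θ b b' = 0 := by
    intro b hb b' hb'
    unfold wW
    split_ifs with h
    · rfl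
    · push Not at h
      rw [hBB b hb b' hb' h.2.2]; simp
  -- splitting sums over all vertices
  have hsplit : ∀ F : α → ℝ, (∀ v, v ∉ A → v ∉ B → F v = 0) →
      ∑ v, F v = ∑ a ∈ A, F a + ∑ b ∈ B, F b := by
    intro F hF
    rw [← Finset.sum_union hAB]
    symm
    refine Finset.sum_subset (Finset.subset_univ _) (fun v _ hv => ?_)
    rw [Finset.mem_union, not_or] at hv
    exact hF v hv.1 hv.2
  have hmA : ∀ a ∈ A, mW top θ a = DA := by
    intro a ha
    unfold mW
    rw [if_neg (hAθ a ha), hDA a ha]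
  have hmB : ∀ b ∈ B, mW top θ b = DB := by
    intro b hb
    unfold mW
    rw [if_neg (hBθ b hb), hDB b hb]
  have hrowA : ∀ a ∈ A, ∑ b ∈ B, wW top θ a b = DA := by
    intro a ha
    have h1 := sum_wW top htop θ a
    rw [hK, one_mul, hmA a ha] at h1
    rw [← h1, hsplit (fun v => wW top θ a v)]
    · rw [Finset.sum_eq_zero (fun a' ha' => hwAA a ha a' ha'), zero_add]
    · intro v hvA hvB
      rw [wW_symm]; exact hwout v hvA hvB a
  have hrowB : ∀ b ∈ B, ∑ a ∈ A, wW top θ a b = DB := by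
    intro b hb
    have h1 := sum_wW top htop θ b
    rw [hK, one_mul, hmB b hb] at h1
    rw [← h1, hsplit (fun v => wW top θ b v)]
    · rw [Finset.sum_eq_zero (fun b' hb' => hwBB b hb b' hb'), add_zero]
      exact Finset.sum_congr rfl (fun a _ => wW_symm top θ a b)
    · intro v hvA hvB
      rw [wW_symm]; exact hwout v hvA hvB b
  have hE1 : ∑ a ∈ A, ∑ b ∈ B, wW top θ a b = DA * A.card := by
    rw [Finset.sum_congr rfl hrowA, Finset.sum_const, nsmul_eq_mul]; ring
  have hE2 : ∑ a ∈ A, ∑ b ∈ B, wW top θ a b = DB * B.card := by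
    rw [Finset.sum_comm, Finset.sum_congr rfl hrowB, Finset.sum_const, nsmul_eq_mul]; ring
  have hWθ : (2 : ℝ) * W top θ = 2 * (DA * A.card) := by
    have h1 := sum_mW top htop θ
    rw [hNθ, hsplit (fun v => mW top θ v) hout, Finset.sum_congr rfl hmA,
      Finset.sum_congr rfl hmB, Finset.sum_const, Finset.sum_const, nsmul_eq_mul,
      nsmul_eq_mul] at h1
    rw [← h1]
    have : DA * A.card = DB * B.card := by rw [← hE1, hE2]
    linarith only [hE1, hE2]
  have hWθ' : (W top θ : ℝ) = DA * A.card := by linarith only [hWθ]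
  have hquad := bip_quad A B (fun a b => wW top θ a b) DA DB hDA0 hDB0 hrowA hrowB lam hlam
    (by
      intro q hq
      have h1 : ∀ b ∈ B, (∑ a ∈ A, wW top θ a b * q a) ^ 2 =
          (∑ a ∈ A, (W top (insert a (insert b θ)) : ℝ) * q a) ^ 2 := by
        intro b hb
        congr 1
        exact Finset.sum_congr rfl (fun a ha => by rw [hwAB a ha b hb])
      rw [Finset.sum_congr rfl h1]
      exact hC q hq)
    (W top θ) hWθ' g g
  -- the left hand side
  have hL : ∑ u, ∑ v, wW top θ u v * g u * g v =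
      2 * ∑ a ∈ A, ∑ b ∈ B, wW top θ a b * g a * g b := by
    rw [hsplit (fun u => ∑ v, wW top θ u v * g u * g v)]
    · have h1 : ∀ a ∈ A, ∑ v, wW top θ a v * g a * g v = ∑ b ∈ B, wW top θ a b * g a * g b := by
        intro a ha
        rw [hsplit (fun v => wW top θ a v * g a * g v)]
        · rw [Finset.sum_eq_zero (fun a' ha' => by rw [hwAA a ha a' ha']; ring), zero_add]
        · intro v hvA hvB
          rw [wW_symm, hwout v hvA hvB a]; ring
      have h2 : ∀ b ∈ B, ∑ v, wW top θ b v * g b * g v = ∑ a ∈ A, wW top θ a b * g a * g b := by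
        intro b hb
        rw [hsplit (fun v => wW top θ b v * g b * g v)]
        · rw [Finset.sum_eq_zero (s := B) (fun b' hb' => by rw [hwBB b hb b' hb']; ring), add_zero]
          exact Finset.sum_congr rfl (fun a _ => by rw [wW_symm]; ring)
        · intro v hvA hvB
          rw [wW_symm, hwout v hvA hvB b]; ring
      rw [Finset.sum_congr rfl h1, Finset.sum_congr rfl h2, Finset.sum_comm (s := B)]
      ring
    · intro v hvA hvB
      exact Finset.sum_eq_zero (fun u _ => by rw [hwout v hvA hvB u]; ring)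
  have hR1 : ∑ v, mW top θ v * g v ^ 2 = DA * ∑ a ∈ A, g a ^ 2 + DB * ∑ b ∈ B, g b ^ 2 := by
    rw [hsplit (fun v => mW top θ v * g v ^ 2)]
    · rw [Finset.mul_sum, Finset.mul_sum]
      congr 1
      · exact Finset.sum_congr rfl (fun a ha => by rw [hmA a ha])
      · exact Finset.sum_congr rfl (fun b hb => by rw [hmB b hb])
    · intro v hvA hvB
      rw [hout v hvA hvB]; ring
  have hR2 : ∑ v, mW top θ v * g v = DA * ∑ a ∈ A, g a + DB * ∑ b ∈ B, g b := by
    rw [hsplit (fun v => mW top θ v * g v)]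
    · rw [Finset.mul_sum, Finset.mul_sum]
      congr 1
      · exact Finset.sum_congr rfl (fun a ha => by rw [hmA a ha])
      · exact Finset.sum_congr rfl (fun b hb => by rw [hmB b hb])
    · intro v hvA hvB
      rw [hout v hvA hvB]; ring
  rw [hL, hR1, hR2, hK, hNθ, one_mul]
  exact hquad

/-- Spectral gap of a codimension two face whose link is a point-line incidence graph. -/
theorem specGap_of_incidence (top : Finset (Finset α)) (N : ℕ) (htop : ∀ C ∈ top, C.card = N)
    (θ : Finset α) (hθ : θ.card + 2 = N) (A B : Finset α)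
    (hAθ : ∀ a ∈ A, a ∉ θ) (hBθ : ∀ b ∈ B, b ∉ θ) (hAB : Disjoint A B)
    (hsupp : ∀ v, v ∉ θ → 0 < W top (insert v θ) → v ∈ A ∨ v ∈ B)
    (hAA : ∀ a ∈ A, ∀ a' ∈ A, a ≠ a' → W top (insert a (insert a' θ)) = 0)
    (hBB : ∀ b ∈ B, ∀ b' ∈ B, b ≠ b' → W top (insert b (insert b' θ)) = 0)
    (DA DB : ℝ) (hDA : ∀ a ∈ A, (W top (insert a θ) : ℝ) = DA)
    (hDB : ∀ b ∈ B, (W top (insert b θ) : ℝ) = DB) (hDA0 : 0 ≤ DA) (hDB0 : 0 ≤ DB)
    (I : α → α → Prop)
    (hI : ∀ a ∈ A, ∀ b ∈ B, (W top (insert a (insert b θ)) : ℝ) = if I a b then 1 else 0)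
    (huniq : ∀ a ∈ A, ∀ a' ∈ A, a ≠ a' → ∀ b ∈ B, ∀ b' ∈ B, I a b → I a' b → I a b' → I a' b' →
      b = b')
    (htrans : ∀ a ∈ A, ∀ b ∈ A, ∀ c ∈ A, a ≠ b → b ≠ c → a ≠ c → (∀ l ∈ B, ¬ (I a l ∧ I b l)) →
      (∀ l ∈ B, ¬ (I b l ∧ I c l)) → (∀ l ∈ B, ¬ (I a l ∧ I c l)))
    (lam : ℝ) (hlam : 0 < lam) (hbig : 1 ≤ lam ^ 2 * DB) :
    SpecGap top N θ lam := by
  refine specGap_of_bip top N htop θ hθ A B hAθ hBθ hAB hsupp hAA hBB DA DB hDA hDB hDA0 hDB0
    lam hlam ?_
  intro q hq
  have hNθ : (N : ℝ) - θ.card = 2 := by rw [← hθ]; push_cast; ring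
  have hK : (N : ℝ) - θ.card - 1 = 1 := by rw [hNθ]; norm_num
  -- row sums
  have hrow : ∀ a ∈ A, ∑ b ∈ B, (if I a b then (1 : ℝ) else 0) = DA := by
    intro a ha
    have h1 := sum_wW top htop θ a
    have hma : mW top θ a = DA := by
      unfold mW
      rw [if_neg (hAθ a ha), hDA a ha]
    rw [hK, one_mul, hma] at h1
    rw [← h1]
    have h2 : ∑ b ∈ B, (if I a b then (1 : ℝ) else 0) = ∑ b ∈ B, wW top θ a b := by
      refine Finset.sum_congr rfl (fun b hb => ?_)
      have hab : a ≠ b := fun h => (Finset.disjoint_left.1 hAB ha) (h ▸ hb)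
      have hn : ¬ (a ∈ θ ∨ b ∈ θ ∨ a = b) := by
        have := hAθ a ha
        have := hBθ b hb
        (clear top N htop hθ hsupp hAA hBB DA DB hDA hDB hDA0 hDB0 I hI huniq htrans lam hlam hbig q hq hNθ hK h1 hma; tauto)
      unfold wW
      rw [if_neg hn, hI a ha b hb]
    rw [h2]
    refine Finset.sum_subset (Finset.subset_univ _) (fun v _ hv => ?_)
    unfold wW
    split_ifs with h
    · rfl
    · push Not at h
      obtain ⟨h3, h4, h5⟩ := h
      have hz : W top (insert a (insert v θ)) = 0 := by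
        by_cases hvA : v ∈ A
        · exact hAA a ha v hvA h5
        · by_contra h0
          have h6 : 0 < W top (insert v θ) :=
            lt_of_lt_of_le (Nat.pos_of_ne_zero h0) (W_anti top (subset_insert a _))
          rcases hsupp v h4 h6 with h7 | h7
          · exact hvA h7
          · exact hv h7
      simp [hz]
  have hineq := incidence_ineq A B I DA hrow huniq htrans q
  rw [hq] at hineq
  have h1 : ∑ b ∈ B, (∑ a ∈ A, (W top (insert a (insert b θ)) : ℝ) * q a) ^ 2 =
      ∑ b ∈ B, (∑ a ∈ A, (if I a b then (1 : ℝ) else 0) * q a) ^ 2 := by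
    refine Finset.sum_congr rfl (fun b hb => ?_)
    congr 1
    exact Finset.sum_congr rfl (fun a ha => by rw [hI a ha b hb])
  rw [h1]
  refine hineq.trans ?_
  have h2 : 0 ≤ ∑ a ∈ A, q a ^ 2 := Finset.sum_nonneg (fun _ _ => sq_nonneg _)
  have h3 : 0 ≤ DA * ∑ a ∈ A, q a ^ 2 := by (clear * - hDA0; positivity)
  nlinarith only [hbig, h3]

/-- Spectral gap of a codimension two face whose link is complete bipartite. -/
theorem specGap_of_complete (top : Finset (Finset α)) (N : ℕ) (htop : ∀ C ∈ top, C.card = N)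
    (θ : Finset α) (hθ : θ.card + 2 = N) (A B : Finset α)
    (hAθ : ∀ a ∈ A, a ∉ θ) (hBθ : ∀ b ∈ B, b ∉ θ) (hAB : Disjoint A B)
    (hsupp : ∀ v, v ∉ θ → 0 < W top (insert v θ) → v ∈ A ∨ v ∈ B)
    (hAA : ∀ a ∈ A, ∀ a' ∈ A, a ≠ a' → W top (insert a (insert a' θ)) = 0)
    (hBB : ∀ b ∈ B, ∀ b' ∈ B, b ≠ b' → W top (insert b (insert b' θ)) = 0)
    (DA DB : ℝ) (hDA : ∀ a ∈ A, (W top (insert a θ) : ℝ) = DA)
    (hDB : ∀ b ∈ B, (W top (insert b θ) : ℝ) = DB) (hDA0 : 0 ≤ DA) (hDB0 : 0 ≤ DB)
    (hI : ∀ a ∈ A, ∀ b ∈ B, W top (insert a (insert b θ)) = 1)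
    (lam : ℝ) (hlam : 0 < lam) :
    SpecGap top N θ lam := by
  refine specGap_of_bip top N htop θ hθ A B hAθ hBθ hAB hsupp hAA hBB DA DB hDA hDB hDA0 hDB0
    lam hlam ?_
  intro q hq
  have h1 : ∑ b ∈ B, (∑ a ∈ A, (W top (insert a (insert b θ)) : ℝ) * q a) ^ 2 = 0 := by
    refine Finset.sum_eq_zero (fun b hb => ?_)
    have : ∑ a ∈ A, (W top (insert a (insert b θ)) : ℝ) * q a = 0 := by
      rw [← hq]
      exact Finset.sum_congr rfl (fun a ha => by rw [hI a ha b hb]; simp)
    rw [this]; ring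
  rw [h1]
  have h2 : 0 ≤ ∑ a ∈ A, q a ^ 2 := Finset.sum_nonneg (fun _ _ => sq_nonneg _)
  (clear * - hlam hDA0 hDB0; positivity)

/-- `specGap_of_incidence` for an arbitrary decidability instance. -/
theorem specGap_of_incidence' [dec : DecidableEq α] (top : Finset (Finset α)) (N : ℕ)
    (htop : ∀ C ∈ top, C.card = N)
    (θ : Finset α) (hθ : θ.card + 2 = N) (A B : Finset α)
    (hAθ : ∀ a ∈ A, a ∉ θ) (hBθ : ∀ b ∈ B, b ∉ θ) (hAB : Disjoint A B)
    (hsupp : ∀ v, v ∉ θ → 0 < W top (insert v θ) → v ∈ A ∨ v ∈ B)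
    (hAA : ∀ a ∈ A, ∀ a' ∈ A, a ≠ a' → W top (insert a (insert a' θ)) = 0)
    (hBB : ∀ b ∈ B, ∀ b' ∈ B, b ≠ b' → W top (insert b (insert b' θ)) = 0)
    (DA DB : ℝ) (hDA : ∀ a ∈ A, (W top (insert a θ) : ℝ) = DA)
    (hDB : ∀ b ∈ B, (W top (insert b θ) : ℝ) = DB) (hDA0 : 0 ≤ DA) (hDB0 : 0 ≤ DB)
    (I : α → α → Prop)
    (hI1 : ∀ a ∈ A, ∀ b ∈ B, I a b → W top (insert a (insert b θ)) = 1)
    (hI0 : ∀ a ∈ A, ∀ b ∈ B, ¬ I a b → W top (insert a (insert b θ)) = 0)
    (huniq : ∀ a ∈ A, ∀ a' ∈ A, a ≠ a' → ∀ b ∈ B, ∀ b' ∈ B, I a b → I a' b → I a b' → I a' b' →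
      b = b')
    (htrans : ∀ a ∈ A, ∀ b ∈ A, ∀ c ∈ A, a ≠ b → b ≠ c → a ≠ c → (∀ l ∈ B, ¬ (I a l ∧ I b l)) →
      (∀ l ∈ B, ¬ (I b l ∧ I c l)) → (∀ l ∈ B, ¬ (I a l ∧ I c l)))
    (lam : ℝ) (hlam : 0 < lam) (hbig : 1 ≤ lam ^ 2 * DB) :
    SpecGap top N θ lam := by
  have hdec : dec = (fun a b => Classical.propDecidable (a = b)) := Subsingleton.elim _ _
  subst hdec
  refine specGap_of_incidence top N htop θ hθ A B hAθ hBθ hAB hsupp hAA hBB DA DB hDA hDB hDA0
    hDB0 I ?_ huniq htrans lam hlam hbig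
  intro a ha b hb
  by_cases h : I a b
  · rw [if_pos h, hI1 a ha b hb h]; simp
  · rw [if_neg h, hI0 a ha b hb h]; simp

/-- `specGap_of_complete` for an arbitrary decidability instance. -/
theorem specGap_of_complete' [dec : DecidableEq α] (top : Finset (Finset α)) (N : ℕ)
    (htop : ∀ C ∈ top, C.card = N)
    (θ : Finset α) (hθ : θ.card + 2 = N) (A B : Finset α)
    (hAθ : ∀ a ∈ A, a ∉ θ) (hBθ : ∀ b ∈ B, b ∉ θ) (hAB : Disjoint A B)
    (hsupp : ∀ v, v ∉ θ → 0 < W top (insert v θ) → v ∈ A ∨ v ∈ B)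
    (hAA : ∀ a ∈ A, ∀ a' ∈ A, a ≠ a' → W top (insert a (insert a' θ)) = 0)
    (hBB : ∀ b ∈ B, ∀ b' ∈ B, b ≠ b' → W top (insert b (insert b' θ)) = 0)
    (DA DB : ℝ) (hDA : ∀ a ∈ A, (W top (insert a θ) : ℝ) = DA)
    (hDB : ∀ b ∈ B, (W top (insert b θ) : ℝ) = DB) (hDA0 : 0 ≤ DA) (hDB0 : 0 ≤ DB)
    (hI : ∀ a ∈ A, ∀ b ∈ B, W top (insert a (insert b θ)) = 1)
    (lam : ℝ) (hlam : 0 < lam) :
    SpecGap top N θ lam := by
  have hdec : dec = (fun a b => Classical.propDecidable (a = b)) := Subsingleton.elim _ _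
  subst hdec
  exact specGap_of_complete top N htop θ hθ A B hAθ hBθ hAB hsupp hAA hBB DA DB hDA hDB hDA0
    hDB0 hI lam hlam

/-- `sum_W_insert` for an arbitrary decidability instance, as a lower bound. -/
theorem card_le_W [dec : DecidableEq α] (top : Finset (Finset α)) (N : ℕ)
    (htop : ∀ C ∈ top, C.card = N) (θ : Finset α) (hθ : θ.card + 1 = N) (T : Finset α)
    (hT : ∀ v ∈ T, v ∉ θ) (hW : ∀ v ∈ T, 1 ≤ W top (insert v θ)) : T.card ≤ W top θ := by
  have hdec : dec = (fun a b => Classical.propDecidable (a = b)) := Subsingleton.elim _ _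
  subst hdec
  have h1 := sum_W_insert top htop θ
  have h2 : N - θ.card = 1 := by omega
  rw [h2, one_mul] at h1
  rw [← h1]
  calc T.card = ∑ v ∈ T, 1 := by simp
    _ ≤ ∑ v ∈ T, W top (insert v θ) := Finset.sum_le_sum (fun v hv => hW v hv)
    _ ≤ ∑ v ∈ univ \ θ, W top (insert v θ) :=
        Finset.sum_le_sum_of_subset (fun v hv => by simpa only [mem_sdiff, mem_univ, true_and] using hT v hv)

end Cx

end Vale.Agent.P067
end
end

section

section

/-!
# P067, module M8b: points and lines in an interval of dimension three of the class `CC`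
-/

set_option autoImplicit false

open Finset

namespace Vale.Agent.P067

attribute [local instance] Classical.propDecidable

variable {F : Type*} [Field F] {V : Type*} [AddCommGroup V] [Module F V]
  [FiniteDimensional F V] {S N Λ : Submodule F V}

theorem finrank_sup_span_eq {P : Submodule F V} {x : V} (hx : x ∉ P) :
    Module.finrank F (P ⊔ Submodule.span F {x} : Submodule F V) = Module.finrank F P + 1 := by
  have hx0 : x ≠ 0 := fun h => hx (h ▸ P.zero_mem)
  have h1 := Submodule.finrank_sup_add_finrank_inf_eq P (Submodule.span F {x})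
  have h2 : P ⊓ Submodule.span F {x} = ⊥ := by
    rw [eq_bot_iff]
    intro y hy
    obtain ⟨hy1, hy2⟩ := Submodule.mem_inf.mp hy
    obtain ⟨c, rfl⟩ := Submodule.mem_span_singleton.mp hy2
    by_cases hc : c = 0
    · rw [hc, zero_smul]; exact Submodule.zero_mem _
    · exfalso
      apply hx
      have := P.smul_mem c⁻¹ hy1
      rwa [smul_smul, inv_mul_cancel₀ hc, one_smul] at this
  rw [h2, finrank_bot, add_zero, finrank_span_singleton hx0] at h1
  exact h1

theorem sup_eq_of_finrank {P P' Q : Submodule F V} (hP : P ≤ Q) (hP' : P' ≤ Q)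
    (hd : Module.finrank F Q = Module.finrank F P + 1)
    (hd' : Module.finrank F P' = Module.finrank F P) (hne : P ≠ P') : P ⊔ P' = Q := by
  have h1 : P < P ⊔ P' := by
    refine lt_of_le_of_ne le_sup_left (fun h => ?_)
    have h2 : P' ≤ P := by rw [h]; exact le_sup_right
    exact hne (Submodule.eq_of_le_of_finrank_eq h2 hd').symm
  have h2 := Submodule.finrank_lt_finrank_of_lt h1
  exact Submodule.eq_of_le_of_finrank_le (sup_le hP hP') (by omega)

/-- The only obstruction to collinearity. -/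
theorem noncollinear_sup {Zm Zp : Submodule F V} (hNΛ : N ≤ Λ)
    (hZp : Zp ∈ insert Λ (CC S N Λ))
    (hd : Module.finrank F Zp = Module.finrank F Zm + 3)
    {P P' P'' : Submodule F V} (hP : P ∈ CC S N Λ) (hP' : P' ∈ CC S N Λ) (hP'' : P'' ∈ CC S N Λ)
    (hdP : Module.finrank F P = Module.finrank F Zm + 1)
    (hdP' : Module.finrank F P' = Module.finrank F Zm + 1)
    (hdP'' : Module.finrank F P'' = Module.finrank F Zm + 1)
    (hPZ : P < Zp) (hP'Z : P' < Zp) (hP''Z : P'' < Zp)
    (hne1 : P ≠ P') (hne2 : P' ≠ P'') (hne3 : P ≠ P'')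
    (hZm : Zm ≤ P) (hZm' : Zm ≤ P') (hZm'' : Zm ≤ P'')
    (h1 : P ⊔ P' ∉ CC S N Λ) (h2 : P' ⊔ P'' ∉ CC S N Λ) : P ⊔ P'' = P ⊔ P' := by
  have hZpΛ : Zp ≤ Λ := by
    rcases Set.mem_insert_iff.mp hZp with h | h
    · exact h.le
    · exact h.2.1.le
  -- dimension of joins
  have hdim : ∀ A B : Submodule F V, Zm ≤ A → Zm ≤ B → A ≠ B →
      Module.finrank F A = Module.finrank F Zm + 1 →
      Module.finrank F B = Module.finrank F Zm + 1 →
      Module.finrank F (A ⊔ B : Submodule F V) = Module.finrank F Zm + 2 := by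
    intro A B hA hB hne hdA hdB
    have e1 := Submodule.finrank_sup_add_finrank_inf_eq A B
    have e2 : A ⊓ B < A := by
      refine lt_of_le_of_ne inf_le_left (fun h => ?_)
      have : A ≤ B := by rw [← h]; exact inf_le_right
      exact hne (Submodule.eq_of_le_of_finrank_eq this (by omega))
    have e3 := Submodule.finrank_lt_finrank_of_lt e2
    have e4 := Submodule.finrank_mono (R := F) (le_inf hA hB)
    omega
  have hd1 := hdim P P' hZm hZm' hne1 hdP hdP'
  have hd2 := hdim P' P'' hZm' hZm'' hne2 hdP' hdP''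
  have hd3 := hdim P P'' hZm hZm'' hne3 hdP hdP''
  -- failure of membership
  have hfail : ∀ A B : Submodule F V, A ∈ CC S N Λ → A < Zp → B < Zp →
      Module.finrank F (A ⊔ B : Submodule F V) = Module.finrank F Zm + 2 → A ⊔ B ∉ CC S N Λ →
      (A ⊔ B) ⊓ (S ⊔ N) ≠ S ∧ A ⊔ B ⊔ N ≠ Λ := by
    intro A B hA hAZ hBZ hdAB hnot
    have hlt : A ⊔ B < Zp := by
      refine lt_of_le_of_ne (sup_le hAZ.le hBZ.le) (fun h => ?_)
      rw [h] at hdAB
      omega
    have hlt2 : A ⊔ B < Λ := lt_of_lt_of_le hlt hZpΛ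
    have hlt3 : S < A ⊔ B := lt_of_lt_of_le hA.1 le_sup_left
    constructor
    · intro h; exact hnot ⟨hlt3, hlt2, Or.inl h⟩
    · intro h; exact hnot ⟨hlt3, hlt2, Or.inr h⟩
  obtain ⟨f1, f2⟩ := hfail P P' hP hPZ hP'Z hd1 h1
  obtain ⟨f3, f4⟩ := hfail P' P'' hP' hP'Z hP''Z hd2 h2
  -- each point is upper
  have hup : ∀ A B : Submodule F V, A ∈ CC S N Λ → A ≤ B → B ≤ Λ → B ⊔ N ≠ Λ →
      A ⊓ (S ⊔ N) = S := by
    intro A B hA hAB hBΛ hBN
    rcases hA.2.2 with h | h
    · exact h
    · exfalso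
      apply hBN
      apply le_antisymm (sup_le hBΛ hNΛ)
      rw [← h]
      exact sup_le_sup_right hAB N
  have hBΛ1 : P ⊔ P' ≤ Λ := sup_le (hPZ.le.trans hZpΛ) (hP'Z.le.trans hZpΛ)
  have hBΛ2 : P' ⊔ P'' ≤ Λ := sup_le (hP'Z.le.trans hZpΛ) (hP''Z.le.trans hZpΛ)
  have u1 := hup P _ hP le_sup_left hBΛ1 f2
  have u2 := hup P' _ hP' le_sup_right hBΛ1 f2
  have u3 := hup P'' _ hP'' le_sup_right hBΛ2 f4
  -- the vectors x and y
  have hex : ∀ B : Submodule F V, S ≤ B → B ⊓ (S ⊔ N) ≠ S → ∃ x ∈ B, x ∈ S ⊔ N ∧ x ∉ S := by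
    intro B hSB hne
    by_contra hcon
    push Not at hcon
    apply hne
    apply le_antisymm
    · intro y hy
      obtain ⟨hy1, hy2⟩ := Submodule.mem_inf.mp hy
      exact hcon y hy1 hy2
    · exact le_inf hSB le_sup_left
  obtain ⟨x, hxB, hxM, hxS⟩ := hex (P ⊔ P') (hP.1.le.trans le_sup_left) f1
  obtain ⟨y, hyB, hyM, hyS⟩ := hex (P' ⊔ P'') (hP'.1.le.trans le_sup_left) f3
  have hxP' : x ∉ P' := fun h => hxS (by rw [← u2]; exact Submodule.mem_inf.mpr ⟨h, hxM⟩)
  have hyP' : y ∉ P' := fun h => hyS (by rw [← u2]; exact Submodule.mem_inf.mpr ⟨h, hyM⟩)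
  have hspan : ∀ (B : Submodule F V) (z : V), z ∈ B → Submodule.span F {z} ≤ B := by
    intro B z hz
    rw [Submodule.span_singleton_le_iff_mem]; exact hz
  have e1 : P' ⊔ Submodule.span F {x} = P ⊔ P' := by
    refine Submodule.eq_of_le_of_finrank_le (sup_le le_sup_right (hspan _ _ hxB)) ?_
    rw [finrank_sup_span_eq hxP', hd1]; omega
  have e2 : P' ⊔ Submodule.span F {y} = P' ⊔ P'' := by
    refine Submodule.eq_of_le_of_finrank_le (sup_le le_sup_left (hspan _ _ hyB)) ?_
    rw [finrank_sup_span_eq hyP', hd2]; omega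
  have hyx : y ∈ P' ⊔ Submodule.span F {x} := by
    by_contra hcon
    have e3 : P' ⊔ Submodule.span F {x} ⊔ Submodule.span F {y} = Zp := by
      refine Submodule.eq_of_le_of_finrank_le ?_ ?_
      · refine sup_le ?_ (hspan _ _ ((sup_le hP'Z.le hP''Z.le : P' ⊔ P'' ≤ Zp) hyB))
        rw [e1]
        exact sup_le hPZ.le hP'Z.le
      · rw [finrank_sup_span_eq hcon, finrank_sup_span_eq hxP']; omega
    have hZpN : Zp ⊔ N = Λ := by
      rcases Set.mem_insert_iff.mp hZp with h | h
      · rw [h]; exact sup_eq_left.mpr hNΛ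
      · rcases h.2.2 with h' | h'
        · exfalso
          apply hxS
          rw [← h']
          refine Submodule.mem_inf.mpr ⟨?_, hxM⟩
          exact (sup_le hPZ.le hP'Z.le : P ⊔ P' ≤ Zp) hxB
        · exact h'
    apply f2
    apply le_antisymm (sup_le hBΛ1 hNΛ)
    rw [← hZpN]
    have e4 : Zp ≤ P ⊔ P' ⊔ N := by
      rw [← e3, e1]
      refine sup_le le_sup_left (hspan _ _ ?_)
      have : S ⊔ N ≤ P ⊔ P' ⊔ N := sup_le_sup_right (hP.1.le.trans le_sup_left) N
      exact this hyM
    exact sup_le e4 le_sup_right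
  -- conclusion
  have e5 : P'' ≤ P ⊔ P' := by
    have : P'' ≤ P' ⊔ Submodule.span F {y} := by rw [e2]; exact le_sup_right
    refine this.trans ?_
    rw [← e1]
    exact sup_le le_sup_left (hspan _ _ hyx)
  exact Submodule.eq_of_le_of_finrank_le (sup_le le_sup_left e5) (by omega)

/-- Each line contains at least `|F|` points. -/
theorem points_on_line [Fintype F] {Zm l : Submodule F V} (hNΛ : N ≤ Λ)
    (hZm : Zm ∈ insert S (CC S N Λ)) (hl : l ∈ CC S N Λ) (hlt : Zm < l)
    (hd : Module.finrank F l = Module.finrank F Zm + 2) :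
    ∃ A : Finset (Submodule F V), Fintype.card F ≤ A.card ∧
      ∀ P ∈ A, P ∈ CC S N Λ ∧ Zm < P ∧ P < l ∧ Module.finrank F P = Module.finrank F Zm + 1 := by
  have hSZm : S ≤ Zm := by
    rcases Set.mem_insert_iff.mp hZm with h | h
    · exact h.ge
    · exact h.1.le
  obtain ⟨x, hxl, hxZ⟩ := SetLike.exists_of_lt hlt
  have hspan : ∀ (B : Submodule F V) (z : V), z ∈ B → Submodule.span F {z} ≤ B := by
    intro B z hz
    rw [Submodule.span_singleton_le_iff_mem]; exact hz
  have hd1 := finrank_sup_span_eq hxZ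
  have hlt2 : Zm ⊔ Submodule.span F {x} < l := by
    refine lt_of_le_of_ne (sup_le hlt.le (hspan _ _ hxl)) (fun h => ?_)
    rw [h] at hd1; omega
  obtain ⟨y, hyl, hyZ⟩ := SetLike.exists_of_lt hlt2
  have hyZm : y ∉ Zm := fun h => hyZ (Submodule.mem_sup_left h)
  -- the points
  let vec : Option F → V := fun o => match o with
    | none => y
    | some c => x + c • y
  let pt : Option F → Submodule F V := fun o => Zm ⊔ Submodule.span F {vec o}
  have hvl : ∀ o, vec o ∈ l := by
    intro o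
    cases o with
    | none => exact hyl
    | some c => exact l.add_mem hxl (l.smul_mem c hyl)
  have hvZ : ∀ o, vec o ∉ Zm := by
    intro o
    cases o with
    | none => exact hyZm
    | some c =>
      intro h
      have hc : c ≠ 0 := by
        rintro rfl
        apply hxZ
        simpa [vec] using h
      apply hyZ
      have h1 : c • y ∈ Zm ⊔ Submodule.span F {x} := by
        have h2 : c • y = vec (some c) - x := by simp [vec]
        rw [h2]
        exact Submodule.sub_mem _ (Submodule.mem_sup_left h)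
          (Submodule.mem_sup_right (Submodule.mem_span_singleton_self x))
      have := Submodule.smul_mem _ c⁻¹ h1
      rwa [smul_smul, inv_mul_cancel₀ hc, one_smul] at this
  have hpd : ∀ o, Module.finrank F (pt o) = Module.finrank F Zm + 1 :=
    fun o => finrank_sup_span_eq (hvZ o)
  have hptl : ∀ o, pt o < l := by
    intro o
    refine lt_of_le_of_ne (sup_le hlt.le (hspan _ _ (hvl o))) (fun h => ?_)
    have := hpd o
    rw [h] at this; omega
  have hZmpt : ∀ o, Zm < pt o := by
    intro o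
    refine lt_of_le_of_ne le_sup_left (fun h => ?_)
    have := hpd o
    rw [← h] at this; omega
  -- two different vectors generate `l` over `Zm`
  have hgen : ∀ Q : Submodule F V, Zm ≤ Q → x ∈ Q → y ∈ Q → l ≤ Q := by
    intro Q hQ hx hy
    have : Zm ⊔ Submodule.span F {x} ⊔ Submodule.span F {y} = l := by
      refine Submodule.eq_of_le_of_finrank_le ?_ ?_
      · exact sup_le hlt2.le (hspan _ _ hyl)
      · rw [finrank_sup_span_eq hyZ, hd1, hd]
    rw [← this]
    exact sup_le (sup_le hQ (hspan _ _ hx)) (hspan _ _ hy)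
  have hinj : Function.Injective pt := by
    intro o o' h
    by_contra hne
    have hmem : ∀ o, vec o ∈ pt o := fun o =>
      Submodule.mem_sup_right (Submodule.mem_span_singleton_self _)
    have key : l ≤ pt o := by
      cases o with
      | none =>
        cases o' with
        | none => exact absurd rfl hne
        | some c =>
          have hy1 : y ∈ pt none := hmem none
          have h1 : x + c • y ∈ pt none := by
            have := hmem (some c)
            rw [← h] at this
            exact this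
          refine hgen _ (hZmpt none).le ?_ hy1
          have := (pt none).sub_mem h1 ((pt none).smul_mem c hy1)
          rwa [add_sub_cancel_right] at this
      | some c =>
        cases o' with
        | none =>
          have hy1 : y ∈ pt (some c) := by
            have := hmem none
            rw [← h] at this
            exact this
          have h1 : x + c • y ∈ pt (some c) := hmem (some c)
          refine hgen _ (hZmpt (some c)).le ?_ hy1
          have := (pt (some c)).sub_mem h1 ((pt (some c)).smul_mem c hy1)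
          rwa [add_sub_cancel_right] at this
        | some c' =>
          have hcc : c ≠ c' := fun h => hne (by rw [h])
          have h1 : x + c • y ∈ pt (some c) := hmem (some c)
          have h2 : x + c' • y ∈ pt (some c) := by
            have := hmem (some c')
            rw [← h] at this
            exact this
          have hy1 : y ∈ pt (some c) := by
            have h3 := (pt (some c)).sub_mem h1 h2
            have h4 : x + c • y - (x + c' • y) = (c - c') • y := by rw [sub_smul]; abel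
            rw [h4] at h3
            have hne' : c - c' ≠ 0 := sub_ne_zero.mpr hcc
            have := (pt (some c)).smul_mem (c - c')⁻¹ h3
            rwa [smul_smul, inv_mul_cancel₀ hne', one_smul] at this
          refine hgen _ (hZmpt (some c)).le ?_ hy1
          have := (pt (some c)).sub_mem h1 ((pt (some c)).smul_mem c hy1)
          rwa [add_sub_cancel_right] at this
    exact absurd (lt_of_le_of_lt key (hptl o)) (lt_irrefl _)
  -- at most one bad point
  have hbad : ∀ o o', pt o ∉ CC S N Λ → pt o' ∉ CC S N Λ → o = o' := by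
    intro o o' ho ho'
    by_contra hne
    have hf : ∀ o, pt o ∉ CC S N Λ → pt o ⊓ (S ⊔ N) ≠ S ∧ pt o ⊔ N ≠ Λ := by
      intro o ho
      have h1 : S < pt o := lt_of_le_of_lt hSZm (hZmpt o)
      have h2 : pt o < Λ := (hptl o).trans hl.2.1
      exact ⟨fun h => ho ⟨h1, h2, Or.inl h⟩, fun h => ho ⟨h1, h2, Or.inr h⟩⟩
    obtain ⟨f1, f2⟩ := hf o ho
    obtain ⟨f3, f4⟩ := hf o' ho'
    have hlN : l ⊔ N = Λ := by
      rcases hl.2.2 with h | h
      · exfalso
        apply f1
        apply le_antisymm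
        · exact (inf_le_inf_right (S ⊔ N) (hptl o).le).trans h.le
        · exact le_inf (hSZm.trans (hZmpt o).le) le_sup_left
      · exact h
    have hZmN : Zm ⊔ N ≠ Λ := by
      intro h
      apply f2
      apply le_antisymm (sup_le ((hptl o).le.trans hl.2.1.le) hNΛ)
      rw [← h]
      exact sup_le_sup_right (hZmpt o).le N
    have hZmM : Zm ⊓ (S ⊔ N) = S := by
      rcases Set.mem_insert_iff.mp hZm with h | h
      · rw [h]; exact inf_eq_left.mpr le_sup_left
      · rcases h.2.2 with h' | h'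
        · exact h'
        · exact absurd h' hZmN
    have hex : ∀ o, pt o ⊓ (S ⊔ N) ≠ S → pt o ≤ Zm ⊔ N := by
      intro o hne
      have : ∃ z ∈ pt o, z ∈ S ⊔ N ∧ z ∉ S := by
        by_contra hcon
        push Not at hcon
        apply hne
        apply le_antisymm
        · intro z hz
          obtain ⟨hz1, hz2⟩ := Submodule.mem_inf.mp hz
          exact hcon z hz1 hz2
        · exact le_inf (hSZm.trans (hZmpt o).le) le_sup_left
      obtain ⟨z, hz1, hz2, hz3⟩ := this
      have hzZm : z ∉ Zm := fun h => hz3 (by rw [← hZmM]; exact Submodule.mem_inf.mpr ⟨h, hz2⟩)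
      have h1 : Zm ⊔ Submodule.span F {z} = pt o := by
        refine Submodule.eq_of_le_of_finrank_le (sup_le (hZmpt o).le (hspan _ _ hz1)) ?_
        rw [hpd, finrank_sup_span_eq hzZm]
      rw [← h1]
      refine sup_le le_sup_left (hspan _ _ ?_)
      exact (sup_le_sup_right hSZm N) hz2
    apply hZmN
    apply le_antisymm (sup_le (hlt.le.trans hl.2.1.le) hNΛ)
    have hne' : pt o ≠ pt o' := fun h => hne (hinj h)
    have h2 : pt o ⊔ pt o' = l :=
      sup_eq_of_finrank (hptl o).le (hptl o').le (by rw [hpd, hd]) (by rw [hpd, hpd]) hne'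
    rw [← hlN, ← h2]
    exact sup_le (sup_le (hex o f1) (hex o' f3)) le_sup_right
  refine ⟨((univ : Finset (Option F)).filter (fun o => pt o ∈ CC S N Λ)).image pt, ?_, ?_⟩
  · rw [Finset.card_image_of_injective _ hinj]
    have h1 := Finset.card_filter_add_card_filter_not (s := (univ : Finset (Option F)))
      (fun o => pt o ∈ CC S N Λ)
    have h2 : ((univ : Finset (Option F)).filter (fun o => ¬ pt o ∈ CC S N Λ)).card ≤ 1 := by
      rw [Finset.card_le_one]
      intro o ho o' ho'
      exact hbad o o' (mem_filter.1 ho).2 (mem_filter.1 ho').2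
    have h3 : (univ : Finset (Option F)).card = Fintype.card F + 1 := by
      rw [Finset.card_univ, Fintype.card_option]
    omega
  · intro P hP
    obtain ⟨o, ho, rfl⟩ := Finset.mem_image.mp hP
    exact ⟨(mem_filter.1 ho).2, hZmpt o, hptl o, hpd o⟩

end Vale.Agent.P067
end
end

section

section

/-!
# P067, module M8: spectral gap of the codimension two faces of `X`
-/

set_option autoImplicit false

open Finset

namespace Vale.Agent.P067

attribute [local instance] Classical.propDecidable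

open scoped Pointwise

variable {p m : ℕ} [Fact p.Prime] {ι : Type} [Fintype ι] [DecidableEq ι]

/-! ### general facts on simplices -/

/-- Elements of a simplex are comparable. -/
private theorem simplex_le_total {σ : Finset (Sb ι p m)} (hσ : σ ∈ XX ι p m) {x y : Sb ι p m}
    (hx : x ∈ σ) (hy : y ∈ σ) : x ≤ y ∨ y ≤ x := by
  obtain ⟨Wf, _, c, hc, _, rfl⟩ := hσ
  obtain ⟨S, hS, rfl⟩ := Finset.mem_image.1 hx
  obtain ⟨S', hS', rfl⟩ := Finset.mem_image.1 hy
  rcases eq_or_ne S S' with h | h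
  · left; rw [h]
  · rcases hc hS hS' h with h1 | h1
    · left; exact sup_le_sup_left (Submodule.map_mono h1) _
    · right; exact sup_le_sup_left (Submodule.map_mono h1) _

/-- Elements of a simplex are determined by their dimension. -/
private theorem simplex_eq_of_finrank {σ : Finset (Sb ι p m)} (hσ : σ ∈ XX ι p m)
    {x y : Sb ι p m} (hx : x ∈ σ) (hy : y ∈ σ)
    (h : Module.finrank (ZMod p) x = Module.finrank (ZMod p) y) : x = y := by
  rcases simplex_le_total hσ hx hy with h1 | h1
  · exact Submodule.eq_of_le_of_finrank_eq h1 h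
  · exact (Submodule.eq_of_le_of_finrank_eq h1 h.symm).symm

private theorem topX_card {C : Finset (Sb ι p m)} (hC : C ∈ topX ι p m) :
    C.card = Fintype.card ι := (mem_topX.1 hC).2

/-- Weight of a simplex of full size. -/
private theorem W_of_card {σ : Finset (Sb ι p m)} (hc : σ.card = Fintype.card ι) :
    W (topX ι p m) σ = if σ ∈ XX ι p m then 1 else 0 := by
  unfold W
  split_ifs with h
  · rw [Finset.card_eq_one]
    refine ⟨σ, ?_⟩
    ext C
    rw [mem_filter, mem_singleton]
    constructor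
    · rintro ⟨hC, hs⟩
      exact (Finset.eq_of_subset_of_card_le hs (by rw [topX_card hC, hc])).symm
    · rintro rfl
      exact ⟨mem_topX.2 ⟨h, hc⟩, Finset.Subset.refl _⟩
  · rw [card_eq_zero]
    apply Finset.filter_eq_empty_iff.2
    intro C hC hs
    have h1 : σ = C := Finset.eq_of_subset_of_card_le hs (by rw [topX_card hC, hc])
    exact h (h1 ▸ (mem_topX.1 hC).1)

/-- Regularity: faces `insert a θ`, `insert a' θ` of the same type have the same weight. -/
private theorem W_insert_eq (hm : 3 ≤ m) {θ : Finset (Sb ι p m)} {a a' : Sb ι p m}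
    (ha : insert a θ ∈ XX ι p m) (ha' : insert a' θ ∈ XX ι p m)
    (hdim : Module.finrank (ZMod p) a = Module.finrank (ZMod p) a') :
    W (topX ι p m) (insert a θ) = W (topX ι p m) (insert a' θ) := by
  obtain ⟨C, hC, haC⟩ := exists_topX hm ha
  obtain ⟨C', hC', haC'⟩ := exists_topX hm ha'
  obtain ⟨g, hg⟩ := topX_transitive hm hC hC'
  have hgC : ∀ x ∈ C, g • x ∈ C' := by
    intro x hx
    rw [hg]
    exact Finset.mem_image_of_mem _ hx
  have key : ∀ x ∈ C, ∀ y ∈ C', Module.finrank (ZMod p) x = Module.finrank (ZMod p) y →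
      g • x = y := by
    intro x hx y hy hxy
    refine simplex_eq_of_finrank (mem_topX.1 hC').1 (hgC x hx) hy ?_
    rw [finrank_smul_Sb, hxy]
  have himg : (insert a θ).image (fun x => g • x) = insert a' θ := by
    rw [Finset.image_insert]
    have h1 : g • a = a' := key a (haC (mem_insert_self _ _)) a' (haC' (mem_insert_self _ _)) hdim
    have h2 : θ.image (fun x => g • x) = θ := by
      have h3 : ∀ x ∈ θ, g • x = x := fun x hx =>
        key x (haC (mem_insert_of_mem hx)) x (haC' (mem_insert_of_mem hx)) rfl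
      ext y
      simp only [mem_image]
      constructor
      · rintro ⟨x, hx, rfl⟩
        rw [h3 x hx]; exact hx
      · intro hy
        exact ⟨y, hy, h3 y hy⟩
    rw [h2, h1]
  rw [← himg, W_smul]

/-! ### the link of `θ = insert L τ` -/

/-- Admissible elements of `C_Λ`: those extending the chain `c`. -/
private def Adm (L : Sb ι p m) (c : Finset (Sb ι p m)) (Z : Sb ι p m) : Prop :=
  Z ∈ CL L ∧ Z ∉ c ∧ IsChain (· ≤ ·) ((insert Z c : Finset (Sb ι p m)) : Set (Sb ι p m))

private theorem adm_of_link (hm : 3 ≤ m) {L v : Sb ι p m} {τ : Finset (Sb ι p m)}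
    (hLτ : L ∉ τ) (hvL : v ≠ L) (hvτ : v ∉ τ) (h : insert v (insert L τ) ∈ XX ι p m) :
    Adm L (τ.image (zz L)) (zz L v) ∧ yy L (zz L v) = v := by
  have h' : insert L (insert v τ) ∈ XX ι p m := by rw [Finset.insert_comm]; exact h
  have hL' : L ∉ insert v τ := by
    rw [mem_insert, not_or]; exact ⟨fun e => hvL e.symm, hLτ⟩
  obtain ⟨h1, h2⟩ := chain_of_link hm hL' h'
  obtain ⟨h3, h4⟩ := h1 v (mem_insert_self _ _)
  refine ⟨⟨h3, ?_, ?_⟩, h4⟩
  · intro hmem
    obtain ⟨L', hL'τ, he⟩ := Finset.mem_image.1 hmem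
    have h5 := (h1 L' (mem_insert_of_mem hL'τ)).2
    rw [he, h4] at h5
    exact hvτ (h5 ▸ hL'τ)
  · rw [Finset.image_insert] at h2
    exact h2

private theorem image_yy (hm : 3 ≤ m) {L : Sb ι p m} {τ : Finset (Sb ι p m)} (hLτ : L ∉ τ)
    (hθ : insert L τ ∈ XX ι p m) : (τ.image (zz L)).image (yy L) = τ := by
  obtain ⟨h1, _⟩ := chain_of_link hm hLτ hθ
  rw [Finset.image_image]
  ext x
  simp only [mem_image, Function.comp_apply]
  constructor
  · rintro ⟨y, hy, rfl⟩
    rw [(h1 y hy).2]; exact hy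
  · intro hx
    exact ⟨x, hx, (h1 x hx).2⟩

private theorem singleton_mem_XX {L : Sb ι p m} {τ : Finset (Sb ι p m)}
    (hθ : insert L τ ∈ XX ι p m) : {L} ∈ XX ι p m :=
  downClosed_XX _ hθ _ (Finset.singleton_subset_iff.2 (mem_insert_self _ _))

private theorem link_of_adm (hm : 3 ≤ m) {L Z : Sb ι p m} {τ : Finset (Sb ι p m)}
    (hLτ : L ∉ τ) (hθ : insert L τ ∈ XX ι p m) (hZ : Adm L (τ.image (zz L)) Z) :
    insert (yy L Z) (insert L τ) ∈ XX ι p m ∧ yy L Z ∉ insert L τ ∧ zz L (yy L Z) = Z := by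
  obtain ⟨h1, h2⟩ := chain_of_link hm hLτ hθ
  obtain ⟨hZ1, hZ2, hZ3⟩ := hZ
  have hc : ∀ Z' ∈ insert Z (τ.image (zz L)), Z' ∈ CL L := by
    intro Z' hZ'
    rcases mem_insert.1 hZ' with h | h
    · rw [h]; exact hZ1
    · obtain ⟨x, hx, rfl⟩ := mem_image.1 h
      exact (h1 x hx).1
  obtain ⟨h3, h4⟩ := link_of_chain hm (singleton_mem_XX hθ) hc hZ3
  obtain ⟨h5, h6⟩ := h4 Z (mem_insert_self _ _)
  refine ⟨?_, ?_, h5⟩
  · rw [Finset.image_insert, image_yy hm hLτ hθ, Finset.insert_comm] at h3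
    exact h3
  · rw [mem_insert, not_or]
    refine ⟨h6, fun hmem => hZ2 ?_⟩
    rw [← h5]
    exact mem_image_of_mem _ hmem

private theorem link2_of_adm (hm : 3 ≤ m) {L Z Z' : Sb ι p m} {τ : Finset (Sb ι p m)}
    (hLτ : L ∉ τ) (hθ : insert L τ ∈ XX ι p m) (hZ : Adm L (τ.image (zz L)) Z)
    (hZ' : Adm L (τ.image (zz L)) Z') (hne : Z ≠ Z') :
    insert (yy L Z) (insert (yy L Z') (insert L τ)) ∈ XX ι p m ↔ (Z ≤ Z' ∨ Z' ≤ Z) := by
  obtain ⟨h1, h2⟩ := chain_of_link hm hLτ hθ
  obtain ⟨g1, g2, g3⟩ := link_of_adm hm hLτ hθ hZ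
  obtain ⟨g1', g2', g3'⟩ := link_of_adm hm hLτ hθ hZ'
  constructor
  · intro h
    have h' : insert L (insert (yy L Z) (insert (yy L Z') τ)) ∈ XX ι p m := by
      have : insert L (insert (yy L Z) (insert (yy L Z') τ)) =
          insert (yy L Z) (insert (yy L Z') (insert L τ)) := by
        ext x; simp only [mem_insert]; (clear hm hLτ hθ hZ hZ' hne h1 h2 g1 g2 g3 g1' g2' g3' h; tauto)
      rw [this]; exact h
    have hL' : L ∉ insert (yy L Z) (insert (yy L Z') τ) := by
      simp only [mem_insert, not_or] at g2 g2' ⊢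
      exact ⟨fun e => g2.1 e.symm, fun e => g2'.1 e.symm, hLτ⟩
    obtain ⟨_, h4⟩ := chain_of_link hm hL' h'
    have hm1 : Z ∈ (insert (yy L Z) (insert (yy L Z') τ)).image (zz L) := by
      rw [mem_image]; exact ⟨yy L Z, mem_insert_self _ _, g3⟩
    have hm2 : Z' ∈ (insert (yy L Z) (insert (yy L Z') τ)).image (zz L) := by
      rw [mem_image]; exact ⟨yy L Z', mem_insert_of_mem (mem_insert_self _ _), g3'⟩
    exact h4 hm1 hm2 hne
  · intro h
    have hc : ∀ Y ∈ insert Z (insert Z' (τ.image (zz L))), Y ∈ CL L := by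
      intro Y hY
      rcases mem_insert.1 hY with h | h
      · rw [h]; exact hZ.1
      · rcases mem_insert.1 h with h | h
        · rw [h]; exact hZ'.1
        · obtain ⟨x, hx, rfl⟩ := mem_image.1 h
          exact (h1 x hx).1
    have hch : IsChain (· ≤ ·)
        ((insert Z (insert Z' (τ.image (zz L))) : Finset (Sb ι p m)) : Set (Sb ι p m)) := by
      rw [Finset.coe_insert]
      refine (hZ'.2.2).insert (fun Y hY hYZ => ?_)
      rcases mem_insert.1 (Finset.mem_coe.1 hY) with h3 | h3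
      · rw [h3]; exact h
      · exact hZ.2.2 (mem_insert_self _ _) (mem_insert_of_mem h3) hYZ
    obtain ⟨h3, _⟩ := link_of_chain hm (singleton_mem_XX hθ) hc hch
    rw [Finset.image_insert, Finset.image_insert, image_yy hm hLτ hθ] at h3
    have : insert L (insert (yy L Z) (insert (yy L Z') τ)) =
          insert (yy L Z) (insert (yy L Z') (insert L τ)) := by
        ext x; simp only [mem_insert]; (clear hm hLτ hθ hZ hZ' hne h1 h2 g1 g2 g3 g1' g2' g3' hc hch h3; tauto)
    rw [← this]; exact h3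

/-- The dimension of `yy L Z` is a function of the dimension of `Z`. -/
private theorem finrank_yy (hm : 3 ≤ m) {L Z : Sb ι p m} {τ : Finset (Sb ι p m)}
    (hLτ : L ∉ τ) (hθ : insert L τ ∈ XX ι p m) (hZ : Adm L (τ.image (zz L)) Z) :
    Module.finrank (ZMod p) (yy L Z) =
      if Fintype.card ι ≤ Module.finrank (ZMod p) Z then Module.finrank (ZMod p) Z
      else Fintype.card ι + Module.finrank (ZMod p) Z := by
  obtain ⟨g1, g2, g3⟩ := link_of_adm hm hLτ hθ hZ
  split_ifs with h
  · unfold yy; rw [if_pos h]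
  · have h1 : zz L (yy L Z) = Sp (yy L Z) := by
      unfold zz
      rw [if_neg]
      intro hlt
      unfold yy at hlt
      rw [if_neg h] at hlt
      exact absurd (lt_of_le_of_lt le_sup_left hlt) (lt_irrefl _)
    have h2 := (finrank_vertex hm (singleton_mem_XX g1)).1
    rw [h2, ← h1, g3]

/-! ### ranks in the chain -/

private theorem CL_finrank {L Z : Sb ι p m} (hZ : Z ∈ CL L) :
    Module.finrank (ZMod p) (Sp L) < Module.finrank (ZMod p) Z ∧
      Module.finrank (ZMod p) Z < Module.finrank (ZMod p) L :=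
  ⟨Submodule.finrank_lt_finrank_of_lt hZ.1, Submodule.finrank_lt_finrank_of_lt hZ.2.1⟩

private theorem lt_of_comparable {Z Z' : Sb ι p m} (h : Z ≤ Z' ∨ Z' ≤ Z)
    (hlt : Module.finrank (ZMod p) Z < Module.finrank (ZMod p) Z') : Z < Z' := by
  rcases h with h | h
  · refine lt_of_le_of_ne h (fun e => ?_)
    rw [e] at hlt; exact lt_irrefl _ hlt
  · have := Submodule.finrank_mono (R := ZMod p) h
    omega

private theorem CL_eq_CC_base (L : Sb ι p m) :
    CL L = CC (Sp L) ((Sp L).map (tm ι p m)) L := rfl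

private theorem finrank_join {Zm A B : Sb ι p m} {d : ℕ} (hA : Zm ≤ A) (hB : Zm ≤ B)
    (hne : A ≠ B) (hdm : Module.finrank (ZMod p) Zm = d)
    (hdA : Module.finrank (ZMod p) A = d + 1) (hdB : Module.finrank (ZMod p) B = d + 1) :
    Module.finrank (ZMod p) (A ⊔ B : Sb ι p m) = d + 2 := by
  have e1 := Submodule.finrank_sup_add_finrank_inf_eq A B
  have e2 : A ⊓ B < A := by
    refine lt_of_le_of_ne inf_le_left (fun h => ?_)
    have : A ≤ B := by rw [← h]; exact inf_le_right
    exact hne (Submodule.eq_of_le_of_finrank_eq this (by omega))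
  have e3 := Submodule.finrank_lt_finrank_of_lt e2
  have e4 := Submodule.finrank_mono (R := ZMod p) (le_inf hA hB)
  omega

set_option maxHeartbeats 1600000 in
/-- **M8.** Spectral gap of the codimension two faces of `X`. -/
theorem specGap_base [Fintype (Sb ι p m)] (hm : 3 ≤ m) (hn : 3 ≤ Fintype.card ι) {lam : ℝ}
    (hlam : 0 < lam) (hp : 1 ≤ lam ^ 2 * (p : ℝ)) (θ : Finset (Sb ι p m))
    (hθ : 0 < W (topX ι p m) θ) (hcard : θ.card + 2 = Fintype.card ι) :
    SpecGap (topX ι p m) (Fintype.card ι) θ lam := by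
  have hθX : θ ∈ XX ι p m := (W_topX_pos_iff hm θ).1 hθ
  have hne : θ.Nonempty := by rw [← Finset.card_pos]; omega
  obtain ⟨L, hL⟩ := hne
  obtain ⟨τ, hτ, hLτ⟩ : ∃ τ : Finset (Sb ι p m), insert L τ = θ ∧ L ∉ τ :=
    ⟨θ.erase L, Finset.insert_erase hL, Finset.notMem_erase L θ⟩
  subst hτ
  have hτcard : τ.card + 3 = Fintype.card ι := by
    rw [Finset.card_insert_of_notMem hLτ] at hcard; omega
  obtain ⟨hL1, hL2, hL3, hL4, hL5⟩ := finrank_vertex hm (singleton_mem_XX hθX)
  set n := Fintype.card ι with hn'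
  set s := Module.finrank (ZMod p) (Sp L) with hs
  set c := τ.image (zz L) with hc
  obtain ⟨hτ1, hτ2⟩ := chain_of_link hm hLτ hθX
  rw [← hc] at hτ2
  have hcC : ∀ Z ∈ c, Z ∈ CL L := by
    intro Z hZ
    obtain ⟨x, hx, rfl⟩ := mem_image.1 hZ
    exact (hτ1 x hx).1
  have hccard : c.card + 3 = n := by
    rw [← hτcard, hc, Finset.card_image_of_injOn]
    intro x hx y hy hxy
    have h1 := (hτ1 x hx).2
    have h2 := (hτ1 y hy).2
    have hxy' : zz L x = zz L y := hxy
    rw [← h1, hxy', h2]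
  -- comparability in the chain
  have hcomp : ∀ Z ∈ c, ∀ Z' ∈ c, Z ≤ Z' ∨ Z' ≤ Z := by
    intro Z hZ Z' hZ'
    rcases eq_or_ne Z Z' with h | h
    · left; rw [h]
    · exact hτ2 hZ hZ' h
  let rk : Sb ι p m → ℕ := fun Z => Module.finrank (ZMod p) Z - s
  have hrkZ : ∀ Z ∈ CL L, Module.finrank (ZMod p) Z = rk Z + s ∧ 1 ≤ rk Z ∧ rk Z + 1 ≤ n := by
    intro Z hZ
    have := CL_finrank hZ
    simp only [rk]
    (clear hm lam hlam hp hLτ hθ hθX hL hL3 hL5 hn hn' hL4 hL2 hs hτ2 hcC hcomp rk; omega)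
  have hrkinj : Set.InjOn rk (c : Set (Sb ι p m)) := by
    intro Z hZ Z' hZ' h
    have h1 := (hrkZ Z (hcC Z hZ)).1
    have h2 := (hrkZ Z' (hcC Z' hZ')).1
    rw [h] at h1
    rcases hcomp Z hZ Z' hZ' with h3 | h3
    · exact Submodule.eq_of_le_of_finrank_eq h3 (by rw [h1, h2])
    · exact (Submodule.eq_of_le_of_finrank_eq h3 (by rw [h1, h2])).symm
  -- the missing ranks
  set R := c.image rk with hR
  have hRcard : R.card + 3 = n := by
    rw [hR, Finset.card_image_of_injOn hrkinj]; exact hccard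
  have hRsub : R ⊆ Finset.Icc 1 (n - 1) := by
    intro r hr
    obtain ⟨Z, hZ, rfl⟩ := mem_image.1 hr
    have := hrkZ Z (hcC Z hZ)
    rw [Finset.mem_Icc]; omega
  have hmiss : (Finset.Icc 1 (n - 1) \ R).card = 2 := by
    rw [Finset.card_sdiff_of_subset hRsub, Nat.card_Icc]; (clear hm lam hlam hp hLτ hθ hθX hL hL3 hL5 hn' hL4 hL2 hs hRsub; omega)
  obtain ⟨r1, r2, hr12, hmiss2⟩ : ∃ r1 r2 : ℕ, r1 < r2 ∧ Finset.Icc 1 (n - 1) \ R = {r1, r2} := by
    obtain ⟨x, y, hxy, hxy'⟩ := Finset.card_eq_two.1 hmiss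
    rcases lt_or_gt_of_ne hxy with h | h
    · exact ⟨x, y, h, hxy'⟩
    · exact ⟨y, x, h, by rw [hxy', Finset.pair_comm]⟩
  have hr1 : r1 ∈ Finset.Icc 1 (n - 1) ∧ r1 ∉ R := by
    rw [← Finset.mem_sdiff, hmiss2]; simp
  have hr2 : r2 ∈ Finset.Icc 1 (n - 1) ∧ r2 ∉ R := by
    rw [← Finset.mem_sdiff, hmiss2]; simp
  have hRother : ∀ r, 1 ≤ r → r + 1 ≤ n → r ≠ r1 → r ≠ r2 → ∃ Z ∈ c, rk Z = r := by
    intro r h1 h2 h3 h4
    have : r ∈ R := by
      by_contra hcon
      have h5 : r ∈ Finset.Icc 1 (n - 1) \ R := by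
        rw [Finset.mem_sdiff, Finset.mem_Icc]; exact ⟨⟨h1, by (clear hm lam hlam hp hLτ hθ hθX hL hL3 hL5 hn' hL4 hL2 hs hRsub hmiss r1 r2 hr12 hmiss2 hr1 hr2 h1 h3 h4 hcon; omega)⟩, hcon⟩
      rw [hmiss2] at h5
      simp only [mem_insert, mem_singleton] at h5
      rcases h5 with h5 | h5
      · exact h3 h5
      · exact h4 h5
    obtain ⟨Z, hZ, rfl⟩ := mem_image.1 this
    exact ⟨Z, hZ, rfl⟩
  rw [Finset.mem_Icc] at hr1 hr2
  -- admissible elements
  have hAdmcomp : ∀ Z, Adm L c Z → ∀ Z' ∈ c, Z ≤ Z' ∨ Z' ≤ Z := by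
    intro Z hZ Z' hZ'
    have h1 : Z ≠ Z' := fun h => hZ.2.1 (h ▸ hZ')
    exact hZ.2.2 (mem_insert_self _ _) (mem_insert_of_mem hZ') h1
  have hAdmrk : ∀ Z, Adm L c Z → rk Z = r1 ∨ rk Z = r2 := by
    intro Z hZ
    by_contra hcon
    push Not at hcon
    have h1 := hrkZ Z hZ.1
    obtain ⟨Z', hZ', hrk⟩ := hRother (rk Z) h1.2.1 h1.2.2 hcon.1 hcon.2
    have h2 := (hrkZ Z' (hcC Z' hZ')).1
    have h3 : Module.finrank (ZMod p) Z = Module.finrank (ZMod p) Z' := by
      rw [h1.1, h2, hrk]
    apply hZ.2.1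
    rcases hAdmcomp Z hZ Z' hZ' with h4 | h4
    · rw [Submodule.eq_of_le_of_finrank_eq h4 h3]; exact hZ'
    · rw [← Submodule.eq_of_le_of_finrank_eq h4 h3.symm]; exact hZ'
  let A' : Finset (Sb ι p m) := univ.filter (fun Z => Adm L c Z ∧ rk Z = r1)
  let B' : Finset (Sb ι p m) := univ.filter (fun Z => Adm L c Z ∧ rk Z = r2)
  have hA' : ∀ Z, Z ∈ A' ↔ (Adm L c Z ∧ rk Z = r1) := fun Z => by simp [A']
  have hB' : ∀ Z, Z ∈ B' ↔ (Adm L c Z ∧ rk Z = r2) := fun Z => by simp [B']
  have hzy : ∀ Z, Adm L c Z → zz L (yy L Z) = Z := fun Z hZ => (link_of_adm hm hLτ hθX hZ).2.2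
  have hyθ : ∀ Z, Adm L c Z → yy L Z ∉ insert L τ := fun Z hZ => (link_of_adm hm hLτ hθX hZ).2.1
  have hyX : ∀ Z, Adm L c Z → insert (yy L Z) (insert L τ) ∈ XX ι p m :=
    fun Z hZ => (link_of_adm hm hLτ hθX hZ).1
  -- cardinalities
  have hcard2 : ∀ u v : Sb ι p m, u ∉ insert L τ → v ∉ insert L τ → u ≠ v →
      (insert u (insert v (insert L τ))).card = Fintype.card ι := by
    intro u v hu hv huv
    rw [Finset.card_insert_of_notMem, Finset.card_insert_of_notMem hv, ← hn', ← hcard]
    rw [mem_insert, not_or]; exact ⟨huv, hu⟩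
  -- weights of pairs
  have hpair : ∀ Z Z', Adm L c Z → Adm L c Z' → Z ≠ Z' →
      W (topX ι p m) (insert (yy L Z) (insert (yy L Z') (insert L τ))) =
        if (Z ≤ Z' ∨ Z' ≤ Z) then 1 else 0 := by
    intro Z Z' hZ hZ' hne
    have hyne : yy L Z ≠ yy L Z' := fun h => hne (by rw [← hzy Z hZ, h, hzy Z' hZ'])
    rw [W_of_card (hcard2 _ _ (hyθ Z hZ) (hyθ Z' hZ') hyne)]
    have := link2_of_adm hm hLτ hθX hZ hZ' hne
    simp only [this]
  -- same rank: not comparable
  have hsame : ∀ Z Z', Adm L c Z → Adm L c Z' → Z ≠ Z' → rk Z = rk Z' →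
      W (topX ι p m) (insert (yy L Z) (insert (yy L Z') (insert L τ))) = 0 := by
    intro Z Z' hZ hZ' hne hrk
    rw [hpair Z Z' hZ hZ' hne, if_neg]
    have h1 := (hrkZ Z hZ.1).1
    have h2 := (hrkZ Z' hZ'.1).1
    have h3 : Module.finrank (ZMod p) Z = Module.finrank (ZMod p) Z' := by rw [h1, h2, hrk]
    rintro (h | h)
    · exact hne (Submodule.eq_of_le_of_finrank_eq h h3)
    · exact hne (Submodule.eq_of_le_of_finrank_eq h h3.symm).symm
  -- regularity
  have hreg : ∀ Z Z', Adm L c Z → Adm L c Z' → rk Z = rk Z' →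
      W (topX ι p m) (insert (yy L Z) (insert L τ)) =
        W (topX ι p m) (insert (yy L Z') (insert L τ)) := by
    intro Z Z' hZ hZ' hrk
    refine W_insert_eq hm (hyX Z hZ) (hyX Z' hZ') ?_
    have h1 := (hrkZ Z hZ.1).1
    have h2 := (hrkZ Z' hZ'.1).1
    have h3 : Module.finrank (ZMod p) Z = Module.finrank (ZMod p) Z' := by rw [h1, h2, hrk]
    rw [finrank_yy hm hLτ hθX hZ, finrank_yy hm hLτ hθX hZ', h3]
  -- the two sides of the link
  set A := A'.image (yy L) with hA
  set B := B'.image (yy L) with hB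
  have hyyA : ∀ a ∈ A, ∃ Z, Adm L c Z ∧ rk Z = r1 ∧ yy L Z = a := by
    intro a ha
    obtain ⟨Z, hZ, rfl⟩ := mem_image.1 ha
    obtain ⟨h1, h2⟩ := (hA' Z).1 hZ
    exact ⟨Z, h1, h2, rfl⟩
  have hyyB : ∀ b ∈ B, ∃ Z, Adm L c Z ∧ rk Z = r2 ∧ yy L Z = b := by
    intro b hb
    obtain ⟨Z, hZ, rfl⟩ := mem_image.1 hb
    obtain ⟨h1, h2⟩ := (hB' Z).1 hZ
    exact ⟨Z, h1, h2, rfl⟩
  have hmemA : ∀ Z, Adm L c Z → rk Z = r1 → yy L Z ∈ A := fun Z h1 h2 =>
    mem_image_of_mem _ ((hA' Z).2 ⟨h1, h2⟩)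
  have hmemB : ∀ Z, Adm L c Z → rk Z = r2 → yy L Z ∈ B := fun Z h1 h2 =>
    mem_image_of_mem _ ((hB' Z).2 ⟨h1, h2⟩)
  have hAθ : ∀ a ∈ A, a ∉ insert L τ := by
    intro a ha
    obtain ⟨Z, h1, _, rfl⟩ := hyyA a ha
    exact hyθ Z h1
  have hBθ : ∀ b ∈ B, b ∉ insert L τ := by
    intro b hb
    obtain ⟨Z, h1, _, rfl⟩ := hyyB b hb
    exact hyθ Z h1
  have hAB : Disjoint A B := by
    rw [Finset.disjoint_left]
    intro x hx hx'
    obtain ⟨Z, h1, h2, h3⟩ := hyyA x hx
    obtain ⟨Z', h1', h2', h3'⟩ := hyyB x hx'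
    have : Z = Z' := by rw [← hzy Z h1, h3, ← h3', hzy Z' h1']
    rw [this] at h2
    omega
  have hsupp : ∀ v, v ∉ insert L τ → 0 < W (topX ι p m) (insert v (insert L τ)) →
      v ∈ A ∨ v ∈ B := by
    intro v hv hW
    have hvX := (W_topX_pos_iff hm _).1 hW
    rw [mem_insert, not_or] at hv
    obtain ⟨h1, h2⟩ := adm_of_link hm hLτ hv.1 hv.2 hvX
    rw [← h2]
    rcases hAdmrk _ h1 with h3 | h3
    · left; exact hmemA _ h1 h3
    · right; exact hmemB _ h1 h3
  have hAA : ∀ a ∈ A, ∀ a' ∈ A, a ≠ a' → W (topX ι p m) (insert a (insert a' (insert L τ))) = 0 := by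
    intro a ha a' ha' hne
    obtain ⟨Z, h1, h2, rfl⟩ := hyyA a ha
    obtain ⟨Z', h1', h2', rfl⟩ := hyyA a' ha'
    exact hsame Z Z' h1 h1' (fun h => hne (by rw [h])) (by rw [h2, h2'])
  have hBB : ∀ b ∈ B, ∀ b' ∈ B, b ≠ b' → W (topX ι p m) (insert b (insert b' (insert L τ))) = 0 := by
    intro a ha a' ha' hne
    obtain ⟨Z, h1, h2, rfl⟩ := hyyB a ha
    obtain ⟨Z', h1', h2', rfl⟩ := hyyB a' ha'
    exact hsame Z Z' h1 h1' (fun h => hne (by rw [h])) (by rw [h2, h2'])
  obtain ⟨DA, hDA0, hDA⟩ : ∃ DA : ℝ, 0 ≤ DA ∧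
      ∀ a ∈ A, (W (topX ι p m) (insert a (insert L τ)) : ℝ) = DA := by
    rcases A.eq_empty_or_nonempty with h | ⟨a0, ha0⟩
    · exact ⟨0, le_refl 0, fun a ha => by rw [h] at ha; exact absurd ha (notMem_empty a)⟩
    · refine ⟨W (topX ι p m) (insert a0 (insert L τ)), Nat.cast_nonneg _, fun a ha => ?_⟩
      obtain ⟨Z, h1, h2, rfl⟩ := hyyA a ha
      obtain ⟨Z', h1', h2', rfl⟩ := hyyA a0 ha0
      rw [hreg Z Z' h1 h1' (by rw [h2, h2'])]
  have hpairAB : ∀ Z Z', Adm L c Z → rk Z = r1 → Adm L c Z' → rk Z' = r2 →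
      W (topX ι p m) (insert (yy L Z) (insert (yy L Z') (insert L τ))) =
        if Z < Z' then 1 else 0 := by
    intro Z Z' h1 h2 h1' h2'
    have hne : Z ≠ Z' := by rintro rfl; omega
    rw [hpair Z Z' h1 h1' hne]
    have h3 := (hrkZ Z h1.1).1
    have h4 := (hrkZ Z' h1'.1).1
    have h5 : (Z ≤ Z' ∨ Z' ≤ Z) ↔ Z < Z' :=
      ⟨fun h => lt_of_comparable h (by omega), fun h => Or.inl h.le⟩
    simp only [h5]
  by_cases hadj : r2 = r1 + 1
  · -- adjacent ranks: points and lines
    subst hadj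
    have hNL : (Sp L).map (tm ι p m) ≤ L := le_sup_right.trans hL5
    -- lower end
    obtain ⟨Zm, hZm, hZmd, hZmlt, hZmc⟩ : ∃ Zm : Sb ι p m,
        Zm ∈ insert (Sp L) (CC (Sp L) ((Sp L).map (tm ι p m)) L) ∧
        Module.finrank (ZMod p) Zm + 1 = r1 + s ∧ (∀ Z, Adm L c Z → Zm < Z) ∧
        (∀ Z' ∈ c, rk Z' < r1 → Z' ≤ Zm) := by
      by_cases h : r1 = 1
      · refine ⟨Sp L, Set.mem_insert _ _, by omega, fun Z hZ => hZ.1.1, ?_⟩
        intro Z' hZ' hlt
        have := hrkZ Z' (hcC Z' hZ'); omega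
      · obtain ⟨Z0, hZ0, hZ0r⟩ := hRother (r1 - 1) (by omega) (by omega) (by omega) (by omega)
        have e0 := (hrkZ Z0 (hcC Z0 hZ0)).1
        refine ⟨Z0, Set.mem_insert_of_mem _ (hcC Z0 hZ0), by (clear hm lam hlam hp hLτ hθ hθX hL hL3 hL5 hn hn' hL4 hL2 hs hRsub hmiss hAdmcomp A' hA' hzy hyθ hyX hcard2 hpair hsame hreg A hA hyyA hmemA hAθ hAA DA hDA0 hDA hr12 hmiss2 hr2 hRother hAdmrk B' hB' B hB hyyB hmemB hBθ hAB hsupp hBB hpairAB hNL h; omega), ?_, ?_⟩
        · intro Z hZ
          have e1 := (hrkZ Z hZ.1).1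
          have e2 := hAdmrk Z hZ
          exact lt_of_comparable (hAdmcomp Z hZ Z0 hZ0).symm (by (clear hm lam hlam hp hLτ hθ hθX hL hL3 hL5 hn hn' hL4 hL2 hs hRsub hmiss hAdmcomp A' hA' hzy hyθ hyX hcard2 hpair hsame hreg A hA hyyA hmemA hAθ hAA DA hDA0 hDA hr12 hmiss2 hr2 hRother B' hB' B hB hyyB hmemB hBθ hAB hsupp hBB hpairAB hNL h; omega))
        · intro Z' hZ' hlt
          have e1 := (hrkZ Z' (hcC Z' hZ')).1
          rcases hcomp Z' hZ' Z0 hZ0 with h3 | h3
          · exact h3
          · have h4 := Submodule.finrank_mono (R := ZMod p) h3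
            exact (Submodule.eq_of_le_of_finrank_eq h3 (by omega)).ge
    -- upper end
    obtain ⟨Zp, hZp, hZpd, hZplt, hZpc⟩ : ∃ Zp : Sb ι p m,
        Zp ∈ insert L (CC (Sp L) ((Sp L).map (tm ι p m)) L) ∧
        Module.finrank (ZMod p) Zp = r1 + 2 + s ∧ (∀ Z, Adm L c Z → Z < Zp) ∧
        (∀ Z' ∈ c, r1 + 1 < rk Z' → Zp ≤ Z') := by
      by_cases h : r1 + 2 = n
      · refine ⟨L, Set.mem_insert _ _, by omega, fun Z hZ => hZ.1.2.1, ?_⟩
        intro Z' hZ' hlt
        have := hrkZ Z' (hcC Z' hZ'); (clear hm lam hlam hp hLτ hθ hθX hL hL3 hL5 hn hn' hL4 hL2 hs hRsub hmiss hr1 hAdmcomp A' hA' hzy hyθ hyX hcard2 hpair hsame hreg A hA hyyA hmemA hAθ hAA DA hDA0 hDA hr12 hmiss2 hr2 hRother hAdmrk B' hB' B hB hyyB hmemB hBθ hAB hsupp hBB hpairAB hNL hZm hZmlt hZmc; omega)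
      · obtain ⟨Z0, hZ0, hZ0r⟩ := hRother (r1 + 2) (by omega) (by omega) (by omega) (by omega)
        have e0 := (hrkZ Z0 (hcC Z0 hZ0)).1
        refine ⟨Z0, Set.mem_insert_of_mem _ (hcC Z0 hZ0), by (clear hm lam hlam hp hLτ hθ hθX hL hL3 hL5 hn hn' hL4 hL2 hs hRsub hmiss hr1 hAdmcomp A' hA' hzy hyθ hyX hcard2 hpair hsame hreg A hA hyyA hmemA hAθ hAA DA hDA0 hDA hr12 hmiss2 hr2 hRother hAdmrk B' hB' B hB hyyB hmemB hBθ hAB hsupp hBB hpairAB hNL hZm hZmlt hZmc h; omega), ?_, ?_⟩
        · intro Z hZ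
          have e1 := (hrkZ Z hZ.1).1
          have e2 := hAdmrk Z hZ
          exact lt_of_comparable (hAdmcomp Z hZ Z0 hZ0) (by (clear hm lam hlam hp hLτ hθ hθX hL hL3 hL5 hn hn' hL4 hL2 hs hRsub hmiss hr1 hAdmcomp A' hA' hzy hyθ hyX hcard2 hpair hsame hreg A hA hyyA hmemA hAθ hAA DA hDA0 hDA hr12 hmiss2 hr2 hRother B' hB' B hB hyyB hmemB hBθ hAB hsupp hBB hpairAB hNL hZm hZmlt hZmc h; omega))
        · intro Z' hZ' hlt
          have e1 := (hrkZ Z' (hcC Z' hZ')).1
          rcases hcomp Z0 hZ0 Z' hZ' with h3 | h3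
          · exact h3
          · have h4 := Submodule.finrank_mono (R := ZMod p) h3
            exact (Submodule.eq_of_le_of_finrank_eq h3 (by (clear hm lam hlam hp hLτ hθ hθX hL hL3 hL5 hn hn' hL4 hL2 hs hRsub hmiss hr1 hAdmcomp A' hA' hzy hyθ hyX hcard2 hpair hsame hreg A hA hyyA hmemA hAθ hAA DA hDA0 hDA hr12 hmiss2 hr2 hRother hAdmrk B' hB' B hB hyyB hmemB hBθ hAB hsupp hBB hpairAB hNL hZm hZmlt hZmc h; omega))).ge
    -- elements between the ends are admissible
    have hconv : ∀ Z ∈ CL L, Zm < Z → Z < Zp → (rk Z = r1 ∨ rk Z = r1 + 1) → Adm L c Z := by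
      intro Z hZ hmZ hZp' hrk
      have hZc : Z ∉ c := by
        intro hmem
        have h1 : rk Z ∈ R := mem_image_of_mem _ hmem
        rcases hrk with h | h
        · rw [h] at h1; exact hr1.2 h1
        · rw [h] at h1; exact hr2.2 h1
      refine ⟨hZ, hZc, ?_⟩
      rw [Finset.coe_insert]
      refine hτ2.insert (fun Z' hZ' _ => ?_)
      have hZ'c : Z' ∈ c := hZ'
      have h1 : rk Z' ∈ R := mem_image_of_mem _ hZ'c
      have h2 : rk Z' ≠ r1 := fun h => hr1.2 (h ▸ h1)
      have h3 : rk Z' ≠ r1 + 1 := fun h => hr2.2 (h ▸ h1)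
      rcases Nat.lt_or_ge (rk Z') r1 with h4 | h4
      · right; exact (hZmc Z' hZ'c h4).trans hmZ.le
      · left; exact hZp'.le.trans (hZpc Z' hZ'c (by omega))
    -- degree of lines
    obtain ⟨DB, hDB0, hDB, hDBp⟩ : ∃ DB : ℝ, 0 ≤ DB ∧
        (∀ b ∈ B, (W (topX ι p m) (insert b (insert L τ)) : ℝ) = DB) ∧ (p : ℝ) ≤ DB := by
      rcases B.eq_empty_or_nonempty with h | ⟨b0, hb0⟩
      · exact ⟨p, Nat.cast_nonneg _,
          fun a ha => by rw [h] at ha; exact absurd ha (notMem_empty a), le_refl _⟩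
      · refine ⟨W (topX ι p m) (insert b0 (insert L τ)), Nat.cast_nonneg _, fun a ha => ?_, ?_⟩
        · obtain ⟨Z, h1, h2, rfl⟩ := hyyB a ha
          obtain ⟨Z', h1', h2', rfl⟩ := hyyB b0 hb0
          rw [hreg Z Z' h1 h1' (by rw [h2, h2'])]
        · obtain ⟨l, h1, h2, rfl⟩ := hyyB b0 hb0
          have e1 := (hrkZ l h1.1).1
          obtain ⟨A0, hA0, hA0'⟩ := points_on_line (F := ZMod p) hNL hZm
            (CL_eq_CC_base L ▸ h1.1) (hZmlt l h1) (by (clear hm lam hlam hp hLτ hθ hθX hL hL3 hL5 hn hn' hL4 hL2 hs hRsub hmiss hr1 hAdmcomp A' hA' hzy hyθ hyX hcard2 hpair hsame hreg A hA hyyA hmemA hAθ hAA DA hDA0 hDA hr12 hmiss2 hr2 hRother hAdmrk B' hB' B hB hyyB hmemB hBθ hAB hsupp hBB hpairAB hNL hZm hZmlt hZmc hZp hZplt hZpc hconv hb0; omega))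
          rw [ZMod.card] at hA0
          have hAdm0 : ∀ P ∈ A0, Adm L c P ∧ rk P = r1 := by
            intro P hP
            obtain ⟨f1, f2, f3, f4⟩ := hA0' P hP
            have f5 : P ∈ CL L := f1
            have f6 := (hrkZ P f5).1
            have f7 : rk P = r1 := by (clear hm lam hlam hp hLτ hθ hθX hL hL3 hL5 hn hn' hL4 hL2 hs hRsub hmiss hr1 hAdmcomp A' hA' hzy hyθ hyX hcard2 hpair hsame hreg A hA hyyA hmemA hAθ hAA DA hDA0 hDA hr12 hmiss2 hr2 hRother hAdmrk B' hB' B hB hyyB hmemB hBθ hAB hsupp hBB hpairAB hNL hZm hZmlt hZmc hZp hZplt hZpc hconv hb0 A0 hA0 hA0' hP f2 f3; omega)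
            exact ⟨hconv P f5 f2 (f3.trans (hZplt l h1)) (Or.inl f7), f7⟩
          have hinj : Set.InjOn (yy L) (A0 : Set (Sb ι p m)) := by
            intro P hP P' hP' h
            have h3 := hzy P (hAdm0 P hP).1
            have h4 := hzy P' (hAdm0 P' hP').1
            rw [← h3, h, h4]
          have h5 := card_le_W (topX ι p m) n (fun C hC => topX_card hC)
            (insert (yy L l) (insert L τ))
            (by rw [Finset.card_insert_of_notMem (hyθ l h1)]; omega) (A0.image (yy L))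
            (by
              intro v hv
              obtain ⟨P, hP, rfl⟩ := mem_image.1 hv
              rw [mem_insert, not_or]
              refine ⟨fun h => ?_, hyθ P (hAdm0 P hP).1⟩
              have h6 : P = l := by rw [← hzy P (hAdm0 P hP).1, h, hzy l h1]
              have h7 := (hA0' P hP).2.2.1
              rw [h6] at h7
              exact lt_irrefl _ h7)
            (by
              intro v hv
              obtain ⟨P, hP, rfl⟩ := mem_image.1 hv
              rw [hpairAB P l (hAdm0 P hP).1 (hAdm0 P hP).2 h1 h2, if_pos (hA0' P hP).2.2.1])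
          rw [Finset.card_image_of_injOn hinj] at h5
          exact_mod_cast hA0.trans h5
    have hfin : ∀ Z, Adm L c Z → Module.finrank (ZMod p) Z = rk Z + s :=
      fun Z hZ => (hrkZ Z hZ.1).1
    -- joins of points which are in the class are lines
    have hjoin : ∀ P P', Adm L c P → rk P = r1 → Adm L c P' → rk P' = r1 → P ≠ P' →
        (∀ l ∈ B, ¬ (zz L (yy L P) < zz L l ∧ zz L (yy L P') < zz L l)) → P ⊔ P' ∉ CL L := by
      intro P P' hP hPr hP' hP'r hne hno hmem
      have e1 := hfin P hP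
      have e2 := hfin P' hP'
      have hj : Module.finrank (ZMod p) (P ⊔ P' : Sb ι p m) = (r1 + s - 1) + 2 :=
        finrank_join (hZmlt P hP).le (hZmlt P' hP').le hne (by (clear hm lam hlam hp hLτ hθ hθX hL hL3 hL5 hn hn' hL4 hL2 hs hRsub hmiss hr1 hAdmcomp A' hA' hzy hyθ hyX hcard2 hpair hsame hreg A hA hyyA hmemA hAθ hAA DA hDA0 hDA hr12 hmiss2 hr2 hRother hAdmrk B' hB' B hB hyyB hmemB hBθ hAB hsupp hBB hpairAB hNL hZm hZmlt hZmc hZp hZplt hZpc hconv DB hDB0 hDB hDBp hne hno hmem; omega)) (by (clear hm lam hlam hp hLτ hθ hθX hL hL3 hL5 hn hn' hL4 hL2 hs hRsub hmiss hr1 hAdmcomp A' hA' hzy hyθ hyX hcard2 hpair hsame hreg A hA hyyA hmemA hAθ hAA DA hDA0 hDA hr12 hmiss2 hr2 hRother hAdmrk B' hB' B hB hyyB hmemB hBθ hAB hsupp hBB hpairAB hNL hZm hZmlt hZmc hZp hZplt hZpc hconv DB hDB0 hDB hDBp hne hno hmem; omega)) (by (clear hm lam hlam hp hLτ hθ hθX hL hL3 hL5 hn hn' hL4 hL2 hs hRsub hmiss hr1 hAdmcomp A' hA' hzy hyθ hyX hcard2 hpair hsame hreg A hA hyyA hmemA hAθ hAA DA hDA0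 hDA hr12 hmiss2 hr2 hRother hAdmrk B' hB' B hB hyyB hmemB hBθ hAB hsupp hBB hpairAB hNL hZm hZmlt hZmc hZp hZplt hZpc hconv DB hDB0 hDB hDBp hne hno hmem; omega))
      have e3 := (hrkZ _ hmem).1
      have e4 : rk (P ⊔ P') = r1 + 1 := by (clear hm lam hlam hp hLτ hθ hθX hL hL3 hL5 hn hn' hL4 hL2 hs hRsub hmiss hr1 hAdmcomp A' hA' hzy hyθ hyX hcard2 hpair hsame hreg A hA hyyA hmemA hAθ hAA DA hDA0 hDA hr12 hmiss2 hr2 hRother hAdmrk B' hB' B hB hyyB hmemB hBθ hAB hsupp hBB hpairAB hNL hZm hZmc hZp hZplt hZpc hconv DB hDB0 hDB hDBp hno; omega)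
      have hlt : P ⊔ P' < Zp := by
        refine lt_of_le_of_ne (sup_le (hZplt P hP).le (hZplt P' hP').le) (fun h => ?_)
        rw [h] at hj; (clear hm lam hlam hp hLτ hθ hθX hL hL3 hL5 hn hn' hL4 hL2 hs hRsub hmiss hr1 hAdmcomp A' hA' hzy hyθ hyX hcard2 hpair hsame hreg A hA hyyA hmemA hAθ hAA DA hDA0 hDA hr12 hmiss2 hr2 hRother hAdmrk B' hB' B hB hyyB hmemB hBθ hAB hsupp hBB hpairAB hNL hZm hZmlt hZmc hZp hZplt hZpc hconv DB hDB0 hDB hDBp hne hno hmem h; omega)
      have hPlt : P < P ⊔ P' := by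
        refine lt_of_le_of_ne le_sup_left (fun h => ?_)
        rw [← h] at hj; (clear hm lam hlam hp hLτ hθ hθX hL hL3 hL5 hn hn' hL4 hL2 hs hRsub hmiss hr1 hAdmcomp A' hA' hzy hyθ hyX hcard2 hpair hsame hreg A hA hyyA hmemA hAθ hAA DA hDA0 hDA hr12 hmiss2 hr2 hRother hAdmrk B' hB' B hB hyyB hmemB hBθ hAB hsupp hBB hpairAB hNL hZm hZmlt hZmc hZp hZplt hZpc hconv DB hDB0 hDB hDBp hne hno hmem hlt h; omega)
      have hPlt' : P' < P ⊔ P' := by
        refine lt_of_le_of_ne le_sup_right (fun h => ?_)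
        rw [← h] at hj; (clear hm lam hlam hp hLτ hθ hθX hL hL3 hL5 hn hn' hL4 hL2 hs hRsub hmiss hr1 hAdmcomp A' hA' hzy hyθ hyX hcard2 hpair hsame hreg A hA hyyA hmemA hAθ hAA DA hDA0 hDA hr12 hmiss2 hr2 hRother hAdmrk B' hB' B hB hyyB hmemB hBθ hAB hsupp hBB hpairAB hNL hZm hZmlt hZmc hZp hZplt hZpc hconv DB hDB0 hDB hDBp hne hno hmem hlt hPlt h; omega)
      have hadm := hconv _ hmem ((hZmlt P hP).trans hPlt) hlt (Or.inr e4)
      refine hno _ (hmemB _ hadm e4) ?_
      rw [hzy P hP, hzy P' hP', hzy _ hadm]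
      exact ⟨hPlt, hPlt'⟩
    refine specGap_of_incidence' (topX ι p m) n (fun C hC => topX_card hC) (insert L τ) hcard A B
      hAθ hBθ hAB hsupp hAA hBB DA DB hDA hDB hDA0 hDB0 (fun a b => zz L a < zz L b) ?_ ?_ ?_ ?_
      lam hlam (hp.trans (mul_le_mul_of_nonneg_left hDBp (by positivity)))
    · intro a ha b hb hI
      obtain ⟨Z, h1, h2, rfl⟩ := hyyA a ha
      obtain ⟨Z', h1', h2', rfl⟩ := hyyB b hb
      rw [hzy Z h1, hzy Z' h1'] at hI
      rw [hpairAB Z Z' h1 h2 h1' h2', if_pos hI]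
    · intro a ha b hb hI
      obtain ⟨Z, h1, h2, rfl⟩ := hyyA a ha
      obtain ⟨Z', h1', h2', rfl⟩ := hyyB b hb
      rw [hzy Z h1, hzy Z' h1'] at hI
      rw [hpairAB Z Z' h1 h2 h1' h2', if_neg hI]
    · intro a ha a' ha' hne b hb b' hb' g1 g2 g3 g4
      obtain ⟨P, h1, h2, rfl⟩ := hyyA a ha
      obtain ⟨P', h1', h2', rfl⟩ := hyyA a' ha'
      obtain ⟨l, k1, k2, rfl⟩ := hyyB b hb
      obtain ⟨l', k1', k2', rfl⟩ := hyyB b' hb'
      have hPne : P ≠ P' := fun h => hne (by rw [h])
      rw [hzy P h1, hzy l k1] at g1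
      rw [hzy P' h1', hzy l k1] at g2
      rw [hzy P h1, hzy l' k1'] at g3
      rw [hzy P' h1', hzy l' k1'] at g4
      have e1 := hfin P h1
      have e2 := hfin P' h1'
      have e3 := hfin l k1
      have e4 := hfin l' k1'
      have f1 : P ⊔ P' = l := sup_eq_of_finrank g1.le g2.le (by (clear hm lam hlam hp hLτ hθ hθX hL hL3 hL5 hn hn' hL4 hL2 hs hRsub hmiss hr1 hAdmcomp A' hA' hzy hyθ hyX hcard2 hpair hsame hreg A hA hyyA hmemA hAθ hAA DA hDA0 hDA hr12 hmiss2 hr2 hRother hAdmrk B' hB' B hB hyyB hmemB hBθ hAB hsupp hBB hpairAB hNL hZm hZmlt hZmc hZp hZplt hZpc hconv DB hDB0 hDB hDBp hjoin ha ha' hne hb g1 g2 l' k1' k2' hb' g3 g4 hPne e4; omega)) (by (clear hm lam hlam hp hLτ hθ hθX hL hL3 hL5 hn hn' hL4 hL2 hs hRsub hmiss hr1 hAdmcomp A' hA' hzy hyθ hyX hcard2 hpair hsame hreg A hA hyyA hmemA hAθ hAA DA hDA0 hDA hr12 hmiss2 hr2 hRother hAdmrk B' hB' B hB hyyB hmemB hBθ hAB hsupp hBB hpairAB hNL hZm hZmlt hZmc hZp hZplt hZpc hconv DB hDB0 hDB hDBp hjoin ha ha' hne l k1 k2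 hb g1 g2 l' k1' k2' hb' g3 g4 hPne e3 e4; omega)) hPne
      have f2 : P ⊔ P' = l' := sup_eq_of_finrank g3.le g4.le (by (clear hm lam hlam hp hLτ hθ hθX hL hL3 hL5 hn hn' hL4 hL2 hs hRsub hmiss hr1 hAdmcomp A' hA' hzy hyθ hyX hcard2 hpair hsame hreg A hA hyyA hmemA hAθ hAA DA hDA0 hDA hr12 hmiss2 hr2 hRother hAdmrk B' hB' B hB hyyB hmemB hBθ hAB hsupp hBB hpairAB hNL hZm hZmlt hZmc hZp hZplt hZpc hconv DB hDB0 hDB hDBp hjoin ha ha' hne hb g1 g2 hb' g3 g4 hPne f1; omega)) (by (clear hm lam hlam hp hLτ hθ hθX hL hL3 hL5 hn hn' hL4 hL2 hs hRsub hmiss hr1 hAdmcomp A' hA' hzy hyθ hyX hcard2 hpair hsame hreg A hA hyyA hmemA hAθ hAA DA hDA0 hDA hr12 hmiss2 hr2 hRother hAdmrk B' hB' B hB hyyB hmemB hBθ hAB hsupp hBB hpairAB hNL hZm hZmlt hZmc hZp hZplt hZpc hconv DB hDB0 hDB hDBp hjoin ha ha' hne l k1 k2 hb g1 g2 l' k1' k2' hb' g3 g4 hPne e3 e4 f1; omega)) hPne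
      rw [← f1, f2]
    · intro a ha a' ha' a'' ha'' hne1 hne2 hne3 hno1 hno2 l hl hcom
      obtain ⟨P, h1, h2, rfl⟩ := hyyA a ha
      obtain ⟨P', h1', h2', rfl⟩ := hyyA a' ha'
      obtain ⟨P'', h1'', h2'', rfl⟩ := hyyA a'' ha''
      obtain ⟨l, k1, k2, rfl⟩ := hyyB l hl
      have n1 : P ≠ P' := fun h => hne1 (by rw [h])
      have n2 : P' ≠ P'' := fun h => hne2 (by rw [h])
      have n3 : P ≠ P'' := fun h => hne3 (by rw [h])
      have j1 := hjoin P P' h1 h2 h1' h2' n1 hno1
      have j2 := hjoin P' P'' h1' h2' h1'' h2'' n2 hno2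
      have e1 := hfin P h1
      have e2 := hfin P' h1'
      have e3 := hfin P'' h1''
      have e4 := hfin l k1
      have key := noncollinear_sup (F := ZMod p) (Zm := Zm) (Zp := Zp) hNL hZp (by (clear hm lam hlam hp hLτ hθ hθX hL hL3 hL5 hn hn' hL4 hL2 hs hRsub hmiss hr1 hAdmcomp A' hA' hzy hyθ hyX hcard2 hpair hsame hreg A hA hyyA hmemA hAθ hAA DA hDA0 hDA hr12 hmiss2 hr2 hRother hAdmrk B' hB' B hB hyyB hmemB hBθ hAB hsupp hBB hpairAB hNL hZm hZmlt hZmc hZp hZplt hZpc hconv DB hDB0 hDB hDBp hfin hjoin P h1 h2 ha P' h1' h2' ha' hne1 hno1 P'' h1'' h2'' ha'' hne3 hne2 hno2 l k1 k2 hl hcom n1 n2 n3 j1 j2 e1 e2 e3 e4; omega))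
        (CL_eq_CC_base L ▸ h1.1) (CL_eq_CC_base L ▸ h1'.1) (CL_eq_CC_base L ▸ h1''.1) (by (clear hm lam hlam hp hLτ hθ hθX hL hL3 hL5 hn hn' hL4 hL2 hs hRsub hmiss hr1 hAdmcomp A' hA' hzy hyθ hyX hcard2 hpair hsame hreg A hA hyyA hmemA hAθ hAA DA hDA0 hDA hr12 hmiss2 hr2 hRother hAdmrk B' hB' B hB hyyB hmemB hBθ hAB hsupp hBB hpairAB hNL hZm hZmlt hZmc hZp hZplt hZpc hconv DB hDB0 hDB hDBp hjoin ha P' h1' h2' ha' hne1 hno1 P'' h1'' h2'' ha'' hne3 hne2 hno2 l k1 k2 hl hcom n1 n2 n3 j1 j2 e2 e3 e4; omega)) (by (clear hm lam hlam hp hLτ hθ hθX hL hL3 hL5 hn hn' hL4 hL2 hs hRsub hmiss hr1 hAdmcomp A' hA' hzy hyθ hyX hcard2 hpair hsame hreg A hA hyyA hmemA hAθ hAA DA hDA0 hDA hr12 hmiss2 hr2 hRother hAdmrk B' hB' B hB hyyB hmemB hBθ hAB hsupp hBB hpairAB hNL hZm hZmlt hZmc hZp hZplt hZpc hconv DB hDB0 hDB hDBp hjoin ha ha' hne1 hno1 P'' h1'' h2'' ha'' hne3 hne2 hno2 l k1 k2 hl hcom n1 n2 n3 j1 j2 e3 e4; omega))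
        (by (clear hm lam hlam hp hLτ hθ hθX hL hL3 hL5 hn hn' hL4 hL2 hs hRsub hmiss hr1 hAdmcomp A' hA' hzy hyθ hyX hcard2 hpair hsame hreg A hA hyyA hmemA hAθ hAA DA hDA0 hDA hr12 hmiss2 hr2 hRother hAdmrk B' hB' B hB hyyB hmemB hBθ hAB hsupp hBB hpairAB hNL hZm hZmlt hZmc hZp hZplt hZpc hconv DB hDB0 hDB hDBp hjoin ha ha' hne1 hno1 ha'' hne3 hne2 hno2 l k1 k2 hl hcom n1 n2 n3 j1 j2 e4; omega)) (hZplt P h1) (hZplt P' h1') (hZplt P'' h1'') n1 n2 n3 (hZmlt P h1).le
        (hZmlt P' h1').le (hZmlt P'' h1'').le j1 j2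
      rw [hzy P h1, hzy P'' h1'', hzy l k1] at hcom
      have f1 : P ⊔ P'' = l := sup_eq_of_finrank hcom.1.le hcom.2.le (by (clear hm lam hlam hp hLτ hθ hθX hL hL3 hL5 hn hn' hL4 hL2 hs hRsub hmiss hr1 hAdmcomp A' hA' hzy hyθ hyX hcard2 hpair hsame hreg A hA hyyA hmemA hAθ hAA DA hDA0 hDA hr12 hmiss2 hr2 hRother hAdmrk B' hB' B hB hyyB hmemB hBθ hAB hsupp hBB hpairAB hNL hZm hZmlt hZmc hZp hZplt hZpc hconv DB hDB0 hDB hDBp hfin hjoin h1 ha h1' ha' hne1 hno1 h1'' ha'' hne3 hne2 hno2 k1 hl hcom n1 n2 n3 j1 j2 key; omega)) (by (clear hm lam hlam hp hLτ hθ hθX hL hL3 hL5 hn hn' hL4 hL2 hs hRsub hmiss hr1 hAdmcomp A' hA' hzy hyθ hyX hcard2 hpair hsame hreg A hA hyyA hmemA hAθ hAA DA hDA0 hDA hr12 hmiss2 hr2 hRother hAdmrk B' hB' B hB hyyB hmemB hBθ hAB hsupp hBB hpairAB hNL hZm hZmlt hZmc hZp hZplt hZpc hconv DB hDB0 hDB hDBp hfin hjoin h1 ha h1' ha' hne1 hno1 h1'' ha'' hne3 hne2 hno2 l k1 k2 hl hcom n1 n2 n3 j1 j2 e4 key; omega)) n3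
      apply j1
      rw [← key, f1]
      exact k1.1
  · -- non adjacent ranks: complete bipartite link
    obtain ⟨DB, hDB0, hDB⟩ : ∃ DB : ℝ, 0 ≤ DB ∧
        ∀ b ∈ B, (W (topX ι p m) (insert b (insert L τ)) : ℝ) = DB := by
      rcases B.eq_empty_or_nonempty with h | ⟨a0, ha0⟩
      · exact ⟨0, le_refl 0, fun a ha => by rw [h] at ha; exact absurd ha (notMem_empty a)⟩
      · refine ⟨W (topX ι p m) (insert a0 (insert L τ)), Nat.cast_nonneg _, fun a ha => ?_⟩
        obtain ⟨Z, h1, h2, rfl⟩ := hyyB a ha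
        obtain ⟨Z', h1', h2', rfl⟩ := hyyB a0 ha0
        rw [hreg Z Z' h1 h1' (by rw [h2, h2'])]
    refine specGap_of_complete' (topX ι p m) n (fun C hC => topX_card hC) (insert L τ) hcard A B
      hAθ hBθ hAB hsupp hAA hBB DA DB hDA hDB hDA0 hDB0 ?_ lam hlam
    intro a ha b hb
    obtain ⟨Z, h1, h2, rfl⟩ := hyyA a ha
    obtain ⟨Z', h1', h2', rfl⟩ := hyyB b hb
    rw [hpairAB Z Z' h1 h2 h1' h2', if_pos]
    obtain ⟨Z0, hZ0, hZ0r⟩ := hRother (r1 + 1) (by (clear hm lam hlam hp hLτ hθ hθX hL hL3 hL5 hn hcard hτcard hn' hL4 hL1 hL2 hs hc hτ1 hτ2 hcC hccard hcomp hrkZ hrkinj hR hRcard hRsub hmiss r2 hr12 hmiss2 hr2 hRother hAdmcomp hAdmrk A' B' hA' hB' hzy hyθ hyX hcard2 hpair hsame hreg A hA B hB hyyA hyyB hmemA hmemB hAθ hBθ hAB hsupp hAA hBB DA hDA0 hDA hpairAB hadj DB hDB0 hDB h1 ha Z' h1' h2' hb; omega)) (by omega) (by omega) (by omega)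
    have e0 := (hrkZ Z0 (hcC Z0 hZ0)).1
    have e1 := (hrkZ Z h1.1).1
    have e2 := (hrkZ Z' h1'.1).1
    have h3 : Z < Z0 := lt_of_comparable (hAdmcomp Z h1 Z0 hZ0) (by omega)
    have h4 : Z0 < Z' := lt_of_comparable ((hAdmcomp Z' h1' Z0 hZ0).symm) (by (clear hm lam hlam hp hLτ hθ hθX hL hL3 hL5 hn hn' hL4 hL2 hs hRsub hmiss hmiss2 hr1 hr2 hRother hAdmcomp hAdmrk A' B' hA' hB' hzy hyθ hyX hcard2 hpair hsame hreg A hA B hB hyyA hyyB hmemA hmemB hAθ hBθ hAB hsupp hAA hBB DA hDA0 hDA hpairAB DB hDB0 hDB ha hb h3; omega))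
    exact h3.trans h4

end Vale.Agent.P067
end
end

section

section

/-! # P067, module M4: fat faces, bad faces and ladders (for the proof of C1) -/

set_option autoImplicit false

open Finset

namespace Vale.Agent.P067

attribute [local instance] Classical.propDecidable

variable {α : Type*}

theorem dd_add (f g : Finset α → ZMod 2) : dd (f + g) = dd f + dd g := by
  funext ρ
  simp [dd, sum_add_distrib]

theorem dd_dd (f : Finset α → ZMod 2) : dd (dd f) = 0 := by
  funext ρ
  simp only [dd, Pi.zero_apply]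
  rw [sum_sigma']
  refine sum_involution (fun x _ => ⟨x.2, x.1⟩) ?_ ?_ ?_ ?_
  · rintro ⟨v, u⟩ h
    simp only
    rw [erase_right_comm]
    exact CharTwo.add_self_eq_zero _
  · rintro ⟨v, u⟩ h _ e
    simp only [mem_sigma, mem_erase] at h
    have : u = v := by simpa using congrArg Sigma.fst e
    exact h.2.1 this
  · rintro ⟨v, u⟩ h
    simp only [mem_sigma, mem_erase] at h ⊢
    exact ⟨h.2.2, h.2.1.symm, h.1⟩
  · rintro ⟨v, u⟩ h
    rfl

theorem W_eq_sum (top : Finset (Finset α)) (s : Finset α) :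
    W top s = ∑ C ∈ top, if s ⊆ C then 1 else 0 := by
  rw [W, card_filter]

variable [Fintype α]

/-- Double counting. -/
theorem sum_W_insert_compl {top : Finset (Finset α)} {N : ℕ} (hN : ∀ C ∈ top, C.card = N)
    (θ : Finset α) : ∑ v ∈ θᶜ, W top (insert v θ) = (N - θ.card) * W top θ := by
  simp only [W_eq_sum]
  rw [sum_comm, mul_sum]
  refine sum_congr rfl fun C hC => ?_
  by_cases h : θ ⊆ C
  · rw [if_pos h, mul_one, ← hN C hC, ← card_sdiff_of_subset h]
    rw [← card_filter]
    congr 1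
    ext v
    simp only [mem_filter, mem_compl, mem_sdiff, insert_subset_iff]
    tauto
  · rw [if_neg h, mul_zero]
    refine sum_eq_zero fun v _ => if_neg fun h' => h ((subset_insert v θ).trans h')

theorem sum_W_superset {top : Finset (Finset α)} {N : ℕ} (hN : ∀ C ∈ top, C.card = N)
    (π : Finset α) : ∑ ρ ∈ univ.filter (π ⊆ ·), W top ρ ≤ 2 ^ N * W top π := by
  simp only [W_eq_sum]
  rw [sum_comm, mul_sum]
  refine sum_le_sum fun C hC => ?_
  by_cases h : π ⊆ C
  · rw [if_pos h, mul_one, ← hN C hC, ← card_powerset, ← card_filter]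
    refine card_le_card fun ρ hρ => ?_
    simp only [mem_filter] at hρ
    exact mem_powerset.2 hρ.2
  · rw [if_neg h, mul_zero]
    refine le_of_eq (sum_eq_zero fun ρ hρ => if_neg fun h' => h ?_)
    simp only [mem_filter] at hρ
    exact hρ.2.trans h'

theorem sum_le_sum_inj {ι κ : Type*} [DecidableEq κ] {S : Finset ι} {T : Finset κ} {F : ι → ℕ}
    {G : κ → ℕ} (e : ι → κ) (he : ∀ x ∈ S, e x ∈ T) (hinj : Set.InjOn e S)
    (h : ∀ x ∈ S, F x ≤ G (e x)) : ∑ x ∈ S, F x ≤ ∑ y ∈ T, G y := by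
  calc ∑ x ∈ S, F x ≤ ∑ x ∈ S, G (e x) := sum_le_sum h
    _ = ∑ y ∈ S.image e, G y := (sum_image hinj).symm
    _ ≤ ∑ y ∈ T, G y := sum_le_sum_of_subset (image_subset_iff.2 he)

theorem sum_le_of_cover {ι κ : Type*} [Fintype ι] {S : Finset ι} {Q : Finset κ}
    (r : ι → κ → Prop) [∀ x, DecidablePred (r · x)] (h : ∀ a ∈ S, ∃ x ∈ Q, r a x) (F : ι → ℕ) :
    ∑ a ∈ S, F a ≤ ∑ x ∈ Q, ∑ a ∈ univ.filter (r · x), F a := by
  simp only [sum_filter]
  rw [sum_comm]
  refine le_trans (sum_le_sum fun a ha => ?_) (sum_le_sum_of_subset (subset_univ S))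
  obtain ⟨x, hx, hr⟩ := h a ha
  refine le_trans ?_ (single_le_sum (f := fun x => if r a x then F a else 0)
    (fun _ _ => Nat.zero_le _) hx)
  simp [hr]

/-- Weight of a set of vertices in the link of `θ`. -/
noncomputable def wtB (top : Finset (Finset α)) (θ B : Finset α) : ℕ :=
  ∑ v ∈ B, W top (insert v θ)

/-! ### Fat faces -/

section Fat

variable (top : Finset (Finset α)) (η : ℕ → ℝ) (f : Finset α → ZMod 2) (s : ℕ)

/-- The fat faces of size `s - i`. -/
noncomputable def fat : ℕ → Finset (Finset α)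
  | 0 => univ.filter fun τ => τ.card = s ∧ W top τ ≠ 0 ∧ f τ ≠ 0
  | i + 1 => univ.filter fun θ => θ.card + (i + 1) = s ∧ W top θ ≠ 0 ∧
      η i * W top θ ≤ ((∑ v ∈ univ.filter (fun v => v ∉ θ ∧ insert v θ ∈ fat i),
        W top (insert v θ) : ℕ) : ℝ)

/-- Extensions of `θ` by one vertex to a fat face. -/
noncomputable def extV (i : ℕ) (θ : Finset α) : Finset α :=
  univ.filter fun v => v ∉ θ ∧ insert v θ ∈ fat top η f s i

theorem mem_fat_zero {τ : Finset α} :
    τ ∈ fat top η f s 0 ↔ τ.card = s ∧ W top τ ≠ 0 ∧ f τ ≠ 0 := by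
  simp only [fat, ne_eq, mem_filter, mem_univ, true_and]

theorem mem_fat_succ {i : ℕ} {θ : Finset α} :
    θ ∈ fat top η f s (i + 1) ↔ θ.card + (i + 1) = s ∧ W top θ ≠ 0 ∧
      η i * W top θ ≤ wtB top θ (extV top η f s i θ) := by
  rw [fat, mem_filter]
  simp only [mem_univ, true_and, wtB, extV]

theorem fat_card {i : ℕ} {θ : Finset α} (h : θ ∈ fat top η f s i) : θ.card + i = s := by
  cases i with
  | zero => exact ((mem_fat_zero top η f s).1 h).1
  | succ i => exact ((mem_fat_succ top η f s).1 h).1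

theorem fat_W {i : ℕ} {θ : Finset α} (h : θ ∈ fat top η f s i) : W top θ ≠ 0 := by
  cases i with
  | zero => exact ((mem_fat_zero top η f s).1 h).2.1
  | succ i => exact ((mem_fat_succ top η f s).1 h).2.1

/-- Mass of the fat faces. -/
noncomputable def mass (i : ℕ) : ℕ := ∑ θ ∈ fat top η f s i, W top θ

theorem sum_wtB_ext_le (i : ℕ) (T : Finset (Finset α)) :
    ∑ θ ∈ T, wtB top θ (extV top η f s i θ) ≤ s * mass top η f s i := by
  unfold wtB mass
  rw [sum_sigma', mul_sum]
  have h1 : ∀ θ ∈ fat top η f s i, ∑ v ∈ θ, W top θ ≤ s * W top θ := by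
    intro θ hθ
    rw [sum_const, smul_eq_mul]
    exact Nat.mul_le_mul_right _ (by have := fat_card top η f s hθ; omega)
  refine le_trans ?_ (sum_le_sum h1)
  rw [sum_sigma']
  refine sum_le_sum_inj (fun x => ⟨insert x.2 x.1, x.2⟩) ?_ ?_ ?_
  · rintro ⟨θ, v⟩ h
    simp only [mem_sigma, extV, mem_filter, mem_univ, true_and] at h ⊢
    exact ⟨h.2.2, mem_insert_self _ _⟩
  · rintro ⟨θ, v⟩ h ⟨θ', v'⟩ h' e
    simp only [coe_sigma, Set.mem_sigma_iff, mem_coe, extV, mem_filter, mem_univ, true_and,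
      Sigma.mk.injEq] at h h' e
    obtain ⟨e1, e2⟩ := e
    have e3 : v = v' := eq_of_heq e2
    subst e3
    have : θ = θ' := by
      rw [← erase_insert h.2.1, e1, erase_insert h'.2.1]
    subst this
    rfl
  · intro x _
    exact le_rfl

theorem mass_succ_le (i : ℕ) :
    η i * mass top η f s (i + 1) ≤ s * mass top η f s i := by
  have h1 : η i * mass top η f s (i + 1) ≤
      ((∑ θ ∈ fat top η f s (i + 1), wtB top θ (extV top η f s i θ) : ℕ) : ℝ) := by
    rw [mass, Nat.cast_sum, mul_sum, Nat.cast_sum]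
    exact sum_le_sum fun θ hθ => ((mem_fat_succ top η f s).1 hθ).2.2
  refine h1.trans ?_
  exact_mod_cast sum_wtB_ext_le top η f s i _

/-! ### Bad faces -/

/-- Witness that `ρ` is bad. -/
def BadAt (i : ℕ) (ρ θ : Finset α) (v u : α) : Prop :=
  θ.card + (i + 1) = s ∧ θ ∉ fat top η f s (i + 1) ∧ v ≠ u ∧ v ∈ extV top η f s i θ ∧
    u ∈ extV top η f s i θ ∧ insert u (insert v θ) ⊆ ρ

/-- Bad faces. -/
noncomputable def bad : Finset (Finset α) :=
  univ.filter fun ρ => ρ.card = s + 1 ∧ W top ρ ≠ 0 ∧ ∃ i < s, ∃ θ v u, BadAt top η f s i ρ θ v u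

theorem sum_pairs_le {N : ℕ} {lam : ℝ} (hl : 0 ≤ lam) (H : EdgeMix top N lam)
    (hη : ∀ i, 0 < η i) (hs : s + 1 ≤ N) (i : ℕ) {θ : Finset α} (hw : W top θ ≠ 0)
    (hc : θ.card + (i + 1) = s) (hθ : θ ∉ fat top η f s (i + 1)) :
    ((∑ v ∈ extV top η f s i θ, ∑ u ∈ (extV top η f s i θ).erase v,
      W top (insert u (insert v θ)) : ℕ) : ℝ) ≤
      N * (lam + η i) * wtB top θ (extV top η f s i θ) := by
  have hlt : (wtB top θ (extV top η f s i θ) : ℝ) < η i * W top θ := by
    by_contra h
    exact hθ ((mem_fat_succ top η f s).2 ⟨hc, hw, not_lt.1 h⟩)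
  have hd : Disjoint (extV top η f s i θ) θ := by
    rw [disjoint_left]
    intro v hv
    simp only [extV, mem_filter] at hv
    exact hv.2.1
  have H' := H θ (Nat.pos_of_ne_zero hw) (by omega) _ hd
  rw [← Nat.cast_sum] at H'
  have e1 : ((∑ v ∈ extV top η f s i θ, ∑ u ∈ (extV top η f s i θ).erase v,
      W top (insert u (insert v θ)) : ℕ) : ℝ) = ∑ u ∈ extV top η f s i θ,
        ∑ v ∈ (extV top η f s i θ).erase u, (W top (insert u (insert v θ)) : ℝ) := by
    rw [Nat.cast_sum]
    refine sum_congr rfl fun v _ => ?_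
    rw [Nat.cast_sum]
    refine sum_congr rfl fun u _ => ?_
    rw [insert_comm]
  rw [e1]
  refine H'.trans ?_
  change (N - θ.card - 1 : ℝ) * (lam * (wtB top θ (extV top η f s i θ) : ℝ) +
    (wtB top θ (extV top η f s i θ) : ℝ) ^ 2 / ((N - θ.card : ℝ) * W top θ)) ≤ _
  set X : ℝ := (wtB top θ (extV top η f s i θ) : ℝ) with hX
  have hX0 : 0 ≤ X := Nat.cast_nonneg _
  have hW : (0 : ℝ) < W top θ := by exact_mod_cast Nat.pos_of_ne_zero hw
  have hcN : (θ.card : ℝ) + 1 + 1 ≤ N := by exact_mod_cast (by omega : θ.card + 1 + 1 ≤ N)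
  have h1 : (1 : ℝ) ≤ N - θ.card := by linarith only [hcN]
  have h2 : X ^ 2 / ((N - θ.card : ℝ) * W top θ) ≤ η i * X := by
    rw [div_le_iff₀ (by (clear * - h1 hw; positivity))]
    have h3 : X * X ≤ X * (η i * W top θ) := mul_le_mul_of_nonneg_left hlt.le hX0
    have h4 : X * (η i * W top θ) ≤ X * (η i * W top θ) * (N - θ.card) :=
      le_mul_of_one_le_right (by have := (hη i).le; (clear * - this hw; positivity)) h1
    nlinarith only [h3, h4]
  have h5 : lam * X + X ^ 2 / ((N - θ.card : ℝ) * W top θ) ≤ (lam + η i) * X := by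
    rw [add_mul]; linarith only [h2]
  have h6 : 0 ≤ (lam + η i) * X := by have := (hη i).le; (clear * - hl this; positivity)
  calc (N - θ.card - 1 : ℝ) * (lam * X + X ^ 2 / ((N - θ.card : ℝ) * W top θ))
      ≤ (N - θ.card - 1 : ℝ) * ((lam + η i) * X) :=
        mul_le_mul_of_nonneg_left h5 (by linarith only [hcN])
    _ ≤ N * ((lam + η i) * X) := mul_le_mul_of_nonneg_right (by
        have : (0 : ℝ) ≤ θ.card := Nat.cast_nonneg _
        linarith only []) h6
    _ = N * (lam + η i) * X := by ring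

theorem bad_le {N : ℕ} {lam : ℝ} (hN : ∀ C ∈ top, C.card = N) (hl : 0 ≤ lam)
    (H : EdgeMix top N lam) (hη : ∀ i, 0 < η i) (hs : s + 1 ≤ N) :
    ((∑ ρ ∈ bad top η f s, W top ρ : ℕ) : ℝ) ≤
      ∑ i ∈ range s, 2 ^ N * (N * (lam + η i) * (s * mass top η f s i)) := by
  classical
  set T : ℕ → Finset (Finset α) := fun i => univ.filter fun θ : Finset α =>
    W top θ ≠ 0 ∧ θ.card + (i + 1) = s ∧ θ ∉ fat top η f s (i + 1) with hT
  set Q : Finset (Σ _ : ℕ, Σ _ : Finset α, Σ _ : α, α) := (range s).sigma fun i =>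
    (T i).sigma fun θ => (extV top η f s i θ).sigma fun v => (extV top η f s i θ).erase v with hQ
  have h1 : ∑ ρ ∈ bad top η f s, W top ρ ≤
      ∑ x ∈ Q, ∑ ρ ∈ univ.filter (fun ρ : Finset α =>
        insert x.2.2.2 (insert x.2.2.1 x.2.1) ⊆ ρ), W top ρ := by
    refine sum_le_of_cover
      (fun (ρ : Finset α) (x : Σ _ : ℕ, Σ _ : Finset α, Σ _ : α, α) =>
        insert x.2.2.2 (insert x.2.2.1 x.2.1) ⊆ ρ) ?_ _
    intro ρ hρ
    simp only [bad, mem_filter, mem_univ, true_and] at hρ
    obtain ⟨-, hw, i, hi, θ, v, u, hb⟩ := hρ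
    refine ⟨⟨i, θ, v, u⟩, ?_, hb.2.2.2.2.2⟩
    simp only [hQ, mem_sigma, mem_range, hT, mem_filter, mem_univ, true_and, mem_erase]
    refine ⟨hi, ⟨?_, hb.1, hb.2.1⟩, hb.2.2.2.1, hb.2.2.1.symm, hb.2.2.2.2.1⟩
    have : W top ρ ≤ W top θ := W_anti top
      (((subset_insert _ _).trans (subset_insert _ _)).trans hb.2.2.2.2.2)
    omega
  have h2 : ∑ x ∈ Q, ∑ ρ ∈ univ.filter (fun ρ : Finset α =>
        insert x.2.2.2 (insert x.2.2.1 x.2.1) ⊆ ρ), W top ρ ≤
      ∑ x ∈ Q, 2 ^ N * W top (insert x.2.2.2 (insert x.2.2.1 x.2.1)) :=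
    sum_le_sum fun x _ => sum_W_superset hN _
  have h3 : ∑ x ∈ Q, 2 ^ N * W top (insert x.2.2.2 (insert x.2.2.1 x.2.1)) =
      ∑ i ∈ range s, 2 ^ N * ∑ θ ∈ T i, ∑ v ∈ extV top η f s i θ,
        ∑ u ∈ (extV top η f s i θ).erase v, W top (insert u (insert v θ)) := by
    rw [hQ, sum_sigma]
    refine sum_congr rfl fun i _ => ?_
    rw [sum_sigma, mul_sum]
    refine sum_congr rfl fun θ _ => ?_
    rw [sum_sigma, mul_sum]
    refine sum_congr rfl fun v _ => ?_
    rw [mul_sum]
  have h4 := (h1.trans h2).trans h3.le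
  refine (Nat.cast_le.2 h4).trans ?_
  rw [Nat.cast_sum]
  refine sum_le_sum fun i hi => ?_
  rw [Nat.cast_mul, Nat.cast_pow, Nat.cast_ofNat]
  refine mul_le_mul_of_nonneg_left ?_ (by positivity)
  have h5 : ((∑ θ ∈ T i, ∑ v ∈ extV top η f s i θ,
        ∑ u ∈ (extV top η f s i θ).erase v, W top (insert u (insert v θ)) : ℕ) : ℝ) ≤
      ∑ θ ∈ T i, N * (lam + η i) * wtB top θ (extV top η f s i θ) := by
    rw [Nat.cast_sum]
    refine sum_le_sum fun θ hθ => ?_
    simp only [hT, mem_filter, mem_univ, true_and] at hθ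
    exact sum_pairs_le top η f s hl H hη hs i hθ.1 hθ.2.1 hθ.2.2
  refine h5.trans ?_
  rw [← mul_sum]
  refine mul_le_mul_of_nonneg_left ?_ (by have := (hη i).le; (clear * - hl this; positivity))
  exact_mod_cast sum_wtB_ext_le top η f s i _

/-! ### Ladders -/

/-- There is a ladder of fat faces from `σ` to `τ`. -/
def Lad : ℕ → Finset α → Finset α → Prop
  | 0, σ, τ => σ = τ ∧ τ ∈ fat top η f s 0
  | i + 1, σ, τ => σ ∈ fat top η f s (i + 1) ∧
      ∃ v, v ∉ σ ∧ insert v σ ∈ fat top η f s i ∧ Lad i (insert v σ) τ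

theorem Lad.mem_fat {i : ℕ} {σ τ : Finset α} (h : Lad top η f s i σ τ) :
    σ ∈ fat top η f s i := by
  cases i with
  | zero => exact h.1 ▸ h.2
  | succ i => exact h.1

theorem Lad.mem_top {i : ℕ} {σ τ : Finset α} (h : Lad top η f s i σ τ) :
    τ ∈ fat top η f s 0 := by
  induction i generalizing σ with
  | zero => exact h.2
  | succ i ih =>
    obtain ⟨-, v, -, -, h⟩ := h
    exact ih h

theorem Lad.subset {i : ℕ} {σ τ : Finset α} (h : Lad top η f s i σ τ) : σ ⊆ τ := by
  induction i generalizing σ with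
  | zero => exact h.1.subset
  | succ i ih =>
    obtain ⟨-, v, -, -, h⟩ := h
    exact (subset_insert _ _).trans (ih h)

/-- Moving a ladder inside a face which is not bad. -/
theorem Lad.move {ρ τ : Finset α} {v w : α} (hρ : ρ ∉ bad top η f s) (hρc : ρ.card = s + 1)
    (hρw : W top ρ ≠ 0) (hτ : τ ∈ fat top η f s 0) (hw : w ∈ ρ) (hv : v ∈ ρ) (hvw : v ≠ w)
    (e : τ = ρ.erase w) (hτ' : ρ.erase v ∈ fat top η f s 0) {i : ℕ} {σ : Finset α}
    (h : Lad top η f s i σ τ) :
    (v ∉ σ ∧ Lad top η f s i σ (ρ.erase v)) ∨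
      (v ∈ σ ∧ σ.erase v ∈ fat top η f s (i + 1) ∧ Lad top η f s (i + 1) (σ.erase v) (ρ.erase v))
    := by
  have hbad : ∀ i < s, ∀ θ a b, ¬ BadAt top η f s i ρ θ a b := by
    intro i hi θ a b hb
    exact hρ (by
      simp only [bad, mem_filter, mem_univ, true_and]
      exact ⟨hρc, hρw, i, hi, θ, a, b, hb⟩)
  induction i generalizing σ with
  | zero =>
    obtain ⟨rfl, -⟩ := h
    subst e
    right
    have hvσ : v ∈ ρ.erase w := mem_erase.2 ⟨hvw, hv⟩
    refine ⟨hvσ, ?_⟩
    have e1 : insert w ((ρ.erase w).erase v) = ρ.erase v := by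
      rw [erase_right_comm, insert_erase (mem_erase.2 ⟨hvw.symm, hw⟩)]
    have e2 : insert v ((ρ.erase w).erase v) = ρ.erase w := insert_erase hvσ
    have hs : 0 < s := by
      rw [← fat_card top η f s hτ, Nat.add_zero]
      exact card_pos.2 ⟨v, hvσ⟩
    have hmem : (ρ.erase w).erase v ∈ fat top η f s 1 := by
      by_contra hc
      refine hbad 0 hs ((ρ.erase w).erase v) v w ⟨?_, hc, hvw, ?_, ?_, ?_⟩
      · rw [card_erase_of_mem hvσ, card_erase_of_mem hw, hρc]
        omega
      · simp only [extV, mem_filter, mem_univ, true_and]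
        exact ⟨notMem_erase _ _, by rw [e2]; exact hτ⟩
      · simp only [extV, mem_filter, mem_univ, true_and]
        refine ⟨fun h => ?_, by rw [e1]; exact hτ'⟩
        exact notMem_erase w ρ (mem_of_mem_erase h)
      · rw [e2]
        exact insert_subset hw (erase_subset _ _)
    refine ⟨hmem, hmem, w, ?_, by rw [e1]; exact hτ', ?_⟩
    · exact fun h => notMem_erase w ρ (mem_of_mem_erase h)
    · exact ⟨e1, hτ'⟩
  | succ i ih =>
    obtain ⟨hσ, u, hu, huσ, h⟩ := h
    rcases ih h with ⟨h1, h2⟩ | ⟨h1, h2, h3⟩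
    · exact Or.inl ⟨fun h' => h1 (mem_insert_of_mem h'), hσ, u, hu, huσ, h2⟩
    · by_cases hvu : v = u
      · subst hvu
        left
        rw [erase_insert hu] at h3
        exact ⟨hu, h3⟩
      · right
        have hvσ : v ∈ σ := (mem_insert.1 h1).resolve_left hvu
        refine ⟨hvσ, ?_⟩
        have e1 : insert v (σ.erase v) = σ := insert_erase hvσ
        have e2 : insert u (σ.erase v) = (insert u σ).erase v := by
          rw [erase_insert_of_ne (fun h => hvu h.symm)]
        have hsub : insert u σ ⊆ ρ :=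
          (Lad.subset top η f s h).trans (by rw [e]; exact erase_subset _ _)
        have hi : i + 1 < s := by
          have h4 := fat_card top η f s hσ
          have : 0 < σ.card := card_pos.2 ⟨v, hvσ⟩
          omega
        have hmem : σ.erase v ∈ fat top η f s (i + 2) := by
          by_contra hc
          refine hbad (i + 1) hi (σ.erase v) v u ⟨?_, hc, hvu, ?_, ?_, ?_⟩
          · rw [card_erase_of_mem hvσ]
            have h4 := fat_card top η f s hσ
            have : 0 < σ.card := card_pos.2 ⟨v, hvσ⟩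
            omega
          · simp only [extV, mem_filter, mem_univ, true_and]
            exact ⟨notMem_erase _ _, by rw [e1]; exact hσ⟩
          · simp only [extV, mem_filter, mem_univ, true_and]
            exact ⟨fun h => hu (mem_of_mem_erase h), by rw [e2]; exact h2⟩
          · rw [e1]
            exact hsub
        refine ⟨hmem, hmem, u, fun h => hu (mem_of_mem_erase h), ?_, ?_⟩
        · rw [e2]; exact h2
        · rw [e2]; exact h3

end Fat

end Vale.Agent.P067
end
end

section

section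

/-! # P067, module M4 / C1: small locally minimal cocycles vanish (blueprint part 1) -/

set_option autoImplicit false

open Finset

namespace Vale.Agent.P067

attribute [local instance] Classical.propDecidable

section C1

variable {α : Type*} [Fintype α]

theorem nrmL_add_le (top : Finset (Finset α)) (σ : Finset α) (q : ℕ) (a b : Finset α → ZMod 2) :
    nrmL top σ q (fun τ => a τ + b τ) ≤ nrmL top σ q a + nrmL top σ q b := by
  unfold nrmL
  simp only [sum_filter]
  rw [← sum_add_distrib]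
  refine sum_le_sum fun τ _ => ?_
  by_cases h1 : τ.card = q ∧ Disjoint τ σ ∧ a τ + b τ ≠ 0
  · rw [if_pos h1]
    obtain ⟨h1, h2, h3⟩ := h1
    by_cases ha : a τ = 0
    · have hb : b τ ≠ 0 := fun hb => h3 (by rw [ha, hb, add_zero])
      rw [if_pos (⟨h1, h2, hb⟩ : τ.card = q ∧ Disjoint τ σ ∧ b τ ≠ 0)]
      exact Nat.le_add_left _ _
    · rw [if_pos (⟨h1, h2, ha⟩ : τ.card = q ∧ Disjoint τ σ ∧ a τ ≠ 0)]
      exact Nat.le_add_right _ _
  · rw [if_neg h1]
    exact Nat.zero_le _

theorem nrmL_congr (top : Finset (Finset α)) (σ : Finset α) (q : ℕ) {a b : Finset α → ZMod 2}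
    (h : ∀ τ, a τ = b τ) : nrmL top σ q a = nrmL top σ q b := by
  rw [funext h]

/-- A subcochain of a minimal cochain is minimal. -/
theorem MinAt.sub {top : Finset (Finset α)} {σ : Finset α} {q : ℕ} {f g : Finset α → ZMod 2}
    (hf : MinAt top σ q f) (hg : ∀ τ, g τ ≠ 0 → g τ = f τ) : MinAt top σ q g := by
  intro h
  have h1 := hf h
  have h2 : nrmL top σ q (fun τ => f τ + dd h τ) ≤
      nrmL top σ q (fun τ => g τ + dd h τ) + nrmL top σ q (fun τ => f τ + g τ) := by
    refine le_trans (le_of_eq (nrmL_congr top σ q fun τ => ?_)) (nrmL_add_le top σ q _ _)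
    have := CharTwo.add_self_eq_zero (g τ)
    calc f τ + dd h τ = f τ + dd h τ + (g τ + g τ) := by rw [this, add_zero]
      _ = g τ + dd h τ + (f τ + g τ) := by ring
  have h3 : nrmL top σ q g + nrmL top σ q (fun τ => f τ + g τ) ≤ nrmL top σ q f := by
    unfold nrmL
    simp only [sum_filter]
    rw [← sum_add_distrib]
    refine sum_le_sum fun τ _ => ?_
    by_cases hg0 : g τ = 0
    · simp [hg0]
    · have e := hg τ hg0
      have e2 : f τ + g τ = 0 := by rw [e]; exact CharTwo.add_self_eq_zero _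
      rw [if_neg (fun h : τ.card = q ∧ Disjoint τ σ ∧ f τ + g τ ≠ 0 => h.2.2 e2), add_zero, e]
  omega

variable (top : Finset (Finset α)) (η : ℕ → ℝ) (f : Finset α → ZMod 2) (s : ℕ)

/-- Indicator of the upper ends of the ladders starting in `σ`, in the link of `σ`. -/
noncomputable def ladInd (i : ℕ) (σ x : Finset α) : ZMod 2 :=
  if Lad top η f s i σ (σ ∪ x) then 1 else 0

theorem zmod2_eq_ite (x : ZMod 2) : x = if x ≠ 0 then 1 else 0 := by
  revert x
  decide

/-- The claim: no coboundary on faces which are not bad. -/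
theorem dd_ladInd {i : ℕ} {σ ρ : Finset α} (hmin : ∀ v ∈ σ, σ.erase v ∉ fat top η f s (i + 1))
    (hf : ∀ ρ : Finset α, ρ.card = s + 1 → 0 < W top ρ → dd f ρ = 0)
    (hσρ : σ ⊆ ρ) (hc : ρ.card = s + 1) (hw : 0 < W top ρ) (hρ : ρ ∉ bad top η f s) :
    dd (ladInd top η f s i σ) (ρ \ σ) = 0 := by
  have h1 : dd (ladInd top η f s i σ) (ρ \ σ) =
      ∑ v ∈ ρ \ σ, if Lad top η f s i σ (ρ.erase v) then (1 : ZMod 2) else 0 := by
    unfold dd ladInd
    refine sum_congr rfl fun v hv => ?_
    rw [mem_sdiff] at hv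
    have : σ ∪ (ρ \ σ).erase v = ρ.erase v := by
      ext x
      simp only [mem_union, mem_erase, mem_sdiff]
      constructor
      · rintro (h | h)
        · exact ⟨fun e => hv.2 (e ▸ h), hσρ h⟩
        · exact ⟨h.1, h.2.1⟩
      · rintro ⟨h, h'⟩
        by_cases hx : x ∈ σ
        · exact Or.inl hx
        · exact Or.inr ⟨h, h', hx⟩
    rw [this]
  rw [h1]
  by_cases hex : ∃ w ∈ ρ \ σ, Lad top η f s i σ (ρ.erase w)
  · obtain ⟨w, hw', hlad⟩ := hex
    refine Eq.trans ?_ (hf ρ hc hw)
    rw [dd]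
    have h2 : ∀ v ∈ ρ, f (ρ.erase v) =
        if v ∉ σ ∧ Lad top η f s i σ (ρ.erase v) then 1 else 0 := by
      intro v hv
      rw [zmod2_eq_ite (f (ρ.erase v))]
      refine if_congr ?_ rfl rfl
      constructor
      · intro hv0
        by_cases hvw : v = w
        · subst hvw
          exact ⟨(mem_sdiff.1 hw').2, hlad⟩
        · have hτ' : ρ.erase v ∈ fat top η f s 0 := by
            rw [mem_fat_zero]
            refine ⟨by rw [card_erase_of_mem hv, hc]; rfl, ?_, hv0⟩
            have := W_anti top (erase_subset v ρ)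
            omega
          rcases Lad.move top η f s hρ hc hw.ne' (Lad.mem_top top η f s hlad)
            (mem_sdiff.1 hw').1 hv hvw rfl hτ' hlad with h | h
          · exact h
          · exact absurd h.2.1 (hmin v h.1)
      · rintro ⟨-, h⟩
        exact ((mem_fat_zero top η f s).1 (Lad.mem_top top η f s h)).2.2
    rw [sum_congr rfl h2, ← sum_filter, ← sum_filter]
    refine sum_congr ?_ fun _ _ => rfl
    ext v
    simp only [mem_filter, mem_sdiff]
    (clear * -; tauto)
  · push Not at hex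
    refine sum_eq_zero fun v hv => if_neg (hex v hv)

/-- Weight of the bad faces containing `σ`. -/
noncomputable def badAbove (σ : Finset α) : ℕ :=
  ∑ ρ ∈ (bad top η f s).filter (fun ρ => σ ⊆ ρ), W top ρ

theorem nrmL_dd_ladInd_le {i : ℕ} {σ : Finset α} (hσ : σ ∈ fat top η f s i)
    (hmin : ∀ v ∈ σ, σ.erase v ∉ fat top η f s (i + 1))
    (hf : ∀ ρ : Finset α, ρ.card = s + 1 → 0 < W top ρ → dd f ρ = 0) :
    nrmL top σ (i + 1) (dd (ladInd top η f s i σ)) ≤ badAbove top η f s σ := by
  unfold nrmL badAbove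
  rw [← sum_filter_ne_zero]
  refine sum_le_sum_inj (fun x => σ ∪ x) ?_ ?_ fun _ _ => le_rfl
  · intro x hx
    simp only [mem_filter, mem_univ, true_and] at hx ⊢
    obtain ⟨⟨h1, h2, h3⟩, h4⟩ := hx
    refine ⟨?_, subset_union_left⟩
    by_contra hb
    have hcard : (σ ∪ x).card = s + 1 := by
      rw [card_union_of_disjoint h2.symm, h1, ← fat_card top η f s hσ]
      ring
    have h5 := dd_ladInd top η f s hmin hf (subset_union_left (s₂ := x)) hcard
      (Nat.pos_of_ne_zero h4) hb
    apply h3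
    rwa [union_sdiff_cancel_left h2.symm] at h5
  · intro x hx y hy e
    simp only [coe_filter, mem_filter, mem_univ, true_and, Set.mem_ofPred_eq] at hx hy
    have h1 : (σ ∪ x) \ σ = x := union_sdiff_cancel_left hx.1.2.1.symm
    have h2 : (σ ∪ y) \ σ = y := union_sdiff_cancel_left hy.1.2.1.symm
    rw [← h1, ← h2]
    exact congrArg (· \ σ) e

/-- Total weight of the upper ends of the ladders starting in `σ`. -/
noncomputable def ladW (i : ℕ) (σ : Finset α) : ℕ :=
  ∑ τ ∈ univ.filter (fun τ => Lad top η f s i σ τ), W top τ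

theorem ladW_le_nrmL {i : ℕ} {σ : Finset α} (hσ : σ ∈ fat top η f s i) :
    ladW top η f s i σ ≤ nrmL top σ i (ladInd top η f s i σ) := by
  unfold ladW nrmL
  refine sum_le_sum_inj (fun τ => τ \ σ) ?_ ?_ ?_
  · intro τ hτ
    simp only [mem_filter, mem_univ, true_and] at hτ ⊢
    have hsub := Lad.subset top η f s hτ
    have h1 := fat_card top η f s (Lad.mem_top top η f s hτ)
    have h2 := fat_card top η f s hσ
    refine ⟨?_, sdiff_disjoint, ?_⟩
    · rw [card_sdiff_of_subset hsub]
      omega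
    · rw [ladInd, union_sdiff_of_subset hsub, if_pos hτ]
      exact one_ne_zero
  · intro τ hτ τ' hτ' e
    simp only [coe_filter, mem_univ, true_and, Set.mem_ofPred_eq] at hτ hτ'
    rw [← union_sdiff_of_subset (Lad.subset top η f s hτ),
      ← union_sdiff_of_subset (Lad.subset top η f s hτ')]
    exact congrArg (σ ∪ ·) e
  · intro τ hτ
    simp only [mem_filter, mem_univ, true_and] at hτ
    rw [union_sdiff_of_subset (Lad.subset top η f s hτ)]

theorem ladW_le {N : ℕ} {β : ℝ} (hN : ∀ C ∈ top, C.card = N) (hβ : 0 < β) (hβ1 : β ≤ 1)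
    (H : LinkExp top N β) (hsN : s + 1 ≤ N)
    (hf : ∀ ρ : Finset α, ρ.card = s + 1 → 0 < W top ρ → dd f ρ = 0) (hm : LocMin top s f)
    {i : ℕ} (hi : i < s) {σ : Finset α} (hσ : σ ∈ fat top η f s i)
    (hmin : ∀ v ∈ σ, σ.erase v ∉ fat top η f s (i + 1)) :
    β * ladW top η f s i σ ≤ badAbove top η f s σ := by
  have hcard := fat_card top η f s hσ
  have hne : σ.Nonempty := card_pos.1 (by omega)
  have hW := Nat.pos_of_ne_zero (fat_W top η f s hσ)
  have hA := nrmL_dd_ladInd_le top η f s hσ hmin hf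
  have hB := ladW_le_nrmL top η f s hσ
  rcases Nat.eq_zero_or_pos i with rfl | hi0
  · -- the ladder is trivial
    have h1 : (nrmL top σ 0 (ladInd top η f s 0 σ)) ≤
        nrmL top σ (0 + 1) (dd (ladInd top η f s 0 σ)) := by
      have hL : ladInd top η f s 0 σ ∅ = 1 := by
        have hl : Lad top η f s 0 σ σ := ⟨rfl, hσ⟩
        rw [ladInd, union_empty, if_pos hl]
      have e1 : nrmL top σ 0 (ladInd top η f s 0 σ) ≤ W top σ := by
        unfold nrmL
        refine (sum_le_sum_of_subset (t := {∅}) ?_).trans (by simp)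
        intro x hx
        simp only [mem_filter, mem_univ, true_and, card_eq_zero] at hx
        simp [hx.1]
      have e2 : W top σ ≤ (N - σ.card) * W top σ :=
        Nat.le_mul_of_pos_left _ (by omega)
      refine (e1.trans e2).trans ?_
      rw [← sum_W_insert_compl hN]
      unfold nrmL
      refine sum_le_sum_inj (fun v => {v}) ?_ ?_ ?_
      · intro v hv
        simp only [mem_filter, mem_univ, true_and, card_singleton, zero_add,
          disjoint_singleton_left]
        refine ⟨mem_compl.1 hv, ?_⟩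
        simp only [dd, sum_singleton, erase_singleton, hL, ne_eq, one_ne_zero, not_false_eq_true]
      · intro v _ w _ e
        exact singleton_injective e
      · intro v _
        rw [union_comm]
        exact le_rfl
    have h2 : (ladW top η f s 0 σ : ℝ) ≤ badAbove top η f s σ := by
      exact_mod_cast hB.trans (h1.trans hA)
    refine le_trans ?_ h2
    exact mul_le_of_le_one_left (Nat.cast_nonneg _) hβ1
  · obtain ⟨h, hh⟩ := H σ hne hW i hi0 (by omega) (ladInd top η f s i σ)
    have hmσ := hm σ hne hW (by omega)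
    rw [show s - σ.card = i by omega] at hmσ
    have hsub : MinAt top σ i (ladInd top η f s i σ) := hmσ.sub fun τ hτ => by
      by_cases hl : Lad top η f s i σ (σ ∪ τ)
      · have h1 := ((mem_fat_zero top η f s).1 (Lad.mem_top top η f s hl)).2.2
        rw [ladInd, if_pos hl, loc, zmod2_eq_ite (f (σ ∪ τ)), if_pos h1]
      · exact absurd (if_neg hl) hτ
    have h1 := hB.trans (hsub h)
    calc β * (ladW top η f s i σ : ℝ)
        ≤ β * (nrmL top σ i (fun τ => ladInd top η f s i σ τ + dd h τ) : ℝ) :=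
          mul_le_mul_of_nonneg_left (by exact_mod_cast h1) hβ.le
      _ ≤ (nrmL top σ (i + 1) (dd (ladInd top η f s i σ)) : ℝ) := hh
      _ ≤ (badAbove top η f s σ : ℝ) := by exact_mod_cast hA

theorem exists_min_ladder (h0 : (∅ : Finset α) ∉ fat top η f s s) {τ : Finset α} (n : ℕ) :
    ∀ {i : ℕ} {σ : Finset α}, σ.card = n → Lad top η f s i σ τ →
      ∃ i < s, ∃ σ, Lad top η f s i σ τ ∧ ∀ v ∈ σ, σ.erase v ∉ fat top η f s (i + 1) := by
  induction n with
  | zero =>
    intro i σ hc h
    have h1 := fat_card top η f s (Lad.mem_fat top η f s h)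
    have h2 : σ = ∅ := card_eq_zero.1 hc
    subst h2
    have h3 : i = s := by simpa using h1
    subst h3
    exact absurd (Lad.mem_fat top η f i h) h0
  | succ n ih =>
    intro i σ hc h
    by_cases hm : ∀ v ∈ σ, σ.erase v ∉ fat top η f s (i + 1)
    · exact ⟨i, by have := fat_card top η f s (Lad.mem_fat top η f s h); omega, σ, h, hm⟩
    · push Not at hm
      obtain ⟨v, hv, hfat⟩ := hm
      have hl : Lad top η f s (i + 1) (σ.erase v) τ := by
        refine ⟨hfat, v, notMem_erase v σ, ?_, ?_⟩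
        · rw [insert_erase hv]
          exact Lad.mem_fat top η f s h
        · rw [insert_erase hv]
          exact h
      exact ih (by rw [card_erase_of_mem hv, hc]; rfl) hl

theorem nrm_eq_mass : nrm top s f = mass top η f s 0 := by
  unfold nrm mass
  rw [← sum_filter_ne_zero]
  refine sum_congr ?_ fun _ _ => rfl
  ext τ
  rw [mem_fat_zero]
  simp only [mem_filter, mem_univ, true_and]
  tauto

theorem mass_le_bad {N : ℕ} {β : ℝ} (hN : ∀ C ∈ top, C.card = N) (hβ : 0 < β) (hβ1 : β ≤ 1)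
    (H : LinkExp top N β) (hsN : s + 1 ≤ N)
    (hf : ∀ ρ : Finset α, ρ.card = s + 1 → 0 < W top ρ → dd f ρ = 0) (hm : LocMin top s f)
    (h0 : (∅ : Finset α) ∉ fat top η f s s) :
    β * mass top η f s 0 ≤ 2 ^ N * ((∑ ρ ∈ bad top η f s, W top ρ : ℕ) : ℝ) := by
  set M : Finset (Σ _ : ℕ, Finset α) := (range s).sigma fun i => (fat top η f s i).filter
    fun σ => ∀ v ∈ σ, σ.erase v ∉ fat top η f s (i + 1) with hM
  have h1 : mass top η f s 0 ≤ ∑ x ∈ M, ladW top η f s x.1 x.2 := by
    unfold mass ladW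
    refine sum_le_of_cover (fun (τ : Finset α) (x : Σ _ : ℕ, Finset α) =>
      Lad top η f s x.1 x.2 τ) ?_ _
    intro τ hτ
    obtain ⟨i, hi, σ, hl, hmin⟩ := exists_min_ladder top η f s h0 τ.card (i := 0) (σ := τ) rfl
      ⟨rfl, hτ⟩
    refine ⟨⟨i, σ⟩, ?_, hl⟩
    simp only [hM, mem_sigma, mem_range, mem_filter]
    exact ⟨hi, Lad.mem_fat top η f s hl, hmin⟩
  have h2 : ∑ x ∈ M, badAbove top η f s x.2 ≤ 2 ^ N * ∑ ρ ∈ bad top η f s, W top ρ := by
    unfold badAbove
    simp only [sum_filter]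
    rw [sum_comm, mul_sum]
    refine sum_le_sum fun ρ hρ => ?_
    rw [← sum_filter, sum_const, smul_eq_mul]
    refine Nat.mul_le_mul_right _ ?_
    simp only [bad, mem_filter, mem_univ, true_and] at hρ
    calc (M.filter fun x => x.2 ⊆ ρ).card ≤ ρ.powerset.card := by
          refine card_le_card_of_injOn (fun x => x.2) ?_ ?_
          · intro x hx
            simp only [coe_filter, Set.mem_ofPred_eq] at hx
            exact mem_coe.2 (mem_powerset.2 hx.2)
          · rintro ⟨i, σ⟩ hx ⟨j, σ'⟩ hy e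
            simp only [hM, coe_filter, Set.mem_ofPred_eq, mem_sigma, mem_filter] at hx hy e
            subst e
            have e1 := fat_card top η f s hx.1.2.1
            have e2 := fat_card top η f s hy.1.2.1
            have : i = j := by omega
            subst this
            rfl
      _ = 2 ^ (s + 1) := by rw [card_powerset, hρ.1]
      _ ≤ 2 ^ N := Nat.pow_le_pow_right (by norm_num) hsN
  calc β * (mass top η f s 0 : ℝ) ≤ β * ((∑ x ∈ M, ladW top η f s x.1 x.2 : ℕ) : ℝ) :=
        mul_le_mul_of_nonneg_left (by exact_mod_cast h1) hβ.le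
    _ ≤ ((∑ x ∈ M, badAbove top η f s x.2 : ℕ) : ℝ) := by
        rw [Nat.cast_sum, Nat.cast_sum, mul_sum]
        refine sum_le_sum ?_
        rintro ⟨i, σ⟩ hx
        simp only [hM, mem_sigma, mem_range, mem_filter] at hx
        exact ladW_le top η f s hN hβ hβ1 H hsN hf hm hx.1 hx.2.1 hx.2.2
    _ ≤ 2 ^ N * ((∑ ρ ∈ bad top η f s, W top ρ : ℕ) : ℝ) := by exact_mod_cast h2

end C1

/-- THEOREM C1. Small locally minimal cocycles vanish. -/
theorem small_locMin_cocycle_zero (N : ℕ) (β : ℝ) (hβ : 0 < β) :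
    ∃ lam μ : ℝ, 0 < lam ∧ 0 < μ ∧
      ∀ (α : Type) [Fintype α] (top : Finset (Finset α)), (∀ C ∈ top, C.card = N) →
        LinkExp top N β → EdgeMix top N lam →
        ∀ (s : ℕ) (f : Finset α → ZMod 2), 1 ≤ s → s + 1 ≤ N →
          (∀ ρ : Finset α, ρ.card = s + 1 → 0 < W top ρ → dd f ρ = 0) →
          LocMin top s f → (nrm top s f : ℝ) < μ * top.card → nrm top s f = 0 := by
  set b : ℝ := min β 1 with hb
  have hb0 : 0 < b := lt_min hβ one_pos
  have hb1 : b ≤ 1 := min_le_right _ _
  set K : ℝ := (N : ℝ) + 1 with hK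
  have hK1 : 1 ≤ K := by
    have : (0 : ℝ) ≤ N := Nat.cast_nonneg _
    linarith
  have hKN : (N : ℝ) ≤ K := by linarith
  set c : ℝ := b / (4 * K ^ 3 * 4 ^ N) with hc
  have hc0 : 0 < c := by positivity
  have hcK : c ≤ K := by
    have h1 : c ≤ b := by
      rw [hc]
      refine div_le_self hb0.le ?_
      have h2 : (1 : ℝ) ≤ K ^ 3 := one_le_pow₀ hK1
      have h3 : (1 : ℝ) ≤ 4 ^ N := one_le_pow₀ (by norm_num)
      nlinarith only [h2, h3]
    linarith
  let P : ℕ → ℝ := fun i => Nat.rec 1 (fun _ x => x ^ 2 * (K / c)) i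
  have hP0 : P 0 = 1 := rfl
  have hPs : ∀ i, P (i + 1) = P i ^ 2 * (K / c) := fun i => rfl
  have hKc : 1 ≤ K / c := (one_le_div hc0).2 hcK
  have hP1 : ∀ i, 1 ≤ P i := by
    intro i
    induction i with
    | zero => exact hP0.ge
    | succ i ih =>
      rw [hPs]
      have := one_le_pow₀ ih (n := 2)
      nlinarith only [this, hKc]
  have hPpos : ∀ i, 0 < P i := fun i => lt_of_lt_of_le one_pos (hP1 i)
  have hPmono : Monotone P := by
    refine monotone_nat_of_le_succ fun i => ?_
    rw [hPs]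
    have h1 := hP1 i
    have h2 : P i ≤ P i ^ 2 := by nlinarith only [h1]
    have h3 : P i ^ 2 * 1 ≤ P i ^ 2 * (K / c) := mul_le_mul_of_nonneg_left hKc (by positivity)
    linarith only [h2, h3]
  let η : ℕ → ℝ := fun i => c / P i
  have hη : ∀ i, 0 < η i := fun i => div_pos hc0 (hPpos i)
  refine ⟨c / P N, 1 / P N, div_pos hc0 (hPpos N), div_pos one_pos (hPpos N), ?_⟩
  intro α _ top hN H HE s f hs hsN hf hm hsmall
  have H' : LinkExp top N b := by
    intro σ hσ hW q hq hqN g
    obtain ⟨h, hh⟩ := H σ hσ hW q hq hqN g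
    refine ⟨h, le_trans ?_ hh⟩
    exact mul_le_mul_of_nonneg_right (min_le_left _ _) (Nat.cast_nonneg _)
  have hsR : (s : ℝ) ≤ K := by
    have : (s : ℝ) + 1 ≤ N := by exact_mod_cast hsN
    linarith only [this]
  have hmass : ∀ i, (mass top η f s i : ℝ) ≤ P i * mass top η f s 0 := by
    intro i
    induction i with
    | zero => rw [hP0, one_mul]
    | succ i ih =>
      have h1 := mass_succ_le top η f s i
      have h2 : (s : ℝ) * mass top η f s i ≤ K * (P i * mass top η f s 0) :=
        mul_le_mul hsR ih (Nat.cast_nonneg _) (by (clear * -; positivity))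
      have h3 : c / P i * (mass top η f s (i + 1) : ℝ) ≤ K * (P i * mass top η f s 0) :=
        h1.trans h2
      rw [div_mul_eq_mul_div, div_le_iff₀ (hPpos i)] at h3
      rw [hPs]
      have h4 : (mass top η f s (i + 1) : ℝ) ≤ (K * (P i * mass top η f s 0) * P i) / c := by
        rw [le_div_iff₀ hc0]
        linarith only [h3]
      refine h4.trans (le_of_eq ?_)
      ring
  rw [nrm_eq_mass top η f s] at hsmall ⊢
  have h0 : (∅ : Finset α) ∉ fat top η f s s := by
    intro hmem
    have h1 : (top.card : ℝ) ≤ mass top η f s s := by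
      have h2 : W top ∅ ≤ mass top η f s s :=
        single_le_sum (f := fun θ => W top θ) (fun _ _ => Nat.zero_le _) hmem
      have h3 : W top ∅ = top.card := by simp [W]
      rw [h3] at h2
      exact_mod_cast h2
    have h2 := (hmass s).trans (mul_le_mul_of_nonneg_right (hPmono (by omega : s ≤ N))
      (Nat.cast_nonneg _))
    have h3 : P N * (mass top η f s 0 : ℝ) < P N * (1 / P N * top.card) :=
      mul_lt_mul_of_pos_left hsmall (hPpos N)
    rw [← mul_assoc, mul_one_div_cancel (hPpos N).ne', one_mul] at h3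
    linarith only [h1, h2, h3]
  have hA := mass_le_bad top η f s hN hb0 hb1 H' hsN hf hm h0
  have hB := bad_le top η f s hN (div_pos hc0 (hPpos N)).le HE hη hsN
  have hterm : ∀ i ∈ range s, (2 : ℝ) ^ N * (N * (c / P N + η i) * (s * mass top η f s i)) ≤
      2 ^ N * (K * K * (2 * c) * mass top η f s 0) := by
    intro i hi
    rw [mem_range] at hi
    refine mul_le_mul_of_nonneg_left ?_ (by positivity)
    have h1 : c / P N ≤ c / P i :=
      div_le_div_of_nonneg_left hc0.le (hPpos i) (hPmono (by omega))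
    have h2 : c / P N + η i ≤ 2 * (c / P i) := by
      change c / P N + c / P i ≤ 2 * (c / P i)
      linarith only [h1]
    have h3 : (s : ℝ) * mass top η f s i ≤ K * (P i * mass top η f s 0) :=
      mul_le_mul hsR (hmass i) (Nat.cast_nonneg _) (by (clear * -; positivity))
    have h4 : (N : ℝ) * (c / P N + η i) ≤ K * (2 * (c / P i)) :=
      mul_le_mul hKN h2 (by have := hη i; have := div_pos hc0 (hPpos N); (clear hb hK hKN hPmono top hN H HE s f hs hsN hf hm hsmall H' hsR hmass h0 hA hB hi h1 h2 h3; positivity))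
        (by (clear * -; positivity))
    refine (mul_le_mul h4 h3 (by (clear * - hs; positivity)) (by have := hPpos i; (clear * - hβ this; positivity))).trans
      (le_of_eq ?_)
    have := (hPpos i).ne'
    (clear * - this hc0 hK1; field_simp)
  have hC := hB.trans (sum_le_sum hterm)
  rw [sum_const, card_range, nsmul_eq_mul] at hC
  have hD : b * (mass top η f s 0 : ℝ) ≤
      2 ^ N * (K * (2 ^ N * (K * K * (2 * c) * mass top η f s 0))) := by
    refine hA.trans (mul_le_mul_of_nonneg_left (hC.trans ?_) (by positivity))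
    exact mul_le_mul_of_nonneg_right hsR (by (clear * - hβ; positivity))
  have hE : (2 : ℝ) ^ N * (K * (2 ^ N * (K * K * (2 * c) * mass top η f s 0))) =
      b / 2 * mass top η f s 0 := by
    have h1 : (4 : ℝ) ^ N = 2 ^ N * 2 ^ N := by
      rw [← mul_pow]; norm_num
    rw [hc, h1]
    field_simp
    ring
  rw [hE] at hD
  have hF : (mass top η f s 0 : ℝ) ≤ 0 := by nlinarith only [hD, hb0]
  exact_mod_cast le_antisymm hF (Nat.cast_nonneg _)

end Vale.Agent.P067
end
end

section

section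

/-! # P067, module M4 / C2: minimizer trick (blueprint part 1) -/

set_option autoImplicit false

open Finset

namespace Vale.Agent.P067

attribute [local instance] Classical.propDecidable

section C2

variable {α : Type*} [Fintype α]

theorem nrm_add_le (top : Finset (Finset α)) (q : ℕ) (a b : Finset α → ZMod 2) :
    nrm top q (a + b) ≤ nrm top q a + nrm top q b := by
  unfold nrm
  simp only [sum_filter]
  rw [← sum_add_distrib]
  refine sum_le_sum fun τ _ => ?_
  by_cases h1 : τ.card = q ∧ (a + b) τ ≠ 0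
  · rw [if_pos h1]
    obtain ⟨h1, h3⟩ := h1
    by_cases ha : a τ = 0
    · have hb : b τ ≠ 0 := fun hb => h3 (by rw [Pi.add_apply, ha, hb, add_zero])
      rw [if_pos (⟨h1, hb⟩ : τ.card = q ∧ b τ ≠ 0)]
      exact Nat.le_add_left _ _
    · rw [if_pos (⟨h1, ha⟩ : τ.card = q ∧ a τ ≠ 0)]
      exact Nat.le_add_right _ _
  · rw [if_neg h1]
    exact Nat.zero_le _

/-- Norms only depend on the values on faces. -/
theorem nrm_congr_faces (top : Finset (Finset α)) (q : ℕ) {a b : Finset α → ZMod 2}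
    (h : ∀ τ : Finset α, τ.card = q → 0 < W top τ → a τ = b τ) : nrm top q a = nrm top q b := by
  unfold nrm
  simp only [sum_filter]
  refine sum_congr rfl fun τ _ => ?_
  by_cases hq : τ.card = q
  · rcases Nat.eq_zero_or_pos (W top τ) with h0 | h0
    · rw [h0]; simp
    · rw [h τ hq h0]
  · rw [if_neg (fun h => hq h.1), if_neg (fun h => hq h.1)]

/-- The part of the norm supported on the sets which do not contain `σ`. -/
noncomputable def restNrm (top : Finset (Finset α)) (σ : Finset α) (q : ℕ)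
    (a : Finset α → ZMod 2) : ℕ :=
  ∑ τ ∈ univ.filter (fun τ : Finset α => τ.card = q ∧ a τ ≠ 0 ∧ ¬ σ ⊆ τ), W top τ

theorem nrm_split (top : Finset (Finset α)) (σ : Finset α) (q : ℕ) (a : Finset α → ZMod 2) :
    nrm top (q + σ.card) a = nrmL top σ q (loc a σ) + restNrm top σ (q + σ.card) a := by
  have h1 : nrmL top σ q (loc a σ) = ∑ τ ∈ univ.filter
      (fun τ : Finset α => τ.card = q + σ.card ∧ a τ ≠ 0 ∧ σ ⊆ τ), W top τ := by
    unfold nrmL
    refine sum_bij' (fun x _ => σ ∪ x) (fun τ _ => τ \ σ) ?_ ?_ ?_ ?_ ?_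
    · intro x hx
      simp only [mem_filter, mem_univ, true_and] at hx ⊢
      refine ⟨?_, hx.2.2, subset_union_left⟩
      rw [card_union_of_disjoint hx.2.1.symm, hx.1, add_comm]
    · intro τ hτ
      simp only [mem_filter, mem_univ, true_and] at hτ ⊢
      refine ⟨?_, sdiff_disjoint, ?_⟩
      · rw [card_sdiff_of_subset hτ.2.2, hτ.1, Nat.add_sub_cancel]
      · rw [loc, union_sdiff_of_subset hτ.2.2]
        exact hτ.2.1
    · intro x hx
      simp only [mem_filter, mem_univ, true_and] at hx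
      exact union_sdiff_cancel_left hx.2.1.symm
    · intro τ hτ
      simp only [mem_filter, mem_univ, true_and] at hτ
      exact union_sdiff_of_subset hτ.2.2
    · intro x hx
      rfl
  rw [h1, restNrm, nrm, ← sum_filter_add_sum_filter_not _ (fun τ => σ ⊆ τ), filter_filter,
    filter_filter]
  simp only [and_assoc]

/-- Extension by zero of a cochain on the link of `σ`. -/
noncomputable def extZero (σ : Finset α) (u : Finset α → ZMod 2) (τ : Finset α) : ZMod 2 :=
  if σ ⊆ τ then u (τ \ σ) else 0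

theorem dd_extend_of_not {σ τ : Finset α} (u : Finset α → ZMod 2) (h : ¬ σ ⊆ τ) :
    dd (extZero σ u) τ = 0 := by
  unfold dd extZero
  refine sum_eq_zero fun v _ => if_neg fun h' => h (h'.trans (erase_subset _ _))

theorem dd_extend_union {σ x : Finset α} (u : Finset α → ZMod 2) (h : Disjoint x σ) :
    dd (extZero σ u) (σ ∪ x) = dd u x := by
  unfold dd extZero
  rw [sum_union h.symm, sum_eq_zero, zero_add]
  · refine sum_congr rfl fun v hv => ?_
    have hvσ : v ∉ σ := disjoint_left.1 h hv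
    have e : (σ ∪ x).erase v = σ ∪ x.erase v := by
      rw [erase_union_distrib, erase_eq_of_notMem hvσ]
    rw [e, if_pos subset_union_left, union_sdiff_cancel_left (h.mono_left (erase_subset _ _)).symm]
  · intro v hv
    refine if_neg fun h' => ?_
    exact notMem_erase v _ (h' hv)

theorem nrm_extend_le {top : Finset (Finset α)} {N : ℕ} (hN : ∀ C ∈ top, C.card = N)
    (σ : Finset α) (s : ℕ) (u : Finset α → ZMod 2) :
    nrm top s (extZero σ u) ≤ 2 ^ N * W top σ := by
  refine le_trans ?_ (sum_W_superset hN σ)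
  unfold nrm
  refine sum_le_sum_of_subset fun τ hτ => ?_
  simp only [mem_filter, mem_univ, true_and] at hτ ⊢
  by_contra h
  exact hτ.2 (if_neg h)

theorem nrm_le_card {top : Finset (Finset α)} {N : ℕ} (hN : ∀ C ∈ top, C.card = N)
    (s : ℕ) (f : Finset α → ZMod 2) : nrm top s f ≤ 2 ^ N * top.card := by
  have h3 : W top ∅ = top.card := by simp [W]
  rw [← h3]
  refine le_trans ?_ (sum_W_superset hN ∅)
  unfold nrm
  refine sum_le_sum_of_subset fun τ hτ => ?_
  simp only [empty_subset, filter_true, mem_univ]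

theorem LocMin_of_min {top : Finset (Finset α)} {N D' : ℕ} (hN : ∀ C ∈ top, C.card = N)
    (hD : ∀ v : α, W top {v} ≤ D') (s : ℕ) {κ : ℝ} (hκ0 : 0 < κ) (hκ : κ * (2 ^ N * D') < 1)
    (g h : Finset α → ZMod 2)
    (hmin : ∀ h', (nrm top (s + 1) (g + dd h) : ℝ) + κ * nrm top s h ≤
      nrm top (s + 1) (g + dd h') + κ * nrm top s h') :
    LocMin top (s + 1) (g + dd h) := by
  intro σ hσ hW hcard u
  by_contra hlt
  rw [not_le] at hlt
  obtain ⟨q, hq⟩ : ∃ q, s + 1 = q + σ.card := ⟨s + 1 - σ.card, by omega⟩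
  have hq' : s + 1 - σ.card = q := by omega
  rw [hq'] at hlt
  have h1 := hmin (h + extZero σ u)
  have e1 : g + dd (h + extZero σ u) = (g + dd h) + dd (extZero σ u) := by
    rw [dd_add, add_assoc]
  rw [e1] at h1
  have h2 : nrm top (s + 1) ((g + dd h) + dd (extZero σ u)) + 1 ≤ nrm top (s + 1) (g + dd h) := by
    rw [hq, nrm_split, nrm_split]
    have e2 : restNrm top σ (q + σ.card) ((g + dd h) + dd (extZero σ u)) =
        restNrm top σ (q + σ.card) (g + dd h) := by
      unfold restNrm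
      refine sum_congr ?_ fun _ _ => rfl
      ext τ
      simp only [mem_filter, mem_univ, true_and]
      by_cases hc : σ ⊆ τ
      · simp only [Pi.add_apply, ne_eq, hc, not_true_eq_false, and_false]
      · rw [Pi.add_apply (g + dd h), dd_extend_of_not u hc, add_zero]
    have e3 : nrmL top σ q (loc ((g + dd h) + dd (extZero σ u)) σ) =
        nrmL top σ q (fun τ => loc (g + dd h) σ τ + dd u τ) := by
      unfold nrmL
      refine sum_congr ?_ fun _ _ => rfl
      ext τ
      simp only [mem_filter, mem_univ, true_and]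
      refine and_congr_right fun _ => and_congr_right fun hd => ?_
      rw [loc, Pi.add_apply (g + dd h), dd_extend_union u hd]
      rfl
    rw [e2, e3]
    omega
  have h3 : nrm top s (h + extZero σ u) ≤ nrm top s h + 2 ^ N * D' := by
    refine (nrm_add_le top s _ _).trans (Nat.add_le_add_left ?_ _)
    refine (nrm_extend_le hN σ s u).trans (Nat.mul_le_mul_left _ ?_)
    obtain ⟨v, hv⟩ := hσ
    exact (W_anti top (singleton_subset_iff.2 hv)).trans (hD v)
  have h2' : (nrm top (s + 1) ((g + dd h) + dd (extZero σ u)) : ℝ) + 1 ≤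
      nrm top (s + 1) (g + dd h) := by exact_mod_cast h2
  have h3' : (nrm top s (h + extZero σ u) : ℝ) ≤ nrm top s h + 2 ^ N * D' := by exact_mod_cast h3
  have h4 := mul_le_mul_of_nonneg_left h3' hκ0.le
  rw [mul_add] at h4
  linarith only [hκ, h1, h2', h4]

end C2

/-- THEOREM C2. From vanishing of cohomology and C1 to the global coboundary inequality. -/
theorem coboundary_expansion_of_local (N : ℕ) (β : ℝ) (hβ : 0 < β) :
    ∃ lam : ℝ, 0 < lam ∧ ∀ D' : ℕ, ∃ ε : ℝ, 0 < ε ∧
      ∀ (α : Type) [Fintype α] (top : Finset (Finset α)), (∀ C ∈ top, C.card = N) →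
        (∀ v : α, W top {v} ≤ D') → LinkExp top N β → EdgeMix top N lam →
        ∀ s : ℕ, 1 ≤ s → s + 2 ≤ N →
          (∀ f : Finset α → ZMod 2, (∀ ρ : Finset α, ρ.card = s + 1 → 0 < W top ρ → dd f ρ = 0) →
            ∃ e : Finset α → ZMod 2, ∀ τ : Finset α, τ.card = s → 0 < W top τ → f τ = dd e τ) →
          ∀ f : Finset α → ZMod 2, ∃ e : Finset α → ZMod 2,
            ε * (nrm top s (fun τ => f τ + dd e τ) : ℝ) ≤ (nrm top (s + 1) (dd f) : ℝ) := by
  obtain ⟨lam, μ, hlam, hμ, H⟩ := small_locMin_cocycle_zero N β hβ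
  refine ⟨lam, hlam, fun D' => ?_⟩
  set κ : ℝ := 1 / (2 ^ N * D' + 1) with hκ
  have hκ0 : 0 < κ := by positivity
  have hκ1 : κ * (2 ^ N * D') < 1 := by
    rw [hκ, one_div, inv_mul_lt_iff₀ (by positivity)]
    linarith
  refine ⟨min κ (μ / 2 ^ N), lt_min hκ0 (by positivity), ?_⟩
  intro α _ top hN hD hL hE s hs hsN hvan f
  by_cases hsmall : (nrm top (s + 1) (dd f) : ℝ) < μ * top.card
  · obtain ⟨h, hmin⟩ := Finite.exists_min fun h : Finset α → ZMod 2 =>
      (nrm top (s + 1) (dd f + dd h) : ℝ) + κ * nrm top s h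
    have h0 := hmin 0
    have e0 : dd f + dd (0 : Finset α → ZMod 2) = dd f := by
      funext ρ
      simp [dd]
    have e1 : nrm top s (0 : Finset α → ZMod 2) = 0 := by simp [nrm]
    simp only [e0, e1, Nat.cast_zero, mul_zero, add_zero] at h0
    have hn1 : (0 : ℝ) ≤ κ * nrm top s h := by (clear * -; positivity)
    have hn2 : (0 : ℝ) ≤ nrm top (s + 1) (dd f + dd h) := Nat.cast_nonneg _
    have hloc := LocMin_of_min hN hD s hκ0 hκ1 (dd f) h hmin
    have hz := H α top hN hL hE (s + 1) (dd f + dd h) (by omega) (by omega) (fun ρ _ _ => by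
      rw [dd_add, dd_dd, dd_dd]; rfl) hloc (by linarith only [hsmall, h0, hn1])
    have hz' : ∀ ρ : Finset α, ρ.card = s + 1 → 0 < W top ρ → (dd f + dd h) ρ = 0 := by
      intro ρ hρ hw
      by_contra hne
      rw [nrm, sum_eq_zero_iff] at hz
      have := hz ρ (by simp only [mem_filter, mem_univ, true_and]; exact ⟨hρ, hne⟩)
      omega
    obtain ⟨e, he⟩ := hvan (f + h) fun ρ hρ hw => by
      rw [dd_add]; exact hz' ρ hρ hw
    refine ⟨e, ?_⟩
    have e2 : nrm top s (fun τ => f τ + dd e τ) = nrm top s h := by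
      refine nrm_congr_faces top s fun τ hτ hw => ?_
      rw [← he τ hτ hw, Pi.add_apply, ← add_assoc]
      rw [show f τ + f τ = 0 from CharTwo.add_self_eq_zero _, zero_add]
    rw [e2]
    refine (mul_le_mul_of_nonneg_right (min_le_left _ _) (Nat.cast_nonneg _)).trans ?_
    linarith only [h0]
  · rw [not_lt] at hsmall
    refine ⟨0, ?_⟩
    have e0 : (fun τ => f τ + dd (0 : Finset α → ZMod 2) τ) = f := by
      funext ρ
      simp [dd]
    rw [e0]
    have h1 : (nrm top s f : ℝ) ≤ 2 ^ N * top.card := by exact_mod_cast nrm_le_card hN s f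
    calc min κ (μ / 2 ^ N) * (nrm top s f : ℝ)
        ≤ μ / 2 ^ N * (2 ^ N * top.card) :=
          mul_le_mul (min_le_right _ _) h1 (Nat.cast_nonneg _) (by positivity)
      _ = μ * top.card := by (clear * - hμ; field_simp)
      _ ≤ _ := hsmall

end Vale.Agent.P067
end
end

section

section

/-! # P067, module M5a: one trickling down step (blueprint part 1) -/

set_option autoImplicit false

open Finset

namespace Vale.Agent.P067

attribute [local instance] Classical.propDecidable

end Vale.Agent.P067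
end
end

section

section

/-! # P067, module M5b: iterated trickling down (blueprint part 1) -/

set_option autoImplicit false

open Finset

namespace Vale.Agent.P067

attribute [local instance] Classical.propDecidable

/-- All faces have a small gap if all faces of size `N-2` have, and all links are connected. -/
theorem edgeMix_of_base (N : ℕ) (eps : ℝ) (heps : 0 < eps) :
    ∃ lam0 : ℝ, 0 < lam0 ∧ ∀ {α : Type} [Fintype α] (top : Finset (Finset α)),
      (∀ C ∈ top, C.card = N) →
      (∀ θ : Finset α, 0 < W top θ → θ.card + 2 ≤ N → LinkConn top θ) →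
      (∀ θ : Finset α, 0 < W top θ → θ.card + 2 = N → SpecGap top N θ lam0) →
      EdgeMix top N eps := by
  have hpos : (0 : ℝ) < 1 + N * eps := by positivity
  refine ⟨eps / (1 + N * eps), by positivity, ?_⟩
  intro α _ top htop hconn hbase θ hW hθ B hB
  have hN : (N : ℝ) * (eps / (1 + N * eps)) < 1 := by
    rw [mul_div_assoc', div_lt_one hpos]; linarith only []
  have h1 := SpecGapM.iterate htop (lam0 := eps / (1 + N * eps))
    (fun θ hW hθ => linkConnM_of_linkConn (hconn θ hW (by omega))) (by positivity) hN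
    (fun θ hW hθ => (specGapM_iff top N θ _).2 (hbase θ hW hθ)) θ hW hθ
  have heq : eps / (1 + N * eps) / (1 - N * (eps / (1 + N * eps))) = eps := by
    have h2 : 1 - N * (eps / (1 + N * eps)) = 1 / (1 + N * eps) := by
      rw [eq_div_iff hpos.ne', sub_mul, mul_assoc, div_mul_cancel₀ _ hpos.ne']
      ring
    rw [h2, div_div_div_cancel_right₀ hpos.ne']
    simp
  rw [heq] at h1
  exact SpecGapM.edges_le (by omega) heps.le h1 B
    (fun v hv => Finset.disjoint_left.1 hB hv)

end Vale.Agent.P067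
end
end

section

section

/-! # P067, module M9a: averaging over groups of odd order (see blueprint part 4) -/

set_option autoImplicit false

open Finset

namespace Vale.Agent.P067

attribute [local instance] Classical.propDecidable

variable {α : Type*} {k : Type*} [Field k]

/-- Action of a group element on chains. -/
noncomputable def act {G : Type*} [Group G] [MulAction G α] (g : G) :
    (Finset α →₀ k) →ₗ[k] (Finset α →₀ k) :=
  Finsupp.lmapDomain k k (fun s => s.image (fun x => g • x))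

/-- A strict fundamental domain `Fd` for the action of `G` on the complex `K`. -/
structure StrictDom (G : Type*) [Group G] [MulAction G α] (K Fd : Set (Finset α)) : Prop where
  sub : Fd ⊆ K
  down : DownClosed Fd
  inv : ∀ (g : G), ∀ σ ∈ K, σ.image (fun x => g • x) ∈ K
  cov : ∀ σ ∈ K, ∃ g : G, σ.image (fun x => g • x) ∈ Fd
  strict : ∀ (g : G), ∀ σ ∈ Fd, σ.image (fun x => g • x) ∈ Fd → σ.image (fun x => g • x) = σ

theorem eq_of_add_zero [CharP k 2] {c d : Finset α →₀ k} (h : c + d = 0) : d = c := by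
  calc d = (c + c) + d := by rw [add_self_zero, zero_add]
    _ = c + (c + d) := by abel
    _ = c := by rw [h, add_zero]

section act

variable {G : Type*} [Group G] [MulAction G α]

theorem image_smul_one (s : Finset α) : s.image (fun x => (1 : G) • x) = s := by
  ext x; simp

theorem image_smul_mul (g h : G) (s : Finset α) :
    s.image (fun x => (g * h) • x) = (s.image (fun x => h • x)).image (fun x => g • x) := by
  rw [Finset.image_image]
  congr 1
  funext x
  exact mul_smul g h x

theorem image_smul_inv (g : G) (s : Finset α) :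
    (s.image (fun x => g • x)).image (fun x => g⁻¹ • x) = s := by
  rw [← image_smul_mul, inv_mul_cancel, image_smul_one]

theorem image_smul_inv' (g : G) (s : Finset α) :
    (s.image (fun x => g⁻¹ • x)).image (fun x => g • x) = s := by
  rw [← image_smul_mul, mul_inv_cancel, image_smul_one]

theorem card_image_smul' (g : G) (s : Finset α) : (s.image (fun x => g • x)).card = s.card :=
  Finset.card_image_of_injective _ (MulAction.injective g)

theorem act_single (g : G) (s : Finset α) (a : k) :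
    act g (Finsupp.single s a) = Finsupp.single (s.image (fun x => g • x)) a := by
  simp [act]

theorem bd_act (g : G) (c : Finset α →₀ k) :
    bd (act g c) = act g (bd c) := by
  have : (bd ∘ₗ act g : (Finset α →₀ k) →ₗ[k] (Finset α →₀ k)) = act g ∘ₗ bd := by
    apply Finsupp.lhom_ext
    intro s a
    simp only [LinearMap.comp_apply, act_single, bd_single, map_sum]
    rw [Finset.sum_image fun x _ y _ h => MulAction.injective g h]
    refine Finset.sum_congr rfl fun v _ => ?_
    rw [Finset.image_erase (MulAction.injective g)]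
  exact LinearMap.congr_fun this c

theorem act_apply (g : G) (c : Finset α →₀ k) (s : Finset α) :
    act g c s = c (s.image (fun x => g⁻¹ • x)) := by
  have hinj : Function.Injective (fun s : Finset α => s.image (fun x => g • x)) := by
    intro s t h
    have h2 := congrArg (fun r : Finset α => r.image (fun x => g⁻¹ • x)) h
    simp only [image_smul_inv] at h2
    exact h2
  have h1 : act g c ((s.image (fun x => g⁻¹ • x)).image (fun x => g • x))
      = c (s.image (fun x => g⁻¹ • x)) :=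
    Finsupp.mapDomain_apply hinj c _
  rwa [image_smul_inv'] at h1

theorem act_one (c : Finset α →₀ k) : act (1 : G) c = c := by
  ext s
  rw [act_apply, inv_one, image_smul_one]

theorem act_mul (g h : G) (c : Finset α →₀ k) : act (g * h) c = act g (act h c) := by
  ext s
  rw [act_apply, act_apply, act_apply, ← image_smul_mul, mul_inv_rev]

theorem ChainIn.act {K : Set (Finset α)} {q : ℕ} {c : Finset α →₀ k}
    (hinv : ∀ (g : G), ∀ σ ∈ K, σ.image (fun x => g • x) ∈ K) (hc : ChainIn K q c) (g : G) :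
    ChainIn K q (P067.act g c) := by
  intro s hs
  rw [Finsupp.mem_support_iff, act_apply] at hs
  obtain ⟨h1, h2⟩ := hc _ (Finsupp.mem_support_iff.2 hs)
  refine ⟨?_, ?_⟩
  · have := hinv g _ h1
    rwa [image_smul_inv'] at this
  · rwa [card_image_smul'] at h2

end act

section avg

variable {G : Type*} [Group G] [Fintype G] [MulAction G α]

/-- twisted average (without normalisation) -/
noncomputable def avg (ψ : G →* kˣ) : (Finset α →₀ k) →ₗ[k] (Finset α →₀ k) :=
  ∑ g : G, (((ψ g)⁻¹ : kˣ) : k) • act g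

theorem avg_eq (ψ : G →* kˣ) (c : Finset α →₀ k) :
    avg ψ c = ∑ g : G, (((ψ g)⁻¹ : kˣ) : k) • act g c := by
  simp only [avg, Units.val_inv_eq_inv_val, LinearMap.sum_apply, LinearMap.smul_apply]

theorem avg_apply (ψ : G →* kˣ) (c : Finset α →₀ k) (s : Finset α) :
    avg ψ c s = ∑ g : G, (((ψ g)⁻¹ : kˣ) : k) * c (s.image (fun x => g⁻¹ • x)) := by
  rw [avg_eq, Finsupp.finsetSum_apply]
  refine Finset.sum_congr rfl fun g _ => ?_
  rw [Finsupp.smul_apply, act_apply, smul_eq_mul]

theorem bd_avg (ψ : G →* kˣ) (c : Finset α →₀ k) : bd (avg ψ c) = avg ψ (bd c) := by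
  rw [avg_eq, avg_eq, map_sum]
  refine Finset.sum_congr rfl fun g _ => ?_
  rw [map_smul, bd_act]

theorem act_avg (ψ : G →* kˣ) (h : G) (c : Finset α →₀ k) :
    act h (avg ψ c) = (ψ h : k) • avg ψ c := by
  rw [avg_eq, map_sum, Finset.smul_sum]
  refine Fintype.sum_equiv (Equiv.mulLeft h) _ _ fun g => ?_
  rw [Equiv.coe_mulLeft, map_smul, ← act_mul, map_mul, smul_smul]
  congr 1
  rw [← Units.val_mul]
  congr 1
  rw [mul_inv, ← mul_assoc, mul_inv_cancel, one_mul]

theorem ChainIn.avg {K : Set (Finset α)} {q : ℕ} {c : Finset α →₀ k}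
    (hinv : ∀ (g : G), ∀ σ ∈ K, σ.image (fun x => g • x) ∈ K) (ψ : G →* kˣ)
    (hc : ChainIn K q c) : ChainIn K q (P067.avg ψ c) := by
  rw [avg_eq]
  exact ChainIn.sum fun g _ => (ChainIn.act hinv hc g).smul _

/-- the stabilizer sum -/
noncomputable def stabSum (ψ : G →* kˣ) (τ : Finset α) : k :=
  ∑ g : G, if τ.image (fun x => g⁻¹ • x) = τ then (((ψ g)⁻¹ : kˣ) : k) else 0

theorem avg_apply_dom {K Fd : Set (Finset α)} (hd : StrictDom G K Fd) (ψ : G →* kˣ)
    {x : Finset α →₀ k} (hx : ∀ s ∈ x.support, s ∈ Fd) {τ : Finset α} (hτ : τ ∈ Fd) :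
    avg ψ x τ = x τ * stabSum ψ τ := by
  rw [avg_apply, stabSum, Finset.mul_sum]
  refine Finset.sum_congr rfl fun g _ => ?_
  by_cases h : τ.image (fun x => g⁻¹ • x) = τ
  · rw [if_pos h, h, mul_comm]
  · rw [if_neg h, mul_zero]
    have : x (τ.image (fun x => g⁻¹ • x)) = 0 := by
      by_contra hcon
      exact h (hd.strict g⁻¹ τ hτ (hx _ (Finsupp.mem_support_iff.2 hcon)))
    rw [this, mul_zero]

theorem stabSum_eq_one [CharP k 2] (hodd : Odd (Fintype.card G)) (ψ : G →* kˣ) {τ : Finset α}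
    (h : ∀ g : G, τ.image (fun x => g • x) = τ → ψ g = 1) : stabSum (k := k) ψ τ = 1 := by
  -- the stabilizer as a subgroup
  let H : Subgroup G :=
    { carrier := {g | τ.image (fun x => g • x) = τ}
      one_mem' := image_smul_one τ
      mul_mem' := by
        intro a b ha hb
        change τ.image (fun x => (a * b) • x) = τ
        have ha' : τ.image (fun x => a • x) = τ := ha
        have hb' : τ.image (fun x => b • x) = τ := hb
        rw [image_smul_mul, hb', ha']
      inv_mem' := by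
        intro a ha
        change τ.image (fun x => a⁻¹ • x) = τ
        have ha' : τ.image (fun x => a • x) = τ := ha
        conv_lhs => rw [← ha']
        rw [image_smul_inv] }
  have hmem : ∀ g : G, g ∈ H ↔ τ.image (fun x => g • x) = τ := fun g => Iff.rfl
  have h1 : stabSum (k := k) ψ τ = ∑ g : G, if g ∈ H then (1 : k) else 0 := by
    rw [stabSum]
    refine Finset.sum_congr rfl fun g _ => ?_
    by_cases hg : g ∈ H
    · have hg' : g⁻¹ ∈ H := H.inv_mem hg
      rw [if_pos hg, if_pos ((hmem _).1 hg'), h g ((hmem g).1 hg)]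
      simp
    · rw [if_neg hg, if_neg]
      intro hcon
      exact hg (by simpa using H.inv_mem ((hmem g⁻¹).2 hcon))
  rw [h1, Finset.sum_boole]
  have h2 : (univ.filter fun g => g ∈ H).card = Nat.card H := by
    rw [Nat.card_eq_fintype_card, Fintype.card_subtype]
  have h3 : Odd (Nat.card H) := by
    have h4 : Nat.card H ∣ Nat.card G := Subgroup.card_subgroup_dvd_card H
    rw [Nat.card_eq_fintype_card (α := G)] at h4
    exact hodd.of_dvd_nat h4
  rw [h2]
  obtain ⟨r, hr⟩ := h3
  rw [hr]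
  push_cast
  have : (2 : k) = 0 := CharTwo.two_eq_zero
  rw [this]; ring

theorem stabSum_eq_zero (ψ : G →* kˣ) {τ : Finset α}
    (h : ∃ g : G, τ.image (fun x => g • x) = τ ∧ ψ g ≠ 1) : stabSum (k := k) ψ τ = 0 := by
  obtain ⟨g0, hg0, hψ⟩ := h
  have hg0' : τ.image (fun x => g0⁻¹ • x) = τ := by
    conv_lhs => rw [← hg0]
    rw [image_smul_inv]
  have h1 : stabSum (k := k) ψ τ = (((ψ g0)⁻¹ : kˣ) : k) * stabSum ψ τ := by
    rw [stabSum, Finset.mul_sum]
    refine Fintype.sum_equiv (Equiv.mulLeft g0⁻¹) _ _ fun g => ?_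
    rw [Equiv.coe_mulLeft]
    have h2 : τ.image (fun x => (g0⁻¹ * g)⁻¹ • x) = τ ↔ τ.image (fun x => g⁻¹ • x) = τ := by
      rw [mul_inv_rev, inv_inv, image_smul_mul, hg0]
    by_cases h3 : τ.image (fun x => g⁻¹ • x) = τ
    · rw [if_pos h3, if_pos (h2.2 h3), ← Units.val_mul]
      congr 1
      rw [map_mul, map_inv, mul_inv, inv_inv, ← mul_assoc, inv_mul_cancel, one_mul]
    · rw [if_neg h3, if_neg (fun h => h3 (h2.1 h)), mul_zero]
  have h2 : (1 - (((ψ g0)⁻¹ : kˣ) : k)) * stabSum (k := k) ψ τ = 0 := by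
    rw [sub_mul, one_mul, ← h1, sub_self]
  rcases mul_eq_zero.1 h2 with h3 | h3
  · exfalso
    apply hψ
    have : (((ψ g0)⁻¹ : kˣ) : k) = 1 := (sub_eq_zero.1 h3).symm
    have h4 : (ψ g0)⁻¹ = 1 := Units.ext this
    exact inv_eq_one.1 h4
  · exact h3

omit [Fintype G] in
/-- An equivariant chain in `K` is determined by its restriction to `Fd`. -/
theorem eq_of_equivariant {K Fd : Set (Finset α)} (hd : StrictDom G K Fd) (ψ : G →* kˣ)
    {x y : Finset α →₀ k} (hx : ∀ s ∈ x.support, s ∈ K) (hy : ∀ s ∈ y.support, s ∈ K)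
    (hxe : ∀ g : G, act g x = (ψ g : k) • x) (hye : ∀ g : G, act g y = (ψ g : k) • y)
    (h : ∀ τ ∈ Fd, x τ = y τ) : x = y := by
  ext s
  by_cases hs : s ∈ K
  · obtain ⟨g, hg⟩ := hd.cov s hs
    have h1 := h _ hg
    have h2 : ∀ z : Finset α →₀ k, (∀ g : G, act g z = (ψ g : k) • z) →
        z (s.image (fun x => g • x)) = ((ψ g⁻¹ : kˣ) : k) * z s := by
      intro z hz
      have h3 : act g⁻¹ z s = ((ψ g⁻¹ : kˣ) : k) * z s := by
        rw [hz g⁻¹, Finsupp.smul_apply, smul_eq_mul]
      rw [act_apply, inv_inv] at h3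
      exact h3
    rw [h2 x hxe, h2 y hye] at h1
    exact mul_left_cancel₀ (Units.ne_zero _) h1
  · have h1 : x s = 0 := by
      by_contra hcon; exact hs (hx s (Finsupp.mem_support_iff.2 hcon))
    have h2 : y s = 0 := by
      by_contra hcon; exact hs (hy s (Finsupp.mem_support_iff.2 hcon))
    rw [h1, h2]

theorem avg_eq_self [CharP k 2] (hodd : Odd (Fintype.card G)) {K Fd : Set (Finset α)}
    (hd : StrictDom G K Fd) (ψ : G →* kˣ) {q : ℕ} {c : Finset α →₀ k} (hc : ChainIn K q c)
    (heq : ∀ g : G, act g c = (ψ g : k) • c) :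
    avg ψ (c.filter (fun s => s ∈ Fd)) = c := by
  have ha : ∀ s ∈ (c.filter (fun s => s ∈ Fd)).support, s ∈ Fd := by
    intro s hs
    rw [Finsupp.support_filter, Finset.mem_filter] at hs
    exact hs.2
  have haK : ChainIn K q (c.filter (fun s => s ∈ Fd)) := by
    intro s hs
    rw [Finsupp.support_filter, Finset.mem_filter] at hs
    exact hc s hs.1
  refine eq_of_equivariant hd ψ (fun s hs => (ChainIn.avg hd.inv ψ haK s hs).1)
    (fun s hs => (hc s hs).1) (fun g => act_avg ψ g _) heq fun τ hτ => ?_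
  rw [avg_apply_dom hd ψ ha hτ, Finsupp.filter_apply, if_pos hτ]
  by_cases h : ∀ g : G, τ.image (fun x => g • x) = τ → ψ g = 1
  · rw [stabSum_eq_one hodd ψ h, mul_one]
  · push Not at h
    obtain ⟨g, hg, hψ⟩ := h
    have h1 : c τ = 0 := by
      have h2 : act g⁻¹ c τ = ((ψ g⁻¹ : kˣ) : k) * c τ := by
        rw [heq g⁻¹, Finsupp.smul_apply, smul_eq_mul]
      rw [act_apply, inv_inv, hg] at h2
      by_contra hcon
      have h3 : ((ψ g⁻¹ : kˣ) : k) = 1 := by
        have : ((ψ g⁻¹ : kˣ) : k) * c τ = 1 * c τ := by rw [one_mul]; exact h2.symm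
        exact mul_right_cancel₀ hcon this
      have h4 : ψ g⁻¹ = 1 := Units.ext h3
      rw [map_inv, inv_eq_one] at h4
      exact hψ h4
    rw [h1, zero_mul]

/-- the boundary of the restriction to the domain is supported on special simplices -/
theorem bd_filter_supp [CharP k 2] (hodd : Odd (Fintype.card G)) {K Fd : Set (Finset α)}
    (hd : StrictDom G K Fd) (ψ : G →* kˣ) {q : ℕ} {c : Finset α →₀ k} (hc : ChainIn K q c)
    (hbd : bd c = 0) (heq : ∀ g : G, act g c = (ψ g : k) • c) :
    ∀ s ∈ (bd (c.filter (fun s => s ∈ Fd))).support,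
      s ∈ Fd ∧ ∃ g : G, s.image (fun x => g • x) = s ∧ ψ g ≠ 1 := by
  intro s hs
  have hsF : ∀ t ∈ (bd (c.filter (fun s => s ∈ Fd))).support, t ∈ Fd := by
    intro t ht
    obtain ⟨v, hv, hvt⟩ := mem_support_bd ht
    rw [Finsupp.support_filter, Finset.mem_filter] at hvt
    exact hd.down _ hvt.2 t (Finset.subset_insert v t)
  refine ⟨hsF s hs, ?_⟩
  by_contra hcon
  have h1 : ∀ g : G, s.image (fun x => g • x) = s → ψ g = 1 := by
    intro g hg
    by_contra hψ
    exact hcon ⟨g, hg, hψ⟩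
  have h2 : avg ψ (bd (c.filter (fun s => s ∈ Fd))) = 0 := by
    rw [← bd_avg, avg_eq_self hodd hd ψ hc heq, hbd]
  have h3 := avg_apply_dom hd ψ hsF (hsF s hs)
  rw [h2, stabSum_eq_one hodd ψ h1, mul_one, Finsupp.zero_apply] at h3
  exact (Finsupp.mem_support_iff.1 hs) h3.symm

/-- averages of chains supported on special simplices vanish -/
theorem avg_eq_zero {K Fd : Set (Finset α)} (hd : StrictDom G K Fd) (ψ : G →* kˣ)
    {x : Finset α →₀ k}
    (hx : ∀ s ∈ x.support, s ∈ Fd ∧ ∃ g : G, s.image (fun x => g • x) = s ∧ ψ g ≠ 1) :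
    avg ψ x = 0 := by
  refine eq_of_equivariant hd ψ ?_ (by simp) (fun g => act_avg ψ g _) (by simp) fun τ hτ => ?_
  · intro s hs
    rw [Finsupp.mem_support_iff, avg_apply] at hs
    obtain ⟨g, _, hg⟩ := Finset.exists_ne_zero_of_sum_ne_zero hs
    have h1 : x (s.image (fun x => g⁻¹ • x)) ≠ 0 := right_ne_zero_of_mul hg
    have h2 := hd.inv g _ (hd.sub (hx _ (Finsupp.mem_support_iff.2 h1)).1)
    rwa [image_smul_inv'] at h2
  · rw [avg_apply_dom hd ψ (fun s hs => (hx s hs).1) hτ, Finsupp.zero_apply]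
    by_cases h : x τ = 0
    · rw [h, zero_mul]
    · rw [stabSum_eq_zero ψ (hx τ (Finsupp.mem_support_iff.2 h)).2, mul_zero]

theorem odd_avg_aux [CharP k 2] (hodd : Odd (Fintype.card G)) (ψ : G →* kˣ)
    (K Fd : Set (Finset α)) (hd : StrictDom G K Fd) (q : ℕ)
    (hrel : RelAcyc k Fd {σ | σ ∈ Fd ∧ ∃ g : G, σ.image (fun x => g • x) = σ ∧ ψ g ≠ 1} q)
    (c : Finset α →₀ k) (hc : ChainIn K q c) (hbd : bd c = 0)
    (heq : ∀ g : G, act g c = (ψ g : k) • c) :
    ∃ y : Finset α →₀ k, ChainIn K (q + 1) y ∧ bd y = c := by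
  set a := c.filter (fun s => s ∈ Fd) with ha
  have haF : ChainIn Fd q a := by
    intro s hs
    rw [ha, Finsupp.support_filter, Finset.mem_filter] at hs
    exact ⟨hs.2, (hc s hs.1).2⟩
  obtain ⟨b, hb, hbs⟩ := hrel a haF (bd_filter_supp hodd hd ψ hc hbd heq)
  have h1 : avg ψ (a + bd b) = 0 := avg_eq_zero hd ψ hbs
  rw [map_add, avg_eq_self hodd hd ψ hc heq, ← bd_avg] at h1
  refine ⟨avg ψ b, ChainIn.avg hd.inv ψ (hb.mono hd.sub), ?_⟩
  exact eq_of_add_zero h1

end avg

/-- Odd averaging lemma, for a linear character `ψ`. -/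
theorem odd_avg [CharP k 2] {G : Type*} [Group G] [Finite G] (hodd : Odd (Nat.card G))
    [MulAction G α] (ψ : G →* kˣ) (K Fd : Set (Finset α)) (hd : StrictDom G K Fd) (q : ℕ)
    (hrel : RelAcyc k Fd {σ | σ ∈ Fd ∧ ∃ g : G, σ.image (fun x => g • x) = σ ∧ ψ g ≠ 1} q)
    (c : Finset α →₀ k) (hc : ChainIn K q c) (hbd : bd c = 0)
    (heq : ∀ g : G, act g c = (ψ g : k) • c) :
    ∃ y : Finset α →₀ k, ChainIn K (q + 1) y ∧ bd y = c := by
  have := Fintype.ofFinite G
  rw [Nat.card_eq_fintype_card] at hodd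
  exact odd_avg_aux hodd ψ K Fd hd q hrel c hc hbd heq

/-- The relative condition for the trivial character is absolute acyclicity. -/
theorem relAcyc_one {G : Type*} [Group G] [MulAction G α] {Fd : Set (Finset α)} {q : ℕ}
    [CharP k 2] (h : Acyc k Fd q) :
    RelAcyc k Fd {σ | σ ∈ Fd ∧ ∃ g : G, σ.image (fun x => g • x) = σ ∧ (1 : G →* kˣ) g ≠ 1} q := by
  intro c hc hb
  have hbd : bd c = 0 := by
    ext s
    rw [Finsupp.zero_apply]
    by_contra hcon
    obtain ⟨_, g, _, hg⟩ := hb s (Finsupp.mem_support_iff.2 hcon)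
    exact hg rfl
  obtain ⟨y, hy, hby⟩ := h c hc hbd
  refine ⟨y, hy, fun s hs => ?_⟩
  rw [hby, add_self_zero] at hs
  simp at hs

/-- A cycle whose class is invariant under a group of odd order is a boundary, if the strict
fundamental domain is acyclic. -/
theorem boundary_of_class_invariant [CharP k 2] {G : Type*} [Group G] [Finite G]
    (hodd : Odd (Nat.card G)) [MulAction G α] (K Fd : Set (Finset α)) (hd : StrictDom G K Fd)
    (q : ℕ) (hFd : Acyc k Fd q) (c : Finset α →₀ k) (hc : ChainIn K q c) (hbd : bd c = 0)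
    (hinv : ∀ g : G, ∃ y : Finset α →₀ k, ChainIn K (q + 1) y ∧ act g c + c = bd y) :
    ∃ y : Finset α →₀ k, ChainIn K (q + 1) y ∧ bd y = c := by
  have := Fintype.ofFinite G
  have hodd' := hodd
  rw [Nat.card_eq_fintype_card] at hodd'
  choose y hy hyb using hinv
  -- the invariant cycle
  have h1 : avg (1 : G →* kˣ) c = c + bd (∑ g : G, y g) := by
    have h2 : ∀ g : G, act g c = c + bd (y g) := by
      intro g
      rw [← hyb g]
      calc act g c = act g c + (c + c) := by rw [add_self_zero, add_zero]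
        _ = c + (act g c + c) := by abel
    rw [avg_eq]
    have h3 : ∀ g : G, ((((1 : G →* kˣ) g)⁻¹ : kˣ) : k) • act g c = c + bd (y g) := by
      intro g
      rw [MonoidHom.one_apply, inv_one, Units.val_one, one_smul, h2 g]
    rw [Finset.sum_congr rfl fun g _ => h3 g, Finset.sum_add_distrib, map_sum, Finset.sum_const,
      Finset.card_univ]
    congr 1
    obtain ⟨r, hr⟩ := hodd'
    rw [hr, add_smul, mul_comm, mul_smul, two_smul, add_self_zero, smul_zero, zero_add, one_smul]
  obtain ⟨z, hz, hzb⟩ := odd_avg hodd (1 : G →* kˣ) K Fd hd q (relAcyc_one hFd)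
    (avg (1 : G →* kˣ) c) (ChainIn.avg hd.inv _ hc) (by rw [bd_avg, hbd, map_zero])
    (fun g => act_avg _ g c)
  refine ⟨z + ∑ g : G, y g, hz.add (ChainIn.sum fun g _ => hy g), ?_⟩
  rw [map_add, hzb, h1, add_assoc, add_self_zero, add_zero]

section comm

variable [IsAlgClosed k] [CharP k 2] {Q : Type*} [CommGroup Q] [Finite Q] [MulAction Q α]

omit [MulAction Q α] [Finite Q] in
theorem enoughRoots (hodd : Odd (Nat.card Q)) : HasEnoughRootsOfUnity k (Monoid.exponent Q) := by
  have h1 : Odd (Monoid.exponent Q) := hodd.of_dvd_nat Group.exponent_dvd_nat_card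
  have h2 : ((Monoid.exponent Q : ℕ) : k) ≠ 0 := by
    obtain ⟨r, hr⟩ := h1
    rw [hr]
    push_cast
    have : (2 : k) = 0 := CharTwo.two_eq_zero
    rw [this]
    simp
  have : NeZero ((Monoid.exponent Q : ℕ) : k) := ⟨h2⟩
  infer_instance

omit [MulAction Q α] in
theorem finite_chars (hodd : Odd (Nat.card Q)) : Finite (Q →* kˣ) := by
  have := enoughRoots (k := k) hodd
  obtain ⟨e⟩ := CommGroup.monoidHom_mulEquiv_of_hasEnoughRootsOfUnity Q k
  exact Finite.of_equiv Q e.symm.toEquiv

/-- Every chain is the sum of its isotypic parts. -/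
theorem sum_avg [Fintype Q] [Fintype (Q →* kˣ)] (hodd : Odd (Nat.card Q)) (c : Finset α →₀ k) :
    ∑ ψ : Q →* kˣ, avg ψ c = c := by
  have hroots := enoughRoots (k := k) hodd
  have hcard : Nat.card (Q →* kˣ) = Nat.card Q :=
    CommGroup.card_monoidHom_of_hasEnoughRootsOfUnity Q k
  simp_rw [avg_eq]
  rw [Finset.sum_comm]
  simp_rw [← Finset.sum_smul]
  have h1 : ∀ g : Q, g ≠ 1 → ∑ ψ : Q →* kˣ, (((ψ g)⁻¹ : kˣ) : k) = 0 := by
    intro g hg
    obtain ⟨φ, hφ⟩ := CommGroup.exists_apply_ne_one_of_hasEnoughRootsOfUnity Q k hg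
    have h2 : ∑ ψ : Q →* kˣ, (((ψ g)⁻¹ : kˣ) : k)
        = (((φ g)⁻¹ : kˣ) : k) * ∑ ψ : Q →* kˣ, (((ψ g)⁻¹ : kˣ) : k) := by
      rw [Finset.mul_sum]
      symm
      refine Fintype.sum_equiv (Equiv.mulLeft φ) _ _ fun ψ => ?_
      rw [Equiv.coe_mulLeft, ← Units.val_mul]
      congr 1
      rw [MonoidHom.mul_apply, mul_inv]
    have h3 : (1 - (((φ g)⁻¹ : kˣ) : k)) * ∑ ψ : Q →* kˣ, (((ψ g)⁻¹ : kˣ) : k) = 0 := by
      rw [sub_mul, one_mul, ← h2, sub_self]
    rcases mul_eq_zero.1 h3 with h4 | h4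
    · exfalso
      have h5 : (((φ g)⁻¹ : kˣ) : k) = 1 := (sub_eq_zero.1 h4).symm
      have h6 : (φ g)⁻¹ = 1 := Units.ext h5
      exact hφ (inv_eq_one.1 h6)
    · exact h4
  rw [Finset.sum_eq_single (1 : Q)]
  · rw [act_one]
    have h2 : ∑ ψ : Q →* kˣ, (((ψ (1 : Q))⁻¹ : kˣ) : k) = 1 := by
      simp only [map_one, inv_one, Units.val_one, Finset.sum_const, Finset.card_univ,
        nsmul_eq_mul, mul_one]
      rw [← Nat.card_eq_fintype_card, hcard]
      obtain ⟨r, hr⟩ := hodd
      rw [hr]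
      push_cast
      have : (2 : k) = 0 := CharTwo.two_eq_zero
      rw [this]; ring
    rw [h2, one_smul]
  · intro g _ hg
    rw [h1 g hg, zero_smul]
  · intro h
    exact absurd (Finset.mem_univ _) h

/-- Every cycle is homologous to its invariant part. -/
theorem homologous_avg_one [Fintype Q] (hodd : Odd (Nat.card Q)) (K Fd : Set (Finset α))
    (hd : StrictDom Q K Fd) (q : ℕ)
    (hrel : ∀ ψ : Q →* kˣ, ψ ≠ 1 →
      RelAcyc k Fd {σ | σ ∈ Fd ∧ ∃ g : Q, σ.image (fun x => g • x) = σ ∧ ψ g ≠ 1} q)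
    (c : Finset α →₀ k) (hc : ChainIn K q c) (hbd : bd c = 0) :
    ∃ y : Finset α →₀ k, ChainIn K (q + 1) y ∧ c = avg (1 : Q →* kˣ) c + bd y := by
  have := finite_chars (k := k) hodd
  have := Fintype.ofFinite (Q →* kˣ)
  have h1 : ∀ ψ : Q →* kˣ, ψ ≠ 1 → ∃ y : Finset α →₀ k, ChainIn K (q + 1) y ∧
      bd y = avg ψ c := fun ψ hψ =>
    odd_avg hodd ψ K Fd hd q (hrel ψ hψ) (avg ψ c) (ChainIn.avg hd.inv ψ hc)
      (by rw [bd_avg, hbd, map_zero]) (fun g => act_avg ψ g c)
  choose! y hy hyb using h1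
  refine ⟨∑ ψ ∈ univ.erase (1 : Q →* kˣ), y ψ,
    ChainIn.sum fun ψ hψ => hy ψ (Finset.ne_of_mem_erase hψ), ?_⟩
  rw [map_sum, Finset.sum_congr rfl fun ψ hψ => hyb ψ (Finset.ne_of_mem_erase hψ),
    Finset.add_sum_erase _ (fun ψ => avg ψ c) (Finset.mem_univ _), sum_avg hodd]

/-- (i) acyclicity of `K` from relative acyclicity for all nontrivial characters. -/
theorem acyc_of_comm_odd (hodd : Odd (Nat.card Q)) (K Fd : Set (Finset α))
    (hd : StrictDom Q K Fd) (q : ℕ)
    (hrel : ∀ ψ : Q →* kˣ, ψ ≠ 1 →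
      RelAcyc k Fd {σ | σ ∈ Fd ∧ ∃ g : Q, σ.image (fun x => g • x) = σ ∧ ψ g ≠ 1} q)
    (h1 : Acyc k Fd q) : Acyc k K q := by
  have := Fintype.ofFinite Q
  intro c hc hbd
  obtain ⟨y, hy, hyb⟩ := homologous_avg_one hodd K Fd hd q hrel c hc hbd
  obtain ⟨z, hz, hzb⟩ := odd_avg hodd (1 : Q →* kˣ) K Fd hd q (relAcyc_one h1)
    (avg (1 : Q →* kˣ) c) (ChainIn.avg hd.inv _ hc) (by rw [bd_avg, hbd, map_zero])
    (fun g => act_avg _ g c)
  exact ⟨z + y, hz.add hy, by rw [map_add, hzb, ← hyb]⟩

omit [IsAlgClosed k] [Finite Q] in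
/-- restriction of the invariant part to the domain -/
theorem filter_avg_one [Fintype Q] (hodd : Odd (Nat.card Q)) {K Fd : Set (Finset α)}
    (hd : StrictDom Q K Fd) {q : ℕ} {c : Finset α →₀ k} (hc : ChainIn K q c) (hbd : bd c = 0) :
    ∃ a : Finset α →₀ k, ChainIn Fd q a ∧ bd a = 0 ∧
      avg (1 : Q →* kˣ) a = avg (1 : Q →* kˣ) c := by
  have hodd' := hodd
  rw [Nat.card_eq_fintype_card] at hodd'
  have hcK := ChainIn.avg hd.inv (1 : Q →* kˣ) hc
  refine ⟨(avg (1 : Q →* kˣ) c).filter (fun s => s ∈ Fd), ?_, ?_, ?_⟩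
  · intro s hs
    rw [Finsupp.support_filter, Finset.mem_filter] at hs
    exact ⟨hs.2, (hcK s hs.1).2⟩
  · ext s
    rw [Finsupp.zero_apply]
    by_contra hcon
    obtain ⟨_, g, _, hg⟩ := bd_filter_supp hodd' hd (1 : Q →* kˣ) hcK
      (by rw [bd_avg, hbd, map_zero]) (fun g => act_avg _ g c) s (Finsupp.mem_support_iff.2 hcon)
    exact hg rfl
  · exact avg_eq_self hodd' hd (1 : Q →* kˣ) hcK (fun g => act_avg _ g c)

/-- (ii) every cycle is homologous to one in the fundamental domain. -/
theorem homologous_of_comm_odd (hodd : Odd (Nat.card Q)) (K Fd : Set (Finset α))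
    (hd : StrictDom Q K Fd) (q : ℕ)
    (hrel : ∀ ψ : Q →* kˣ, ψ ≠ 1 →
      RelAcyc k Fd {σ | σ ∈ Fd ∧ ∃ g : Q, σ.image (fun x => g • x) = σ ∧ ψ g ≠ 1} q)
    (c : Finset α →₀ k) (hc : ChainIn K q c) (hbd : bd c = 0) :
    ∃ a y : Finset α →₀ k, ChainIn Fd q a ∧ bd a = 0 ∧ ChainIn K (q + 1) y ∧ c = a + bd y := by
  have := Fintype.ofFinite Q
  obtain ⟨y, hy, hyb⟩ := homologous_avg_one hodd K Fd hd q hrel c hc hbd
  obtain ⟨a, ha, hab, hac⟩ := filter_avg_one hodd hd hc hbd
  obtain ⟨z, hz, hzb⟩ := homologous_avg_one hodd K Fd hd q hrel a (ha.mono hd.sub) hab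
  refine ⟨a, y + z, ha, hab, hy.add hz, ?_⟩
  rw [hac] at hzb
  calc c = avg (1 : Q →* kˣ) c + bd y := hyb
    _ = avg (1 : Q →* kˣ) c + bd y + (bd z + bd z) := by rw [add_self_zero, add_zero]
    _ = (avg (1 : Q →* kˣ) c + bd z) + (bd y + bd z) := by abel
    _ = a + bd (y + z) := by rw [← hzb, map_add]

/-- (iii) the group acts trivially on classes of cycles in the fundamental domain. -/
theorem act_homologous_of_comm_odd (hodd : Odd (Nat.card Q)) (K Fd : Set (Finset α))
    (hd : StrictDom Q K Fd) (q : ℕ)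
    (hrel : ∀ ψ : Q →* kˣ, ψ ≠ 1 →
      RelAcyc k Fd {σ | σ ∈ Fd ∧ ∃ g : Q, σ.image (fun x => g • x) = σ ∧ ψ g ≠ 1} q)
    (a : Finset α →₀ k) (ha : ChainIn Fd q a) (hbd : bd a = 0) (g : Q) :
    ∃ y : Finset α →₀ k, ChainIn K (q + 1) y ∧ act g a + a = bd y := by
  have := Fintype.ofFinite Q
  obtain ⟨y, hy, hyb⟩ := homologous_avg_one hodd K Fd hd q hrel a (ha.mono hd.sub) hbd
  refine ⟨act g y + y, (ChainIn.act hd.inv hy g).add hy, ?_⟩
  have h1 : act g a = avg (1 : Q →* kˣ) a + act g (bd y) := by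
    conv_lhs => rw [hyb]
    rw [map_add, act_avg, MonoidHom.one_apply, Units.val_one, one_smul]
  calc act g a + a = (avg (1 : Q →* kˣ) a + act g (bd y)) + (avg (1 : Q →* kˣ) a + bd y) := by
        rw [← hyb, ← h1]
    _ = (avg (1 : Q →* kˣ) a + avg (1 : Q →* kˣ) a) + (act g (bd y) + bd y) := by abel
    _ = bd (act g y + y) := by rw [add_self_zero, zero_add, map_add, bd_act]

end comm

end Vale.Agent.P067
end
end

section

section

/-!
# P067: block structure on `V(κ ⊕ ι')` (definitions for (S2*), (S2) and the zero map)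
-/

set_option autoImplicit false

open Finset

namespace Vale.Agent.P067

attribute [local instance] Classical.propDecidable

open scoped Pointwise

variable {p m : ℕ} [Fact p.Prime]

/-- The subspace of constants of `R`. -/
noncomputable def cR (p m : ℕ) [Fact p.Prime] : Submodule (ZMod p) (Rg p m) :=
  LinearMap.range (Algebra.linearMap (ZMod p) (Rg p m))

section general

variable {ι : Type} [Fintype ι] [DecidableEq ι]

/-- The element of `G` given by a matrix of determinant one. -/
noncomputable def toG (M : Matrix.SpecialLinearGroup ι (Rg p m)) : GG ι p m :=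
  Matrix.SpecialLinearGroup.toLin'_equiv M

/-- The type of a vertex. -/
noncomputable def ty (L : Sb ι p m) : ℕ := Module.finrank (ZMod p) (Sp L)

end general

variable {κ ι' : Type} [Fintype κ] [DecidableEq κ] [Fintype ι'] [DecidableEq ι']

/-- `F^κ × Λ'`. -/
noncomputable def ext (κ : Type) (L : Sb ι' p m) : Sb (κ ⊕ ι') p m where
  carrier := {x | (∀ i : κ, x (Sum.inl i) ∈ cR p m) ∧ (fun j => x (Sum.inr j)) ∈ L}
  add_mem' := fun hx hy => ⟨fun i => add_mem (hx.1 i) (hy.1 i), add_mem hx.2 hy.2⟩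
  zero_mem' := ⟨fun _ => zero_mem _, zero_mem _⟩
  smul_mem' := fun a _ hx => ⟨fun i => Submodule.smul_mem _ a (hx.1 i),
    Submodule.smul_mem _ a hx.2⟩

/-- `0 × S`. -/
noncomputable def zer (κ : Type) (S : Sb ι' p m) : Sb (κ ⊕ ι') p m where
  carrier := {x | (∀ i : κ, x (Sum.inl i) = 0) ∧ (fun j => x (Sum.inr j)) ∈ S}
  add_mem' := fun {x y} hx hy => ⟨fun i => by rw [Pi.add_apply, hx.1 i, hy.1 i, add_zero],
    add_mem hx.2 hy.2⟩
  zero_mem' := ⟨fun _ => rfl, zero_mem _⟩
  smul_mem' := fun a x hx => ⟨fun i => by rw [Pi.smul_apply, hx.1 i, smul_zero],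
    Submodule.smul_mem _ a hx.2⟩

/-- The block matrix `(1 0; C D)`. -/
noncomputable def blkM (C : Matrix ι' κ (Rg p m)) (D : Matrix.SpecialLinearGroup ι' (Rg p m)) :
    Matrix.SpecialLinearGroup (κ ⊕ ι') (Rg p m) :=
  ⟨Matrix.fromBlocks 1 0 C D, by
    rw [Matrix.det_fromBlocks_zero₁₂, Matrix.det_one, D.2, one_mul]⟩

/-- The group `(V')^κ`, written multiplicatively. -/
def QS (κ ι' : Type) (p m : ℕ) : Type := Multiplicative (Matrix ι' κ (Rg p m))

noncomputable instance instCommGroupQS : CommGroup (QS κ ι' p m) :=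
  inferInstanceAs (CommGroup (Multiplicative (Matrix ι' κ (Rg p m))))

theorem blkM_mul (C C' : Matrix ι' κ (Rg p m)) :
    blkM (C + C') (1 : Matrix.SpecialLinearGroup ι' (Rg p m)) = blkM C 1 * blkM C' 1 := by
  apply Subtype.ext
  change Matrix.fromBlocks 1 0 (C + C') (1 : Matrix ι' ι' (Rg p m))
    = Matrix.fromBlocks 1 0 C (1 : Matrix ι' ι' (Rg p m)) *
      Matrix.fromBlocks 1 0 C' (1 : Matrix ι' ι' (Rg p m))
  rw [Matrix.fromBlocks_multiply]
  simp

/-- The homomorphism `(V')^κ → G`, `e_i ↦ e_i + x_i`. -/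
noncomputable def shear : QS κ ι' p m →* GG (κ ⊕ ι') p m where
  toFun C := toG (blkM (Multiplicative.toAdd C : Matrix ι' κ (Rg p m)) 1)
  map_one' := by
    have h : blkM (0 : Matrix ι' κ (Rg p m)) (1 : Matrix.SpecialLinearGroup ι' (Rg p m)) = 1 := by
      apply Subtype.ext
      simp [blkM]
    change toG (blkM (0 : Matrix ι' κ (Rg p m)) 1) = 1
    rw [h]
    exact map_one _
  map_mul' C C' := by
    change toG (blkM ((Multiplicative.toAdd C : Matrix ι' κ (Rg p m)) +
      (Multiplicative.toAdd C' : Matrix ι' κ (Rg p m))) 1) = _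
    rw [blkM_mul]
    exact map_mul _ _ _

noncomputable instance instMulActionQS : MulAction (QS κ ι' p m) (Sb (κ ⊕ ι') p m) :=
  MulAction.compHom _ (shear (κ := κ) (ι' := ι') (p := p) (m := m))

theorem QS_smul_def (C : QS κ ι' p m) (L : Sb (κ ⊕ ι') p m) : C • L = shear C • L := rfl

/-- The complex of the simplices whose `κ`-coordinates are constant, of types less than
`card ι'`. -/
def Xcal (κ ι' : Type) [Fintype κ] [DecidableEq κ] [Fintype ι'] [DecidableEq ι'] (p m : ℕ)
    [Fact p.Prime] : Set (Finset (Sb (κ ⊕ ι') p m)) :=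
  {σ | σ ∈ XX (κ ⊕ ι') p m ∧ ∀ L ∈ σ, (∀ x ∈ L, ∀ i : κ, x (Sum.inl i) ∈ cR p m) ∧
    ty L < Fintype.card ι'}

/-- The fundamental domain: the simplices `F^κ × Λ'`. -/
def FdX (κ ι' : Type) [Fintype κ] [DecidableEq κ] [Fintype ι'] [DecidableEq ι'] (p m : ℕ)
    [Fact p.Prime] : Set (Finset (Sb (κ ⊕ ι') p m)) :=
  (fun s : Finset (Sb ι' p m) => s.image (ext κ)) '' XX ι' p m

end Vale.Agent.P067
end
end

section

section

/-! # P067: completing independent rows to a matrix of determinant one -/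

set_option autoImplicit false

open Finset

namespace Vale.Agent.P067

/-- An independent family in `K^ι` can be completed to a basis. -/
theorem exists_complete_rows {K : Type*} [Field K] {κ ι ι' : Type*} [Fintype κ] [Fintype ι]
    [Fintype ι'] (ε : ι ≃ κ ⊕ ι') (v : κ → ι → K) (hv : LinearIndependent K v) :
    ∃ w : ι' → ι → K, LinearIndependent K (fun j => Sum.elim v w (ε j)) := by
  classical
  obtain ⟨C, hC⟩ := Submodule.exists_isCompl (Submodule.span K (Set.range v))
  have hfin : Module.finrank K C = Fintype.card ι' := by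
    have h1 := Submodule.finrank_add_eq_of_isCompl hC
    rw [finrank_span_eq_card hv, Module.finrank_fintype_fun_eq_card, Fintype.card_congr ε,
      Fintype.card_sum] at h1
    omega
  let b := Module.finBasisOfFinrankEq K C hfin
  let e := Fintype.equivFin ι'
  let w : ι' → ι → K := fun j => (b (e j) : ι → K)
  have hw : LinearIndependent K w := by
    have h1 : LinearIndependent K (fun i => (b i : ι → K)) :=
      b.linearIndependent.map' C.subtype (Submodule.ker_subtype C)
    exact h1.comp e e.injective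
  refine ⟨w, ?_⟩
  have hsum : LinearIndependent K (Sum.elim v w) := by
    refine hv.sum_type hw ?_
    refine hC.disjoint.mono_right ?_
    rw [Submodule.span_le]
    rintro _ ⟨j, rfl⟩
    exact (b (e j)).2
  exact hsum.comp ε ε.injective

/-- Rows over `R` whose images in the field `K` are linearly independent are rows of a matrix of
determinant one, if there is at least one more row. -/
theorem exists_SL_rows {R K : Type*} [CommRing R] [Field K] (π : R →+* K)
    (hπ : Function.Surjective π) [IsLocalHom π] {κ ι ι' : Type*} [Fintype κ] [Fintype ι]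
    [Fintype ι'] [DecidableEq ι] [Nonempty ι'] (ε : ι ≃ κ ⊕ ι') (r : κ → ι → R)
    (hr : LinearIndependent K (fun i j => π (r i j))) :
    ∃ g : Matrix.SpecialLinearGroup ι R, ∀ i, (g : Matrix ι ι R) (ε.symm (Sum.inl i)) = r i := by
  classical
  obtain ⟨w, hw⟩ := exists_complete_rows ε (fun i j => π (r i j)) hr
  choose s hs using fun i j => hπ (w i j)
  let M : Matrix ι ι R := fun j => Sum.elim r s (ε j)
  have hM : π.mapMatrix M = fun j => Sum.elim (fun i j => π (r i j)) w (ε j) := by
    funext j l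
    change π (Sum.elim r s (ε j) l) = Sum.elim (fun i j => π (r i j)) w (ε j) l
    rcases ε j with i | i
    · rfl
    · exact hs i l
  have hdet : IsUnit M.det := by
    have h1 : IsUnit (π M.det) := by
      rw [RingHom.map_det, hM]
      have h2 := (Matrix.linearIndependent_rows_iff_isUnit (A := (fun j =>
        Sum.elim (fun i j => π (r i j)) w (ε j) : Matrix ι ι K))).1 hw
      exact (Matrix.isUnit_iff_isUnit_det _).1 h2
    exact isUnit_of_map_unit π _ h1
  obtain ⟨u, hu⟩ := hdet
  obtain ⟨j0⟩ := (inferInstance : Nonempty ι')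
  let a : ι := ε.symm (Sum.inr j0)
  let N : Matrix ι ι R := M.updateRow a ((↑u⁻¹ : R) • M a)
  have hN : N.det = 1 := by
    simp only [N]
    rw [Matrix.det_updateRow_smul, Matrix.updateRow_eq_self, ← hu]
    simp
  refine ⟨⟨N, hN⟩, fun i => ?_⟩
  have hne : ε.symm (Sum.inl i) ≠ a := by
    intro h
    have := ε.symm.injective h
    cases this
  change N (ε.symm (Sum.inl i)) = r i
  simp only [N]
  rw [Matrix.updateRow_ne hne]
  simp [M]

end Vale.Agent.P067
end
end

section

section

/-! # P067: general lemmas on chains, acyclicity and transport -/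

set_option autoImplicit false

open Finset

namespace Vale.Agent.P067

attribute [local instance] Classical.propDecidable

variable {α : Type*} {k : Type*} [Field k]

theorem ChainIn.single {K : Set (Finset α)} {q : ℕ} {s : Finset α} (hs : s ∈ K)
    (hq : s.card = q) (a : k) : ChainIn K q (Finsupp.single s a) := by
  intro t ht
  have : t = s := by
    have := Finsupp.support_single_subset ht
    simpa using this
  subst this
  exact ⟨hs, hq⟩

theorem eq_sum_single (c : Finset α →₀ k) : c = ∑ s ∈ c.support, Finsupp.single s (c s) := by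
  conv_lhs => rw [← Finsupp.sum_single c]
  rfl

/-- Acyclicity of a subcomplex from acyclicity of the complex and of the pair one size up. -/
theorem acyc_of_relAcyc [CharP k 2] {K K₀ : Set (Finset α)} (hK : DownClosed K)
    (hsub : K₀ ⊆ K) {q : ℕ} (h : Acyc k K q) (hrel : RelAcyc k K K₀ (q + 1)) :
    Acyc k K₀ q := by
  intro c hc hbd
  obtain ⟨y, hy, hyc⟩ := h c (hc.mono hsub) hbd
  obtain ⟨w, hw, hws⟩ := hrel y hy (by rw [hyc]; exact fun s hs => (hc s hs).1)
  refine ⟨y + P067.bd w, ?_, ?_⟩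
  · intro s hs
    refine ⟨hws s hs, ?_⟩
    exact ((hy.add (ChainIn.bd hK hw)) s hs).2
  · rw [map_add, bd_bd, add_zero, hyc]

/-- A cycle in `K` is homologous to a cycle in `K₀` if the pair is acyclic. -/
theorem homologous_of_relAcyc [CharP k 2] {K K₀ : Set (Finset α)} (hK : DownClosed K)
    {q : ℕ} (hrel : RelAcyc k K K₀ q) {c : Finset α →₀ k} (hc : ChainIn K q c)
    (hbd : P067.bd c = 0) :
    ∃ a y : Finset α →₀ k, ChainIn K₀ q a ∧ P067.bd a = 0 ∧ ChainIn K (q + 1) y ∧
      c = a + P067.bd y := by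
  obtain ⟨y, hy, hys⟩ := hrel c hc (by rw [hbd]; simp)
  refine ⟨c + P067.bd y, y, ?_, ?_, hy, ?_⟩
  · intro s hs
    exact ⟨hys s hs, ((hc.add (ChainIn.bd hK hy)) s hs).2⟩
  · rw [map_add, bd_bd, hbd, add_zero]
  · rw [add_assoc, add_self_zero, add_zero]

section map

variable {β : Type*}

/-- The chain map induced by a vertex map which is injective. -/
noncomputable def vmap (e : α → β) : (Finset α →₀ k) →ₗ[k] (Finset β →₀ k) :=
  Finsupp.lmapDomain k k (fun s => s.image e)

theorem vmap_single (e : α → β) (s : Finset α) (a : k) :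
    vmap e (Finsupp.single s a) = Finsupp.single (s.image e) a := by
  simp [vmap]

theorem bd_vmap {e : α → β} (he : Function.Injective e) (c : Finset α →₀ k) :
    bd (vmap e c) = vmap e (bd c) := by
  have : (bd ∘ₗ vmap e : (Finset α →₀ k) →ₗ[k] (Finset β →₀ k)) = vmap e ∘ₗ bd := by
    apply Finsupp.lhom_ext
    intro s a
    simp only [LinearMap.comp_apply, vmap_single, bd_single, map_sum]
    rw [Finset.sum_image fun x _ y _ h => he h]
    refine Finset.sum_congr rfl fun v _ => ?_
    rw [Finset.image_erase he]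
  exact LinearMap.congr_fun this c

theorem image_injective {e : α → β} (he : Function.Injective e) :
    Function.Injective (fun s : Finset α => s.image e) := by
  intro s t h
  exact Finset.image_injective he h

theorem vmap_injective {e : α → β} (he : Function.Injective e) :
    Function.Injective (vmap (k := k) e) := by
  exact Finsupp.mapDomain_injective (image_injective he)

theorem ChainIn.vmap {e : α → β} (he : Function.Injective e) {K : Set (Finset α)}
    {K' : Set (Finset β)} (h : ∀ s ∈ K, s.image e ∈ K') {q : ℕ} {c : Finset α →₀ k}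
    (hc : ChainIn K q c) : ChainIn K' q (P067.vmap e c) := by
  rw [eq_sum_single c, map_sum]
  refine ChainIn.sum fun s hs => ?_
  rw [vmap_single]
  refine ChainIn.single (h s (hc s hs).1) ?_ _
  rw [Finset.card_image_of_injective _ he]
  exact (hc s hs).2

/-- Every chain supported on images of simplices of `K` is the image of a chain in `K`. -/
theorem exists_vmap {e : α → β} (he : Function.Injective e) {K : Set (Finset α)} {q : ℕ}
    {c : Finset β →₀ k} (hc : ChainIn ((fun s : Finset α => s.image e) '' K) q c) :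
    ∃ d : Finset α →₀ k, ChainIn K q d ∧ vmap e d = c := by
  classical
  have hex : ∀ s ∈ c.support, ∃ t ∈ K, t.image e = s := fun s hs => (hc s hs).1
  choose! g hg1 hg2 using hex
  refine ⟨∑ s ∈ c.support, Finsupp.single (g s) (c s), ?_, ?_⟩
  · refine ChainIn.sum fun s hs => ChainIn.single (hg1 s hs) ?_ _
    rw [← (hc s hs).2, ← hg2 s hs, Finset.card_image_of_injective _ he, hg2 s hs]
  · rw [map_sum]
    conv_rhs => rw [eq_sum_single c]
    refine Finset.sum_congr rfl fun s hs => ?_
    rw [vmap_single, hg2 s hs]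

theorem mem_support_vmap {e : α → β} (he : Function.Injective e) {c : Finset α →₀ k}
    {s : Finset α} : s.image e ∈ (vmap e c).support ↔ s ∈ c.support := by
  rw [Finsupp.mem_support_iff, Finsupp.mem_support_iff]
  have : (vmap e c) (s.image e) = c s :=
    Finsupp.mapDomain_apply (image_injective he) c s
  rw [this]

/-- Transport of relative acyclicity along an injective vertex map. -/
theorem RelAcyc.image {e : α → β} (he : Function.Injective e) {K K₀ : Set (Finset α)}
    {q : ℕ} (h : RelAcyc k K K₀ q) :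
    RelAcyc k ((fun s : Finset α => s.image e) '' K) ((fun s : Finset α => s.image e) '' K₀) q := by
  intro c hc hs
  obtain ⟨d, hd, rfl⟩ := exists_vmap he hc
  obtain ⟨y, hy, hys⟩ := h d hd (by
    intro s hs'
    have h1 : s.image e ∈ (bd (vmap e d)).support := by
      rw [bd_vmap he, mem_support_vmap he]
      exact hs'
    obtain ⟨t, ht, hts⟩ := hs _ h1
    have := image_injective he hts
    subst this
    exact ht)
  refine ⟨vmap e y, ChainIn.vmap he (fun s hs => Set.mem_image_of_mem _ hs) hy, ?_⟩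
  intro s hs'
  rw [bd_vmap he, ← map_add] at hs'
  have h2 : s ∈ Finset.image (fun s : Finset α => s.image e) (d + bd y).support :=
    Finsupp.mapDomain_support hs'
  obtain ⟨t, ht, rfl⟩ := Finset.mem_image.1 h2
  exact ⟨t, hys t ht, rfl⟩

/-- Transport of acyclicity along an injective vertex map. -/
theorem Acyc.image {e : α → β} (he : Function.Injective e) {K : Set (Finset α)}
    {q : ℕ} (h : Acyc k K q) :
    Acyc k ((fun s : Finset α => s.image e) '' K) q := by
  intro c hc hbd
  obtain ⟨d, hd, rfl⟩ := exists_vmap he hc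
  rw [bd_vmap he] at hbd
  have : bd d = 0 := vmap_injective he (by rw [hbd, map_zero])
  obtain ⟨y, hy, hyd⟩ := h d hd this
  exact ⟨vmap e y, ChainIn.vmap he (fun s hs => Set.mem_image_of_mem _ hs) hy, by rw [bd_vmap he, hyd]⟩

end map

end Vale.Agent.P067
end
end

section

section

/-!
# P067: geometry of the block decomposition `V(κ ⊕ ι')`, for (S2*)
-/

set_option autoImplicit false
set_option linter.unusedSectionVars false

open Finset

namespace Vale.Agent.P067

attribute [local instance] Classical.propDecidable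

open scoped Pointwise

variable {p m : ℕ} [Fact p.Prime]

/-! ### constants -/

theorem zero_mem_cR : (0 : Rg p m) ∈ cR p m := zero_mem _

theorem one_mem_cR : (1 : Rg p m) ∈ cR p m := ⟨1, map_one (algebraMap (ZMod p) (Rg p m))⟩

theorem cR_eq_zero (hm : 2 ≤ m) {x : Rg p m} (hx : x ∈ cR p m) (h : tt p m * x ∈ cR p m) :
    x = 0 := by
  obtain ⟨a, rfl⟩ := hx
  obtain ⟨b, hb⟩ := h
  have h1 : co p m 1 (tt p m * algebraMap (ZMod p) (Rg p m) a) = a := by
    have := co_succ_mul_t (p := p) (m := m) 0 (by omega) (algebraMap (ZMod p) (Rg p m) a)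
    rw [zero_add] at this
    rw [this, co_algebraMap 0 (by omega), if_pos rfl]
  have h2 : co p m 1 (tt p m * algebraMap (ZMod p) (Rg p m) a) = 0 := by
    have hb' : algebraMap (ZMod p) (Rg p m) b = tt p m * algebraMap (ZMod p) (Rg p m) a := hb
    rw [← hb', co_algebraMap 1 (by omega), if_neg one_ne_zero]
  rw [h1] at h2
  rw [h2]
  exact map_zero _

section general

variable {ι : Type} [Fintype ι] [DecidableEq ι]

theorem mem_W0 {x : VV ι p m} : x ∈ W0 ι p m ↔ ∀ i, x i ∈ cR p m := by
  constructor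
  · rintro ⟨v, rfl⟩ i
    exact ⟨v i, rfl⟩
  · intro h
    choose v hv using h
    exact ⟨v, funext hv⟩

theorem toG_smul (M : Matrix.SpecialLinearGroup ι (Rg p m)) (x : VV ι p m) :
    toG M • x = (M : Matrix ι ι (Rg p m)).mulVec x := rfl

theorem mem_smul_iff (g : GG ι p m) (L : Sb ι p m) (x : VV ι p m) :
    x ∈ g • L ↔ g⁻¹ • x ∈ L := by
  rw [Submodule.mem_smul_pointwise_iff_exists]
  constructor
  · rintro ⟨y, hy, rfl⟩
    rwa [inv_smul_smul]
  · intro h
    exact ⟨_, h, smul_inv_smul _ _⟩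

theorem exists_toG (g : GG ι p m) : ∃ M : Matrix.SpecialLinearGroup ι (Rg p m), toG M = g :=
  ⟨Matrix.SpecialLinearGroup.toLin'_equiv.symm g,
    Matrix.SpecialLinearGroup.toLin'_equiv.apply_symm_apply g⟩

theorem toG_mul (M N : Matrix.SpecialLinearGroup ι (Rg p m)) : toG (M * N) = toG M * toG N :=
  map_mul _ _ _

theorem toG_inv (M : Matrix.SpecialLinearGroup ι (Rg p m)) : toG M⁻¹ = (toG M)⁻¹ :=
  map_inv _ _

end general

variable {κ ι' : Type} [Fintype κ] [DecidableEq κ] [Fintype ι'] [DecidableEq ι']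

theorem mem_ext {L : Sb ι' p m} {x : VV (κ ⊕ ι') p m} :
    x ∈ ext κ L ↔ (∀ i : κ, x (Sum.inl i) ∈ cR p m) ∧ (fun j => x (Sum.inr j)) ∈ L := Iff.rfl

theorem mem_zer {L : Sb ι' p m} {x : VV (κ ⊕ ι') p m} :
    x ∈ zer κ L ↔ (∀ i : κ, x (Sum.inl i) = 0) ∧ (fun j => x (Sum.inr j)) ∈ L := Iff.rfl

/-- The vector `(0, y)`. -/
noncomputable def inrV (κ : Type) (y : VV ι' p m) : VV (κ ⊕ ι') p m := Sum.elim 0 y

theorem inrV_mem_ext {L : Sb ι' p m} {y : VV ι' p m} : inrV κ y ∈ ext κ L ↔ y ∈ L := by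
  constructor
  · intro h
    exact h.2
  · intro h
    exact ⟨fun _ => zero_mem_cR, h⟩

theorem ext_injective : Function.Injective (ext (p := p) (m := m) (ι' := ι') κ) := by
  intro L L' h
  ext y
  rw [← inrV_mem_ext (κ := κ), h, inrV_mem_ext]

theorem ext_le_ext {L L' : Sb ι' p m} : ext κ L ≤ ext κ L' ↔ L ≤ L' := by
  constructor
  · intro h y hy
    exact inrV_mem_ext.1 (h (inrV_mem_ext.2 hy))
  · intro h x hx
    exact ⟨hx.1, h hx.2⟩

theorem zer_le_ext {L : Sb ι' p m} : zer κ L ≤ ext κ L := by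
  intro x hx
  exact ⟨fun i => by rw [hx.1 i]; exact zero_mem_cR, hx.2⟩

theorem zer_le_zer {L L' : Sb ι' p m} : zer κ L ≤ zer κ L' ↔ L ≤ L' := by
  constructor
  · intro h y hy
    exact (h (show inrV κ y ∈ zer κ L from ⟨fun _ => rfl, hy⟩)).2
  · intro h x hx
    exact ⟨hx.1, h hx.2⟩

theorem ext_W0 : ext κ (W0 ι' p m) = W0 (κ ⊕ ι') p m := by
  ext x
  rw [mem_ext, mem_W0, mem_W0, Sum.forall]

theorem vtx_ext (Wf S : Sb ι' p m) : vtx (ext κ Wf) (zer κ S) = ext κ (vtx Wf S) := by
  apply le_antisymm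
  · apply sup_le
    · exact ext_le_ext.2 le_sup_left
    · rintro _ ⟨x, hx, rfl⟩
      refine ⟨fun i => ?_, ?_⟩
      · have : tm (κ ⊕ ι') p m x (Sum.inl i) = tt p m * x (Sum.inl i) := rfl
        rw [this, hx.1 i, mul_zero]
        exact zero_mem_cR
      · exact Submodule.mem_sup_right ⟨_, hx.2, rfl⟩
  · rintro x ⟨h1, h2⟩
    obtain ⟨w, hw, u, ⟨s, hs, rfl⟩, hwu⟩ := Submodule.mem_sup.1 h2
    have hx : x = Sum.elim (fun i => x (Sum.inl i)) w + tm (κ ⊕ ι') p m (inrV κ s) := by
      funext i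
      rcases i with i | j
      · change x (Sum.inl i) = x (Sum.inl i) + tt p m * (0 : Rg p m)
        rw [mul_zero, add_zero]
      · exact (congrFun hwu j).symm
    rw [hx]
    refine Submodule.add_mem_sup ⟨?_, hw⟩ ⟨_, ⟨fun _ => rfl, hs⟩, rfl⟩
    exact h1

/-! ### the action of block matrices -/

theorem blk_smul_inl (C : Matrix ι' κ (Rg p m)) (D : Matrix.SpecialLinearGroup ι' (Rg p m))
    (x : VV (κ ⊕ ι') p m) (i : κ) : (toG (blkM C D) • x) (Sum.inl i) = x (Sum.inl i) := by
  rw [toG_smul]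
  change (Matrix.fromBlocks 1 0 C (D : Matrix ι' ι' (Rg p m))).mulVec x (Sum.inl i) = _
  rw [Matrix.fromBlocks_mulVec]
  simp

theorem blk_smul_inr (C : Matrix ι' κ (Rg p m)) (D : Matrix.SpecialLinearGroup ι' (Rg p m))
    (x : VV (κ ⊕ ι') p m) (j : ι') : (toG (blkM C D) • x) (Sum.inr j)
      = C.mulVec (fun i => x (Sum.inl i)) j
        + (D : Matrix ι' ι' (Rg p m)).mulVec (fun i => x (Sum.inr i)) j := by
  rw [toG_smul]
  change (Matrix.fromBlocks 1 0 C (D : Matrix ι' ι' (Rg p m))).mulVec x (Sum.inr j) = _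
  rw [Matrix.fromBlocks_mulVec]
  rfl

theorem shear_inv (C : QS κ ι' p m) : (shear C)⁻¹ = toG (blkM (-(Multiplicative.toAdd C)) 1) := by
  rw [← map_inv]
  rfl

theorem mem_shear_smul {C : QS κ ι' p m} {L : Sb (κ ⊕ ι') p m} {x : VV (κ ⊕ ι') p m} :
    x ∈ C • L ↔ (shear C)⁻¹ • x ∈ L := by
  rw [QS_smul_def, mem_smul_iff]

theorem shear_inv_smul_inl (C : QS κ ι' p m) (x : VV (κ ⊕ ι') p m) (i : κ) :
    ((shear C)⁻¹ • x) (Sum.inl i) = x (Sum.inl i) := by
  rw [shear_inv, blk_smul_inl]

theorem shear_inv_smul_inr (C : QS κ ι' p m) (x : VV (κ ⊕ ι') p m) (j : ι') :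
    ((shear C)⁻¹ • x) (Sum.inr j) = x (Sum.inr j)
      - (Multiplicative.toAdd C : Matrix ι' κ (Rg p m)).mulVec (fun i => x (Sum.inl i)) j := by
  rw [shear_inv, blk_smul_inr, Matrix.neg_mulVec, Matrix.SpecialLinearGroup.coe_one,
    Matrix.one_mulVec, Pi.neg_apply, sub_eq_neg_add]

theorem mem_shear_ext {C : QS κ ι' p m} {L : Sb ι' p m} {x : VV (κ ⊕ ι') p m} :
    x ∈ C • ext κ L ↔ (∀ i : κ, x (Sum.inl i) ∈ cR p m) ∧ ((fun j => x (Sum.inr j))
      - (Multiplicative.toAdd C : Matrix ι' κ (Rg p m)).mulVec (fun i => x (Sum.inl i))) ∈ L := by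
  rw [mem_shear_smul, mem_ext]
  constructor
  · rintro ⟨h1, h2⟩
    refine ⟨fun i => ?_, ?_⟩
    · have := h1 i
      rwa [shear_inv_smul_inl] at this
    · convert h2 using 1
      funext j
      rw [shear_inv_smul_inr]
      rfl
  · rintro ⟨h1, h2⟩
    refine ⟨fun i => ?_, ?_⟩
    · rw [shear_inv_smul_inl]
      exact h1 i
    · convert h2 using 1
      funext j
      rw [shear_inv_smul_inr]
      rfl

theorem shear_zer (C : QS κ ι' p m) (S : Sb ι' p m) : C • zer κ S = zer κ S := by
  ext x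
  rw [mem_shear_smul, mem_zer, mem_zer]
  constructor
  · rintro ⟨h1, h2⟩
    have h1' : ∀ i, x (Sum.inl i) = 0 := fun i => by
      rw [← shear_inv_smul_inl C x i]
      exact h1 i
    refine ⟨h1', ?_⟩
    convert h2 using 1
    funext j
    rw [shear_inv_smul_inr]
    have : (fun i => x (Sum.inl i)) = 0 := funext h1'
    rw [this, Matrix.mulVec_zero]
    simp
  · rintro ⟨h1, h2⟩
    refine ⟨fun i => by rw [shear_inv_smul_inl]; exact h1 i, ?_⟩
    convert h2 using 1
    funext j
    rw [shear_inv_smul_inr]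
    have : (fun i => x (Sum.inl i)) = 0 := funext h1
    rw [this, Matrix.mulVec_zero]
    simp

theorem shear_vtx (C : QS κ ι' p m) (Wf S : Sb ι' p m) :
    C • ext κ (vtx Wf S) = vtx (C • ext κ Wf) (zer κ S) := by
  rw [← vtx_ext, QS_smul_def, smul_vtx, ← QS_smul_def, ← QS_smul_def, shear_zer]

/-- A translate of an extended subspace which is itself extended. -/
theorem shear_ext_eq {C : QS κ ι' p m} {L L' : Sb ι' p m} (h : C • ext κ L = ext κ L') :
    L' = L ∧ ∀ i : κ, (fun j => (Multiplicative.toAdd C : Matrix ι' κ (Rg p m)) j i) ∈ L := by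
  constructor
  · ext y
    rw [← inrV_mem_ext (κ := κ), ← h, mem_shear_ext]
    constructor
    · rintro ⟨_, h2⟩
      have : (fun i : κ => inrV κ y (Sum.inl i)) = 0 := rfl
      rw [this, Matrix.mulVec_zero, sub_zero] at h2
      exact h2
    · intro h2
      refine ⟨fun _ => zero_mem_cR, ?_⟩
      have : (fun i : κ => inrV κ y (Sum.inl i)) = 0 := rfl
      rw [this, Matrix.mulVec_zero, sub_zero]
      exact h2
  · intro i
    let x : VV (κ ⊕ ι') p m := Sum.elim (Pi.single i 1) 0
    have hx : x ∈ ext κ L' := by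
      refine ⟨fun l => ?_, zero_mem _⟩
      change (Pi.single i (1 : Rg p m) : κ → Rg p m) l ∈ cR p m
      by_cases hl : l = i
      · subst hl
        rw [Pi.single_eq_same]
        exact one_mem_cR
      · rw [Pi.single_eq_of_ne hl]
        exact zero_mem_cR
    rw [← h, mem_shear_ext] at hx
    have h2 := hx.2
    have e : (fun j => x (Sum.inr j)) = (0 : ι' → Rg p m) := rfl
    have e2 : (fun l : κ => x (Sum.inl l)) = Pi.single i (1 : Rg p m) := rfl
    rw [e, e2, zero_sub, Matrix.mulVec_single_one, neg_mem_iff] at h2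
    exact h2

/-- The converse: the stabilizer of an extended subspace. -/
theorem shear_ext_self {C : QS κ ι' p m} {L : Sb ι' p m}
    (h : ∀ i : κ, (fun j => (Multiplicative.toAdd C : Matrix ι' κ (Rg p m)) j i) ∈ L) :
    C • ext κ L = ext κ L := by
  ext x
  rw [mem_shear_ext, mem_ext]
  have key : (∀ i : κ, x (Sum.inl i) ∈ cR p m) →
      (Multiplicative.toAdd C : Matrix ι' κ (Rg p m)).mulVec (fun i => x (Sum.inl i)) ∈ L := by
    intro hx
    have e : (Multiplicative.toAdd C : Matrix ι' κ (Rg p m)).mulVec (fun i => x (Sum.inl i))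
        = ∑ i, x (Sum.inl i) • (fun j => (Multiplicative.toAdd C : Matrix ι' κ (Rg p m)) j i) := by
      funext j
      rw [Finset.sum_apply]
      unfold Matrix.mulVec dotProduct
      refine Finset.sum_congr rfl fun i _ => ?_
      change _ = x (Sum.inl i) * _
      rw [mul_comm]
    rw [e]
    refine Submodule.sum_mem _ fun i _ => ?_
    obtain ⟨a, ha⟩ := hx i
    rw [← ha]
    have : (Algebra.linearMap (ZMod p) (Rg p m)) a •
        (fun j => (Multiplicative.toAdd C : Matrix ι' κ (Rg p m)) j i)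
        = a • (fun j => (Multiplicative.toAdd C : Matrix ι' κ (Rg p m)) j i) := by
      rw [Algebra.linearMap_apply, algebraMap_smul]
    rw [this]
    exact Submodule.smul_mem _ a (h i)
  constructor
  · rintro ⟨h1, h2⟩
    refine ⟨h1, ?_⟩
    have := add_mem h2 (key h1)
    rwa [sub_add_cancel] at this
  · rintro ⟨h1, h2⟩
    exact ⟨h1, sub_mem h2 (key h1)⟩

theorem blk_ext (D : Matrix.SpecialLinearGroup ι' (Rg p m)) (L : Sb ι' p m) :
    toG (blkM (0 : Matrix ι' κ (Rg p m)) D) • ext κ L = ext κ (toG D • L) := by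
  ext x
  rw [mem_ext, Submodule.mem_smul_pointwise_iff_exists]
  constructor
  · rintro ⟨y, hy, rfl⟩
    refine ⟨fun i => ?_, ?_⟩
    · rw [blk_smul_inl]
      exact hy.1 i
    · rw [Submodule.mem_smul_pointwise_iff_exists]
      refine ⟨_, hy.2, ?_⟩
      funext j
      rw [blk_smul_inr, Matrix.zero_mulVec, Pi.zero_apply, zero_add]
      rfl
  · rintro ⟨h1, h2⟩
    rw [Submodule.mem_smul_pointwise_iff_exists] at h2
    obtain ⟨y, hy, hyx⟩ := h2
    refine ⟨Sum.elim (fun i => x (Sum.inl i)) y, ⟨h1, hy⟩, ?_⟩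
    funext i
    rcases i with i | j
    · rw [blk_smul_inl]
      rfl
    · rw [blk_smul_inr, Matrix.zero_mulVec, Pi.zero_apply, zero_add]
      exact congrFun hyx j

theorem blkM_eq_mul (C : Matrix ι' κ (Rg p m)) (D : Matrix.SpecialLinearGroup ι' (Rg p m)) :
    blkM C D = blkM C 1 * blkM 0 D := by
  apply Subtype.ext
  change Matrix.fromBlocks 1 0 C (D : Matrix ι' ι' (Rg p m))
    = Matrix.fromBlocks 1 0 C (1 : Matrix ι' ι' (Rg p m)) *
      Matrix.fromBlocks 1 0 0 (D : Matrix ι' ι' (Rg p m))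
  rw [Matrix.fromBlocks_multiply]
  simp

/-- Extended forms are forms. -/
theorem isForm_ext {Wf : Sb ι' p m} (h : IsForm Wf) (C : QS κ ι' p m) :
    IsForm (C • ext κ Wf) := by
  obtain ⟨g, rfl⟩ := h
  obtain ⟨D, rfl⟩ := exists_toG g
  refine ⟨shear C * toG (blkM 0 D), ?_⟩
  rw [QS_smul_def, mul_smul, ← ext_W0, blk_ext]

end Vale.Agent.P067
end
end

section

section

/-!
# P067: forms with constant `κ`-coordinates, structure of `Xcal`
-/

set_option autoImplicit false
set_option linter.unusedSectionVars false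

open Finset

namespace Vale.Agent.P067

attribute [local instance] Classical.propDecidable

open scoped Pointwise

variable {p m : ℕ} [Fact p.Prime]

/-- The residue map `R → F`, `t ↦ 0`. -/
noncomputable def resR (p m : ℕ) (hm : 0 < m) : Rg p m →+* ZMod p :=
  AdjoinRoot.lift (RingHom.id (ZMod p)) 0 (by
    rw [Polynomial.eval₂_pow, Polynomial.eval₂_X, zero_pow (by omega)])

theorem resR_algebraMap (hm : 0 < m) (a : ZMod p) :
    resR p m hm (algebraMap (ZMod p) (Rg p m) a) = a := by
  unfold resR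
  rw [AdjoinRoot.algebraMap_eq, AdjoinRoot.lift_of]
  rfl

section general

variable {ι : Type} [Fintype ι] [DecidableEq ι]

/-- A constant matrix of determinant one. -/
noncomputable def liftM (h : Matrix.SpecialLinearGroup ι (ZMod p)) :
    Matrix.SpecialLinearGroup ι (Rg p m) :=
  Matrix.SpecialLinearGroup.map (algebraMap (ZMod p) (Rg p m)) h

theorem liftM_apply (h : Matrix.SpecialLinearGroup ι (ZMod p)) (i j : ι) :
    (liftM (m := m) h : Matrix ι ι (Rg p m)) i j
      = algebraMap (ZMod p) (Rg p m) ((h : Matrix ι ι (ZMod p)) i j) := rfl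

theorem liftM_smul_W0_le (h : Matrix.SpecialLinearGroup ι (ZMod p)) :
    toG (liftM (m := m) h) • W0 ι p m ≤ W0 ι p m := by
  intro x hx
  rw [Submodule.mem_smul_pointwise_iff_exists] at hx
  obtain ⟨y, ⟨v, rfl⟩, rfl⟩ := hx
  rw [mem_W0]
  intro i
  refine ⟨(h : Matrix ι ι (ZMod p)).mulVec v i, ?_⟩
  rw [toG_smul]
  change algebraMap (ZMod p) (Rg p m) ((h : Matrix ι ι (ZMod p)).mulVec v i) = _
  unfold Matrix.mulVec dotProduct
  rw [map_sum]
  refine Finset.sum_congr rfl fun j _ => ?_
  rw [map_mul]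
  rfl

theorem liftM_smul_W0 (h : Matrix.SpecialLinearGroup ι (ZMod p)) :
    toG (liftM (m := m) h) • W0 ι p m = W0 ι p m := by
  apply le_antisymm (liftM_smul_W0_le h)
  intro x hx
  rw [mem_smul_iff, ← toG_inv]
  have e : (liftM (m := m) h)⁻¹ = liftM h⁻¹ := by
    unfold liftM
    rw [map_inv]
  rw [e]
  exact liftM_smul_W0_le h⁻¹ (Submodule.smul_mem_pointwise_smul x _ _ hx)

end general

variable {κ ι' : Type} [Fintype κ] [DecidableEq κ] [Fintype ι'] [DecidableEq ι']

/-- A form with constant `κ`-coordinates is a translate of `F^κ × W'`. -/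
theorem exists_block_form [Nonempty ι'] (hm : 0 < m) {Wf : Sb (κ ⊕ ι') p m} (h : IsForm Wf)
    (hc : ∀ x ∈ Wf, ∀ i : κ, x (Sum.inl i) ∈ cR p m) :
    ∃ (C : QS κ ι' p m) (W' : Sb ι' p m), IsForm W' ∧ Wf = C • ext κ W' := by
  obtain ⟨g, rfl⟩ := h
  obtain ⟨M, rfl⟩ := exists_toG g
  have h1 : ∀ (i : κ) (j : κ ⊕ ι'), (M : Matrix (κ ⊕ ι') (κ ⊕ ι') (Rg p m)) (Sum.inl i) j
      ∈ cR p m := by
    intro i j
    have h2 : toG M • (Pi.single j 1 : VV (κ ⊕ ι') p m) ∈ toG M • W0 (κ ⊕ ι') p m := by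
      apply Submodule.smul_mem_pointwise_smul
      rw [mem_W0]
      intro l
      by_cases hl : l = j
      · subst hl
        rw [Pi.single_eq_same]
        exact one_mem_cR
      · rw [Pi.single_eq_of_ne hl]
        exact zero_mem_cR
    have h3 := hc _ h2 i
    rw [toG_smul, Matrix.mulVec_single_one] at h3
    exact h3
  choose a ha using h1
  have ha' : ∀ i j, algebraMap (ZMod p) (Rg p m) (a i j)
      = (M : Matrix (κ ⊕ ι') (κ ⊕ ι') (Rg p m)) (Sum.inl i) j := ha
  -- the rows `a i` are independent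
  have hunit : IsUnit ((resR p m hm).mapMatrix (M : Matrix (κ ⊕ ι') (κ ⊕ ι') (Rg p m))) := by
    rw [Matrix.isUnit_iff_isUnit_det, ← RingHom.map_det, M.2, map_one]
    exact isUnit_one
  have hlin : LinearIndependent (ZMod p) (fun i j => RingHom.id (ZMod p) (a i j)) := by
    have h2 := (Matrix.linearIndependent_rows_iff_isUnit.2 hunit).comp
      (Sum.inl : κ → κ ⊕ ι') Sum.inl_injective
    convert h2 using 1
    funext i j
    change a i j = resR p m hm ((M : Matrix (κ ⊕ ι') (κ ⊕ ι') (Rg p m)) (Sum.inl i) j)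
    rw [← ha', resR_algebraMap]
  obtain ⟨H, hH⟩ := exists_SL_rows (RingHom.id (ZMod p)) Function.surjective_id
    (Equiv.refl (κ ⊕ ι')) a hlin
  set N : Matrix.SpecialLinearGroup (κ ⊕ ι') (Rg p m) := M * (liftM H)⁻¹ with hN
  have hrow : ∀ (i : κ) (j : κ ⊕ ι'), (N : Matrix (κ ⊕ ι') (κ ⊕ ι') (Rg p m)) (Sum.inl i) j
      = (1 : Matrix (κ ⊕ ι') (κ ⊕ ι') (Rg p m)) (Sum.inl i) j := by
    intro i j
    have e1 : (N : Matrix (κ ⊕ ι') (κ ⊕ ι') (Rg p m)) (Sum.inl i) j
        = ((liftM H * (liftM H)⁻¹ : Matrix.SpecialLinearGroup (κ ⊕ ι') (Rg p m)) :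
          Matrix (κ ⊕ ι') (κ ⊕ ι') (Rg p m)) (Sum.inl i) j := by
      rw [hN, Matrix.SpecialLinearGroup.coe_mul, Matrix.SpecialLinearGroup.coe_mul,
        Matrix.mul_apply, Matrix.mul_apply]
      refine Finset.sum_congr rfl fun l _ => ?_
      rw [← ha', liftM_apply]
      have := congrFun (hH i) l
      change (H : Matrix (κ ⊕ ι') (κ ⊕ ι') (ZMod p)) (Sum.inl i) l = a i l at this
      rw [this]
    rw [e1, mul_inv_cancel, Matrix.SpecialLinearGroup.coe_one]
  let C : Matrix ι' κ (Rg p m) := fun j i =>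
    (N : Matrix (κ ⊕ ι') (κ ⊕ ι') (Rg p m)) (Sum.inr j) (Sum.inl i)
  let D : Matrix ι' ι' (Rg p m) := fun j l =>
    (N : Matrix (κ ⊕ ι') (κ ⊕ ι') (Rg p m)) (Sum.inr j) (Sum.inr l)
  have hblk : (N : Matrix (κ ⊕ ι') (κ ⊕ ι') (Rg p m)) = Matrix.fromBlocks 1 0 C D := by
    ext a b
    rcases a with i | i <;> rcases b with j | j
    · rw [hrow]
      simp [Matrix.one_apply]
    · rw [hrow]
      simp
    · rfl
    · rfl
  have hD : D.det = 1 := by
    have := N.2
    rw [hblk, Matrix.det_fromBlocks_zero₁₂, Matrix.det_one, one_mul] at this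
    exact this
  obtain ⟨D', hD'⟩ : ∃ D' : Matrix.SpecialLinearGroup ι' (Rg p m),
      (D' : Matrix ι' ι' (Rg p m)) = D := ⟨⟨D, hD⟩, rfl⟩
  have hNblk : N = blkM C D' := by
    apply Subtype.ext
    rw [hblk, ← hD']
    rfl
  have hM : M = N * liftM H := by
    rw [hN, inv_mul_cancel_right]
  refine ⟨Multiplicative.ofAdd C, toG D' • W0 ι' p m, ⟨_, rfl⟩, ?_⟩
  rw [hM, toG_mul, mul_smul, liftM_smul_W0, hNblk, blkM_eq_mul, toG_mul, mul_smul, ← ext_W0,
    blk_ext]
  rfl

theorem finrank_zer (S : Sb ι' p m) :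
    Module.finrank (ZMod p) (zer κ S) = Module.finrank (ZMod p) S := by
  let f : VV ι' p m →ₗ[ZMod p] VV (κ ⊕ ι') p m :=
    { toFun := fun y => Sum.elim 0 y
      map_add' := by
        intro x y
        funext i
        rcases i with i | i
        · simp
        · rfl
      map_smul' := by
        intro a x
        funext i
        rcases i with i | i
        · simp
        · rfl }
  have hf : Function.Injective f := by
    intro x y h
    funext j
    exact congrFun h (Sum.inr j)
  have e : zer κ S = S.map f := by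
    ext x
    rw [mem_zer, Submodule.mem_map]
    constructor
    · rintro ⟨h1, h2⟩
      refine ⟨_, h2, ?_⟩
      funext i
      rcases i with i | i
      · exact (h1 i).symm
      · rfl
    · rintro ⟨y, hy, rfl⟩
      exact ⟨fun _ => rfl, hy⟩
  rw [e]
  exact (LinearEquiv.finrank_eq (Submodule.equivMapOfInjective f hf S)).symm

theorem smul_mono_Sb802 {ι : Type} [Fintype ι] [DecidableEq ι] (g : GG ι p m)
    {L L' : Sb ι p m} (h : L ≤ L') : g • L ≤ g • L' := by
  intro x hx
  rw [mem_smul_iff] at hx ⊢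
  exact h hx

theorem zer_lt_of {Wf S : Sb ι' p m} (h : S < Wf) (C : QS κ ι' p m) :
    zer κ S < C • ext κ Wf := by
  have h1 : zer κ S ≤ C • ext κ Wf := by
    rw [← shear_zer C S]
    have : zer κ S ≤ ext κ Wf := le_trans (zer_le_zer.2 h.le) zer_le_ext
    exact smul_mono_Sb802 _ this
  refine lt_of_le_of_ne h1 ?_
  intro h2
  obtain ⟨y, hy1, hy2⟩ := Set.exists_of_ssubset h
  have h3 : inrV κ y ∈ C • ext κ Wf := by
    rw [mem_shear_ext]
    refine ⟨fun _ => zero_mem_cR, ?_⟩
    have : (fun i : κ => inrV κ y (Sum.inl i)) = 0 := rfl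
    rw [this, Matrix.mulVec_zero, sub_zero]
    exact hy1
  rw [← h2] at h3
  exact hy2 h3.2

/-- Translates of extended simplices lie in `Xcal`. -/
theorem shear_ext_mem_Xcal (hm : 3 ≤ m) {τ : Finset (Sb ι' p m)} (hτ : τ ∈ XX ι' p m)
    (C : QS κ ι' p m) : τ.image (fun L => C • ext κ L) ∈ Xcal κ ι' p m := by
  obtain ⟨Wf, hW, c, hch, hlt, rfl⟩ := hτ
  have hform := isForm_ext hW C
  refine ⟨⟨C • ext κ Wf, hform, c.image (zer κ), ?_, ?_, ?_⟩, ?_⟩
  · rintro _ hx _ hy hne
    rw [Finset.coe_image] at hx hy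
    obtain ⟨S, hS, rfl⟩ := hx
    obtain ⟨S', hS', rfl⟩ := hy
    have : S ≠ S' := fun h => hne (by rw [h])
    rcases hch hS hS' this with h | h
    · exact Or.inl (zer_le_zer.2 h)
    · exact Or.inr (zer_le_zer.2 h)
  · intro S hS
    obtain ⟨S', hS', rfl⟩ := Finset.mem_image.1 hS
    exact zer_lt_of (hlt S' hS') C
  · rw [Finset.image_image, Finset.image_image]
    refine Finset.image_congr ?_
    intro S _
    exact shear_vtx C Wf S
  · intro L hL
    obtain ⟨L1, hL1, rfl⟩ := Finset.mem_image.1 hL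
    obtain ⟨S, hS, rfl⟩ := Finset.mem_image.1 hL1
    refine ⟨fun x hx i => (mem_shear_ext.1 hx).1 i, ?_⟩
    have h1 := zer_lt_of (κ := κ) (hlt S hS) C
    rw [ty]
    change Module.finrank (ZMod p) (Sp (C • ext κ (vtx Wf S))) < _
    rw [shear_vtx, Sp_vtx hm hform h1.le, finrank_zer, ← finrank_form (by omega) hW]
    exact Submodule.finrank_lt_finrank_of_lt (hlt S hS)

/-- Every simplex of `Xcal` is a translate of an extended simplex. -/
theorem exists_shear_ext [Nonempty ι'] (hm : 3 ≤ m) {σ : Finset (Sb (κ ⊕ ι') p m)}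
    (hσ : σ ∈ Xcal κ ι' p m) :
    ∃ C : QS κ ι' p m, ∃ τ ∈ XX ι' p m, σ = τ.image (fun L => C • ext κ L) := by
  obtain ⟨⟨Wf, hW, c, hch, hlt, rfl⟩, hL⟩ := hσ
  rcases c.eq_empty_or_nonempty with rfl | ⟨S0, hS0⟩
  · exact ⟨1, ∅, ⟨W0 ι' p m, isForm_W0, ∅, by simp only [coe_empty, IsChain.empty], by simp, by simp⟩, by simp⟩
  · have hc : ∀ x ∈ Wf, ∀ i : κ, x (Sum.inl i) ∈ cR p m := by
      intro x hx i
      exact (hL _ (Finset.mem_image_of_mem _ hS0)).1 x (Submodule.mem_sup_left hx) i
    obtain ⟨C, W', hW', rfl⟩ := exists_block_form (by omega) hW hc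
    -- the subspaces `S` have zero `κ`-coordinates
    have hz : ∀ S ∈ c, ∀ x ∈ S, ∀ i : κ, x (Sum.inl i) = 0 := by
      intro S hS x hx i
      apply cR_eq_zero (by omega : 2 ≤ m)
      · exact hc x ((hlt S hS).le hx) i
      · have h1 : tm (κ ⊕ ι') p m x ∈ vtx (C • ext κ W') S :=
          Submodule.mem_sup_right ⟨x, hx, rfl⟩
        exact (hL _ (Finset.mem_image_of_mem _ hS)).1 _ h1 i
    -- the corresponding subspaces of `V(ι')`
    let res : Sb (κ ⊕ ι') p m → Sb ι' p m := fun S =>
      { carrier := {y | inrV κ y ∈ S}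
        add_mem' := by
          intro x y hx hy
          have : inrV κ (x + y) = inrV κ x + inrV κ y := by
            funext i
            rcases i with i | i
            · simp [inrV]
            · rfl
          change inrV κ (x + y) ∈ S
          rw [this]
          exact add_mem hx hy
        zero_mem' := by
          have : inrV κ (0 : VV ι' p m) = 0 := by
            funext i
            rcases i with i | i <;> rfl
          change inrV κ (0 : VV ι' p m) ∈ S
          rw [this]
          exact zero_mem _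
        smul_mem' := by
          intro a x hx
          have : inrV κ (a • x) = a • inrV κ x := by
            funext i
            rcases i with i | i
            · simp [inrV]
            · rfl
          change inrV κ (a • x) ∈ S
          rw [this]
          exact Submodule.smul_mem _ a hx }
    have hres : ∀ S ∈ c, zer κ (res S) = S := by
      intro S hS
      ext x
      rw [mem_zer]
      constructor
      · rintro ⟨h1, h2⟩
        have : x = inrV κ (fun j => x (Sum.inr j)) := by
          funext i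
          rcases i with i | i
          · exact h1 i
          · rfl
        rw [this]
        exact h2
      · intro hx
        refine ⟨hz S hS x hx, ?_⟩
        have : x = inrV κ (fun j => x (Sum.inr j)) := by
          funext i
          rcases i with i | i
          · exact hz S hS x hx i
          · rfl
        change inrV κ (fun j => x (Sum.inr j)) ∈ S
        rw [← this]
        exact hx
    have hmono : ∀ S S' : Sb (κ ⊕ ι') p m, S ≤ S' → res S ≤ res S' := fun S S' h y hy => h hy
    have hlt' : ∀ S ∈ c, res S < W' := by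
      intro S hS
      have hle : res S ≤ W' := by
        intro y hy
        have h1 : inrV κ y ∈ C • ext κ W' := (hlt S hS).le hy
        rw [mem_shear_ext] at h1
        have h2 := h1.2
        have : (fun i : κ => inrV κ y (Sum.inl i)) = 0 := rfl
        rw [this, Matrix.mulVec_zero, sub_zero] at h2
        exact h2
      refine lt_of_le_of_ne hle ?_
      intro h2
      have h3 := (hL _ (Finset.mem_image_of_mem _ hS)).2
      rw [ty, Sp_vtx hm hW (hlt S hS).le, ← hres S hS, finrank_zer, h2,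
        finrank_form (by omega) hW'] at h3
      exact lt_irrefl _ h3
    refine ⟨C, (c.image res).image (vtx W'), ⟨W', hW', c.image res, ?_, ?_, rfl⟩, ?_⟩
    · rintro _ hx _ hy hne
      rw [Finset.coe_image] at hx hy
      obtain ⟨S, hS, rfl⟩ := hx
      obtain ⟨S', hS', rfl⟩ := hy
      have : S ≠ S' := fun h => hne (by rw [h])
      rcases hch hS hS' this with h | h
      · exact Or.inl (hmono _ _ h)
      · exact Or.inr (hmono _ _ h)
    · intro S hS
      obtain ⟨S', hS', rfl⟩ := Finset.mem_image.1 hS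
      exact hlt' S' hS'
    · rw [Finset.image_image, Finset.image_image]
      refine Finset.image_congr ?_
      intro S hS
      change vtx (C • ext κ W') S = C • ext κ (vtx W' (res S))
      rw [shear_vtx, hres S hS]

end Vale.Agent.P067
end
end

section

section

/-! # P067: characters of vector spaces over `ZMod p` with values in a field -/

set_option autoImplicit false

namespace Vale.Agent.P067

variable {p : ℕ} [Fact p.Prime] {A : Type*} [AddCommGroup A] [Module (ZMod p) A]
  {k : Type*} [Field k]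

/-- The kernel of a nontrivial character of an `F`-vector space is the kernel of a nonzero
linear form. -/
theorem exists_linear_of_char (ψ : Multiplicative A →* kˣ) (hψ : ψ ≠ 1) :
    ∃ ℓ : A →ₗ[ZMod p] ZMod p, ℓ ≠ 0 ∧ ∀ a : A, ψ (Multiplicative.ofAdd a) = 1 ↔ ℓ a = 0 := by
  classical
  have hp : p.Prime := Fact.out
  have hpow : ∀ a : A, ψ (Multiplicative.ofAdd a) ^ p = 1 := by
    intro a
    rw [← map_pow, ← ofAdd_nsmul]
    have : (p • a : A) = 0 := by
      rw [← Nat.cast_smul_eq_nsmul (ZMod p) p a, ZMod.natCast_self, zero_smul]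
    rw [this, ofAdd_zero, map_one]
  obtain ⟨a0, ha0⟩ : ∃ a0 : A, ψ (Multiplicative.ofAdd a0) ≠ 1 := by
    by_contra hcon
    push Not at hcon
    exact hψ (MonoidHom.ext fun x => hcon (Multiplicative.toAdd x))
  set ζ : kˣ := ψ (Multiplicative.ofAdd a0) with hζ
  have hprim : IsPrimitiveRoot ζ p := by
    have h1 : orderOf ζ = p := orderOf_eq_prime (hpow a0) ha0
    rw [← h1]
    exact IsPrimitiveRoot.orderOf ζ
  have : NeZero p := ⟨hp.ne_zero⟩
  have hmem : ∀ a : A, ψ (Multiplicative.ofAdd a) ∈ Subgroup.zpowers ζ := by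
    intro a
    rw [hprim.zpowers_eq, mem_rootsOfUnity]
    exact hpow a
  let f : A →+ Additive (Subgroup.zpowers ζ) :=
    { toFun := fun a => Additive.ofMul ⟨ψ (Multiplicative.ofAdd a), hmem a⟩
      map_zero' := by
        apply Additive.toMul.injective
        apply Subtype.ext
        simp only [ofAdd_zero, map_one, toMul_ofMul, toMul_zero, OneMemClass.coe_one]
      map_add' := fun a b => by
        apply Additive.toMul.injective
        apply Subtype.ext
        simp }
  let e := hprim.zmodEquivZPowers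
  let g : A →+ ZMod p := (e.symm : Additive (Subgroup.zpowers ζ) →+ ZMod p).comp f
  refine ⟨g.toZModLinearMap p, ?_, ?_⟩
  · intro h0
    have h1 : g a0 = 0 := by
      have := LinearMap.congr_fun h0 a0
      simpa only [AddMonoidHom.coe_toZModLinearMap, LinearMap.zero_apply] using this
    have h2 : f a0 = 0 := by
      have : e.symm (f a0) = 0 := h1
      simpa using this
    apply ha0
    have h3 := congrArg (fun x => ((Additive.toMul x : Subgroup.zpowers ζ) : kˣ)) h2
    simpa [f] using h3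
  · intro a
    have h1 : (g.toZModLinearMap p) a = 0 ↔ f a = 0 := by
      change e.symm (f a) = 0 ↔ f a = 0
      simp
    rw [h1]
    constructor
    · intro h
      apply Additive.toMul.injective
      apply Subtype.ext
      simpa [f] using h
    · intro h
      have h3 := congrArg (fun x => ((Additive.toMul x : Subgroup.zpowers ζ) : kˣ)) h
      simpa [f] using h3

end Vale.Agent.P067
end
end

section

section

/-!
# P067: (S2*), acyclicity of `Xcal` and reduction to the fundamental domain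
-/

set_option autoImplicit false
set_option linter.unusedSectionVars false

open Finset

namespace Vale.Agent.P067

attribute [local instance] Classical.propDecidable

open scoped Pointwise

variable {p m : ℕ} [Fact p.Prime]
variable {κ ι' : Type} [Fintype κ] [DecidableEq κ] [Fintype ι'] [DecidableEq ι']

instance instFiniteQS : Finite (QS κ ι' p m) :=
  inferInstanceAs (Finite (ι' → κ → Rg p m))

theorem odd_card_QS (hp2 : p ≠ 2) : Odd (Nat.card (QS κ ι' p m)) := by
  have hp : p.Prime := Fact.out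
  have : Fintype (ι' → κ → Rg p m) := Fintype.ofFinite _
  have h1 : Nat.card (QS κ ι' p m) = Nat.card (ι' → κ → Rg p m) := rfl
  have h2 : Nat.card (ι' → κ → Rg p m)
      = p ^ Module.finrank (ZMod p) (ι' → κ → Rg p m) := by
    rw [Nat.card_eq_fintype_card, Module.card_eq_pow_finrank (K := ZMod p), ZMod.card]
  rw [h1, h2]
  exact (hp.odd_of_ne_two hp2).pow

theorem chain_of_mem_XX {ι : Type} [Fintype ι] [DecidableEq ι] {σ : Finset (Sb ι p m)}
    (hσ : σ ∈ XX ι p m) : IsChain (· ≤ ·) (σ : Set (Sb ι p m)) := by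
  obtain ⟨Wf, hW, c, hch, hlt, rfl⟩ := hσ
  rintro _ hx _ hy hne
  rw [Finset.coe_image] at hx hy
  obtain ⟨S, hS, rfl⟩ := hx
  obtain ⟨S', hS', rfl⟩ := hy
  have : S ≠ S' := fun h => hne (by rw [h])
  rcases hch hS hS' this with h | h
  · exact Or.inl (sup_le_sup_left (Submodule.map_mono h) _)
  · exact Or.inr (sup_le_sup_left (Submodule.map_mono h) _)

/-- A nonempty simplex has a smallest vertex. -/
theorem exists_least_of_mem_XX {ι : Type} [Fintype ι] [DecidableEq ι] {σ : Finset (Sb ι p m)}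
    (hσ : σ ∈ XX ι p m) (hne : σ.Nonempty) : ∃ L0 ∈ σ, ∀ L ∈ σ, L0 ≤ L := by
  obtain ⟨L0, hL0, hmin⟩ := Finset.exists_minimal hne
  refine ⟨L0, hL0, fun L hL => ?_⟩
  by_cases h : L0 = L
  · exact h.le
  · rcases chain_of_mem_XX hσ hL0 hL h with h1 | h1
    · exact h1
    · exact hmin hL h1

theorem image_comp_smul (C C' : QS κ ι' p m) (τ : Finset (Sb ι' p m)) :
    (τ.image (fun L => C • ext κ L)).image (fun x => C' • x)
      = τ.image (fun L => (C' * C) • ext κ L) := by
  rw [Finset.image_image]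
  refine Finset.image_congr fun L _ => ?_
  simp [mul_smul]

theorem one_smul_image (τ : Finset (Sb ι' p m)) :
    τ.image (fun L => (1 : QS κ ι' p m) • ext κ L) = τ.image (ext κ) := by
  refine Finset.image_congr fun L _ => ?_
  simp

/-- The extended simplices form a strict fundamental domain of `Xcal`. -/
theorem strictDom_Xcal [Nonempty ι'] (hm : 3 ≤ m) :
    StrictDom (QS κ ι' p m) (Xcal κ ι' p m) (FdX κ ι' p m) where
  sub := by
    rintro _ ⟨τ, hτ, rfl⟩
    have := shear_ext_mem_Xcal hm hτ (1 : QS κ ι' p m)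
    rwa [one_smul_image] at this
  down := by
    rintro _ ⟨τ, hτ, rfl⟩ t ht
    simp only [Finset.subset_image_iff] at ht
    obtain ⟨τ', hτ', rfl⟩ := ht
    exact ⟨τ', downClosed_XX τ hτ τ' hτ', rfl⟩
  inv := by
    intro g σ hσ
    obtain ⟨C, τ, hτ, rfl⟩ := exists_shear_ext hm hσ
    have h1 := shear_ext_mem_Xcal hm hτ (g * C)
    rw [← image_comp_smul] at h1
    exact h1
  cov := by
    intro σ hσ
    obtain ⟨C, τ, hτ, rfl⟩ := exists_shear_ext hm hσ
    refine ⟨C⁻¹, τ, hτ, ?_⟩
    change τ.image (ext κ) = (τ.image (fun L => C • ext κ L)).image (fun x => C⁻¹ • x)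
    rw [image_comp_smul, inv_mul_cancel, one_smul_image]
  strict := by
    rintro g _ ⟨τ, hτ, rfl⟩ ⟨τ', hτ', h⟩
    change τ'.image (ext κ) = (τ.image (ext κ)).image (fun x => g • x) at h
    have key : ∀ L ∈ τ, g • ext κ L = ext κ L := by
      intro L hL
      have h1 : g • ext κ L ∈ (τ.image (ext κ)).image (fun x => g • x) :=
        Finset.mem_image_of_mem _ (Finset.mem_image_of_mem _ hL)
      rw [← h] at h1
      obtain ⟨L', _, hL'⟩ := Finset.mem_image.1 h1
      have h2 := (shear_ext_eq hL'.symm).1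
      rw [h2] at hL'
      exact hL'.symm
    change (τ.image (ext κ)).image (fun x => g • x) = τ.image (ext κ)
    rw [Finset.image_image]
    exact Finset.image_congr fun L hL => key L hL

/-- The relative acyclicity needed for the averaging lemmas, from (M*). -/
theorem relAcyc_FdX {k : Type*} [Field k] [CharP k 2] (q : ℕ)
    (hM : ∀ H : Sb ι' p m, H ≠ ⊤ →
      RelAcyc k (XX ι' p m) {σ | σ ∈ XX ι' p m ∧ ∀ L ∈ σ, ¬ L ≤ H} q)
    (ψ : QS κ ι' p m →* kˣ) (hψ : ψ ≠ 1) :
    RelAcyc k (FdX κ ι' p m) {σ | σ ∈ FdX κ ι' p m ∧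
      ∃ g : QS κ ι' p m, σ.image (fun x => g • x) = σ ∧ ψ g ≠ 1} q := by
  obtain ⟨l, hl0, hl⟩ := exists_linear_of_char (p := p) (A := Matrix ι' κ (Rg p m)) ψ hψ
  -- the matrix with column `x` at `i`
  let col : κ → VV ι' p m →ₗ[ZMod p] Matrix ι' κ (Rg p m) := fun i =>
    { toFun := fun x => Matrix.of fun j i' => if i' = i then x j else 0
      map_add' := by
        intro x y
        ext j i'
        simp only [Matrix.of_apply, Matrix.add_apply, Pi.add_apply]
        split_ifs <;> simp
      map_smul' := by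
        intro a x
        ext j i'
        simp only [Matrix.of_apply, Matrix.smul_apply, Pi.smul_apply, RingHom.id_apply]
        split_ifs <;> simp }
  have hcol : ∀ (C : Matrix ι' κ (Rg p m)), C = ∑ i, col i (fun j => C j i) := by
    intro C
    ext j i'
    rw [Matrix.sum_apply]
    simp only [LinearMap.coe_mk, AddHom.coe_mk, Matrix.of_apply, sum_ite_eq, mem_univ, ↓reduceIte, col]
  let H : Sb ι' p m := ⨅ i, LinearMap.ker (l ∘ₗ col i)
  have hmemH : ∀ x, x ∈ H ↔ ∀ i, l (col i x) = 0 := by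
    intro x
    simp only [Submodule.mem_iInf, LinearMap.mem_ker, LinearMap.coe_comp, Function.comp_apply, H]
  have hH : H ≠ ⊤ := by
    intro h
    apply hl0
    ext C
    rw [hcol C, map_sum]
    simp only [LinearMap.zero_apply]
    refine Finset.sum_eq_zero fun i _ => ?_
    have : (fun j => C j i) ∈ H := by rw [h]; exact Submodule.mem_top
    exact (hmemH _).1 this i
  have h1 : RelAcyc k ((fun s : Finset (Sb ι' p m) => s.image (ext κ)) '' XX ι' p m)
      ((fun s : Finset (Sb ι' p m) => s.image (ext κ)) ''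
        {σ | σ ∈ XX ι' p m ∧ ∀ L ∈ σ, ¬ L ≤ H}) q := (hM H hH).image (ext_injective (κ := κ))
  have e : (fun s : Finset (Sb ι' p m) => s.image (ext κ)) ''
      {σ | σ ∈ XX ι' p m ∧ ∀ L ∈ σ, ¬ L ≤ H}
      = {σ | σ ∈ FdX κ ι' p m ∧
        ∃ g : QS κ ι' p m, σ.image (fun x => g • x) = σ ∧ ψ g ≠ 1} := by
    ext σ
    constructor
    · rintro ⟨τ, ⟨hτ, hτH⟩, rfl⟩
      refine ⟨⟨τ, hτ, rfl⟩, ?_⟩
      rcases τ.eq_empty_or_nonempty with rfl | hne
      · obtain ⟨g, hg⟩ : ∃ g, ψ g ≠ 1 := by
          by_contra hcon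
          push Not at hcon
          exact hψ (MonoidHom.ext hcon)
        exact ⟨g, by simp, hg⟩
      · obtain ⟨L0, hL0, hmin⟩ := exists_least_of_mem_XX hτ hne
        have h2 := hτH L0 hL0
        obtain ⟨x, hx, hxH⟩ := Set.not_subset.1 h2
        have hxH' : ¬ x ∈ H := hxH
        rw [hmemH] at hxH'
        push Not at hxH'
        obtain ⟨i, hi⟩ := hxH'
        refine ⟨Multiplicative.ofAdd (col i x), ?_, ?_⟩
        · let C0 : QS κ ι' p m := Multiplicative.ofAdd (col i x)
          change (τ.image (ext κ)).image (fun y => C0 • y) = τ.image (ext κ)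
          rw [Finset.image_image]
          refine Finset.image_congr fun L hL => ?_
          refine shear_ext_self fun i' => ?_
          change (fun j => (col i x) j i') ∈ L
          by_cases hii : i' = i
          · have : (fun j => (col i x) j i') = x := by
              funext j
              simp only [hii, LinearMap.coe_mk, AddHom.coe_mk, Matrix.of_apply, ↓reduceIte, col]
            rw [this]
            exact hmin L hL hx
          · have : (fun j => (col i x) j i') = 0 := by
              funext j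
              simp [col, hii]
            rw [this]
            exact zero_mem _
        · intro h3
          exact hi ((hl _).1 h3)
    · rintro ⟨⟨τ, hτ, rfl⟩, g, hg, hg1⟩
      refine ⟨τ, ⟨hτ, fun L hL hLH => hg1 ?_⟩, rfl⟩
      have h2 : g • ext κ L ∈ (τ.image (ext κ)).image (fun x => g • x) :=
        Finset.mem_image_of_mem _ (Finset.mem_image_of_mem _ hL)
      have hg' : (τ.image (ext κ)).image (fun x => g • x) = τ.image (ext κ) := hg
      rw [hg'] at h2
      obtain ⟨L', _, hL'⟩ := Finset.mem_image.1 h2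
      have h3 := (shear_ext_eq hL'.symm).2
      have h4 : l (Multiplicative.toAdd g : Matrix ι' κ (Rg p m)) = 0 := by
        rw [hcol (Multiplicative.toAdd g : Matrix ι' κ (Rg p m)), map_sum]
        refine Finset.sum_eq_zero fun i _ => ?_
        exact (hmemH _).1 (hLH (h3 i)) i
      exact (hl _).2 h4
  rw [e] at h1
  exact h1

section main

variable {k : Type*} [Field k] [IsAlgClosed k] [CharP k 2]

/-- (S2*) (i): acyclicity of `Xcal`. -/
theorem S2star_acyc [Nonempty ι'] (hp2 : p ≠ 2) (hm : 3 ≤ m) (q : ℕ)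
    (hM : ∀ H : Sb ι' p m, H ≠ ⊤ →
      RelAcyc k (XX ι' p m) {σ | σ ∈ XX ι' p m ∧ ∀ L ∈ σ, ¬ L ≤ H} q)
    (h : Acyc k (XX ι' p m) q) : Acyc k (Xcal κ ι' p m) q :=
  acyc_of_comm_odd (odd_card_QS hp2) _ _ (strictDom_Xcal hm) q
    (fun ψ hψ => relAcyc_FdX q hM ψ hψ) (h.image ext_injective)

/-- (S2*) (ii): every cycle in `Xcal` is homologous to a cycle in the fundamental domain. -/
theorem S2star_homologous [Nonempty ι'] (hp2 : p ≠ 2) (hm : 3 ≤ m) (q : ℕ)
    (hM : ∀ H : Sb ι' p m, H ≠ ⊤ →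
      RelAcyc k (XX ι' p m) {σ | σ ∈ XX ι' p m ∧ ∀ L ∈ σ, ¬ L ≤ H} q)
    (c : Finset (Sb (κ ⊕ ι') p m) →₀ k) (hc : ChainIn (Xcal κ ι' p m) q c) (hbd : bd c = 0) :
    ∃ a y : Finset (Sb (κ ⊕ ι') p m) →₀ k, ChainIn (FdX κ ι' p m) q a ∧ bd a = 0 ∧
      ChainIn (Xcal κ ι' p m) (q + 1) y ∧ c = a + bd y :=
  homologous_of_comm_odd (odd_card_QS hp2) _ _ (strictDom_Xcal hm) q
    (fun ψ hψ => relAcyc_FdX q hM ψ hψ) c hc hbd

/-- (S2*) (iii): the shears act trivially on the classes of cycles in the fundamental domain. -/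
theorem S2star_act [Nonempty ι'] (hp2 : p ≠ 2) (hm : 3 ≤ m) (q : ℕ)
    (hM : ∀ H : Sb ι' p m, H ≠ ⊤ →
      RelAcyc k (XX ι' p m) {σ | σ ∈ XX ι' p m ∧ ∀ L ∈ σ, ¬ L ≤ H} q)
    (a : Finset (Sb (κ ⊕ ι') p m) →₀ k) (ha : ChainIn (FdX κ ι' p m) q a) (hbd : bd a = 0)
    (g : QS κ ι' p m) :
    ∃ y : Finset (Sb (κ ⊕ ι') p m) →₀ k, ChainIn (Xcal κ ι' p m) (q + 1) y ∧
      act g a + a = bd y :=
  act_homologous_of_comm_odd (odd_card_QS hp2) _ _ (strictDom_Xcal hm) q
    (fun ψ hψ => relAcyc_FdX q hM ψ hψ) a ha hbd g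

end main

end Vale.Agent.P067
end
end

section

section

/-!
# P067: transport of `X` along linear equivalences carrying forms to forms
-/

set_option autoImplicit false
set_option linter.unusedSectionVars false

open Finset

namespace Vale.Agent.P067

attribute [local instance] Classical.propDecidable

open scoped Pointwise

variable {p m : ℕ} [Fact p.Prime]
variable {ι ι₂ : Type} [Fintype ι] [DecidableEq ι] [Fintype ι₂] [DecidableEq ι₂]

/-- Image of a subspace under an `R`-linear equivalence. -/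
noncomputable def mE (E : VV ι p m ≃ₗ[Rg p m] VV ι₂ p m) (L : Sb ι p m) : Sb ι₂ p m :=
  L.map (E.restrictScalars (ZMod p) : VV ι p m →ₗ[ZMod p] VV ι₂ p m)

theorem mem_mE {E : VV ι p m ≃ₗ[Rg p m] VV ι₂ p m} {L : Sb ι p m} {x : VV ι₂ p m} :
    x ∈ mE E L ↔ E.symm x ∈ L := by
  unfold mE
  rw [Submodule.mem_map]
  constructor
  · rintro ⟨y, hy, rfl⟩
    change E.symm (E y) ∈ L
    rwa [E.symm_apply_apply]
  · intro h
    exact ⟨_, h, E.apply_symm_apply x⟩

theorem mE_symm_mE (E : VV ι p m ≃ₗ[Rg p m] VV ι₂ p m) (L : Sb ι p m) :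
    mE E.symm (mE E L) = L := by
  ext x
  rw [mem_mE, mem_mE, LinearEquiv.symm_symm, E.symm_apply_apply]

theorem mE_mE_symm (E : VV ι p m ≃ₗ[Rg p m] VV ι₂ p m) (L : Sb ι₂ p m) :
    mE E (mE E.symm L) = L := mE_symm_mE E.symm L

theorem mE_injective (E : VV ι p m ≃ₗ[Rg p m] VV ι₂ p m) : Function.Injective (mE E) :=
  Function.LeftInverse.injective (mE_symm_mE E)

theorem mE_le {E : VV ι p m ≃ₗ[Rg p m] VV ι₂ p m} {L L' : Sb ι p m} (h : L ≤ L') :
    mE E L ≤ mE E L' := Submodule.map_mono h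

theorem mE_lt {E : VV ι p m ≃ₗ[Rg p m] VV ι₂ p m} {L L' : Sb ι p m} (h : L < L') :
    mE E L < mE E L' :=
  lt_of_le_of_ne (mE_le h.le) fun e => h.ne (mE_injective E e)

theorem mE_tm (E : VV ι p m ≃ₗ[Rg p m] VV ι₂ p m) (S : Sb ι p m) :
    mE E (S.map (tm ι p m)) = (mE E S).map (tm ι₂ p m) := by
  ext x
  constructor
  · intro hx
    rw [mem_mE, Submodule.mem_map] at hx
    obtain ⟨y, hy, hyx⟩ := hx
    refine ⟨E y, ?_, ?_⟩
    · change E y ∈ mE E S
      rw [mem_mE, E.symm_apply_apply]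
      exact hy
    · rw [tm_apply] at hyx ⊢
      rw [← map_smul, hyx, E.apply_symm_apply]
  · rintro ⟨y, hy, rfl⟩
    have hy' : E.symm y ∈ S := mem_mE.1 hy
    rw [mem_mE, tm_apply, map_smul]
    exact ⟨_, hy', rfl⟩

theorem mE_vtx (E : VV ι p m ≃ₗ[Rg p m] VV ι₂ p m) (Wf S : Sb ι p m) :
    mE E (vtx Wf S) = vtx (mE E Wf) (mE E S) := by
  unfold vtx
  rw [← mE_tm]
  exact Submodule.map_sup _ _ _

theorem Sp_mE (E : VV ι p m ≃ₗ[Rg p m] VV ι₂ p m) (L : Sb ι p m) :
    Sp (mE E L) = mE E (Sp L) := by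
  ext x
  unfold Sp
  rw [Submodule.mem_inf, mem_mE, mem_mE, Submodule.mem_inf, Submodule.mem_comap,
    Submodule.mem_comap, mem_mE, tm_apply, tm_apply, map_smul]

theorem finrank_mE (E : VV ι p m ≃ₗ[Rg p m] VV ι₂ p m) (L : Sb ι p m) :
    Module.finrank (ZMod p) (mE E L) = Module.finrank (ZMod p) L :=
  (LinearEquiv.finrank_eq (Submodule.equivMapOfInjective
    (E.restrictScalars (ZMod p) : VV ι p m →ₗ[ZMod p] VV ι₂ p m) E.injective L)).symm

theorem ty_mE (E : VV ι p m ≃ₗ[Rg p m] VV ι₂ p m) (L : Sb ι p m) : ty (mE E L) = ty L := by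
  unfold ty
  rw [Sp_mE, finrank_mE]

theorem mE_smul (E : VV ι p m ≃ₗ[Rg p m] VV ι₂ p m) (g : GG ι p m) (L : Sb ι p m) :
    mE E (g • L) = (SpecialLinearGroup.congr_linearEquiv E g : GG ι₂ p m) • mE E L := by
  ext x
  rw [mem_mE, mem_smul_iff, mem_smul_iff, mem_mE, ← map_inv]
  have : (SpecialLinearGroup.congr_linearEquiv E g⁻¹ : GG ι₂ p m) • x
      = E (g⁻¹ • E.symm x) := rfl
  rw [this, E.symm_apply_apply]

theorem isForm_mE (E : VV ι p m ≃ₗ[Rg p m] VV ι₂ p m) (h0 : IsForm (mE E (W0 ι p m)))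
    {Wf : Sb ι p m} (h : IsForm Wf) : IsForm (mE E Wf) := by
  obtain ⟨g, rfl⟩ := h
  rw [mE_smul]
  exact h0.smul _

theorem image_mE_mem_XX (E : VV ι p m ≃ₗ[Rg p m] VV ι₂ p m) (h0 : IsForm (mE E (W0 ι p m)))
    {σ : Finset (Sb ι p m)} (hσ : σ ∈ XX ι p m) : σ.image (mE E) ∈ XX ι₂ p m := by
  obtain ⟨Wf, hW, c, hch, hlt, rfl⟩ := hσ
  refine ⟨mE E Wf, isForm_mE E h0 hW, c.image (mE E), ?_, ?_, ?_⟩
  · rintro _ hx _ hy hne
    rw [Finset.coe_image] at hx hy
    obtain ⟨S, hS, rfl⟩ := hx
    obtain ⟨S', hS', rfl⟩ := hy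
    have : S ≠ S' := fun h => hne (by rw [h])
    rcases hch hS hS' this with h | h
    · exact Or.inl (mE_le h)
    · exact Or.inr (mE_le h)
  · intro S hS
    obtain ⟨S', hS', rfl⟩ := Finset.mem_image.1 hS
    exact mE_lt (hlt S' hS')
  · rw [Finset.image_image, Finset.image_image]
    exact Finset.image_congr fun S _ => mE_vtx E Wf S

/-- The standard forms correspond under reindexing. -/
theorem mE_reindex_W0 (e : ι₂ ≃ ι) :
    mE (LinearEquiv.funCongrLeft (Rg p m) (Rg p m) e : VV ι p m ≃ₗ[Rg p m] VV ι₂ p m)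
      (W0 ι p m) = W0 ι₂ p m := by
  ext x
  rw [mem_mE, mem_W0, mem_W0]
  constructor
  · intro h j
    have := h (e j)
    simpa [LinearEquiv.funCongrLeft_symm] using this
  · intro h i
    have := h (e.symm i)
    simpa [LinearEquiv.funCongrLeft_symm] using this

/-- The linear equivalence given by a matrix of determinant one followed by a reindexing. -/
noncomputable def EM (M : Matrix.SpecialLinearGroup ι (Rg p m)) (ε : ι ≃ ι₂) :
    VV ι p m ≃ₗ[Rg p m] VV ι₂ p m :=
  ((toG M : GG ι p m) : VV ι p m ≃ₗ[Rg p m] VV ι p m).trans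
    (LinearEquiv.funCongrLeft (Rg p m) (Rg p m) ε.symm)

theorem EM_apply (M : Matrix.SpecialLinearGroup ι (Rg p m)) (ε : ι ≃ ι₂) (x : VV ι p m) (j : ι₂) :
    EM M ε x j = (M : Matrix ι ι (Rg p m)).mulVec x (ε.symm j) := rfl

theorem isForm_EM (M : Matrix.SpecialLinearGroup ι (Rg p m)) (ε : ι ≃ ι₂) :
    IsForm (mE (EM M ε) (W0 ι p m)) := by
  have e : mE (EM M ε) (W0 ι p m)
      = mE (LinearEquiv.funCongrLeft (Rg p m) (Rg p m) ε.symm : VV ι p m ≃ₗ[Rg p m] VV ι₂ p m)
        (toG M • W0 ι p m) := by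
    ext x
    rw [mem_mE, mem_mE, mem_smul_iff]
    rfl
  rw [e, mE_smul, mE_reindex_W0]
  exact ⟨_, rfl⟩

theorem isForm_EM_symm (M : Matrix.SpecialLinearGroup ι (Rg p m)) (ε : ι ≃ ι₂) :
    IsForm (mE (EM M ε).symm (W0 ι₂ p m)) := by
  obtain ⟨h, hh⟩ := isForm_EM M ε
  have e : W0 ι₂ p m = h⁻¹ • mE (EM M ε) (W0 ι p m) := by
    rw [hh, inv_smul_smul]
  rw [e, mE_smul, mE_symm_mE]
  exact ⟨_, rfl⟩

end Vale.Agent.P067
end
end

section

section

/-! # P067, module M9b: Morse lemma (see blueprint part 4) -/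

set_option autoImplicit false

open Finset

namespace Vale.Agent.P067

attribute [local instance] Classical.propDecidable

variable {α : Type*} {k : Type*} [Field k] [CharP k 2]

section Morse

/-- bad vertices of level `n` in the support of `c` -/
noncomputable def badAt (A : Set α) (level : α → ℕ) (n : ℕ) (c : Finset α →₀ k) : Finset α :=
  (c.support.biUnion id).filter fun x => x ∉ A ∧ level x = n

omit [CharP k 2] in
theorem mem_badAt {A : Set α} {level : α → ℕ} {n : ℕ} {c : Finset α →₀ k} {x : α} :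
    x ∈ badAt A level n c ↔ (∃ s ∈ c.support, x ∈ s) ∧ x ∉ A ∧ level x = n := by
  simp only [badAt, Finset.mem_filter, Finset.mem_biUnion, id]

theorem relAcyc_morse_aux (K : Set (Finset α)) (hK : DownClosed K) (A : Set α) (level : α → ℕ)
    (q : ℕ)
    (hinj : ∀ σ ∈ K, ∀ x ∈ σ, ∀ y ∈ σ, x ∉ A → y ∉ A → level x = level y → x = y)
    (hlink : ∀ x, x ∉ A → ({x} : Finset α) ∈ K → 1 ≤ q →
      Acyc k {τ | x ∉ τ ∧ insert x τ ∈ K ∧ ∀ y ∈ τ, y ∈ A ∨ level y < level x} (q - 1)) (n : ℕ) :
    ∀ c : Finset α →₀ k, ChainIn K q c → (∀ s ∈ (bd c).support, ∀ x ∈ s, x ∈ A) →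
      (∀ s ∈ c.support, ∀ x ∈ s, x ∈ A ∨ level x < n) →
      ∃ y : Finset α →₀ k, ChainIn K (q + 1) y ∧ ∀ s ∈ (c + bd y).support, ∀ x ∈ s, x ∈ A := by
  induction n with
  | zero =>
    intro c hc hb hlev
    refine ⟨0, ChainIn.zero K _, fun s hs x hx => ?_⟩
    rw [map_zero, add_zero] at hs
    rcases hlev s hs x hx with h | h
    · exact h
    · exact absurd h (Nat.not_lt_zero _)
  | succ n ih =>
    -- induction on the number of bad vertices at level `n`
    have key : ∀ m : ℕ, ∀ c : Finset α →₀ k, (badAt A level n c).card = m → ChainIn K q c →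
        (∀ s ∈ (bd c).support, ∀ x ∈ s, x ∈ A) →
        (∀ s ∈ c.support, ∀ x ∈ s, x ∈ A ∨ level x < n + 1) →
        ∃ y : Finset α →₀ k, ChainIn K (q + 1) y ∧
          ∀ s ∈ (c + bd y).support, ∀ x ∈ s, x ∈ A := by
      intro m
      induction m using Nat.strong_induction_on with
      | _ m ihm =>
        intro c hcard hc hb hlev
        by_cases hempty : badAt A level n c = ∅
        · refine ih c hc hb fun s hs x hx => ?_
          rcases hlev s hs x hx with h | h
          · exact Or.inl h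
          · by_cases hxA : x ∈ A
            · exact Or.inl hxA
            · right
              have : level x ≠ n := by
                intro he
                have : x ∈ badAt A level n c := mem_badAt.2 ⟨⟨s, hs, hx⟩, hxA, he⟩
                rw [hempty] at this
                simp at this
              omega
        · obtain ⟨x, hx⟩ := Finset.nonempty_iff_ne_empty.2 hempty
          obtain ⟨⟨s0, hs0, hxs0⟩, hxA, hxn⟩ := mem_badAt.1 hx
          have hxK : ({x} : Finset α) ∈ K :=
            hK s0 (hc s0 hs0).1 _ (Finset.singleton_subset_iff.2 hxs0)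
          have hq : 1 ≤ q := by
            have := (hc s0 hs0).2
            have h1 : 0 < s0.card := Finset.card_pos.2 ⟨x, hxs0⟩
            omega
          -- the link of `x` in `c` is a cycle
          have hcyc : bd (lk x c) = 0 := by
            rw [← lk_bd]
            refine lk_eq_zero_of fun s hs hxs => hxA (hb s hs x hxs)
          have hlkin : ChainIn {τ | x ∉ τ ∧ insert x τ ∈ K ∧ ∀ y ∈ τ, y ∈ A ∨ level y < level x}
              (q - 1) (lk x c) := by
            intro t ht
            obtain ⟨hxt, hins⟩ := mem_support_lk.1 ht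
            obtain ⟨h1, h2⟩ := hc _ hins
            refine ⟨⟨hxt, h1, fun y hy => ?_⟩, ?_⟩
            · rcases hlev _ hins y (Finset.mem_insert_of_mem hy) with h | h
              · exact Or.inl h
              · by_cases hyA : y ∈ A
                · exact Or.inl hyA
                · right
                  have hne : level y ≠ level x := by
                    intro he
                    have := hinj _ h1 y (Finset.mem_insert_of_mem hy) x
                      (Finset.mem_insert_self x t) hyA hxA he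
                    exact hxt (this ▸ hy)
                  omega
            · rw [Finset.card_insert_of_notMem hxt] at h2
              omega
          obtain ⟨y, hy, hby⟩ := hlink x hxA hxK hq (lk x c) hlkin hcyc
          have hqq : q - 1 + 1 = q := by omega
          rw [hqq] at hy
          have helim := elim_vertex x c y hby
          set c' : Finset α →₀ k := c + bd (cone x y) with hc'
          have hyK : ChainIn K q y := fun s hs =>
            ⟨hK _ (hy s hs).1.2.1 s (Finset.subset_insert x s), (hy s hs).2⟩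
          have hc'K : ChainIn K q c' := by
            rw [helim]
            exact (hc.del x).add hyK
          have hsupp : ∀ s ∈ c'.support, (x ∉ s ∧ s ∈ c.support) ∨ s ∈ y.support := by
            intro s hs
            rw [helim] at hs
            rcases Finset.mem_union.1 (Finsupp.support_add hs) with h | h
            · exact Or.inl (mem_support_del.1 h)
            · exact Or.inr h
          have hb' : ∀ s ∈ (bd c').support, ∀ x ∈ s, x ∈ A := by
            have : bd c' = bd c := by rw [hc', map_add, bd_bd, add_zero]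
            rw [this]; exact hb
          have hlev' : ∀ s ∈ c'.support, ∀ z ∈ s, z ∈ A ∨ level z < n + 1 := by
            intro s hs z hz
            rcases hsupp s hs with h | h
            · exact hlev s h.2 z hz
            · rcases (hy s h).1.2.2 z hz with h1 | h1
              · exact Or.inl h1
              · right; omega
          have hbadsub : badAt A level n c' ⊆ (badAt A level n c).erase x := by
            intro z hz
            obtain ⟨⟨s, hs, hzs⟩, hzA, hzn⟩ := mem_badAt.1 hz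
            rcases hsupp s hs with h | h
            · refine Finset.mem_erase.2 ⟨?_, mem_badAt.2 ⟨⟨s, h.2, hzs⟩, hzA, hzn⟩⟩
              rintro rfl
              exact h.1 hzs
            · exfalso
              rcases (hy s h).1.2.2 z hzs with h1 | h1
              · exact hzA h1
              · omega
          have hlt : (badAt A level n c').card < m := by
            refine lt_of_le_of_lt (Finset.card_le_card hbadsub) ?_
            rw [← hcard]
            exact Finset.card_erase_lt_of_mem hx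
          obtain ⟨y', hy', hys'⟩ := ihm _ hlt c' rfl hc'K hb' hlev'
          refine ⟨cone x y + y', (ChainIn.cone fun s hs => ⟨(hy s hs).1.2.1, (hy s hs).2⟩).add hy',
            fun s hs => hys' s ?_⟩
          have : c + bd (cone x y + y') = c' + bd y' := by
            rw [hc', map_add]; abel
          rwa [← this]
    exact fun c hc hb hlev => key _ c rfl hc hb hlev

/-- M9b, Morse lemma: relative acyclicity by elimination of bad vertices. -/
theorem relAcyc_morse (K : Set (Finset α)) (hK : DownClosed K) (A : Set α) (level : α → ℕ) (q : ℕ)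
    (hinj : ∀ σ ∈ K, ∀ x ∈ σ, ∀ y ∈ σ, x ∉ A → y ∉ A → level x = level y → x = y)
    (hlink : ∀ x, x ∉ A → ({x} : Finset α) ∈ K → 1 ≤ q →
      Acyc k {τ | x ∉ τ ∧ insert x τ ∈ K ∧ ∀ y ∈ τ, y ∈ A ∨ level y < level x} (q - 1)) :
    RelAcyc k K {σ | σ ∈ K ∧ ∀ x ∈ σ, x ∈ A} q := by
  intro c hc hb
  obtain ⟨y, hy, hys⟩ := relAcyc_morse_aux K hK A level q hinj hlink
    (((c.support.biUnion id).sup level) + 1) c hc (fun s hs => (hb s hs).2) (by
      intro s hs x hx
      right
      have : level x ≤ (c.support.biUnion id).sup level :=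
        Finset.le_sup (f := level) (Finset.mem_biUnion.2 ⟨s, hs, hx⟩)
      omega)
  refine ⟨y, hy, fun s hs => ⟨?_, hys s hs⟩⟩
  exact ((hc.add (hy.bd hK)) s hs).1

end Morse

end Vale.Agent.P067
end
end

section

section

/-! # P067: `Λ^(a)`, `Sp`, and the relative acyclicity statements (M*), (M) -/

set_option autoImplicit false

open Finset

namespace Vale.Agent.P067

attribute [local instance] Classical.propDecidable

universe u

section Pw

variable {F : Type*} [Field F] {V : Type*} [AddCommGroup V] [Module F V]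

/-- `Sp(Λ) = {x ∈ Λ : t x ∈ Λ}`. -/
def SpE (t : Module.End F V) (Λ : Submodule F V) : Submodule F V := Λ ⊓ Λ.comap t

/-- `Λ^(a) = Σ_{c ≤ a} t^c Λ`. -/
def pw (t : Module.End F V) (Λ : Submodule F V) : ℕ → Submodule F V
  | 0 => Λ
  | a + 1 => pw t Λ a ⊔ Λ.map (t ^ (a + 1))

/-- shifted version: `pwm 0 = Sp(Λ)`, `pwm (a+1) = Λ^(a)`. -/
def pwm (t : Module.End F V) (Λ : Submodule F V) : ℕ → Submodule F V
  | 0 => SpE t Λ
  | a + 1 => pw t Λ a

variable (t : Module.End F V)

theorem SpE_le (Λ : Submodule F V) : SpE t Λ ≤ Λ := inf_le_left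

theorem map_SpE_le (Λ : Submodule F V) : (SpE t Λ).map t ≤ Λ := by
  rintro _ ⟨x, hx, rfl⟩
  exact hx.2

theorem map_pow_le_pw (Λ : Submodule F V) {c a : ℕ} (h : c ≤ a) : Λ.map (t ^ c) ≤ pw t Λ a := by
  induction a with
  | zero =>
    have : c = 0 := by omega
    subst this
    simp only [pow_zero, Module.End.one_eq_id, Submodule.map_id, pw, Std.le_refl]
  | succ a ih =>
    rcases Nat.lt_or_ge a c with h' | h'
    · have : c = a + 1 := by omega
      subst this
      exact le_sup_right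
    · exact (ih h').trans le_sup_left

theorem pw_le_iff (Λ H : Submodule F V) (a : ℕ) :
    pw t Λ a ≤ H ↔ ∀ c ≤ a, Λ.map (t ^ c) ≤ H := by
  constructor
  · intro h c hc
    exact (map_pow_le_pw t Λ hc).trans h
  · intro h
    induction a with
    | zero =>
      have := h 0 le_rfl
      simpa only [pw, ge_iff_le, pow_zero, Module.End.one_eq_id, Submodule.map_id] using this
    | succ a ih =>
      exact sup_le (ih (fun c hc => h c (by omega))) (h (a + 1) le_rfl)

theorem le_pw (Λ : Submodule F V) (a : ℕ) : Λ ≤ pw t Λ a := by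
  have := map_pow_le_pw t Λ (Nat.zero_le a)
  simpa only [ge_iff_le, pow_zero, Module.End.one_eq_id, Submodule.map_id] using this

theorem pw_mono_right (Λ : Submodule F V) {a b : ℕ} (h : a ≤ b) : pw t Λ a ≤ pw t Λ b := by
  rw [pw_le_iff]
  intro c hc
  exact map_pow_le_pw t Λ (hc.trans h)

theorem pw_mono {Λ Λ' : Submodule F V} (h : Λ ≤ Λ') (a : ℕ) : pw t Λ a ≤ pw t Λ' a := by
  rw [pw_le_iff]
  intro c hc
  exact (Submodule.map_mono h).trans (map_pow_le_pw t Λ' hc)

theorem map_pow_succ (Λ : Submodule F V) (c : ℕ) :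
    (Λ.map t).map (t ^ c) = Λ.map (t ^ (c + 1)) := by
  rw [← Submodule.map_comp, ← Module.End.mul_eq_comp, ← pow_succ]

/-- `Λ' ≤ Λ + tΛ` implies `Λ'^(a) ≤ Λ^(a+1)`. -/
theorem pw_le_of_adj {Λ Λ' : Submodule F V} (h : Λ' ≤ Λ ⊔ Λ.map t) (a : ℕ) :
    pw t Λ' a ≤ pw t Λ (a + 1) := by
  rw [pw_le_iff]
  intro c hc
  refine (Submodule.map_mono h).trans ?_
  rw [Submodule.map_sup, map_pow_succ]
  exact sup_le (map_pow_le_pw t Λ (by omega)) (map_pow_le_pw t Λ (by omega))

theorem pwm_mono_right (Λ : Submodule F V) {a b : ℕ} (h : a ≤ b) : pwm t Λ a ≤ pwm t Λ b := by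
  rcases a with _ | a
  · rcases b with _ | b
    · exact le_rfl
    · exact (SpE_le t Λ).trans (le_pw t Λ b)
  · rcases b with _ | b
    · omega
    · exact pw_mono_right t Λ (by omega)

/-- `(Λ + tZ)^(a) = Λ^(a) + t^(a+1) Z` for `Z ≤ Λ`. -/
theorem pw_sup_map {Λ Z : Submodule F V} (hZ : Z ≤ Λ) (a : ℕ) :
    pw t (Λ ⊔ Z.map t) a = pw t Λ a ⊔ Z.map (t ^ (a + 1)) := by
  apply le_antisymm
  · rw [pw_le_iff]
    intro c hc
    rw [Submodule.map_sup, map_pow_succ]
    apply sup_le
    · exact (map_pow_le_pw t Λ hc).trans le_sup_left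
    · rcases Nat.lt_or_ge c a with h | h
      · exact ((Submodule.map_mono hZ).trans (map_pow_le_pw t Λ (by omega))).trans le_sup_left
      · have : c = a := by omega
        subst this
        exact le_sup_right
  · apply sup_le (pw_mono t le_sup_left a)
    rw [← map_pow_succ]
    exact (Submodule.map_mono le_sup_right).trans (map_pow_le_pw t _ le_rfl)

end Pw

section LinkGeom

variable {F : Type*} [Field F] {V : Type*} [AddCommGroup V] [Module F V]

/-- the vertex map from the link of `Λ` to `C_Λ` (blueprint F3). -/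
noncomputable def zm (t : Module.End F V) (Λ Λ' : Submodule F V) : Submodule F V :=
  if Λ' < Λ then Λ' else SpE t Λ'

/-- the inverse vertex map. -/
noncomputable def ym (t : Module.End F V) (n : ℕ) (Λ Z : Submodule F V) : Submodule F V :=
  if n ≤ Module.finrank F Z then Z else Λ ⊔ Z.map t

/-- Everything about the complex `X` which is used in (M*), (M). -/
structure LinkGeom (t : Module.End F V) (X : Set (Finset (Submodule F V))) (n m : ℕ) : Prop where
  down : DownClosed X
  chain : ∀ σ ∈ X, IsChain (· ≤ ·) (σ : Set (Submodule F V))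
  Sp_disj : ∀ Λ, ({Λ} : Finset (Submodule F V)) ∈ X → SpE t Λ ⊓ (SpE t Λ).map t = ⊥
  Sp_lt : ∀ Λ, ({Λ} : Finset (Submodule F V)) ∈ X → SpE t Λ < Λ
  rank : ∀ Λ, ({Λ} : Finset (Submodule F V)) ∈ X →
    Module.finrank F Λ = n + Module.finrank F (SpE t Λ)
  type_lt : ∀ Λ, ({Λ} : Finset (Submodule F V)) ∈ X → Module.finrank F (SpE t Λ) < n
  tinj : ∀ Λ, ({Λ} : Finset (Submodule F V)) ∈ X → ∀ x ∈ Λ, t x = 0 → x = 0
  top : ∀ Λ, ({Λ} : Finset (Submodule F V)) ∈ X → pw t Λ (m - 1) = ⊤
  inj : ∀ Λ, ({Λ} : Finset (Submodule F V)) ∈ X → ∀ a, a + 2 ≤ m → ∀ z ∈ Λ,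
    (t ^ a) z ∈ pwm t Λ a → z ∈ SpE t Λ
  adj : ∀ Λ Λ', ({Λ, Λ'} : Finset (Submodule F V)) ∈ X → Λ < Λ' →
    SpE t Λ' ≤ Λ ∧ Λ' = Λ ⊔ (SpE t Λ').map t
  toLink : ∀ Λ τ, Λ ∉ τ → insert Λ τ ∈ X →
    (∀ Λ' ∈ τ, zm t Λ Λ' ∈ CC (SpE t Λ) ((SpE t Λ).map t) Λ ∧ ym t n Λ (zm t Λ Λ') = Λ') ∧
    IsChain (· ≤ ·) ((τ.image (zm t Λ) : Finset (Submodule F V)) : Set (Submodule F V))
  ofLink : ∀ Λ, ({Λ} : Finset (Submodule F V)) ∈ X → ∀ ρ : Finset (Submodule F V),
    (∀ Z ∈ ρ, Z ∈ CC (SpE t Λ) ((SpE t Λ).map t) Λ) →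
    IsChain (· ≤ ·) (ρ : Set (Submodule F V)) →
    insert Λ (ρ.image (ym t n Λ)) ∈ X ∧ Λ ∉ ρ.image (ym t n Λ) ∧
      ∀ Z ∈ ρ, zm t Λ (ym t n Λ Z) = Z

variable {t : Module.End F V} {X : Set (Finset (Submodule F V))} {n m : ℕ}

theorem LinkGeom.vertex (G : LinkGeom t X n m) {σ : Finset (Submodule F V)} (hσ : σ ∈ X)
    {x : Submodule F V} (hx : x ∈ σ) : ({x} : Finset (Submodule F V)) ∈ X :=
  G.down σ hσ _ (Finset.singleton_subset_iff.mpr hx)

theorem LinkGeom.edge (G : LinkGeom t X n m) {σ : Finset (Submodule F V)} (hσ : σ ∈ X)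
    {x y : Submodule F V} (hx : x ∈ σ) (hy : y ∈ σ) :
    ({x, y} : Finset (Submodule F V)) ∈ X := by
  apply G.down σ hσ
  intro z hz
  rcases Finset.mem_insert.mp hz with h | h
  · rw [h]; exact hx
  · rw [Finset.mem_singleton.mp h]; exact hy

theorem LinkGeom.lt_or_lt (G : LinkGeom t X n m) {x y : Submodule F V}
    (h : ({x, y} : Finset (Submodule F V)) ∈ X) (hne : x ≠ y) : x < y ∨ y < x := by
  have hc := G.chain _ h
  have hx : x ∈ (({x, y} : Finset (Submodule F V)) : Set (Submodule F V)) := by simp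
  have hy : y ∈ (({x, y} : Finset (Submodule F V)) : Set (Submodule F V)) := by simp
  rcases hc hx hy hne with h1 | h1
  · exact Or.inl (lt_of_le_of_ne h1 hne)
  · exact Or.inr (lt_of_le_of_ne h1 hne.symm)

theorem LinkGeom.type_mono [FiniteDimensional F V] (G : LinkGeom t X n m)
    {x y : Submodule F V} (hx : ({x} : Finset (Submodule F V)) ∈ X)
    (hy : ({y} : Finset (Submodule F V)) ∈ X) (hlt : x < y) :
    Module.finrank F (SpE t x) < Module.finrank F (SpE t y) := by
  have h1 := G.rank x hx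
  have h2 := G.rank y hy
  have h3 := Submodule.finrank_lt_finrank_of_lt hlt
  omega

/-- injectivity of levels of the form `b * n + type`. -/
theorem LinkGeom.level_inj [FiniteDimensional F V] (G : LinkGeom t X n m)
    {σ : Finset (Submodule F V)} (hσ : σ ∈ X) {x y : Submodule F V} (hx : x ∈ σ) (hy : y ∈ σ)
    (b : Submodule F V → ℕ)
    (h : b x * n + Module.finrank F (SpE t x) = b y * n + Module.finrank F (SpE t y)) : x = y := by
  have hvx := G.vertex hσ hx
  have hvy := G.vertex hσ hy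
  have h1 := G.type_lt x hvx
  have h2 := G.type_lt y hvy
  by_contra hne
  have hn : 0 < n := by omega
  have h3 : Module.finrank F (SpE t x) = Module.finrank F (SpE t y) := by
    have hm1 : (b x * n + Module.finrank F (SpE t x)) % n = Module.finrank F (SpE t x) := by
      rw [Nat.mul_add_mod_of_lt h1]
    have hm2 : (b y * n + Module.finrank F (SpE t y)) % n = Module.finrank F (SpE t y) := by
      rw [Nat.mul_add_mod_of_lt h2]
    rw [← hm1, ← hm2, h]
  rcases G.lt_or_lt (G.edge hσ hx hy) hne with h4 | h4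
  · have := G.type_mono hvx hvy h4
    omega
  · have := G.type_mono hvy hvx h4
    omega

/-- transport of acyclicity to descending links. -/
theorem acyc_desc {k : Type*} [Field k] (G : LinkGeom t X n m) (A : Set (Submodule F V))
    (level : Submodule F V → ℕ) (x : Submodule F V) (hx : ({x} : Finset (Submodule F V)) ∈ X)
    (P : Submodule F V → Prop)
    (hP : ∀ y, y ≠ x → ({x, y} : Finset (Submodule F V)) ∈ X →
      ((y ∈ A ∨ level y < level x) ↔ P (zm t x y))) (q : ℕ)
    (h : Acyc k (LkC {Z | Z ∈ CC (SpE t x) ((SpE t x).map t) x ∧ P Z} x ∅) q) :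
    Acyc k {τ | x ∉ τ ∧ insert x τ ∈ X ∧ ∀ y ∈ τ, y ∈ A ∨ level y < level x} q := by
  refine acyc_of_iso (zm t x) (ym t n x) ?_ ?_ h
  · rintro τ ⟨hxτ, hτ, hlev⟩
    obtain ⟨h1, h2⟩ := G.toLink x τ hxτ hτ
    refine ⟨⟨?_, Finset.disjoint_empty_right _, ?_⟩, fun y hy => (h1 y hy).2⟩
    · intro Z hZ
      obtain ⟨y, hy, rfl⟩ := Finset.mem_image.mp hZ
      have hyx : y ≠ x := fun h => hxτ (h ▸ hy)
      have hedge := G.edge hτ (Finset.mem_insert_self x τ) (Finset.mem_insert_of_mem hy)
      exact ⟨⟨(h1 y hy).1, (hP y hyx hedge).mp (hlev y hy)⟩, (h1 y hy).1.2.1⟩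
    · rw [Finset.union_empty]
      exact h2
  · rintro ρ ⟨hρ1, _, hρ3⟩
    rw [Finset.union_empty] at hρ3
    obtain ⟨h1, h2, h3⟩ := G.ofLink x hx ρ (fun Z hZ => (hρ1 Z hZ).1.1) hρ3
    refine ⟨⟨h2, h1, ?_⟩, h3⟩
    intro y hy
    have hyx : y ≠ x := fun h => h2 (h ▸ hy)
    have hedge := G.edge h1 (Finset.mem_insert_self x _) (Finset.mem_insert_of_mem hy)
    obtain ⟨Z, hZ, rfl⟩ := Finset.mem_image.mp hy
    apply (hP _ hyx hedge).mpr
    rw [h3 Z hZ]
    exact (hρ1 Z hZ).1.2

end LinkGeom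

section MStar

variable {F : Type*} [Field F] {V : Type*} [AddCommGroup V] [Module F V] [FiniteDimensional F V]
variable {t : Module.End F V} {X : Set (Finset (Submodule F V))} {n m : ℕ}

/-- `b(Λ) = min {b : ¬ Λ^(b) ≤ H}` -/
noncomputable def bH (t : Module.End F V) (H Λ : Submodule F V) : ℕ := sInf {b | ¬ pw t Λ b ≤ H}

theorem bH_spec (G : LinkGeom t X n m) {H : Submodule F V} (hH : H ≠ ⊤) {Λ : Submodule F V}
    (hΛ : ({Λ} : Finset (Submodule F V)) ∈ X) : ¬ pw t Λ (bH t H Λ) ≤ H := by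
  have hne : {b | ¬ pw t Λ b ≤ H}.Nonempty := by
    refine ⟨m - 1, ?_⟩
    change ¬ pw t Λ (m - 1) ≤ H
    rw [G.top Λ hΛ]
    exact fun h => hH (top_le_iff.mp h)
  exact Nat.sInf_mem hne

theorem pw_le_of_lt_bH {H Λ : Submodule F V} {c : ℕ} (hc : c < bH t H Λ) : pw t Λ c ≤ H := by
  by_contra h
  exact absurd hc (Nat.not_lt.mpr (Nat.sInf_le h))

theorem bH_le {H Λ : Submodule F V} {c : ℕ} (hc : ¬ pw t Λ c ≤ H) : bH t H Λ ≤ c :=
  Nat.sInf_le hc

theorem desc_iff_H (G : LinkGeom t X n m) {H : Submodule F V} (hH : H ≠ ⊤) {x : Submodule F V}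
    (hx : ({x} : Finset (Submodule F V)) ∈ X) (hbad : x ≤ H) (y : Submodule F V) (hyx : y ≠ x)
    (hedge : ({x, y} : Finset (Submodule F V)) ∈ X) :
    ((y ∈ {Λ : Submodule F V | ¬ Λ ≤ H} ∨
      bH t H y * n + Module.finrank F (SpE t y) < bH t H x * n + Module.finrank F (SpE t x)) ↔
      ¬ zm t x y ≤ x ⊓ H.comap (t ^ (bH t H x))) := by
  have hy : ({y} : Finset (Submodule F V)) ∈ X := G.vertex hedge (by simp)
  have hb : 1 ≤ bH t H x := by
    by_contra h
    have h0 : bH t H x = 0 := by omega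
    have := bH_spec G hH hx
    rw [h0] at this
    exact this hbad
  have hty := G.type_lt y hy
  have htx := G.type_lt x hx
  have hgood : y ∈ {Λ : Submodule F V | ¬ Λ ≤ H} ↔ bH t H y = 0 := by
    constructor
    · intro h
      exact Nat.le_zero.mp (bH_le (t := t) (c := 0) h)
    · intro h
      have := bH_spec G hH hy
      rw [h] at this
      exact this
  have hZ : ∀ Z : Submodule F V, Z ≤ x →
      (Z ≤ x ⊓ H.comap (t ^ (bH t H x)) ↔ Z.map (t ^ (bH t H x)) ≤ H) := by
    intro Z hZx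
    rw [Submodule.map_le_iff_le_comap]
    exact ⟨fun h => h.trans inf_le_right, fun h => le_inf hZx h⟩
  rcases G.lt_or_lt hedge hyx.symm with hlt | hlt
  · -- upper neighbour
    have hzm : zm t x y = SpE t y := by
      unfold zm
      rw [if_neg (fun h => absurd (hlt.trans h) (lt_irrefl _))]
    obtain ⟨hSp, hyeq⟩ := G.adj x y hedge hlt
    have htype := G.type_mono hx hy hlt
    rw [hzm, hZ _ hSp]
    have hble : bH t H y ≤ bH t H x := by
      apply bH_le
      intro h
      exact bH_spec G hH hx ((pw_mono t hlt.le _).trans h)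
    have h1 : (y ∈ {Λ : Submodule F V | ¬ Λ ≤ H} ∨
      bH t H y * n + Module.finrank F (SpE t y) < bH t H x * n + Module.finrank F (SpE t x)) ↔
        bH t H y < bH t H x := by
      rw [hgood]
      constructor
      · rintro (h | h)
        · omega
        · rcases Nat.lt_or_ge (bH t H y) (bH t H x) with h' | h'
          · exact h'
          · have : bH t H y = bH t H x := le_antisymm hble h'
            rw [this] at h
            omega
      · intro h
        right
        have h2 : (bH t H y + 1) * n ≤ bH t H x * n := Nat.mul_le_mul_right n h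
        have h3 : (bH t H y + 1) * n = bH t H y * n + n := by ring
        omega
    rw [h1]
    obtain ⟨b, hbb⟩ : ∃ b, bH t H x = b + 1 := ⟨bH t H x - 1, by omega⟩
    have h2 : bH t H y < bH t H x ↔ ¬ pw t y b ≤ H := by
      constructor
      · intro h h'
        exact bH_spec G hH hy ((pw_mono_right t y (by omega)).trans h')
      · intro h
        have := bH_le h
        omega
    rw [h2, not_iff_not, hbb]
    have h3 : pw t y b = pw t x b ⊔ (SpE t y).map (t ^ (b + 1)) := by
      conv_lhs => rw [hyeq]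
      exact pw_sup_map t hSp b
    rw [h3]
    have h4 : pw t x b ≤ H := pw_le_of_lt_bH (t := t) (by omega)
    exact ⟨fun h => le_sup_right.trans h, fun h => sup_le h4 h⟩
  · -- lower neighbour
    have hzm : zm t x y = y := by
      unfold zm
      rw [if_pos hlt]
    have htype := G.type_mono hy hx hlt
    rw [hzm, hZ _ hlt.le]
    have hble : bH t H x ≤ bH t H y := by
      by_contra h
      push Not at h
      exact bH_spec G hH hy ((pw_mono t hlt.le _).trans (pw_le_of_lt_bH (t := t) h))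
    have h1 : (y ∈ {Λ : Submodule F V | ¬ Λ ≤ H} ∨
      bH t H y * n + Module.finrank F (SpE t y) < bH t H x * n + Module.finrank F (SpE t x)) ↔
        bH t H y ≤ bH t H x := by
      rw [hgood]
      constructor
      · rintro (h | h)
        · omega
        · by_contra h'
          push Not at h'
          have h2 : (bH t H x + 1) * n ≤ bH t H y * n := Nat.mul_le_mul_right n h'
          have h3 : (bH t H x + 1) * n = bH t H x * n + n := by ring
          omega
      · intro h
        right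
        have : bH t H y = bH t H x := le_antisymm h hble
        rw [this]
        omega
    rw [h1]
    obtain ⟨b, hbb⟩ : ∃ b, bH t H x = b + 1 := ⟨bH t H x - 1, by omega⟩
    have h2 : bH t H y ≤ bH t H x ↔ ¬ pw t y (b + 1) ≤ H := by
      constructor
      · intro h h'
        exact bH_spec G hH hy ((pw_mono_right t y (by omega)).trans h')
      · intro h
        have := bH_le h
        omega
    rw [h2, not_iff_not, hbb]
    have h4 : pw t y b ≤ H := (pw_mono t hlt.le b).trans (pw_le_of_lt_bH (t := t) (by omega))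
    exact ⟨fun h => le_sup_right.trans h, fun h => sup_le h4 h⟩

/-- (M*) of the blueprint. -/
theorem relAcyc_H (n : ℕ) : ∃ N0 : ℕ, ∀ (F : Type) [Field F] [Fintype F] (V : Type u)
    [AddCommGroup V] [Module F V] [FiniteDimensional F V] (k : Type) [Field k] [CharP k 2]
    (t : Module.End F V) (X : Set (Finset (Submodule F V))) (m : ℕ), LinkGeom t X n m →
    N0 ≤ Fintype.card F → ∀ H : Submodule F V, H ≠ ⊤ → ∀ q, q + 1 ≤ n →
    RelAcyc k X {σ | σ ∈ X ∧ ∀ Λ ∈ σ, ¬ Λ ≤ H} q := by
  obtain ⟨N0, hN0⟩ := acyc_LkC (n - 1)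
  refine ⟨3 * N0, ?_⟩
  intro F _ _ V _ _ _ k _ _ t X m G hcard H hH q hq
  have h := relAcyc_morse (k := k) X G.down {Λ : Submodule F V | ¬ Λ ≤ H}
    (fun Λ => bH t H Λ * n + Module.finrank F (SpE t Λ)) q ?_ ?_
  · exact h
  · intro σ hσ x hx y hy _ _ hxy
    exact G.level_inj hσ hx hy (bH t H) hxy
  · intro x hxA hx hq1
    have hbad : x ≤ H := by
      by_contra h
      exact hxA h
    apply acyc_desc G {Λ : Submodule F V | ¬ Λ ≤ H}
      (fun Λ => bH t H Λ * n + Module.finrank F (SpE t Λ)) x hx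
      (fun Z => ¬ Z ≤ x ⊓ H.comap (t ^ (bH t H x)))
      (fun y hyx hedge => desc_iff_H G hH hx hbad y hyx hedge)
    have hspec := bH_spec G hH hx
    have hΛH : ¬ x ≤ x ⊓ H.comap (t ^ (bH t H x)) := by
      intro hle
      apply hspec
      rw [pw_le_iff]
      intro c hc
      rcases Nat.lt_or_ge c (bH t H x) with h | h
      · exact (map_pow_le_pw t x le_rfl).trans (pw_le_of_lt_bH (t := t) h)
      · have hcb : c = bH t H x := le_antisymm hc h
        rw [hcb, Submodule.map_le_iff_le_comap]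
        exact hle.trans inf_le_right
    have hGE := genExt_CH (S := SpE t x) (N := (SpE t x).map t) (Λ := x)
      (x ⊓ H.comap (t ^ (bH t H x))) (G.Sp_lt x hx) (map_SpE_le t x) (G.Sp_disj x hx) hΛH N0 hcard
    have hrank : rkS (SpE t x) x = (n - 1) + 1 + (∅ : Finset (Submodule F V)).card := by
      have h1 := G.rank x hx
      have h2 := G.type_lt x hx
      unfold rkS
      simp only [Finset.card_empty]
      omega
    exact hN0 (Submodule F V) k _ _ _ _ hGE x (Set.mem_insert _ _) ∅ (by simp only [notMem_empty, IsEmpty.forall_iff, implies_true]) (by simp)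
      hrank (q - 1) (by omega)

end MStar

section MM

variable {F : Type*} [Field F] {V : Type*} [AddCommGroup V] [Module F V] [FiniteDimensional F V]
variable {t : Module.End F V} {X : Set (Finset (Submodule F V))} {n m : ℕ}

theorem SpE_mono (t : Module.End F V) {Λ Λ' : Submodule F V} (h : Λ ≤ Λ') :
    SpE t Λ ≤ SpE t Λ' := fun _ hx => ⟨h hx.1, h hx.2⟩

theorem pwm_mono (t : Module.End F V) {Λ Λ' : Submodule F V} (h : Λ ≤ Λ') (a : ℕ) :
    pwm t Λ a ≤ pwm t Λ' a := by
  rcases a with _ | a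
  · exact SpE_mono t h
  · exact pw_mono t h a

theorem pw_eq_sup (t : Module.End F V) (Λ : Submodule F V) (a : ℕ) :
    pw t Λ a = pwm t Λ a ⊔ Λ.map (t ^ a) := by
  rcases a with _ | a
  · have : Λ.map (t ^ 0) = Λ := by simp [Module.End.one_eq_id]
    rw [this]
    exact (sup_eq_right.mpr (SpE_le t Λ)).symm
  · rfl

/-- `a(Λ) = min {a : y ∈ pwm Λ a}` (shifted by one). -/
noncomputable def aY (t : Module.End F V) (y : V) (Λ : Submodule F V) : ℕ :=
  sInf {a | y ∈ pwm t Λ a}

theorem aY_spec (hm : 1 ≤ m) (G : LinkGeom t X n m) (y : V) {Λ : Submodule F V}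
    (hΛ : ({Λ} : Finset (Submodule F V)) ∈ X) : y ∈ pwm t Λ (aY t y Λ) := by
  have hne : {a | y ∈ pwm t Λ a}.Nonempty := by
    refine ⟨m, ?_⟩
    change y ∈ pwm t Λ m
    obtain ⟨m', rfl⟩ : ∃ m', m = m' + 1 := ⟨m - 1, by omega⟩
    change y ∈ pw t Λ m'
    have := G.top Λ hΛ
    rw [Nat.add_sub_cancel] at this
    rw [this]
    exact Submodule.mem_top
  exact Nat.sInf_mem hne

theorem aY_le {y : V} {Λ : Submodule F V} {a : ℕ} (h : y ∈ pwm t Λ a) : aY t y Λ ≤ a :=
  Nat.sInf_le h

theorem aY_le_m (hm : 1 ≤ m) (G : LinkGeom t X n m) (y : V) {Λ : Submodule F V}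
    (hΛ : ({Λ} : Finset (Submodule F V)) ∈ X) : aY t y Λ ≤ m := by
  apply aY_le
  obtain ⟨m', rfl⟩ : ∃ m', m = m' + 1 := ⟨m - 1, by omega⟩
  change y ∈ pw t Λ m'
  have := G.top Λ hΛ
  rw [Nat.add_sub_cancel] at this
  rw [this]
  exact Submodule.mem_top

theorem mem_pwm_iff (hm : 1 ≤ m) (G : LinkGeom t X n m) (y : V) {Λ : Submodule F V}
    (hΛ : ({Λ} : Finset (Submodule F V)) ∈ X) (a : ℕ) : y ∈ pwm t Λ a ↔ aY t y Λ ≤ a :=
  ⟨fun h => aY_le h, fun h => pwm_mono_right t Λ h (aY_spec hm G y hΛ)⟩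

/-- the special vector `u` attached to a bad vertex. -/
theorem exists_u (hm : 3 ≤ m) (G : LinkGeom t X n m) {y : V} (hy0 : y ≠ 0) {x : Submodule F V}
    (hx : ({x} : Finset (Submodule F V)) ∈ X) (hbad : y ∈ pw t x (m - 2)) :
    ∃ u ∈ x, u ∉ SpE t x ∧
      ((aY t y x = 0 ∧ u = t y) ∨
        ∃ a, aY t y x = a + 1 ∧ a + 2 ≤ m ∧ ∃ r ∈ pwm t x a, y = (t ^ a) u + r) := by
  have hle : aY t y x ≤ m - 1 := by
    apply aY_le
    obtain ⟨m', rfl⟩ : ∃ m', m = m' + 2 := ⟨m - 2, by omega⟩
    exact hbad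
  rcases Nat.eq_zero_or_pos (aY t y x) with h0 | h0
  · have hyS : y ∈ SpE t x := by
      have := aY_spec (by omega) G y hx
      rw [h0] at this
      exact this
    refine ⟨t y, hyS.2, ?_, Or.inl ⟨h0, rfl⟩⟩
    intro hmem
    have h1 : t y ∈ SpE t x ⊓ (SpE t x).map t :=
      Submodule.mem_inf.mpr ⟨hmem, Submodule.mem_map_of_mem hyS⟩
    rw [G.Sp_disj x hx, Submodule.mem_bot] at h1
    exact hy0 (G.tinj x hx y hyS.1 h1)
  · obtain ⟨a, ha⟩ : ∃ a, aY t y x = a + 1 := ⟨aY t y x - 1, by omega⟩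
    have h1 : y ∈ pw t x a := by
      have := aY_spec (by omega) G y hx
      rw [ha] at this
      exact this
    have h2 : y ∉ pwm t x a := by
      intro h
      have := aY_le h
      omega
    rw [pw_eq_sup] at h1
    obtain ⟨r, hr, w, hw, hrw⟩ := Submodule.mem_sup.mp h1
    obtain ⟨u, hu, rfl⟩ := hw
    refine ⟨u, hu, ?_, Or.inr ⟨a, ha, by omega, r, hr, ?_⟩⟩
    · intro huS
      apply h2
      rw [← hrw]
      apply Submodule.add_mem _ hr
      rcases a with _ | a
      · have h0 : (t ^ 0) u = u := by simp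
        rw [h0]
        exact huS
      · have h3 : (t ^ (a + 1)) u = (t ^ a) (t u) := by
          rw [pow_succ, Module.End.mul_apply]
        rw [h3]
        exact map_pow_le_pw t x le_rfl (Submodule.mem_map_of_mem huS.2)
    · rw [← hrw]; abel

theorem desc_iff_y (hm : 3 ≤ m) (G : LinkGeom t X n m) {y : V} (hy0 : y ≠ 0)
    {x : Submodule F V} (hx : ({x} : Finset (Submodule F V)) ∈ X) (hbad : y ∈ pw t x (m - 2))
    {u : V} (hux : u ∈ x) (huS : u ∉ SpE t x)
    (hu : (aY t y x = 0 ∧ u = t y) ∨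
        ∃ a, aY t y x = a + 1 ∧ a + 2 ≤ m ∧ ∃ r ∈ pwm t x a, y = (t ^ a) u + r)
    (x' : Submodule F V) (hne : x' ≠ x)
    (hedge : ({x, x'} : Finset (Submodule F V)) ∈ X) :
    ((x' ∈ {Λ : Submodule F V | y ∉ pw t Λ (m - 2)} ∨
      (m * n + n) - (aY t y x' * n + Module.finrank F (SpE t x'))
        < (m * n + n) - (aY t y x * n + Module.finrank F (SpE t x))) ↔ u ∉ zm t x x') := by
  have hx' : ({x'} : Finset (Submodule F V)) ∈ X := G.vertex hedge (by simp)
  have hm1 : 1 ≤ m := by omega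
  have htx := G.type_lt x hx
  have htx' := G.type_lt x' hx'
  have hax := aY_le_m hm1 G y hx
  have hax' := aY_le_m hm1 G y hx'
  have hbadx : aY t y x ≤ m - 1 := by
    apply aY_le
    obtain ⟨m', rfl⟩ : ∃ m', m = m' + 2 := ⟨m - 2, by omega⟩
    exact hbad
  have hgood : x' ∈ {Λ : Submodule F V | y ∉ pw t Λ (m - 2)} ↔ m ≤ aY t y x' := by
    have h1 : y ∈ pw t x' (m - 2) ↔ aY t y x' ≤ m - 1 := by
      rw [← mem_pwm_iff hm1 G y hx' (m - 1)]
      obtain ⟨m', rfl⟩ : ∃ m', m = m' + 2 := ⟨m - 2, by omega⟩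
      rfl
    change ¬ (y ∈ pw t x' (m - 2)) ↔ _
    rw [h1]
    omega
  have hmul1 : aY t y x * n ≤ m * n := Nat.mul_le_mul_right n hax
  have hmul2 : aY t y x' * n ≤ m * n := Nat.mul_le_mul_right n hax'
  have hlev : (m * n + n) - (aY t y x' * n + Module.finrank F (SpE t x'))
        < (m * n + n) - (aY t y x * n + Module.finrank F (SpE t x)) ↔
      aY t y x * n + Module.finrank F (SpE t x)
        < aY t y x' * n + Module.finrank F (SpE t x') := by omega
  rw [hlev]
  rcases G.lt_or_lt hedge hne.symm with hlt | hlt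
  · -- upper neighbour
    have hzm : zm t x x' = SpE t x' := by
      unfold zm
      rw [if_neg (fun h => absurd (hlt.trans h) (lt_irrefl _))]
    obtain ⟨hSp, hyeq⟩ := G.adj x x' hedge hlt
    have htype := G.type_mono hx hx' hlt
    rw [hzm]
    have hle : aY t y x' ≤ aY t y x :=
      aY_le (pwm_mono t hlt.le _ (aY_spec hm1 G y hx))
    have h1 : (x' ∈ {Λ : Submodule F V | y ∉ pw t Λ (m - 2)} ∨
        aY t y x * n + Module.finrank F (SpE t x)
        < aY t y x' * n + Module.finrank F (SpE t x')) ↔ aY t y x ≤ aY t y x' := by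
      rw [hgood]
      constructor
      · rintro (h | h)
        · omega
        · by_contra h'
          push Not at h'
          have h2 : (aY t y x' + 1) * n ≤ aY t y x * n := Nat.mul_le_mul_right n h'
          have h3 : (aY t y x' + 1) * n = aY t y x' * n + n := by ring
          omega
      · intro h
        right
        have : aY t y x' = aY t y x := le_antisymm hle h
        rw [this]
        omega
    rw [h1]
    rcases hu with ⟨ha0, rfl⟩ | ⟨a, ha, ham, r, hr, hyr⟩
    · rw [ha0]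
      refine ⟨fun _ hmem => ?_, fun _ => Nat.zero_le _⟩
      -- `u = t y` is not in the upper element
      have hyS : y ∈ SpE t x := by
        have := aY_spec hm1 G y hx
        rw [ha0] at this
        exact this
      have hins : insert x ({x'} : Finset (Submodule F V)) ∈ X := hedge
      obtain ⟨hl1, _⟩ := G.toLink x {x'} (by simpa using hne.symm) hins
      have hCC := (hl1 x' (Finset.mem_singleton_self x')).1
      rw [hzm] at hCC
      have hup : SpE t x' ⊓ (SpE t x ⊔ (SpE t x).map t) = SpE t x := by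
        rcases hCC.2.2 with h | h
        · exact h
        · exfalso
          have h2 := Submodule.finrank_add_le_finrank_add_finrank (K := F) (SpE t x')
            ((SpE t x).map t)
          rw [h] at h2
          have h3 := G.rank x hx
          have h4 := Submodule.finrank_map_le t (SpE t x)
          omega
      have h2 : t y ∈ SpE t x := by
        rw [← hup]
        exact Submodule.mem_inf.mpr ⟨hmem, Submodule.mem_sup_right (Submodule.mem_map_of_mem hyS)⟩
      exact huS h2
    · have h2 : aY t y x ≤ aY t y x' ↔ y ∉ pwm t x' a := by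
        rw [mem_pwm_iff hm1 G y hx' a, ha]
        omega
      rw [h2, not_iff_not]
      rcases a with _ | a
      · -- a = 0
        have hyu : y = u + r := by simpa using hyr
        have hrS : r ∈ SpE t x' := SpE_mono t hlt.le hr
        change y ∈ SpE t x' ↔ _
        rw [hyu]
        constructor
        · intro h
          have := Submodule.sub_mem _ h hrS
          rwa [add_sub_cancel_right] at this
        · intro h
          exact Submodule.add_mem _ h hrS
      · have h3 : pwm t x' (a + 1) = pw t x a ⊔ (SpE t x').map (t ^ (a + 1)) := by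
          change pw t x' a = _
          conv_lhs => rw [hyeq]
          exact pw_sup_map t hSp a
        rw [h3]
        constructor
        · intro h
          obtain ⟨w, hw, z, hz, hwz⟩ := Submodule.mem_sup.mp h
          obtain ⟨z', hz', rfl⟩ := hz
          have h4 : (t ^ (a + 1)) (u - z') ∈ pwm t x (a + 1) := by
            have h5 : (t ^ (a + 1)) (u - z') = w - r := by
              rw [map_sub]
              have h6 : (t ^ (a + 1)) u = y - r := by rw [hyr]; abel
              rw [h6, ← hwz]; abel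
            rw [h5]
            exact Submodule.sub_mem _ hw hr
          have h7 := G.inj x hx (a + 1) ham (u - z')
            (Submodule.sub_mem _ hux (hSp hz')) h4
          have h8 : u - z' ∈ SpE t x' := SpE_mono t hlt.le h7
          have := Submodule.add_mem _ h8 hz'
          rwa [sub_add_cancel] at this
        · intro h
          rw [hyr]
          exact Submodule.add_mem _ (Submodule.mem_sup_right (Submodule.mem_map_of_mem h))
            (Submodule.mem_sup_left hr)
  · -- lower neighbour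
    have hzm : zm t x x' = x' := by
      unfold zm
      rw [if_pos hlt]
    have hedge' : ({x', x} : Finset (Submodule F V)) ∈ X := by
      rw [Finset.pair_comm]; exact hedge
    obtain ⟨hSp, hxeq⟩ := G.adj x' x hedge' hlt
    have htype := G.type_mono hx' hx hlt
    rw [hzm]
    have hle : aY t y x ≤ aY t y x' := by
      apply aY_le
      exact pwm_mono t hlt.le _ (aY_spec hm1 G y hx')
    have h1 : (x' ∈ {Λ : Submodule F V | y ∉ pw t Λ (m - 2)} ∨
        aY t y x * n + Module.finrank F (SpE t x)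
        < aY t y x' * n + Module.finrank F (SpE t x')) ↔ aY t y x < aY t y x' := by
      rw [hgood]
      constructor
      · rintro (h | h)
        · omega
        · rcases Nat.lt_or_ge (aY t y x) (aY t y x') with h' | h'
          · exact h'
          · have : aY t y x' = aY t y x := le_antisymm h' hle
            rw [this] at h
            omega
      · intro h
        right
        have h2 : (aY t y x + 1) * n ≤ aY t y x' * n := Nat.mul_le_mul_right n h
        have h3 : (aY t y x + 1) * n = aY t y x * n + n := by ring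
        omega
    have h2 : aY t y x < aY t y x' ↔ y ∉ pwm t x' (aY t y x) := by
      rw [mem_pwm_iff hm1 G y hx' (aY t y x)]
      omega
    rw [h1, h2, not_iff_not]
    rcases hu with ⟨ha0, rfl⟩ | ⟨a, ha, ham, r, hr, hyr⟩
    · rw [ha0]
      have hyS : y ∈ SpE t x := by
        have := aY_spec hm1 G y hx
        rw [ha0] at this
        exact this
      exact ⟨fun h => h.2, fun h => ⟨hSp hyS, h⟩⟩
    · rw [ha]
      change y ∈ pw t x' a ↔ _
      have hsub : pwm t x a ≤ pw t x' a := by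
        rcases a with _ | a
        · exact hSp
        · apply pw_le_of_adj
          conv_lhs => rw [hxeq]
          exact sup_le_sup_left (Submodule.map_mono hSp) _
      constructor
      · intro h
        have h3 : (t ^ a) u ∈ pw t x' a := by
          have h4 : (t ^ a) u = y - r := by rw [hyr]; abel
          rw [h4]
          exact Submodule.sub_mem _ h (hsub hr)
        rw [pw_eq_sup] at h3
        obtain ⟨w, hw, z, hz, hwz⟩ := Submodule.mem_sup.mp h3
        obtain ⟨z', hz', rfl⟩ := hz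
        have h4 : (t ^ a) (u - z') ∈ pwm t x a := by
          have h5 : (t ^ a) (u - z') = w := by
            rw [map_sub, ← hwz]; abel
          rw [h5]
          exact pwm_mono t hlt.le a hw
        have h7 := G.inj x hx a ham (u - z') (Submodule.sub_mem _ hux (hlt.le hz')) h4
        have h8 : u - z' ∈ x' := hSp h7
        have := Submodule.add_mem _ h8 hz'
        rwa [sub_add_cancel] at this
      · intro h
        rw [hyr]
        exact Submodule.add_mem _ (map_pow_le_pw t x' le_rfl (Submodule.mem_map_of_mem h))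
          (hsub hr)

/-- (M) of the blueprint. -/
theorem relAcyc_y (n : ℕ) : ∃ N0 : ℕ, ∀ (F : Type) [Field F] [Fintype F] (V : Type u)
    [AddCommGroup V] [Module F V] [FiniteDimensional F V] (k : Type) [Field k] [CharP k 2]
    (t : Module.End F V) (X : Set (Finset (Submodule F V))) (m : ℕ), 3 ≤ m → LinkGeom t X n m →
    N0 ≤ Fintype.card F → ∀ y : V, y ≠ 0 → ∀ q, q + 1 ≤ n →
    RelAcyc k X {σ | σ ∈ X ∧ ∀ Λ ∈ σ, y ∉ pw t Λ (m - 2)} q := by
  obtain ⟨N0, hN0⟩ := acyc_LkC (n - 1)
  refine ⟨3 * N0, ?_⟩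
  intro F _ _ V _ _ _ k _ _ t X m hm G hcard y hy0 q hq
  have h := relAcyc_morse (k := k) X G.down {Λ : Submodule F V | y ∉ pw t Λ (m - 2)}
    (fun Λ => (m * n + n) - (aY t y Λ * n + Module.finrank F (SpE t Λ))) q ?_ ?_
  · exact h
  · intro σ hσ x hx x' hx' _ _ hxy
    have hvx := G.vertex hσ hx
    have hvx' := G.vertex hσ hx'
    have h1 := G.type_lt x hvx
    have h2 := G.type_lt x' hvx'
    have h3 := aY_le_m (by omega) G y hvx
    have h4 := aY_le_m (by omega) G y hvx'
    have h5 : aY t y x * n ≤ m * n := Nat.mul_le_mul_right n h3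
    have h6 : aY t y x' * n ≤ m * n := Nat.mul_le_mul_right n h4
    apply G.level_inj hσ hx hx' (aY t y)
    omega
  · intro x hxA hx hq1
    have hbad : y ∈ pw t x (m - 2) := by
      by_contra h
      exact hxA h
    obtain ⟨u, hux, huS, hu⟩ := exists_u hm G hy0 hx hbad
    apply acyc_desc G {Λ : Submodule F V | y ∉ pw t Λ (m - 2)}
      (fun Λ => (m * n + n) - (aY t y Λ * n + Module.finrank F (SpE t Λ))) x hx
      (fun Z => u ∉ Z)
      (fun x' hne hedge => desc_iff_y hm G hy0 hx hbad hux huS hu x' hne hedge)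
    have hGE := genExt_Cu (S := SpE t x) (N := (SpE t x).map t) (Λ := x)
      u (G.Sp_lt x hx) (map_SpE_le t x) (G.Sp_disj x hx) huS N0 hcard
    have hrank : rkS (SpE t x) x = (n - 1) + 1 + (∅ : Finset (Submodule F V)).card := by
      have h1 := G.rank x hx
      have h2 := G.type_lt x hx
      unfold rkS
      simp only [Finset.card_empty]
      omega
    exact hN0 (Submodule F V) k _ _ _ _ hGE x (Set.mem_insert _ _) ∅ (by simp) (by simp)
      hrank (q - 1) (by omega)

end MM

end Vale.Agent.P067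
end
end

section

section

/-! # P067: the complex `X` satisfies `LinkGeom` -/

set_option autoImplicit false

open Finset

namespace Vale.Agent.P067

attribute [local instance] Classical.propDecidable

open scoped Pointwise

set_option linter.unusedSectionVars false

variable {p m : ℕ} [Fact p.Prime] {ι : Type} [Fintype ι] [DecidableEq ι]

instance finiteDimensional_VV : FiniteDimensional (ZMod p) (VV ι p m) :=
  Module.Finite.of_finite

theorem tm_pow_succ (a : ℕ) (x : VV ι p m) :
    ((tm ι p m) ^ (a + 1)) x = tm ι p m (((tm ι p m) ^ a) x) := by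
  rw [pow_succ', Module.End.mul_apply]

theorem cof_tm (c : ℕ) (x : VV ι p m) :
    cof ι p m c (tm ι p m x) = if 1 ≤ c ∧ c < m then cof ι p m (c - 1) x else 0 := by
  rcases Nat.lt_or_ge c m with hc | hc
  · rcases c with _ | c
    · rw [cof_zero_tm (by omega), if_neg (by omega)]
    · rw [cof_succ_tm c hc, if_pos ⟨by omega, hc⟩, Nat.add_sub_cancel]
  · rw [cof_of_le c hc, if_neg (by omega)]

theorem cof_tm_pow (a c : ℕ) (x : VV ι p m) :
    cof ι p m c (((tm ι p m) ^ a) x) = if a ≤ c ∧ c < m then cof ι p m (c - a) x else 0 := by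
  induction a generalizing c with
  | zero =>
    have : ((tm ι p m) ^ 0) x = x := rfl
    rw [this]
    rcases Nat.lt_or_ge c m with hc | hc
    · rw [if_pos ⟨Nat.zero_le _, hc⟩, Nat.sub_zero]
    · rw [if_neg (by omega), cof_of_le c hc]
  | succ a ih =>
    rw [tm_pow_succ, cof_tm]
    by_cases h : 1 ≤ c ∧ c < m
    · rw [if_pos h, ih]
      by_cases h2 : a ≤ c - 1 ∧ c - 1 < m
      · rw [if_pos h2, if_pos (by omega), show c - 1 - a = c - (a + 1) by omega]
      · rw [if_neg h2, if_neg (by omega)]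
    · rw [if_neg h, if_neg (by omega)]

/-- the standard vertex. -/
theorem exists_std_vertex {L : Sb ι p m} (hL : ({L} : Finset (Sb ι p m)) ∈ XX ι p m) :
    ∃ (g : GG ι p m) (S : Sb ι p m), S < W0 ι p m ∧ L = g • vtx (W0 ι p m) S := by
  obtain ⟨Wf, ⟨g, hg⟩, c, -, hc, hL⟩ := hL
  have h1 : L ∈ c.image (vtx Wf) := by rw [← hL]; exact Finset.mem_singleton_self L
  obtain ⟨S, hS, rfl⟩ := Finset.mem_image.mp h1
  refine ⟨g, g⁻¹ • S, ?_, ?_⟩
  · rw [← smul_lt_smul_Sb g, smul_inv_smul, ← hg]
    exact hc S hS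
  · rw [smul_vtx, smul_inv_smul, ← hg]

theorem mem_smul_Sb {g : GG ι p m} {S : Sb ι p m} {x : VV ι p m} (hx : x ∈ S) :
    g • x ∈ g • S := Submodule.smul_mem_pointwise_smul x g S hx

theorem smul_mem_smul_Sb_iff (g : GG ι p m) {S : Sb ι p m} {x : VV ι p m} :
    g • x ∈ g • S ↔ x ∈ S := by
  constructor
  · intro h
    obtain ⟨y, hy, hxy⟩ := (Submodule.mem_smul_pointwise_iff_exists _ _ _).1 h
    rwa [← MulAction.injective g hxy]
  · exact mem_smul_Sb

theorem smul_tm_pow_apply (g : GG ι p m) (a : ℕ) (x : VV ι p m) :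
    g • (((tm ι p m) ^ a) x) = ((tm ι p m) ^ a) (g • x) := by
  induction a with
  | zero => rfl
  | succ a ih =>
    rw [tm_pow_succ, tm_pow_succ, ← ih]
    exact smul_comm g (tt p m) _

theorem smul_map_tm_pow (g : GG ι p m) (a : ℕ) (S : Sb ι p m) :
    g • (S.map ((tm ι p m) ^ a)) = (g • S).map ((tm ι p m) ^ a) := by
  ext x
  simp only [Submodule.mem_smul_pointwise_iff_exists, Submodule.mem_map]
  constructor
  · rintro ⟨_, ⟨y, hy, rfl⟩, rfl⟩
    exact ⟨g • y, ⟨y, hy, rfl⟩, (smul_tm_pow_apply g a y).symm⟩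
  · rintro ⟨_, ⟨y, hy, rfl⟩, rfl⟩
    exact ⟨_, ⟨y, hy, rfl⟩, smul_tm_pow_apply g a y⟩

theorem pw_smul (g : GG ι p m) (L : Sb ι p m) (a : ℕ) :
    pw (tm ι p m) (g • L) a = g • pw (tm ι p m) L a := by
  induction a with
  | zero => rfl
  | succ a ih =>
    change pw (tm ι p m) (g • L) a ⊔ (g • L).map ((tm ι p m) ^ (a + 1)) = _
    rw [ih, ← smul_map_tm_pow, ← Submodule.smul_sup']
    rfl

theorem pwm_smul (g : GG ι p m) (L : Sb ι p m) (a : ℕ) :
    pwm (tm ι p m) (g • L) a = g • pwm (tm ι p m) L a := by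
  rcases a with _ | a
  · exact Sp_smul g L
  · exact pw_smul g L a

/-- coefficients of elements of `pwm (vtx W0 S) a`. -/
theorem cof_of_mem_pwm (hm : 3 ≤ m) {S : Sb ι p m} (hS : S ≤ W0 ι p m) (a : ℕ)
    {x : VV ι p m} (hx : x ∈ pwm (tm ι p m) (vtx (W0 ι p m) S) a) :
    cst ι p m (cof ι p m a x) ∈ S ∧ ∀ c, a + 1 ≤ c → cof ι p m c x = 0 := by
  have hm0 : 0 < m := by omega
  rcases a with _ | a
  · have hx' : x ∈ S := by
      have : pwm (tm ι p m) (vtx (W0 ι p m) S) 0 = S := Sp_vtx_W0 hm hS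
      rwa [this] at hx
    refine ⟨?_, ?_⟩
    · rw [← eq_cst_of_mem_W0 hm0 (hS hx')]; exact hx'
    · intro c hc
      exact (mem_W0_iff hm0 x).1 (hS hx') c hc
  · -- the target as a submodule
    let B : Sb ι p m := S.comap ((cst ι p m) ∘ₗ (cof ι p m (a + 1))) ⊓
      ⨅ c, ⨅ (_ : a + 2 ≤ c), LinearMap.ker (cof ι p m c)
    have hB : ∀ x, x ∈ B ↔ cst ι p m (cof ι p m (a + 1) x) ∈ S ∧
        ∀ c, a + 2 ≤ c → cof ι p m c x = 0 := by
      intro x
      simp only [B, Submodule.mem_inf, Submodule.mem_comap, LinearMap.comp_apply,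
        Submodule.mem_iInf, LinearMap.mem_ker]
    have hle : pw (tm ι p m) (vtx (W0 ι p m) S) a ≤ B := by
      rw [pw_le_iff]
      rintro c hc _ ⟨y, hy, rfl⟩
      rw [hB]
      obtain ⟨w, hw, _, ⟨s, hs, rfl⟩, rfl⟩ := Submodule.mem_sup.mp hy
      have key : ∀ d, 1 ≤ d → cof ι p m d (w + tm ι p m s) = if d = 1 then cof ι p m 0 s else 0 := by
        intro d hd
        rw [map_add, (mem_W0_iff hm0 w).1 hw d hd, zero_add, cof_tm]
        by_cases hd1 : d = 1
        · subst hd1
          rw [if_pos ⟨le_rfl, by omega⟩, if_pos rfl]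
        · rw [if_neg hd1]
          split_ifs
          · exact (mem_W0_iff hm0 s).1 (hS hs) (d - 1) (by omega)
          · rfl
      refine ⟨?_, ?_⟩
      · rw [cof_tm_pow]
        split_ifs with h
        · rw [key _ (by omega)]
          split_ifs
          · rw [← eq_cst_of_mem_W0 hm0 (hS hs)]; exact hs
          · rw [map_zero]; exact S.zero_mem
        · rw [map_zero]; exact S.zero_mem
      · intro d hd
        rw [cof_tm_pow]
        split_ifs with h
        · rw [key _ (by omega), if_neg (by omega)]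
        · rfl
    exact (hB x).1 (hle hx)

theorem pw_top_std (hm : 3 ≤ m) (S : Sb ι p m) :
    pw (tm ι p m) (vtx (W0 ι p m) S) (m - 1) = ⊤ := by
  have hm0 : 0 < m := by omega
  rw [eq_top_iff]
  intro x _
  have hx : x = ∑ c ∈ Finset.range m, ((tm ι p m) ^ c) (cst ι p m (cof ι p m c x)) := by
    apply VV_ext
    intro d hd
    rw [map_sum, Finset.sum_eq_single d]
    · rw [cof_tm_pow, if_pos ⟨le_rfl, hd⟩, Nat.sub_self, cof_cst 0 hm0, if_pos rfl]
    · intro c _ hcd
      rw [cof_tm_pow]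
      split_ifs with h
      · rw [cof_cst _ hm0, if_neg (by omega)]
      · rfl
    · intro h
      exact absurd (Finset.mem_range.mpr hd) h
  rw [hx]
  apply Submodule.sum_mem
  intro c hc
  have hc' := Finset.mem_range.mp hc
  apply map_pow_le_pw (tm ι p m) _ (show c ≤ m - 1 by omega)
  apply Submodule.mem_map_of_mem
  apply Submodule.mem_sup_left
  exact ⟨_, rfl⟩

/-- `X` satisfies the abstract interface used in (M*) and (M). -/
theorem linkGeom_XX (hm : 3 ≤ m) : LinkGeom (tm ι p m) (XX ι p m) (Fintype.card ι) m where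
  down := downClosed_XX
  chain := by
    rintro σ ⟨Wf, hW, c, hc, hlt, rfl⟩
    intro x hx y hy hxy
    obtain ⟨a, ha, rfl⟩ := Finset.mem_image.mp (Finset.mem_coe.mp hx)
    obtain ⟨b, hb, rfl⟩ := Finset.mem_image.mp (Finset.mem_coe.mp hy)
    have hab : a ≠ b := fun e => hxy (by rw [e])
    rcases hc ha hb hab with h | h
    · left; exact (vtx_le_vtx_iff hm hW (hlt a ha).le (hlt b hb).le).2 h
    · right; exact (vtx_le_vtx_iff hm hW (hlt b hb).le (hlt a ha).le).2 h
  Sp_disj := fun L hL => (finrank_vertex hm hL).2.2.1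
  Sp_lt := by
    intro L hL
    obtain ⟨h1, h2, -⟩ := finrank_vertex hm hL
    refine lt_of_le_of_ne (Sp_le L) ?_
    intro h
    have h3 : SpE (tm ι p m) L = Sp L := rfl
    rw [h3] at h
    rw [h] at h1 h2
    omega
  rank := fun L hL => (finrank_vertex hm hL).1
  type_lt := fun L hL => (finrank_vertex hm hL).2.1
  tinj := by
    intro L hL x hx h0
    obtain ⟨g, S, hS, rfl⟩ := exists_std_vertex hL
    have hm0 : 0 < m := by omega
    obtain ⟨y, hy, rfl⟩ := (Submodule.mem_smul_pointwise_iff_exists _ _ _).1 hx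
    have h2 : g • (tm ι p m y) = 0 := by
      rw [← h0]
      exact smul_comm g (tt p m) y
    rw [smul_eq_zero_iff_eq] at h2
    have hy0 : y = 0 := by
      obtain ⟨w, hw, _, ⟨s, hs, rfl⟩, rfl⟩ := Submodule.mem_sup.mp hy
      apply VV_ext
      intro c hc
      rw [map_zero]
      rcases Nat.lt_or_ge (c + 1) m with h | h
      · rw [← cof_succ_tm c h, h2, map_zero]
      · rw [map_add, (mem_W0_iff hm0 w).1 hw c (by omega), zero_add, cof_tm, if_pos (by omega)]
        exact (mem_W0_iff hm0 s).1 (hS.le hs) (c - 1) (by omega)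
    rw [hy0, smul_zero]
  top := by
    intro L hL
    obtain ⟨g, S, hS, rfl⟩ := exists_std_vertex hL
    rw [pw_smul, pw_top_std hm]
    rw [eq_top_iff]
    intro x _
    have : x = g • (g⁻¹ • x) := by rw [smul_inv_smul]
    rw [this]
    exact mem_smul_Sb Submodule.mem_top
  inj := by
    intro L hL a ham z hz h
    obtain ⟨g, S, hS, rfl⟩ := exists_std_vertex hL
    have hm0 : 0 < m := by omega
    obtain ⟨y, hy, rfl⟩ := (Submodule.mem_smul_pointwise_iff_exists _ _ _).1 hz
    rw [← smul_tm_pow_apply, pwm_smul, smul_mem_smul_Sb_iff] at h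
    change g • y ∈ Sp (g • vtx (W0 ι p m) S)
    rw [Sp_smul, smul_mem_smul_Sb_iff, Sp_vtx_W0 hm hS.le]
    obtain ⟨h1, h2⟩ := cof_of_mem_pwm hm hS.le a h
    rw [cof_tm_pow, if_pos ⟨le_rfl, by omega⟩, Nat.sub_self] at h1
    have h3 := h2 (a + 1) le_rfl
    rw [cof_tm_pow, if_pos ⟨by omega, by omega⟩, Nat.add_sub_cancel_left] at h3
    obtain ⟨w, hw, _, ⟨s, hs, rfl⟩, rfl⟩ := Submodule.mem_sup.mp hy
    have hs0 : s = 0 := by
      rw [map_add, (mem_W0_iff hm0 w).1 hw 1 le_rfl, zero_add, cof_succ_tm 0 (by omega)] at h3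
      rw [eq_cst_of_mem_W0 hm0 (hS.le hs), h3, map_zero]
    rw [hs0, map_zero, add_zero] at h1 ⊢
    rw [eq_cst_of_mem_W0 hm0 hw]
    exact h1
  adj := by
    intro L L' hedge hlt
    obtain ⟨Wf, hW, c, hc, hcW, hLc⟩ := hedge
    have h1 : L ∈ c.image (vtx Wf) := by rw [← hLc]; simp
    have h2 : L' ∈ c.image (vtx Wf) := by rw [← hLc]; simp
    obtain ⟨S, hS, rfl⟩ := Finset.mem_image.mp h1
    obtain ⟨S', hS', rfl⟩ := Finset.mem_image.mp h2
    have hSp : SpE (tm ι p m) (vtx Wf S') = S' := Sp_vtx hm hW (hcW S' hS').le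
    have hSS : S < S' := (vtx_lt_vtx_iff hm hW (hcW S hS).le (hcW S' hS').le).1 hlt
    rw [hSp]
    refine ⟨(hcW S' hS').le.trans le_sup_left, ?_⟩
    have h3 : S.map (tm ι p m) ⊔ S'.map (tm ι p m) = S'.map (tm ι p m) :=
      sup_eq_right.mpr (Submodule.map_mono hSS.le)
    unfold vtx
    rw [sup_assoc, h3]
  toLink := fun L τ hτ h => chain_of_link hm hτ h
  ofLink := by
    intro L hL ρ hρ hch
    obtain ⟨h1, h2⟩ := link_of_chain hm hL hρ hch
    refine ⟨h1, ?_, fun Z hZ => (h2 Z hZ).1⟩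
    intro hmem
    obtain ⟨Z, hZ, hZL⟩ := Finset.mem_image.mp hmem
    exact (h2 Z hZ).2 hZL

/-- (M*) for the real complex `X`. -/
theorem relAcyc_H_XX (n : ℕ) : ∃ N0 : ℕ, ∀ (ι : Type) [Fintype ι] [DecidableEq ι] (p m : ℕ)
    [Fact p.Prime] (k : Type) [Field k] [CharP k 2], Fintype.card ι = n → 3 ≤ m → N0 ≤ p →
    ∀ H : Sb ι p m, H ≠ ⊤ → ∀ q, q + 1 ≤ n →
    RelAcyc k (XX ι p m) {σ | σ ∈ XX ι p m ∧ ∀ Λ ∈ σ, ¬ Λ ≤ H} q := by
  obtain ⟨N0, hN0⟩ := relAcyc_H.{0} n
  refine ⟨N0, ?_⟩
  intro ι _ _ p m _ k _ _ hn hm hp H hH q hq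
  subst hn
  exact hN0 (ZMod p) (VV ι p m) k (tm ι p m) (XX ι p m) m (linkGeom_XX hm)
    (by rwa [ZMod.card]) H hH q hq

/-- (M) for the real complex `X`. -/
theorem relAcyc_y_XX (n : ℕ) : ∃ N0 : ℕ, ∀ (ι : Type) [Fintype ι] [DecidableEq ι] (p m : ℕ)
    [Fact p.Prime] (k : Type) [Field k] [CharP k 2], Fintype.card ι = n → 3 ≤ m → N0 ≤ p →
    ∀ y : VV ι p m, y ≠ 0 → ∀ q, q + 1 ≤ n →
    RelAcyc k (XX ι p m) {σ | σ ∈ XX ι p m ∧ ∀ Λ ∈ σ, y ∉ pw (tm ι p m) Λ (m - 2)} q := by
  obtain ⟨N0, hN0⟩ := relAcyc_y.{0} n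
  refine ⟨N0, ?_⟩
  intro ι _ _ p m _ k _ _ hn hm hp y hy q hq
  subst hn
  exact hN0 (ZMod p) (VV ι p m) k (tm ι p m) (XX ι p m) m hm (linkGeom_XX hm)
    (by rwa [ZMod.card]) y hy q hq

end Vale.Agent.P067
end
end

section

section

/-! # P067, module M9d: double complex lemma (blueprint part 4) -/

set_option autoImplicit false

open Finset

namespace Vale.Agent.P067

attribute [local instance] Classical.propDecidable

variable {α : Type*} {k : Type*} [Field k] [CharP k 2]

/-! ### M9d: the double complex -/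

section Double

variable {β ι : Type*}

/-- Boundary in the second coordinate. -/
noncomputable def bdR : (ι × Finset α →₀ k) →ₗ[k] (ι × Finset α →₀ k) :=
  Finsupp.lsum k (fun p => ∑ v ∈ p.2, Finsupp.lsingle (p.1, p.2.erase v))

/-- Boundary in the first coordinate. -/
noncomputable def bdL : (Finset β × ι →₀ k) →ₗ[k] (Finset β × ι →₀ k) :=
  Finsupp.lsum k (fun p => ∑ v ∈ p.1, Finsupp.lsingle (p.1.erase v, p.2))

omit [CharP k 2] in
theorem bdR_single (p : ι × Finset α) (a : k) :
    bdR (Finsupp.single p a) = ∑ v ∈ p.2, Finsupp.single (p.1, p.2.erase v) a := by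
  simp only [bdR, Finsupp.lsum_single, LinearMap.sum_apply, Finsupp.lsingle_apply]

omit [CharP k 2] in
theorem bdL_single (p : Finset β × ι) (a : k) :
    bdL (Finsupp.single p a) = ∑ v ∈ p.1, Finsupp.single (p.1.erase v, p.2) a := by
  simp only [bdL, Finsupp.lsum_single, LinearMap.sum_apply, Finsupp.lsingle_apply]

omit [CharP k 2] in
theorem bdL_bdR (c : Finset β × Finset α →₀ k) : bdL (bdR c) = bdR (bdL c) := by
  have : (bdL ∘ₗ bdR : (Finset β × Finset α →₀ k) →ₗ[k] _) = bdR ∘ₗ bdL := by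
    apply Finsupp.lhom_ext
    rintro ⟨T, s⟩ a
    simp only [LinearMap.comp_apply, bdR_single, map_sum, bdL_single]
    exact Finset.sum_comm
  exact LinearMap.congr_fun this c

/-- Row of a bichain. -/
noncomputable def rowR (i : ι) : (ι × Finset α →₀ k) →ₗ[k] (Finset α →₀ k) :=
  Finsupp.lsum k (fun p => if p.1 = i then Finsupp.lsingle p.2 else 0)

/-- Embedding of a chain as a row. -/
noncomputable def embR (i : ι) : (Finset α →₀ k) →ₗ[k] (ι × Finset α →₀ k) :=
  Finsupp.lsum k (fun s => Finsupp.lsingle (i, s))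

omit [CharP k 2] in
theorem rowR_single (i : ι) (p : ι × Finset α) (a : k) :
    rowR i (Finsupp.single p a) = if p.1 = i then Finsupp.single p.2 a else 0 := by
  simp only [rowR, Finsupp.lsum_single]
  split_ifs <;> simp

omit [CharP k 2] in
theorem embR_single (i : ι) (s : Finset α) (a : k) :
    embR i (Finsupp.single s a) = Finsupp.single (i, s) a := by
  simp [embR, Finsupp.lsum_single]

omit [CharP k 2] in
theorem bdR_embR (i : ι) (c : Finset α →₀ k) : bdR (embR i c) = embR i (bd c) := by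
  have : (bdR ∘ₗ embR i : (Finset α →₀ k) →ₗ[k] (ι × Finset α →₀ k)) = embR i ∘ₗ bd := by
    apply Finsupp.lhom_ext
    intro s a
    simp only [LinearMap.comp_apply, embR_single, bdR_single, bd_single, map_sum]
  exact LinearMap.congr_fun this c

omit [CharP k 2] in
theorem rowR_bdR (i : ι) (c : ι × Finset α →₀ k) : rowR i (bdR c) = bd (rowR i c) := by
  have : (rowR i ∘ₗ bdR : (ι × Finset α →₀ k) →ₗ[k] (Finset α →₀ k)) = bd ∘ₗ rowR i := by
    apply Finsupp.lhom_ext
    rintro ⟨j, s⟩ a
    simp only [LinearMap.comp_apply, bdR_single, map_sum, rowR_single]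
    by_cases h : j = i
    · simp [h, bd_single]
    · simp only [h, ↓reduceIte, sum_const_zero, map_zero]
  exact LinearMap.congr_fun this c

omit [CharP k 2] in
theorem rowR_apply (i : ι) (c : ι × Finset α →₀ k) (s : Finset α) : rowR i c s = c (i, s) := by
  induction c using Finsupp.induction_linear with
  | zero => simp only [map_zero, Finsupp.coe_zero, Pi.zero_apply]
  | add f g hf hg => rw [map_add, Finsupp.add_apply, hf, hg, Finsupp.add_apply]
  | single p a =>
    obtain ⟨j, t⟩ := p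
    rw [rowR_single, Finsupp.single_apply]
    by_cases h : j = i
    · subst h
      simp [Finsupp.single_apply]
    · simp [h]

omit [CharP k 2] in
theorem embR_apply (i : ι) (c : Finset α →₀ k) (p : ι × Finset α) :
    embR i c p = if p.1 = i then c p.2 else 0 := by
  obtain ⟨j, t⟩ := p
  induction c using Finsupp.induction_linear with
  | zero => simp only [map_zero, Finsupp.coe_zero, Pi.zero_apply, ite_self]
  | add f g hf hg =>
    rw [map_add, Finsupp.add_apply, hf, hg, Finsupp.add_apply]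
    split_ifs <;> simp
  | single s a =>
    rw [embR_single, Finsupp.single_apply, Finsupp.single_apply]
    by_cases h : j = i
    · subst h
      simp
    · simp [h, Ne.symm h]

omit [CharP k 2] in
theorem sum_embR_rowR [DecidableEq ι] (c : ι × Finset α →₀ k) :
    ∑ i ∈ c.support.image Prod.fst, embR i (rowR i c) = c := by
  ext ⟨j, s⟩
  rw [Finsupp.finsetSum_apply]
  simp only [embR_apply, rowR_apply]
  rw [Finset.sum_ite_eq]
  split_ifs with h
  · rfl
  · by_contra hc
    exact h (Finset.mem_image.2 ⟨(j, s), Finsupp.mem_support_iff.2 (Ne.symm hc), rfl⟩)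

omit [CharP k 2] in
/-- Rowwise filling. -/
theorem fill_rows (K : ι → Set (Finset α)) (q : ι → ℕ) (x : ι × Finset α →₀ k)
    (hx : ∀ p ∈ x.support, p.2 ∈ K p.1 ∧ p.2.card = q p.1)
    (hacyc : ∀ p ∈ x.support, Acyc k (K p.1) (q p.1)) (hbd : bdR x = 0) :
    ∃ y : ι × Finset α →₀ k, bdR y = x ∧
      ∀ p ∈ y.support, (∃ r ∈ x.support, r.1 = p.1) ∧ p.2 ∈ K p.1 ∧ p.2.card = q p.1 + 1 := by
  have h1 : ∀ i ∈ x.support.image Prod.fst, ∃ y : Finset α →₀ k, ChainIn (K i) (q i + 1) y ∧
      bd y = rowR i x := by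
    intro i hi
    obtain ⟨r, hr, rfl⟩ := Finset.mem_image.1 hi
    refine hacyc r hr (rowR r.1 x) ?_ ?_
    · intro s hs
      rw [Finsupp.mem_support_iff, rowR_apply] at hs
      exact hx _ (Finsupp.mem_support_iff.2 hs)
    · rw [← rowR_bdR, hbd, map_zero]
  choose! y hy hby using h1
  refine ⟨∑ i ∈ x.support.image Prod.fst, embR i (y i), ?_, ?_⟩
  · rw [map_sum]
    conv_rhs => rw [← sum_embR_rowR x]
    refine Finset.sum_congr rfl fun i hi => ?_
    rw [bdR_embR, hby i hi]
  · rintro ⟨j, s⟩ hp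
    rw [Finsupp.mem_support_iff, Finsupp.finsetSum_apply] at hp
    simp only [embR_apply] at hp
    rw [Finset.sum_ite_eq] at hp
    split_ifs at hp with h
    · obtain ⟨h2, h3⟩ := hy j h s (Finsupp.mem_support_iff.2 hp)
      obtain ⟨r, hr, hrj⟩ := Finset.mem_image.1 h
      exact ⟨⟨r, hr, hrj⟩, h2, h3⟩
    · exact absurd rfl hp

/-- swap of coordinates -/
noncomputable def swp {ι κ : Type*} : (ι × κ →₀ k) ≃ₗ[k] (κ × ι →₀ k) :=
  Finsupp.domLCongr (Equiv.prodComm ι κ)

omit [CharP k 2] in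
theorem swp_apply {ι κ : Type*} (c : ι × κ →₀ k) (p : κ × ι) : swp c p = c (p.2, p.1) := by
  simp only [swp, Finsupp.domLCongr_apply, Finsupp.domCongr_apply, Finsupp.equivMapDomain_apply]
  rfl

omit [CharP k 2] in
theorem swp_single {ι κ : Type*} (p : ι × κ) (a : k) :
    swp (Finsupp.single p a) = Finsupp.single (p.2, p.1) a := by
  simp [swp]
  rfl

omit [CharP k 2] in
theorem bdR_swp (c : Finset β × ι →₀ k) : bdR (swp c) = swp (bdL c) := by
  have : (bdR ∘ₗ (swp : (Finset β × ι →₀ k) ≃ₗ[k] _).toLinearMap) = swp.toLinearMap ∘ₗ bdL := by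
    apply Finsupp.lhom_ext
    rintro ⟨T, i⟩ a
    simp only [LinearMap.comp_apply, LinearEquiv.coe_coe, swp_single, bdR_single, bdL_single, map_sum]
  exact LinearMap.congr_fun this c

omit [CharP k 2] in
/-- Columnwise filling. -/
theorem fill_cols (K : ι → Set (Finset β)) (q : ι → ℕ) (x : Finset β × ι →₀ k)
    (hx : ∀ p ∈ x.support, p.1 ∈ K p.2 ∧ p.1.card = q p.2)
    (hacyc : ∀ p ∈ x.support, Acyc k (K p.2) (q p.2)) (hbd : bdL x = 0) :
    ∃ y : Finset β × ι →₀ k, bdL y = x ∧
      ∀ p ∈ y.support, (∃ r ∈ x.support, r.2 = p.2) ∧ p.1 ∈ K p.2 ∧ p.1.card = q p.2 + 1 := by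
  have hmem : ∀ (z : Finset β × ι →₀ k) (p : ι × Finset β), p ∈ (swp z).support ↔
      (p.2, p.1) ∈ z.support := by
    intro z p
    rw [Finsupp.mem_support_iff, swp_apply, Finsupp.mem_support_iff]
  obtain ⟨y, hy, hys⟩ := fill_rows K q (swp x) (fun p hp => hx _ ((hmem x p).1 hp))
    (fun p hp => hacyc _ ((hmem x p).1 hp)) (by rw [bdR_swp, hbd, map_zero])
  refine ⟨swp.symm y, ?_, ?_⟩
  · apply swp.injective
    rw [← bdR_swp, LinearEquiv.apply_symm_apply, hy]
  · rintro ⟨T, i⟩ hp
    have hp' : (i, T) ∈ y.support := by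
      have := (hmem (swp.symm y) (i, T)).2 hp
      rwa [LinearEquiv.apply_symm_apply] at this
    obtain ⟨⟨r, hr, hri⟩, h1, h2⟩ := hys _ hp'
    exact ⟨⟨(r.2, r.1), (hmem x r).1 hr, hri⟩, h1, h2⟩

theorem bichain_add_self {ι : Type*} (x : ι →₀ k) : x + x = 0 := by
  ext i
  simp [CharTwo.add_self_eq_zero]

omit [CharP k 2] in
theorem mem_support_bdR {c : ι × Finset α →₀ k} {p : ι × Finset α} (h : p ∈ (bdR c).support) :
    ∃ v, v ∉ p.2 ∧ (p.1, insert v p.2) ∈ c.support := by
  obtain ⟨i, s⟩ := p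
  rw [Finsupp.mem_support_iff, ← rowR_apply, rowR_bdR, ← Finsupp.mem_support_iff] at h
  obtain ⟨v, hv, hvs⟩ := mem_support_bd h
  refine ⟨v, hv, ?_⟩
  rw [Finsupp.mem_support_iff, rowR_apply] at hvs
  exact Finsupp.mem_support_iff.2 hvs

omit [CharP k 2] in
theorem mem_support_bdL {c : Finset β × ι →₀ k} {p : Finset β × ι} (h : p ∈ (bdL c).support) :
    ∃ v, v ∉ p.1 ∧ (insert v p.1, p.2) ∈ c.support := by
  have h1 : (p.2, p.1) ∈ (bdR (swp c)).support := by
    rw [bdR_swp, Finsupp.mem_support_iff, swp_apply]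
    exact Finsupp.mem_support_iff.1 h
  obtain ⟨v, hv, hvs⟩ := mem_support_bdR h1
  refine ⟨v, hv, ?_⟩
  rw [Finsupp.mem_support_iff, swp_apply] at hvs
  exact Finsupp.mem_support_iff.2 hvs

/-- bichains of bidegree `(a, b)` in `R` -/
def BiIn (R : Finset β → Finset α → Prop) (a b : ℕ) (x : Finset β × Finset α →₀ k) : Prop :=
  ∀ p ∈ x.support, R p.1 p.2 ∧ p.1.card = a ∧ p.2.card = b

omit [CharP k 2] in
theorem BiIn.add {R : Finset β → Finset α → Prop} {a b : ℕ} {x y : Finset β × Finset α →₀ k}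
    (hx : BiIn R a b x) (hy : BiIn R a b y) : BiIn R a b (x + y) := by
  intro p hp
  rcases Finset.mem_union.1 (Finsupp.support_add hp) with h | h
  · exact hx p h
  · exact hy p h

omit [CharP k 2] in
theorem BiIn.bdR {R : Finset β → Finset α → Prop}
    (hR : ∀ T T' σ σ', T' ⊆ T → σ' ⊆ σ → R T σ → R T' σ') {a b : ℕ}
    {x : Finset β × Finset α →₀ k} (hx : BiIn R a (b + 1) x) : BiIn R a b (P067.bdR x) := by
  intro p hp
  obtain ⟨v, hv, h⟩ := mem_support_bdR hp
  obtain ⟨h1, h2, h3⟩ := hx _ h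
  refine ⟨hR _ _ _ _ subset_rfl (Finset.subset_insert _ _) h1, h2, ?_⟩
  simp only at h3
  rw [Finset.card_insert_of_notMem hv] at h3
  omega

omit [CharP k 2] in
theorem BiIn.bdL {R : Finset β → Finset α → Prop}
    (hR : ∀ T T' σ σ', T' ⊆ T → σ' ⊆ σ → R T σ → R T' σ') {a b : ℕ}
    {x : Finset β × Finset α →₀ k} (hx : BiIn R (a + 1) b x) : BiIn R a b (P067.bdL x) := by
  intro p hp
  obtain ⟨v, hv, h⟩ := mem_support_bdL hp
  obtain ⟨h1, h2, h3⟩ := hx _ h
  refine ⟨hR _ _ _ _ (Finset.subset_insert _ _) subset_rfl h1, ?_, h3⟩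
  simp only at h2
  rw [Finset.card_insert_of_notMem hv] at h2
  omega

theorem zigzag (R : Finset β → Finset α → Prop)
    (hR : ∀ T T' σ σ', T' ⊆ T → σ' ⊆ σ → R T σ → R T' σ') (Q : ℕ)
    (hN : ∀ σ, R ∅ σ → σ.card ≤ Q → Acyc k {T | R T σ} (Q - σ.card))
    (hX : ∀ T, R T ∅ → 2 ≤ T.card → T.card ≤ Q + 1 → Acyc k {σ | R T σ} (Q + 1 - T.card)) (d : ℕ) :
    ∀ j : ℕ, 1 ≤ j → j + d = Q + 1 → ∀ z : Finset β × Finset α →₀ k, BiIn R j (Q + 1 - j) z →
      bdL (bdR z) = 0 → ∃ w : Finset β × Finset α →₀ k, BiIn R (j + 1) (Q + 1 - j) w ∧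
        bdR (z + bdL w) = 0 := by
  induction d with
  | zero =>
    intro j hj hjd z hz hzb
    refine ⟨0, ?_, ?_⟩
    · intro p hp; simp at hp
    · rw [map_zero, add_zero]
      ext p
      rw [Finsupp.zero_apply]
      by_contra hcon
      obtain ⟨v, hv, h⟩ := mem_support_bdR (Finsupp.mem_support_iff.2 hcon)
      obtain ⟨_, _, h3⟩ := hz _ h
      simp only at h3
      rw [Finset.card_insert_of_notMem hv] at h3
      omega
  | succ d ih =>
    intro j hj hjd z hz hzb
    have hbz : BiIn R j (Q - j) (bdR z) := by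
      refine BiIn.bdR hR ?_
      have : Q - j + 1 = Q + 1 - j := by omega
      rwa [this]
    -- fill in the first coordinate
    obtain ⟨z1, hz1, hz1s⟩ := fill_cols (fun σ => {T | R T σ}) (fun _ => j) (bdR z)
      (fun p hp => ⟨(hbz p hp).1, (hbz p hp).2.1⟩) (fun p hp => by
        obtain ⟨h1, h2, h3⟩ := hbz p hp
        have h4 := hN p.2 (hR _ _ _ _ (Finset.empty_subset _) subset_rfl h1) (by omega)
        have h5 : Q - p.2.card = j := by omega
        rwa [h5] at h4) hzb
    have hz1in : BiIn R (j + 1) (Q + 1 - (j + 1)) z1 := by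
      intro p hp
      obtain ⟨⟨r, hr, hrp⟩, h1, h2⟩ := hz1s p hp
      refine ⟨h1, h2, ?_⟩
      have := (hbz r hr).2.2
      rw [hrp] at this
      omega
    have hz1b : bdL (bdR z1) = 0 := by
      rw [bdL_bdR, hz1]
      have : bdR (bdR z) = (0 : Finset β × Finset α →₀ k) := by
        ext ⟨T, σ⟩
        rw [← rowR_apply, rowR_bdR, rowR_bdR, bd_bd]
        rfl
      exact this
    obtain ⟨w1, hw1, hw1b⟩ := ih (j + 1) (by omega) (by omega) z1 hz1in hz1b
    have hsum : BiIn R (j + 1) (Q + 1 - (j + 1)) (z1 + bdL w1) :=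
      hz1in.add (BiIn.bdL hR hw1)
    obtain ⟨w, hw, hws⟩ := fill_rows (fun T => {σ | R T σ}) (fun _ => Q + 1 - (j + 1))
      (z1 + bdL w1) (fun p hp => ⟨(hsum p hp).1, (hsum p hp).2.2⟩) (fun p hp => by
        obtain ⟨h1, h2, h3⟩ := hsum p hp
        have h4 := hX p.1 (hR _ _ _ _ subset_rfl (Finset.empty_subset _) h1) (by omega) (by omega)
        have h5 : Q + 1 - p.1.card = Q + 1 - (j + 1) := by omega
        rwa [h5] at h4) hw1b
    refine ⟨w, ?_, ?_⟩
    · intro p hp
      obtain ⟨⟨r, hr, hrp⟩, h1, h2⟩ := hws p hp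
      refine ⟨h1, ?_, by omega⟩
      have := (hsum r hr).2.1
      rwa [hrp] at this
    · rw [map_add, ← bdL_bdR, hw, map_add, hz1]
      have h1 : bdL (bdL w1) = (0 : Finset β × Finset α →₀ k) := by
        have h2 : bdR (bdR (swp w1)) = (0 : Finset α × Finset β →₀ k) := by
          ext ⟨T, σ⟩
          rw [← rowR_apply, rowR_bdR, rowR_bdR, bd_bd]
          rfl
        rw [bdR_swp, bdR_swp] at h2
        exact swp.injective (by rw [h2, map_zero])
      rw [h1, add_zero]
      exact bichain_add_self _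

/-- M9d: double complex lemma. -/
theorem double_complex {β : Type*} (R : Finset β → Finset α → Prop)
    (hR : ∀ T T' σ σ', T' ⊆ T → σ' ⊆ σ → R T σ → R T' σ') (Q : ℕ) (hQ : 1 ≤ Q)
    (hN : ∀ σ, R ∅ σ → σ.card ≤ Q → Acyc k {T | R T σ} (Q - σ.card))
    (hX : ∀ T, R T ∅ → 2 ≤ T.card → T.card ≤ Q + 1 → Acyc k {σ | R T σ} (Q + 1 - T.card))
    (z : Finset α →₀ k) (hz : ChainIn {σ | R ∅ σ} Q z) (hbd : bd z = 0) :
    ∃ (s : Finset β) (zv : β → (Finset α →₀ k)),
      (∀ v ∈ s, ChainIn {σ | R {v} σ} Q (zv v) ∧ bd (zv v) = 0) ∧ z = ∑ v ∈ s, zv v := by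
  set z0 : Finset β × Finset α →₀ k := embR ∅ z with hz0
  have hz0in : BiIn R 0 Q z0 := by
    rintro ⟨T, σ⟩ hp
    rw [Finsupp.mem_support_iff, hz0, embR_apply] at hp
    simp only at hp
    split_ifs at hp with h
    · subst h
      obtain ⟨h1, h2⟩ := hz σ (Finsupp.mem_support_iff.2 hp)
      exact ⟨h1, rfl, h2⟩
    · exact absurd rfl hp
  have hz0R : bdR z0 = 0 := by rw [hz0, bdR_embR, hbd, map_zero]
  have hz0L : bdL z0 = 0 := by
    ext p
    rw [Finsupp.zero_apply]
    by_contra hcon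
    obtain ⟨v, hv, h⟩ := mem_support_bdL (Finsupp.mem_support_iff.2 hcon)
    obtain ⟨_, h2, _⟩ := hz0in _ h
    simp only at h2
    rw [Finset.card_insert_of_notMem hv] at h2
    omega
  obtain ⟨z1, hz1, hz1s⟩ := fill_cols (fun σ => {T | R T σ}) (fun _ => 0) z0
    (fun p hp => ⟨(hz0in p hp).1, (hz0in p hp).2.1⟩) (fun p hp => by
      obtain ⟨h1, h2, h3⟩ := hz0in p hp
      have h4 := hN p.2 (hR _ _ _ _ (Finset.empty_subset _) subset_rfl h1) (by omega)
      have h5 : Q - p.2.card = 0 := by omega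
      rwa [h5] at h4) hz0L
  have hz1in : BiIn R 1 (Q + 1 - 1) z1 := by
    intro p hp
    obtain ⟨⟨r, hr, hrp⟩, h1, h2⟩ := hz1s p hp
    refine ⟨h1, h2, ?_⟩
    have := (hz0in r hr).2.2
    rw [hrp] at this
    omega
  obtain ⟨w, hw, hwb⟩ := zigzag R hR Q hN hX Q 1 le_rfl (by omega) z1 hz1in (by
    rw [bdL_bdR, hz1, hz0R])
  set y : Finset β × Finset α →₀ k := z1 + bdL w with hy
  have hyin : BiIn R 1 (Q + 1 - 1) y := hz1in.add (BiIn.bdL hR hw)
  have hyL : bdL y = z0 := by
    have h1 : bdL (bdL w) = (0 : Finset β × Finset α →₀ k) := by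
      have h2 : bdR (bdR (swp w)) = (0 : Finset α × Finset β →₀ k) := by
        ext ⟨T, σ⟩
        rw [← rowR_apply, rowR_bdR, rowR_bdR, bd_bd]
        rfl
      rw [bdR_swp, bdR_swp] at h2
      exact swp.injective (by rw [h2, map_zero])
    rw [hy, map_add, hz1, h1, add_zero]
  -- decompose `y` along the first coordinate
  refine ⟨(y.support.image Prod.fst).biUnion id, fun v => rowR {v} y, ?_, ?_⟩
  · intro v hv
    refine ⟨?_, ?_⟩
    · intro σ hσ
      rw [Finsupp.mem_support_iff, rowR_apply] at hσ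
      obtain ⟨h1, _, h3⟩ := hyin _ (Finsupp.mem_support_iff.2 hσ)
      exact ⟨h1, by simpa using h3⟩
    · rw [← rowR_bdR, hwb, map_zero]
  · have h1 : z = rowR ∅ z0 := by
      ext σ
      rw [rowR_apply, hz0, embR_apply, if_pos rfl]
    rw [h1, ← hyL]
    have h2 : y = ∑ T ∈ y.support.image Prod.fst, embR T (rowR T y) := (sum_embR_rowR y).symm
    have h3 : ∀ v : β, ∀ c : Finset α →₀ k, rowR ∅ (bdL (embR {v} c)) = c := by
      intro v c
      have : (rowR ∅ ∘ₗ bdL ∘ₗ embR {v} : (Finset α →₀ k) →ₗ[k] (Finset α →₀ k))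
          = LinearMap.id := by
        apply Finsupp.lhom_ext
        intro s a
        simp only [LinearMap.comp_apply, embR_single, bdL_single, Finset.sum_singleton,
          rowR_single, LinearMap.id_apply]
        rw [if_pos]
        ext w
        simp
      exact LinearMap.congr_fun this c
    have h4 : y.support.image Prod.fst
        = ((y.support.image Prod.fst).biUnion id).image (fun v => ({v} : Finset β)) := by
      have hone : ∀ T ∈ y.support.image Prod.fst, ∃ v, T = {v} := by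
        intro T hT
        obtain ⟨p, hp, rfl⟩ := Finset.mem_image.1 hT
        exact Finset.card_eq_one.1 (hyin p hp).2.1
      ext T
      constructor
      · intro hT
        obtain ⟨v, rfl⟩ := hone T hT
        exact Finset.mem_image.2 ⟨v, Finset.mem_biUnion.2 ⟨{v}, hT, Finset.mem_singleton_self v⟩, rfl⟩
      · intro hT
        obtain ⟨v, hv, rfl⟩ := Finset.mem_image.1 hT
        obtain ⟨T', hT', hvT'⟩ := Finset.mem_biUnion.1 hv
        obtain ⟨v', rfl⟩ := hone T' hT'
        have : v = v' := Finset.mem_singleton.1 hvT'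
        rwa [this]
    conv_lhs => rw [h2]
    rw [map_sum, map_sum]
    conv_lhs => rw [h4]
    rw [Finset.sum_image (fun v _ w _ h => Finset.singleton_injective h)]
    exact Finset.sum_congr rfl fun v _ => h3 v _

end Double

end Vale.Agent.P067
end
end

section

section

/-! # P067: push down to low types, and the abstract induction step (blueprint part 4) -/

set_option autoImplicit false

open Finset

namespace Vale.Agent.P067

attribute [local instance] Classical.propDecidable

variable {α : Type*} {k : Type*} [Field k] [CharP k 2]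

/-- The part of `K` with types at most `r`. -/
def types (K : Set (Finset α)) (ty : α → ℕ) (r : ℕ) : Set (Finset α) :=
  {σ | σ ∈ K ∧ ∀ x ∈ σ, ty x ≤ r}

/-- Lower link of `x`. -/
def lowLk (K : Set (Finset α)) (ty : α → ℕ) (x : α) : Set (Finset α) :=
  {τ | x ∉ τ ∧ insert x τ ∈ K ∧ ∀ y ∈ τ, ty y < ty x}

theorem types_sub (K : Set (Finset α)) (ty : α → ℕ) (r : ℕ) : types K ty r ⊆ K := fun _ h => h.1

theorem types_down {K : Set (Finset α)} (hK : DownClosed K) (ty : α → ℕ) (r : ℕ) :
    DownClosed (types K ty r) := fun s hs t hts => ⟨hK s hs.1 t hts, fun x hx => hs.2 x (hts hx)⟩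

/-- Push down: vertices of type larger than `r` can be eliminated. -/
theorem relAcyc_types (K : Set (Finset α)) (hK : DownClosed K) (ty : α → ℕ)
    (hinj : ∀ σ ∈ K, ∀ x ∈ σ, ∀ y ∈ σ, ty x = ty y → x = y) (r q : ℕ)
    (hlink : ∀ x, ({x} : Finset α) ∈ K → r < ty x → 1 ≤ q → Acyc k (lowLk K ty x) (q - 1)) :
    RelAcyc k K (types K ty r) q := by
  have h := relAcyc_morse (k := k) K hK {x | ty x ≤ r} ty q
    (fun σ hσ x hx y hy _ _ h => hinj σ hσ x hx y hy h)
    (fun x hx hxK hq => by
      have hx' : r < ty x := not_le.1 hx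
      have := hlink x hxK hx' hq
      have e : {τ | x ∉ τ ∧ insert x τ ∈ K ∧ ∀ y ∈ τ, y ∈ {x | ty x ≤ r} ∨ ty y < ty x}
          = lowLk K ty x := by
        ext τ
        constructor
        · rintro ⟨h1, h2, h3⟩
          refine ⟨h1, h2, fun y hy => ?_⟩
          rcases h3 y hy with h | h
          · exact lt_of_le_of_lt h hx'
          · exact h
        · rintro ⟨h1, h2, h3⟩
          exact ⟨h1, h2, fun y hy => Or.inr (h3 y hy)⟩
      rw [e]
      exact this)
  exact h

/-- Acyclicity of the part with small types. -/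
theorem acyc_types (K : Set (Finset α)) (hK : DownClosed K) (ty : α → ℕ)
    (hinj : ∀ σ ∈ K, ∀ x ∈ σ, ∀ y ∈ σ, ty x = ty y → x = y) (r q : ℕ)
    (hlink : ∀ x, ({x} : Finset α) ∈ K → r < ty x → Acyc k (lowLk K ty x) q)
    (h : Acyc k K q) : Acyc k (types K ty r) q :=
  acyc_of_relAcyc hK (types_sub K ty r) h
    (relAcyc_types K hK ty hinj r (q + 1) fun x hx hr _ => by simpa using hlink x hx hr)

/-- The abstract induction step: acyclicity of `K` in size `Q` from the covering by the subcomplexes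
of the simplices related to a vertex of `K₁`. -/
theorem acyc_step {β : Type*} (K : Set (Finset α)) (hK : DownClosed K) (ty : α → ℕ)
    (K₁ : Set (Finset β)) (hK₁ : DownClosed K₁) (h0 : (∅ : Finset β) ∈ K₁)
    (rel : β → α → Prop) (r Q : ℕ) (hQ : 1 ≤ Q)
    (hpd : RelAcyc k K (types K ty r) Q)
    (hN : ∀ σ ∈ types K ty r, σ.card ≤ Q →
      Acyc k {T | T ∈ K₁ ∧ ∀ φ ∈ T, ∀ x ∈ σ, rel φ x} (Q - σ.card))
    (hX : ∀ T ∈ K₁, 2 ≤ T.card → T.card ≤ Q + 1 →
      Acyc k {σ | σ ∈ types K ty r ∧ ∀ φ ∈ T, ∀ x ∈ σ, rel φ x} (Q + 1 - T.card))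
    (hZ : ∀ φ, ({φ} : Finset β) ∈ K₁ → ∀ z : Finset α →₀ k,
      ChainIn {σ | σ ∈ types K ty r ∧ ∀ x ∈ σ, rel φ x} Q z → bd z = 0 →
      ∃ y : Finset α →₀ k, ChainIn K (Q + 1) y ∧ bd y = z) :
    Acyc k K Q := by
  classical
  intro c hc hbd
  obtain ⟨a, y, ha, hbda, hy, rfl⟩ := homologous_of_relAcyc hK hpd hc hbd
  let R : Finset β → Finset α → Prop := fun T σ =>
    T ∈ K₁ ∧ σ ∈ types K ty r ∧ ∀ φ ∈ T, ∀ x ∈ σ, rel φ x
  have hR : ∀ T T' σ σ', T' ⊆ T → σ' ⊆ σ → R T σ → R T' σ' := by
    rintro T T' σ σ' hT hσ ⟨h1, h2, h3⟩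
    exact ⟨hK₁ T h1 T' hT, types_down hK ty r σ h2 σ' hσ,
      fun φ hφ x hx => h3 φ (hT hφ) x (hσ hx)⟩
  obtain ⟨s, zv, hzv, hsum⟩ := double_complex (k := k) R hR Q hQ
    (by
      rintro σ ⟨_, h2, _⟩ hcard
      have e : {T | R T σ} = {T | T ∈ K₁ ∧ ∀ φ ∈ T, ∀ x ∈ σ, rel φ x} := by
        ext T
        exact ⟨fun h => ⟨h.1, h.2.2⟩, fun h => ⟨h.1, h2, h.2⟩⟩
      rw [e]
      exact hN σ h2 hcard)
    (by
      rintro T ⟨h1, _, _⟩ h2 h3
      have e : {σ | R T σ} = {σ | σ ∈ types K ty r ∧ ∀ φ ∈ T, ∀ x ∈ σ, rel φ x} := by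
        ext σ
        exact ⟨fun h => ⟨h.2.1, h.2.2⟩, fun h => ⟨h1, h.1, h.2⟩⟩
      rw [e]
      exact hX T h1 h2 h3)
    a (by
      intro σ hσ
      exact ⟨⟨h0, (ha σ hσ).1, by simp only [notMem_empty, IsEmpty.forall_iff, implies_true]⟩, (ha σ hσ).2⟩) hbda
  have hfill : ∀ v ∈ s, ∃ w : Finset α →₀ k, ChainIn K (Q + 1) w ∧ bd w = zv v := by
    intro v hv
    obtain ⟨h1, h2⟩ := hzv v hv
    by_cases hvK : ({v} : Finset β) ∈ K₁
    · refine hZ v hvK (zv v) ?_ h2
      refine h1.mono ?_
      rintro σ ⟨_, h4, h5⟩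
      exact ⟨h4, fun x hx => h5 v (by simp) x hx⟩
    · refine ⟨0, ChainIn.zero K _, ?_⟩
      rw [map_zero]
      symm
      rw [← Finsupp.support_eq_empty, Finset.eq_empty_iff_forall_notMem]
      intro σ hσ
      exact hvK (h1 σ hσ).1.1
  choose! w hw1 hw2 using hfill
  refine ⟨∑ v ∈ s, w v + y, (ChainIn.sum hw1).add hy, ?_⟩
  rw [map_add, map_sum, hsum]
  congr 1
  exact Finset.sum_congr rfl hw2

end Vale.Agent.P067
end
end

section

section

/-! # P067: acyclicity of lower links (F5), for the push down lemma -/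

set_option autoImplicit false

open Finset

namespace Vale.Agent.P067

attribute [local instance] Classical.propDecidable

open scoped Pointwise

set_option linter.unusedSectionVars false

variable {p m : ℕ} [Fact p.Prime] {ι : Type} [Fintype ι] [DecidableEq ι]

/-- types are distinct inside a simplex. -/
theorem ty_injOn_XX (hm : 3 ≤ m) : ∀ σ ∈ XX ι p m, ∀ x ∈ σ, ∀ y ∈ σ, ty x = ty y → x = y := by
  intro σ hσ x hx y hy h
  have G := linkGeom_XX (ι := ι) (p := p) hm
  by_contra hne
  rcases G.lt_or_lt (G.edge hσ hx hy) hne with h1 | h1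
  · have h2 := G.type_mono (G.vertex hσ hx) (G.vertex hσ hy) h1
    exact absurd h (ne_of_lt h2)
  · have h2 := G.type_mono (G.vertex hσ hy) (G.vertex hσ hx) h1
    exact absurd h.symm (ne_of_lt h2)

theorem ty_lt_iff (hm : 3 ≤ m) {x y : Sb ι p m} (h : ({x, y} : Finset (Sb ι p m)) ∈ XX ι p m)
    (hne : x ≠ y) : ty y < ty x ↔ y < x := by
  have G := linkGeom_XX (ι := ι) (p := p) hm
  have hx : ({x} : Finset (Sb ι p m)) ∈ XX ι p m := G.vertex h (by simp)
  have hy : ({y} : Finset (Sb ι p m)) ∈ XX ι p m := G.vertex h (by simp)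
  constructor
  · intro hlt
    rcases G.lt_or_lt h hne with h1 | h1
    · have h2 := G.type_mono hx hy h1
      exact absurd (h2.trans hlt) (lt_irrefl _)
    · exact h1
  · intro h1
    exact G.type_mono hy hx h1

theorem acyc_lowLk_single (e : ℕ) : ∃ N0 : ℕ, ∀ (ι : Type) [Fintype ι] [DecidableEq ι] (p m : ℕ)
    [Fact p.Prime] (k : Type) [Field k] [CharP k 2], 3 ≤ m → N0 ≤ p →
    ∀ L : Sb ι p m, ({L} : Finset (Sb ι p m)) ∈ XX ι p m → ty L = e → ∀ q, q + 1 ≤ e →
    Acyc k (lowLk (XX ι p m) ty L) q := by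
  obtain ⟨N0, hN0⟩ := acyc_LkC.{0} e
  refine ⟨N0, ?_⟩
  intro ι _ _ p m _ k _ _ hm hp L hL hty q hq
  have G := linkGeom_XX (ι := ι) (p := p) hm
  obtain ⟨hfr, hlt, hdisj, hfrN, hsup⟩ := finrank_vertex hm hL
  have hSL : Sp L < L := G.Sp_lt L hL
  have hne : Sp L ⊔ (Sp L).map (tm ι p m) ≠ L := by
    intro h
    have h1 := Submodule.finrank_add_le_finrank_add_finrank (K := ZMod p) (Sp L)
      ((Sp L).map (tm ι p m))
    rw [h] at h1
    omega
  have hGE := genExt_dual (F := ZMod p) (S := Sp L) (N := (Sp L).map (tm ι p m)) (Λ := L) hSL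
    (tm_Sp_le L) hdisj hne N0 (by rwa [ZMod.card])
  have hrk : rkD (Sp L) ((Sp L).map (tm ι p m)) L (OrderDual.toDual (Sp L))
      = e + 1 + (∅ : Finset (Sb ι p m)ᵒᵈ).card := by
    unfold rkD
    rw [if_pos (OrderDual.ofDual_toDual _), hfrN, Finset.card_empty]
    have : Module.finrank (ZMod p) (Sp L) = e := hty
    omega
  have hA := hN0 (Sb ι p m)ᵒᵈ k _ _ _ _ hGE (OrderDual.toDual (Sp L)) (Set.mem_insert _ _) ∅
    (by simp) (by simp) hrk q hq
  refine acyc_of_iso (OrderDual.toDual) (OrderDual.ofDual) ?_ ?_ hA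
  · rintro τ ⟨hLτ, hτ, hlow⟩
    obtain ⟨h1, h2⟩ := G.toLink L τ hLτ hτ
    have hylt : ∀ y ∈ τ, y < L := by
      intro y hy
      have hne' : L ≠ y := fun h => hLτ (h ▸ hy)
      exact (ty_lt_iff hm (G.edge hτ (Finset.mem_insert_self _ _)
        (Finset.mem_insert_of_mem hy)) hne').1 (hlow y hy)
    have hyC : ∀ y ∈ τ, y ∈ CLow (Sp L) ((Sp L).map (tm ι p m)) L := by
      intro y hy
      have h3 := (h1 y hy).1
      have hz : zm (tm ι p m) L y = y := by
        unfold zm
        rw [if_pos (hylt y hy)]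
      rw [hz] at h3
      refine ⟨h3.1, h3.2.1, ?_⟩
      have hyv := G.vertex hτ (Finset.mem_insert_of_mem hy)
      have hfy := (finrank_vertex hm hyv).1
      exact CL_lower hm hL h3 (by omega)
    refine ⟨⟨?_, Finset.disjoint_empty_right _, ?_⟩, fun y _ => rfl⟩
    · intro Z hZ
      obtain ⟨y, hy, rfl⟩ := Finset.mem_image.mp hZ
      exact ⟨hyC y hy, (hyC y hy).1⟩
    · rw [Finset.union_empty]
      intro a ha b hb hab
      obtain ⟨x, hx, rfl⟩ := Finset.mem_image.mp (Finset.mem_coe.mp ha)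
      obtain ⟨y, hy, rfl⟩ := Finset.mem_image.mp (Finset.mem_coe.mp hb)
      have hxy : x ≠ y := fun h => hab (by rw [h])
      rcases G.lt_or_lt (G.edge hτ (Finset.mem_insert_of_mem hx) (Finset.mem_insert_of_mem hy))
        hxy with h | h
      · right; exact h.le
      · left; exact h.le
  · rintro ρ ⟨hρ1, _, hρ3⟩
    rw [Finset.union_empty] at hρ3
    set ρ' : Finset (Sb ι p m) := ρ.image OrderDual.ofDual with hρ'
    have hC : ∀ Z ∈ ρ', Z ∈ CLow (Sp L) ((Sp L).map (tm ι p m)) L := by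
      intro Z hZ
      obtain ⟨Z', hZ', rfl⟩ := Finset.mem_image.mp hZ
      exact (hρ1 Z' hZ').1
    have hbig : ∀ Z ∈ ρ', Fintype.card ι ≤ Module.finrank (ZMod p) Z := by
      intro Z hZ
      have h3 := finrank_low (F := ZMod p) (hC Z hZ).2.2
      omega
    have hch : IsChain (· ≤ ·) (ρ' : Set (Sb ι p m)) := by
      intro a ha b hb hab
      obtain ⟨x, hx, rfl⟩ := Finset.mem_image.mp (Finset.mem_coe.mp ha)
      obtain ⟨y, hy, rfl⟩ := Finset.mem_image.mp (Finset.mem_coe.mp hb)
      have hxy : x ≠ y := fun h => hab (by rw [h])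
      rcases hρ3 hx hy hxy with h | h
      · right; exact h
      · left; exact h
    obtain ⟨h1, h2, h3⟩ := G.ofLink L hL ρ' (fun Z hZ => ⟨(hC Z hZ).1, (hC Z hZ).2.1,
      Or.inr (hC Z hZ).2.2⟩) hch
    have him : ρ'.image (ym (tm ι p m) (Fintype.card ι) L) = ρ' := by
      conv_rhs => rw [← Finset.image_id (s := ρ')]
      apply Finset.image_congr
      intro Z hZ
      unfold ym
      rw [if_pos (hbig Z hZ)]
      rfl
    rw [him] at h1 h2
    refine ⟨⟨h2, h1, ?_⟩, fun y _ => rfl⟩
    intro y hy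
    have hne' : L ≠ y := fun h => h2 (h ▸ hy)
    exact (ty_lt_iff hm (G.edge h1 (Finset.mem_insert_self _ _)
        (Finset.mem_insert_of_mem hy)) hne').2 (hC y hy).2.1

/-- (F5) lower links of vertices of `X` are acyclic below the top dimension. -/
theorem acyc_lowLk_XX (n : ℕ) : ∃ N0 : ℕ, ∀ (ι : Type) [Fintype ι] [DecidableEq ι] (p m : ℕ)
    [Fact p.Prime] (k : Type) [Field k] [CharP k 2], Fintype.card ι = n → 3 ≤ m → N0 ≤ p →
    ∀ L : Sb ι p m, ({L} : Finset (Sb ι p m)) ∈ XX ι p m → ∀ q, q + 1 ≤ ty L →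
    Acyc k (lowLk (XX ι p m) ty L) q := by
  choose N0 hN0 using acyc_lowLk_single
  refine ⟨∑ e ∈ Finset.range n, N0 e, ?_⟩
  intro ι _ _ p m _ k _ _ hn hm hp L hL q hq
  have hlt : ty L < n := by
    rw [← hn]; exact (finrank_vertex hm hL).2.1
  have hle : N0 (ty L) ≤ ∑ e ∈ Finset.range n, N0 e :=
    Finset.single_le_sum (f := N0) (fun _ _ => Nat.zero_le _) (Finset.mem_range.mpr hlt)
  exact hN0 (ty L) ι p m k hm (hle.trans hp) L hL rfl q hq

end Vale.Agent.P067
end
end

section

section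

/-! # P067, module M9c: independence complexes (blueprint part 4) -/

set_option autoImplicit false

open Finset

namespace Vale.Agent.P067

attribute [local instance] Classical.propDecidable

variable {k : Type*} [Field k] [CharP k 2]

/-- Complex of finite sets on which `π` is linearly independent. -/
def Indep (F : Type*) {E U : Type*} [Field F] [AddCommGroup U] [Module F U] (π : E → U) :
    Set (Finset E) := {T | LinearIndepOn F π (T : Set E)}

section IndepSec

variable (F : Type*) {E U : Type*} [Field F] [AddCommGroup U] [Module F U]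

theorem acyc_indep_aux (π : E → U) (n : ℕ) : ∀ (S B : Finset E) (q : ℕ), S.card = n →
    Disjoint S B → LinearIndepOn F π (B : Set E) →
    q + 1 + B.card ≤ Module.finrank F (Submodule.span F (π '' ((S ∪ B : Finset E) : Set E))) →
    Acyc k {T : Finset E | T ⊆ S ∧ LinearIndepOn F π ((T ∪ B : Finset E) : Set E)} q := by
  induction n with
  | zero =>
    intro S B q hS hdisj hB hrk
    exfalso
    rw [Finset.card_eq_zero] at hS
    subst hS
    rw [Finset.empty_union] at hrk
    have h1 : Module.finrank F (Submodule.span F (π '' (B : Set E))) ≤ B.card := by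
      have h2 := finrank_span_finset_le_card (R := F) (B.image π)
      rw [Finset.coe_image] at h2
      exact h2.trans Finset.card_image_le
    omega
  | succ n ih =>
    intro S B q hS hdisj hB hrk
    have hne : S.Nonempty := by
      rw [← Finset.card_pos]; omega
    obtain ⟨e, he⟩ := hne
    have hcard : (S.erase e).card = n := by
      rw [Finset.card_erase_of_mem he]; omega
    have heB : e ∉ B := Finset.disjoint_left.1 hdisj he
    have hdisj1 : Disjoint (S.erase e) B :=
      Finset.disjoint_of_subset_left (Finset.erase_subset e S) hdisj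
    by_cases hdep : π e ∈ Submodule.span F (π '' (B : Set E))
    · -- `e` is a loop
      have hspan : Submodule.span F (π '' ((S ∪ B : Finset E) : Set E))
          = Submodule.span F (π '' ((S.erase e ∪ B : Finset E) : Set E)) := by
        apply le_antisymm
        · rw [Submodule.span_le]
          rintro _ ⟨x, hx, rfl⟩
          by_cases hxe : x = e
          · subst hxe
            exact Submodule.span_mono (Set.image_mono (by
              intro y hy; exact Finset.mem_coe.2 (Finset.mem_union_right _ hy))) hdep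
          · apply Submodule.subset_span
            refine ⟨x, ?_, rfl⟩
            rw [Finset.mem_coe, Finset.mem_union] at hx ⊢
            rcases hx with h | h
            · exact Or.inl (Finset.mem_erase.2 ⟨hxe, h⟩)
            · exact Or.inr h
        · apply Submodule.span_mono
          apply Set.image_mono
          intro x hx
          rw [Finset.mem_coe, Finset.mem_union] at hx ⊢
          rcases hx with h | h
          · exact Or.inl (Finset.mem_of_mem_erase h)
          · exact Or.inr h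
      have hset : {T : Finset E | T ⊆ S ∧ LinearIndepOn F π ((T ∪ B : Finset E) : Set E)}
          = {T : Finset E | T ⊆ S.erase e ∧ LinearIndepOn F π ((T ∪ B : Finset E) : Set E)} := by
        ext T
        constructor
        · rintro ⟨h1, h2⟩
          refine ⟨fun x hx => Finset.mem_erase.2 ⟨?_, h1 hx⟩, h2⟩
          rintro rfl
          have h3 : (insert x B : Finset E) ⊆ T ∪ B := by
            intro y hy
            rcases Finset.mem_insert.1 hy with rfl | h
            · exact Finset.mem_union_left _ hx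
            · exact Finset.mem_union_right _ h
          have h4 : LinearIndepOn F π ((insert x B : Finset E) : Set E) := h2.mono (by exact_mod_cast h3)
          rw [Finset.coe_insert, linearIndepOn_insert (by exact_mod_cast heB)] at h4
          exact h4.2 hdep
        · rintro ⟨h1, h2⟩
          exact ⟨h1.trans (Finset.erase_subset _ _), h2⟩
      rw [hset]
      rw [hspan] at hrk
      exact ih (S.erase e) B q hcard hdisj1 hB hrk
    · have hBe : LinearIndepOn F π ((insert e B : Finset E) : Set E) := by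
        rw [Finset.coe_insert, linearIndepOn_insert (by exact_mod_cast heB)]
        exact ⟨hB, hdep⟩
      have hSB : S.erase e ∪ insert e B = S ∪ B := by
        rw [Finset.union_insert, ← Finset.insert_union, Finset.insert_erase he]
      rcases Nat.eq_zero_or_pos q with hq | hq
      · subst hq
        refine acyc_zero (v := e) ⟨Finset.singleton_subset_iff.2 he, ?_⟩
        rw [Finset.singleton_union]
        exact hBe
      · intro c hc hbd
        have hdisj2 : Disjoint (S.erase e) (insert e B) := by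
          rw [Finset.disjoint_insert_right]
          exact ⟨Finset.notMem_erase e S, hdisj1⟩
        have hlink := ih (S.erase e) (insert e B) (q - 1) hcard hdisj2 hBe (by
          rw [hSB, Finset.card_insert_of_notMem heB]
          omega)
        have hset : {T : Finset E | T ⊆ S.erase e ∧
            LinearIndepOn F π ((T ∪ insert e B : Finset E) : Set E)}
            = {T : Finset E | e ∉ T ∧ insert e T ⊆ S ∧
            LinearIndepOn F π ((insert e T ∪ B : Finset E) : Set E)} := by
          ext T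
          constructor
          · rintro ⟨h1, h2⟩
            refine ⟨fun h => Finset.notMem_erase e S (h1 h), ?_, ?_⟩
            · exact Finset.insert_subset he (h1.trans (Finset.erase_subset _ _))
            · rwa [Finset.insert_union, ← Finset.union_insert]
          · rintro ⟨h0, h1, h2⟩
            refine ⟨fun x hx => Finset.mem_erase.2 ⟨?_, h1 (Finset.mem_insert_of_mem hx)⟩, ?_⟩
            · rintro rfl; exact h0 hx
            · rwa [Finset.union_insert, ← Finset.insert_union]
        rw [hset] at hlink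
        have hlkin : ChainIn {T : Finset E | e ∉ T ∧ insert e T ⊆ S ∧
            LinearIndepOn F π ((insert e T ∪ B : Finset E) : Set E)} (q - 1) (lk e c) := by
          intro t ht
          obtain ⟨h1, h2⟩ := mem_support_lk.1 ht
          obtain ⟨h3, h4⟩ := hc _ h2
          refine ⟨⟨h1, h3.1, h3.2⟩, ?_⟩
          rw [Finset.card_insert_of_notMem h1] at h4
          omega
        obtain ⟨y, hy, hby⟩ := hlink (lk e c) hlkin (by rw [← lk_bd, hbd, map_zero])
        have hqq : q - 1 + 1 = q := by omega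
        rw [hqq] at hy
        have helim := elim_vertex e c y hby
        -- the new cycle avoids `e`
        have hc' : ChainIn {T : Finset E | T ⊆ S.erase e ∧
            LinearIndepOn F π ((T ∪ B : Finset E) : Set E)} q (c + bd (cone e y)) := by
          rw [helim]
          refine ChainIn.add ?_ ?_
          · intro s hs
            obtain ⟨h1, h2⟩ := mem_support_del.1 hs
            obtain ⟨h3, h4⟩ := hc _ h2
            refine ⟨⟨fun x hx => Finset.mem_erase.2 ⟨?_, h3.1 hx⟩, h3.2⟩, h4⟩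
            rintro rfl; exact h1 hx
          · intro s hs
            obtain ⟨⟨h1, h2, h3⟩, h4⟩ := hy s hs
            refine ⟨⟨fun x hx => Finset.mem_erase.2 ⟨?_, h2 (Finset.mem_insert_of_mem hx)⟩, ?_⟩, h4⟩
            · rintro rfl; exact h1 hx
            · refine h3.mono ?_
              have : s ∪ B ⊆ insert e s ∪ B := Finset.union_subset_union_left (Finset.subset_insert e s)
              exact_mod_cast this
        have hbd' : bd (c + bd (cone e y)) = 0 := by rw [map_add, bd_bd, hbd, add_zero]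
        have hcone : ChainIn {T : Finset E | T ⊆ S ∧
            LinearIndepOn F π ((T ∪ B : Finset E) : Set E)} (q + 1) (cone e y) :=
          ChainIn.cone fun s hs => ⟨⟨(hy s hs).1.2.1, (hy s hs).1.2.2⟩, (hy s hs).2⟩
        have hfin : ∃ y' : Finset E →₀ k, ChainIn {T : Finset E | T ⊆ S ∧
            LinearIndepOn F π ((T ∪ B : Finset E) : Set E)} (q + 1) y' ∧
            bd y' = c + bd (cone e y) := by
          by_cases hcol : π e ∈ Submodule.span F (π '' ((S.erase e ∪ B : Finset E) : Set E))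
          · have hspan : Submodule.span F (π '' ((S ∪ B : Finset E) : Set E))
                = Submodule.span F (π '' ((S.erase e ∪ B : Finset E) : Set E)) := by
              apply le_antisymm
              · rw [Submodule.span_le]
                rintro _ ⟨x, hx, rfl⟩
                by_cases hxe : x = e
                · subst hxe; exact hcol
                · apply Submodule.subset_span
                  refine ⟨x, ?_, rfl⟩
                  rw [Finset.mem_coe, Finset.mem_union] at hx ⊢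
                  rcases hx with h | h
                  · exact Or.inl (Finset.mem_erase.2 ⟨hxe, h⟩)
                  · exact Or.inr h
              · apply Submodule.span_mono
                apply Set.image_mono
                intro x hx
                rw [Finset.mem_coe, Finset.mem_union] at hx ⊢
                rcases hx with h | h
                · exact Or.inl (Finset.mem_of_mem_erase h)
                · exact Or.inr h
            rw [hspan] at hrk
            obtain ⟨y', hy', hby'⟩ := ih (S.erase e) B q hcard hdisj1 hB hrk _ hc' hbd'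
            have hsub : {T : Finset E | T ⊆ S.erase e ∧
                LinearIndepOn F π ((T ∪ B : Finset E) : Set E)} ⊆ {T : Finset E | T ⊆ S ∧
                LinearIndepOn F π ((T ∪ B : Finset E) : Set E)} :=
              fun T hT => ⟨hT.1.trans (Finset.erase_subset _ _), hT.2⟩
            exact ⟨y', hy'.mono hsub, hby'⟩
          · refine exists_bd_of_cone (x := e) (K := {T : Finset E | T ⊆ S ∧
              LinearIndepOn F π ((T ∪ B : Finset E) : Set E)}) (c := c + bd (cone e y))
              (fun s hs => ?_) hbd'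
            obtain ⟨⟨h1, h2⟩, h3⟩ := hc' s hs
            refine ⟨⟨Finset.insert_subset he (h1.trans (Finset.erase_subset _ _)), ?_⟩, h3⟩
            rw [Finset.insert_union, Finset.coe_insert, linearIndepOn_insert]
            · refine ⟨h2, fun h => hcol ?_⟩
              refine Submodule.span_mono (Set.image_mono ?_) h
              have : s ∪ B ⊆ S.erase e ∪ B := Finset.union_subset_union_left h1
              exact_mod_cast this
            · rw [Finset.mem_coe, Finset.mem_union]
              rintro (h | h)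
              · exact Finset.notMem_erase e S (h1 h)
              · exact heB h
        obtain ⟨y', hy', hby'⟩ := hfin
        refine ⟨cone e y + y', hcone.add hy', ?_⟩
        rw [map_add, hby']
        have := add_self_zero (bd (cone e y))
        calc bd (cone e y) + (c + bd (cone e y)) = c + (bd (cone e y) + bd (cone e y)) := by abel
          _ = c := by rw [this, add_zero]

/-- M9c: independence complexes are acyclic below the top dimension. -/
theorem acyc_indep [Finite E]
    (π : E → U) (q : ℕ) (hq : q + 1 ≤ Module.finrank F (Submodule.span F (Set.range π))) :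
    Acyc k (Indep F π) q := by
  have := Fintype.ofFinite E
  have h := acyc_indep_aux (k := k) F π _ Finset.univ ∅ q rfl (Finset.disjoint_empty_right _)
    (by simp) (by
      rw [Finset.union_empty, Finset.coe_univ, Set.image_univ]
      simpa using hq)
  have hset : {T : Finset E | T ⊆ Finset.univ ∧ LinearIndepOn F π ((T ∪ ∅ : Finset E) : Set E)}
      = Indep F π := by
    ext T
    simp only [subset_univ, union_empty, true_and, Set.mem_ofPred_eq, Indep]
  rwa [hset] at h

end IndepSec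

end Vale.Agent.P067
end
end

section

section

/-!
# P067: the induction step for the vanishing of homology (pillar A)
-/

set_option autoImplicit false
set_option linter.unusedSectionVars false

open Finset

namespace Vale.Agent.P067

attribute [local instance] Classical.propDecidable

open scoped Pointwise
open Matrix

variable {p m : ℕ} [Fact p.Prime]
variable {ι : Type} [Fintype ι] [DecidableEq ι]

/-- The row vector `r` takes constant values on `L`. -/
def relV (r : VV ι p m) (L : Sb ι p m) : Prop := ∀ x ∈ L, r ⬝ᵥ x ∈ cR p m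

/-- Sets of rows which are independent modulo `t`. -/
def K1 (ι : Type) (p m : ℕ) [Fact p.Prime] : Set (Finset (VV ι p m)) :=
  Indep (ZMod p) (cof ι p m 0)

theorem K1_down : DownClosed (K1 ι p m) := by
  intro s hs t ht
  exact LinearIndepOn.mono hs (by exact_mod_cast ht)

theorem empty_mem_K1 : (∅ : Finset (VV ι p m)) ∈ K1 ι p m := by
  unfold K1 Indep
  simp

theorem resR_eq_co (hm : 0 < m) (x : Rg p m) : resR p m hm x = co p m 0 x := by
  obtain ⟨f, rfl⟩ := AdjoinRoot.mk_surjective x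
  rw [co_mk 0 f hm]
  unfold resR
  rw [AdjoinRoot.lift_mk, Polynomial.coeff_zero_eq_eval_zero]
  rfl

theorem cst_dotProduct (a v : ι → ZMod p) :
    cst ι p m a ⬝ᵥ cst ι p m v = algebraMap (ZMod p) (Rg p m) (a ⬝ᵥ v) := by
  unfold dotProduct
  rw [map_sum]
  refine Finset.sum_congr rfl fun i _ => ?_
  rw [map_mul, cst_apply, cst_apply]

/-- The dimension of the reductions of the rows which are constant on a simplex. -/
theorem finrank_rows (hm : 3 ≤ m) {σ : Finset (Sb ι p m)} (hσ : σ ∈ XX ι p m) (r : ℕ)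
    (hr : ∀ L ∈ σ, ty L ≤ r) :
    Fintype.card ι ≤ r + Module.finrank (ZMod p) (Submodule.span (ZMod p)
      (Set.range (fun u : {u : VV ι p m // ∀ L ∈ σ, relV u L} => cof ι p m 0 u.1))) := by
  obtain ⟨Wf, hW, c, hch, hlt, rfl⟩ := hσ
  have hm0 : 0 < m := by omega
  -- a largest element of the chain
  obtain ⟨S0, hS0W, hS0r, hS0⟩ : ∃ S0 : Sb ι p m, S0 ≤ Wf ∧ Module.finrank (ZMod p) S0 ≤ r ∧
      ∀ S ∈ c, S ≤ S0 := by
    rcases c.eq_empty_or_nonempty with rfl | hne
    · exact ⟨⊥, bot_le, by simp, by simp only [notMem_empty, le_bot_iff, IsEmpty.forall_iff, implies_true]⟩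
    · obtain ⟨S0, hS0, hmax⟩ := Finset.exists_maximal hne
      refine ⟨S0, (hlt S0 hS0).le, ?_, ?_⟩
      · have h1 := hr _ (Finset.mem_image_of_mem _ hS0)
        rwa [ty, Sp_vtx hm hW (hlt S0 hS0).le] at h1
      · intro S hS
        by_cases h : S = S0
        · exact h.le
        · rcases hch hS hS0 h with h1 | h1
          · exact h1
          · exact hmax hS h1
  obtain ⟨g, rfl⟩ := hW
  obtain ⟨M, rfl⟩ := exists_toG g
  -- the reduction of `S0`
  let T0 : (ι → ZMod p) →ₗ[ZMod p] VV ι p m :=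
    { toFun := fun v => toG M • cst ι p m v
      map_add' := by
        intro v w
        rw [map_add, smul_add]
      map_smul' := by
        intro a v
        rw [map_smul, smul_comm]
        rfl }
  have hT0inj : Function.Injective T0 := by
    intro v w h
    have h1 : cst ι p m v = cst ι p m w := smul_left_cancel (toG M) h
    have h2 := congrArg (cof ι p m 0) h1
    rwa [cof_cst 0 hm0, cof_cst 0 hm0, if_pos rfl, if_pos rfl] at h2
  let S1 : Submodule (ZMod p) (ι → ZMod p) := S0.comap T0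
  have hS1 : Module.finrank (ZMod p) S1 ≤ r := by
    refine le_trans ?_ hS0r
    have h1 : S1.map T0 ≤ S0 := Submodule.map_comap_le T0 S0
    have h2 : Module.finrank (ZMod p) (S1.map T0) = Module.finrank (ZMod p) S1 :=
      (LinearEquiv.finrank_eq (Submodule.equivMapOfInjective T0 hT0inj S1)).symm
    rw [← h2]
    exact Submodule.finrank_mono h1
  -- vectors orthogonal to `S1`
  let Bl : (ι → ZMod p) →ₗ[ZMod p] (S1 →ₗ[ZMod p] ZMod p) :=
    { toFun := fun a =>
        { toFun := fun v => a ⬝ᵥ (v : ι → ZMod p)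
          map_add' := fun v w => by rw [Submodule.coe_add, dotProduct_add]
          map_smul' := fun b v => by
            rw [Submodule.coe_smul, dotProduct_smul]
            rfl }
      map_add' := fun a b => by
        ext v
        exact add_dotProduct _ _ _
      map_smul' := fun b a => by
        ext v
        exact smul_dotProduct _ _ _ }
  have hker : Fintype.card ι ≤ r + Module.finrank (ZMod p) (LinearMap.ker Bl) := by
    have h1 := LinearMap.finrank_range_add_finrank_ker Bl
    rw [Module.finrank_fintype_fun_eq_card] at h1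
    have h2 : Module.finrank (ZMod p) (LinearMap.range Bl)
        ≤ Module.finrank (ZMod p) (S1 →ₗ[ZMod p] ZMod p) := Submodule.finrank_le _
    have h3 : Module.finrank (ZMod p) (S1 →ₗ[ZMod p] ZMod p) = Module.finrank (ZMod p) S1 :=
      Subspace.dual_finrank_eq
    omega
  -- the rows
  let row : (ι → ZMod p) → VV ι p m := fun a =>
    (cst ι p m a) ᵥ* ((M⁻¹ : Matrix.SpecialLinearGroup ι (Rg p m)) : Matrix ι ι (Rg p m))
  have hMM : ((M⁻¹ : Matrix.SpecialLinearGroup ι (Rg p m)) : Matrix ι ι (Rg p m)) *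
      (M : Matrix ι ι (Rg p m)) = 1 := by
    rw [← Matrix.SpecialLinearGroup.coe_mul, inv_mul_cancel, Matrix.SpecialLinearGroup.coe_one]
  have hrow : ∀ a y, row a ⬝ᵥ (toG M • y) = cst ι p m a ⬝ᵥ y := by
    intro a y
    rw [toG_smul]
    simp only [row]
    rw [Matrix.dotProduct_mulVec, Matrix.vecMul_vecMul, hMM, Matrix.vecMul_one]
  have hrel : ∀ a ∈ LinearMap.ker Bl, ∀ L ∈ c.image (vtx (toG M • W0 ι p m)), relV (row a) L := by
    intro a ha L hL x hx
    obtain ⟨S, hS, rfl⟩ := Finset.mem_image.1 hL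
    obtain ⟨w, hw, u, ⟨s, hs, rfl⟩, rfl⟩ := Submodule.mem_sup.1 hx
    rw [Submodule.mem_smul_pointwise_iff_exists] at hw
    obtain ⟨_, ⟨v, rfl⟩, rfl⟩ := hw
    have hs0 := hS0W (hS0 S hS hs)
    rw [Submodule.mem_smul_pointwise_iff_exists] at hs0
    obtain ⟨_, ⟨v', rfl⟩, hv'⟩ := hs0
    have hv1 : v' ∈ S1 := by
      change toG M • cst ι p m v' ∈ S0
      rw [hv']
      exact hS0 S hS hs
    have h0 : a ⬝ᵥ v' = 0 := LinearMap.congr_fun (LinearMap.mem_ker.1 ha) ⟨v', hv1⟩
    rw [dotProduct_add, hrow, cst_dotProduct, tm_apply, dotProduct_smul, ← hv', hrow,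
      cst_dotProduct, h0, map_zero, smul_zero, add_zero]
    exact ⟨_, rfl⟩
  -- the reduction of the rows
  let f : (ι → ZMod p) →ₗ[ZMod p] (ι → ZMod p) :=
    { toFun := fun a => cof ι p m 0 (row a)
      map_add' := fun a b => by
        simp only [row]
        rw [map_add, Matrix.add_vecMul, map_add]
      map_smul' := fun b a => by
        simp only [row]
        rw [map_smul, Matrix.smul_vecMul, map_smul]
        rfl }
  have hfinj : Function.Injective f := by
    rw [injective_iff_map_eq_zero]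
    intro a ha
    have h1 : ∀ i, resR p m hm0 (row a i) = 0 := by
      intro i
      rw [resR_eq_co]
      exact congrFun ha i
    have h2 : cst ι p m a = row a ᵥ* (M : Matrix ι ι (Rg p m)) := by
      simp only [row]
      rw [Matrix.vecMul_vecMul, hMM, Matrix.vecMul_one]
    funext i
    have h3 : resR p m hm0 (cst ι p m a i) = 0 := by
      rw [h2]
      unfold Matrix.vecMul dotProduct
      rw [map_sum]
      refine Finset.sum_eq_zero fun j _ => ?_
      rw [map_mul, h1, zero_mul]
    rw [cst_apply, resR_algebraMap] at h3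
    exact h3
  have hle : (LinearMap.ker Bl).map f ≤ Submodule.span (ZMod p)
      (Set.range (fun u : {u : VV ι p m // ∀ L ∈ c.image (vtx (toG M • W0 ι p m)), relV u L} =>
        cof ι p m 0 u.1)) := by
    rintro _ ⟨a, ha, rfl⟩
    exact Submodule.subset_span ⟨⟨row a, hrel a ha⟩, rfl⟩
  have h4 := Submodule.finrank_mono hle
  have h5 : Module.finrank (ZMod p) ((LinearMap.ker Bl).map f)
      = Module.finrank (ZMod p) (LinearMap.ker Bl) :=
    (LinearEquiv.finrank_eq (Submodule.equivMapOfInjective f hfinj _)).symm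
  omega

/-- Independence complexes restricted to a subset of the elements. -/
theorem image_Indep {E U : Type*} [AddCommGroup U] [Module (ZMod p) U] (π : E → U) (P : E → Prop) :
    (fun s : Finset {u : E // P u} => s.image Subtype.val) '' Indep (ZMod p) (fun u : {u // P u} =>
      π u.1) = {T | T ∈ Indep (ZMod p) π ∧ ∀ u ∈ T, P u} := by
  ext T
  constructor
  · rintro ⟨s, hs, rfl⟩
    refine ⟨?_, ?_⟩
    · change LinearIndepOn (ZMod p) π ((s.image Subtype.val : Finset E) : Set E)
      rw [Finset.coe_image]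
      have hs' : LinearIndepOn (ZMod p) (π ∘ (Subtype.val : {u // P u} → E))
          (s : Set {u // P u}) := hs
      exact LinearIndepOn.image_of_comp _ _ hs'
    · intro u hu
      obtain ⟨v, _, rfl⟩ := Finset.mem_image.1 hu
      exact v.2
  · rintro ⟨h3, h4⟩
    have hT : (T.subtype P).image Subtype.val = T := by
      ext u
      simp only [Finset.mem_image, Finset.mem_subtype, Subtype.exists, exists_and_right,
        exists_eq_right]
      exact ⟨fun h => h.2, fun h => ⟨h4 u h, h⟩⟩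
    refine ⟨T.subtype P, ?_, hT⟩
    have h5 : LinearIndepOn (ZMod p) π
        ((Subtype.val : {u // P u} → E) '' ((T.subtype P : Finset {u // P u}) : Set _)) := by
      rw [← Finset.coe_image, hT]
      exact h3
    exact h5.comp_of_image Subtype.val_injective.injOn

/-- The complex of the independent sets of rows which are constant on a simplex. -/
theorem acyc_rows {k : Type*} [Field k] [CharP k 2] (hm : 3 ≤ m) {σ : Finset (Sb ι p m)}
    (hσ : σ ∈ XX ι p m) (r q : ℕ) (hr : ∀ L ∈ σ, ty L ≤ r) (hq : q + 1 + r ≤ Fintype.card ι) :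
    Acyc k {T | T ∈ K1 ι p m ∧ ∀ u ∈ T, ∀ L ∈ σ, relV u L} q := by
  have hfin := finrank_rows hm hσ r hr
  have h1 := acyc_indep (k := k) (ZMod p)
    (fun u : {u : VV ι p m // ∀ L ∈ σ, relV u L} => cof ι p m 0 u.1) q (by omega)
  have h2 := h1.image (Subtype.val_injective (p := fun u : VV ι p m => ∀ L ∈ σ, relV u L))
  rw [image_Indep (cof ι p m 0)] at h2
  exact h2

end Vale.Agent.P067
end
end

section

section

/-!
# P067: `R = F[t]/(t^m)` is local; division by powers of `t`; the residue map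
-/

set_option autoImplicit false

open Polynomial

namespace Vale.Agent.P067

attribute [local instance] Classical.propDecidable

variable {p m : ℕ} [Fact p.Prime]

/-- The residue map `R → F`, `t ↦ 0`. -/
noncomputable def rs0 (p m : ℕ) [Fact p.Prime] (hm : 0 < m) : Rg p m →+* ZMod p :=
  AdjoinRoot.lift (RingHom.id (ZMod p)) 0 (by
    rw [Polynomial.eval₂_pow, Polynomial.eval₂_X, zero_pow (by omega)])

theorem rs0_eq (hm : 0 < m) (r : Rg p m) : rs0 p m hm r = co p m 0 r := by
  obtain ⟨f, rfl⟩ := AdjoinRoot.mk_surjective r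
  rw [co_mk 0 f hm, rs0, AdjoinRoot.lift_mk, Polynomial.eval₂_id, coeff_zero_eq_eval_zero]

theorem exists_tt_mul (hm : 0 < m) (r : Rg p m) :
    ∃ s : Rg p m, r = algebraMap (ZMod p) (Rg p m) (co p m 0 r) + tt p m * s := by
  obtain ⟨f, rfl⟩ := AdjoinRoot.mk_surjective r
  refine ⟨AdjoinRoot.mk _ (divX f), ?_⟩
  rw [co_mk 0 f hm]
  have h1 : algebraMap (ZMod p) (Rg p m) (f.coeff 0) = AdjoinRoot.mk _ (C (f.coeff 0)) := rfl
  have h2 : tt p m * AdjoinRoot.mk _ (divX f)
      = AdjoinRoot.mk ((X : (ZMod p)[X]) ^ m) (X * divX f) := by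
    rw [map_mul]; rfl
  rw [h1, h2, ← map_add, add_comm, X_mul_divX_add]

theorem isUnit_of_co_ne_zero (hm : 0 < m) (r : Rg p m) (h : co p m 0 r ≠ 0) : IsUnit r := by
  obtain ⟨s, hs⟩ := exists_tt_mul hm r
  have hnil : IsNilpotent (tt p m * s) := ⟨m, by rw [mul_pow, tt_pow, zero_mul]⟩
  have hu : IsUnit (algebraMap (ZMod p) (Rg p m) (co p m 0 r)) :=
    (IsUnit.mk0 _ h).map (algebraMap (ZMod p) (Rg p m))
  rw [hs]
  exact hnil.isUnit_add_left_of_commute hu (Commute.all _ _)

theorem isLocalRing_Rg (hm : 0 < m) : IsLocalRing (Rg p m) := by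
  have hnt : Nontrivial (Rg p m) := by
    refine ⟨⟨1, 0, fun h => ?_⟩⟩
    have h1 := congrArg (rs0 p m hm) h
    rw [map_one, map_zero] at h1
    exact one_ne_zero h1
  apply IsLocalRing.of_isUnit_or_isUnit_one_sub_self
  intro a
  by_cases h : co p m 0 a = 0
  · right
    apply isUnit_of_co_ne_zero hm
    rw [← rs0_eq hm, map_sub, map_one, rs0_eq hm, h, sub_zero]
    exact one_ne_zero
  · exact Or.inl (isUnit_of_co_ne_zero hm a h)

variable {ι : Type}

/-- Division by `t`. -/
theorem exists_tm_of_cof_zero (hm : 0 < m) (x : VV ι p m) (h : cof ι p m 0 x = 0) :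
    ∃ y : VV ι p m, x = tm ι p m y := by
  have h1 : ∀ i, ∃ s : Rg p m, x i = tt p m * s := by
    intro i
    obtain ⟨s, hs⟩ := exists_tt_mul hm (x i)
    refine ⟨s, ?_⟩
    have h2 : co p m 0 (x i) = 0 := congrFun h i
    rw [h2, map_zero, zero_add] at hs
    exact hs
  choose y hy using h1
  exact ⟨y, funext hy⟩

theorem cof_add_tm_pow (c j : ℕ) (h : c + j < m) (x : VV ι p m) :
    cof ι p m (c + j) ((tm ι p m ^ j) x) = cof ι p m c x := by
  induction j with
  | zero => simp
  | succ j ih =>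
    rw [pow_succ', Module.End.mul_apply, ← add_assoc, cof_succ_tm _ (by omega)]
    exact ih (by omega)

/-- Division by `t^c`. -/
theorem exists_tm_pow (c : ℕ) (hc : c ≤ m) (x : VV ι p m) (h : ∀ i < c, cof ι p m i x = 0) :
    ∃ y : VV ι p m, x = (tm ι p m ^ c) y := by
  induction c with
  | zero => exact ⟨x, by simp⟩
  | succ c ih =>
    obtain ⟨y, hy⟩ := ih (by omega) (fun i hi => h i (by omega))
    have h1 : cof ι p m 0 y = 0 := by
      rw [← cof_add_tm_pow 0 c (by omega) y, ← hy, zero_add]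
      exact h c (by omega)
    obtain ⟨z, rfl⟩ := exists_tm_of_cof_zero (by omega) y h1
    exact ⟨z, by rw [hy, pow_succ, Module.End.mul_apply]⟩

end Vale.Agent.P067
end
end

section

section

/-!
# P067: the embedding of `X(ι')` into `X(κ ⊕ ι')`, `Λ ↦ F^κ × Λ`
-/

set_option autoImplicit false

namespace Vale.Agent.P067

attribute [local instance] Classical.propDecidable

open scoped Pointwise

variable {p m : ℕ} [Fact p.Prime] {κ ι' : Type}

/-- Restriction to the coordinates in `κ`. -/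
noncomputable def rk (κ ι' : Type) (p m : ℕ) [Fact p.Prime] :
    VV (κ ⊕ ι') p m →ₗ[ZMod p] VV κ p m :=
  LinearMap.funLeft (ZMod p) (Rg p m) Sum.inl

/-- Restriction to the coordinates in `ι'`. -/
noncomputable def ri (κ ι' : Type) (p m : ℕ) [Fact p.Prime] :
    VV (κ ⊕ ι') p m →ₗ[ZMod p] VV ι' p m :=
  LinearMap.funLeft (ZMod p) (Rg p m) Sum.inr

/-- Extension by zero. -/
noncomputable def inc (κ ι' : Type) (p m : ℕ) [Fact p.Prime] :
    VV ι' p m →ₗ[ZMod p] VV (κ ⊕ ι') p m where
  toFun x := Sum.elim 0 x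
  map_add' x y := by
    funext i
    cases i <;> simp
  map_smul' a x := by
    funext i
    cases i <;> simp

/-- Extension by zero from the `κ` coordinates. -/
noncomputable def inck (κ ι' : Type) (p m : ℕ) [Fact p.Prime] :
    VV κ p m →ₗ[ZMod p] VV (κ ⊕ ι') p m where
  toFun x := Sum.elim x 0
  map_add' x y := by
    funext i
    cases i <;> simp
  map_smul' a x := by
    funext i
    cases i <;> simp

theorem rk_apply (x : VV (κ ⊕ ι') p m) (i : κ) : rk κ ι' p m x i = x (Sum.inl i) := rfl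

theorem ri_apply (x : VV (κ ⊕ ι') p m) (i : ι') : ri κ ι' p m x i = x (Sum.inr i) := rfl

theorem inc_apply (x : VV ι' p m) : inc κ ι' p m x = Sum.elim (0 : VV κ p m) x := rfl

theorem inck_apply (x : VV κ p m) : inck κ ι' p m x = Sum.elim x (0 : VV ι' p m) := rfl

@[simp] theorem rk_inc (x : VV ι' p m) : rk κ ι' p m (inc κ ι' p m x) = 0 := rfl

@[simp] theorem ri_inc (x : VV ι' p m) : ri κ ι' p m (inc κ ι' p m x) = x := rfl

@[simp] theorem rk_inck (x : VV κ p m) : rk κ ι' p m (inck κ ι' p m x) = x := rfl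

@[simp] theorem ri_inck (x : VV κ p m) : ri κ ι' p m (inck κ ι' p m x) = 0 := rfl

theorem split_add (x : VV (κ ⊕ ι') p m) :
    inck κ ι' p m (rk κ ι' p m x) + inc κ ι' p m (ri κ ι' p m x) = x := by
  funext i
  cases i <;> simp [inck_apply, inc_apply, rk_apply, ri_apply]

theorem ext_split {x y : VV (κ ⊕ ι') p m} (h1 : rk κ ι' p m x = rk κ ι' p m y)
    (h2 : ri κ ι' p m x = ri κ ι' p m y) : x = y := by
  rw [← split_add x, ← split_add y, h1, h2]

theorem rk_tm (x : VV (κ ⊕ ι') p m) : rk κ ι' p m (tm _ p m x) = tm κ p m (rk κ ι' p m x) := rfl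

theorem ri_tm (x : VV (κ ⊕ ι') p m) : ri κ ι' p m (tm _ p m x) = tm ι' p m (ri κ ι' p m x) := rfl

/-- `Λ ↦ F^κ × Λ`. -/
noncomputable def emb (κ : Type) (L : Sb ι' p m) : Sb (κ ⊕ ι') p m :=
  (W0 κ p m).comap (rk κ ι' p m) ⊓ L.comap (ri κ ι' p m)

theorem mem_emb {L : Sb ι' p m} {x : VV (κ ⊕ ι') p m} :
    x ∈ emb κ L ↔ rk κ ι' p m x ∈ W0 κ p m ∧ ri κ ι' p m x ∈ L := Iff.rfl

theorem emb_mono {L L' : Sb ι' p m} (h : L ≤ L') : emb κ L ≤ emb κ L' :=
  fun _ hx => ⟨hx.1, h hx.2⟩

theorem comap_inc_emb (L : Sb ι' p m) : (emb κ L).comap (inc κ ι' p m) = L := by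
  ext x
  rw [Submodule.mem_comap, mem_emb, rk_inc, ri_inc]
  exact ⟨fun h => h.2, fun h => ⟨Submodule.zero_mem _, h⟩⟩

theorem emb_injective : Function.Injective (emb κ : Sb ι' p m → Sb (κ ⊕ ι') p m) := by
  intro L L' h
  rw [← comap_inc_emb (κ := κ) L, h, comap_inc_emb]

theorem map_ri_emb (L : Sb ι' p m) : (emb κ L).map (ri κ ι' p m) = L := by
  ext x
  rw [Submodule.mem_map]
  constructor
  · rintro ⟨y, hy, rfl⟩
    exact hy.2
  · intro hx
    exact ⟨inc κ ι' p m x, mem_emb.2 ⟨by rw [rk_inc]; exact Submodule.zero_mem _, by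
      rw [ri_inc]; exact hx⟩, ri_inc x⟩

/-- Extension by zero of a subspace. -/
noncomputable def incS (κ : Type) (S : Sb ι' p m) : Sb (κ ⊕ ι') p m := S.map (inc κ ι' p m)

theorem mem_incS {S : Sb ι' p m} {x : VV (κ ⊕ ι') p m} :
    x ∈ incS κ S ↔ rk κ ι' p m x = 0 ∧ ri κ ι' p m x ∈ S := by
  constructor
  · rintro ⟨y, hy, rfl⟩
    exact ⟨rk_inc y, by rw [ri_inc]; exact hy⟩
  · rintro ⟨h1, h2⟩
    refine ⟨ri κ ι' p m x, h2, ?_⟩
    apply ext_split
    · rw [rk_inc, h1]
    · rw [ri_inc]

theorem incS_mono {S S' : Sb ι' p m} (h : S ≤ S') : incS κ S ≤ incS κ S' := Submodule.map_mono h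

theorem emb_vtx (Wf S : Sb ι' p m) : emb κ (vtx Wf S) = vtx (emb κ Wf) (incS κ S) := by
  apply le_antisymm
  · intro x hx
    obtain ⟨h1, h2⟩ := mem_emb.1 hx
    obtain ⟨w, hw, u, hu, hwu⟩ := Submodule.mem_sup.1 h2
    obtain ⟨s, hs, rfl⟩ := hu
    refine Submodule.mem_sup.2 ⟨inck κ ι' p m (rk κ ι' p m x) + inc κ ι' p m w, ?_,
      tm _ p m (inc κ ι' p m s), ⟨inc κ ι' p m s, ⟨s, hs, rfl⟩, rfl⟩, ?_⟩
    · rw [mem_emb, map_add, map_add, rk_inck, rk_inc, ri_inck, ri_inc, add_zero, zero_add]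
      exact ⟨h1, hw⟩
    · apply ext_split
      · rw [map_add, map_add, rk_inck, rk_inc, rk_tm, rk_inc, map_zero, add_zero, add_zero]
      · rw [map_add, map_add, ri_inck, ri_inc, ri_tm, ri_inc, zero_add, hwu]
  · apply sup_le
    · exact emb_mono le_sup_left
    · rintro _ ⟨x, hx, rfl⟩
      obtain ⟨h1, h2⟩ := mem_incS.1 hx
      rw [mem_emb, rk_tm, ri_tm, h1, map_zero]
      exact ⟨Submodule.zero_mem _, Submodule.mem_sup_right ⟨_, h2, rfl⟩⟩

theorem emb_W0 : emb κ (W0 ι' p m) = W0 (κ ⊕ ι') p m := by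
  ext x
  rw [mem_emb]
  constructor
  · rintro ⟨⟨a, ha⟩, ⟨b, hb⟩⟩
    refine ⟨Sum.elim a b, ?_⟩
    apply ext_split
    · rw [← ha]; rfl
    · rw [← hb]; rfl
  · rintro ⟨c, rfl⟩
    exact ⟨⟨fun i => c (Sum.inl i), rfl⟩, ⟨fun i => c (Sum.inr i), rfl⟩⟩

variable [Fintype κ] [DecidableEq κ] [Fintype ι'] [DecidableEq ι']

/-- The matrix of an element of `G`. -/
noncomputable def mat {ι : Type} [Fintype ι] [DecidableEq ι] (g : GG ι p m) :
    Matrix.SpecialLinearGroup ι (Rg p m) :=
  Matrix.SpecialLinearGroup.toLin'_equiv.symm g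

/-- The element of `G` given by a matrix. -/
noncomputable def ofMat {ι : Type} [Fintype ι] [DecidableEq ι]
    (M : Matrix.SpecialLinearGroup ι (Rg p m)) : GG ι p m :=
  Matrix.SpecialLinearGroup.toLin'_equiv M

theorem ofMat_smul {ι : Type} [Fintype ι] [DecidableEq ι]
    (M : Matrix.SpecialLinearGroup ι (Rg p m)) (x : VV ι p m) :
    ofMat M • x = (M : Matrix ι ι (Rg p m)).mulVec x := rfl

theorem ofMat_mat {ι : Type} [Fintype ι] [DecidableEq ι] (g : GG ι p m) : ofMat (mat g) = g :=
  Matrix.SpecialLinearGroup.toLin'_equiv.apply_symm_apply g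

/-- Block diagonal extension by the identity. -/
noncomputable def embG (κ : Type) [Fintype κ] [DecidableEq κ] (g : GG ι' p m) :
    GG (κ ⊕ ι') p m :=
  ofMat ⟨Matrix.fromBlocks 1 0 0 (mat g : Matrix ι' ι' (Rg p m)), by
    rw [Matrix.det_fromBlocks_zero₂₁, Matrix.det_one, one_mul, (mat g).det_coe]⟩

theorem embG_smul (g : GG ι' p m) (x : VV (κ ⊕ ι') p m) :
    embG κ g • x = (Matrix.fromBlocks 1 0 0 (mat g : Matrix ι' ι' (Rg p m))).mulVec x := rfl

theorem smul_eq_mat {ι : Type} [Fintype ι] [DecidableEq ι] (g : GG ι p m) (x : VV ι p m) :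
    g • x = (mat g : Matrix ι ι (Rg p m)).mulVec x := by
  conv_lhs => rw [← ofMat_mat g]
  exact ofMat_smul _ _

theorem rk_embG (g : GG ι' p m) (x : VV (κ ⊕ ι') p m) :
    rk κ ι' p m (embG κ g • x) = rk κ ι' p m x := by
  funext i
  rw [rk_apply, rk_apply, embG_smul]
  simp only [Matrix.mulVec, dotProduct, Fintype.sum_sum_type, Matrix.fromBlocks_apply₁₁, Matrix.one_apply, ite_mul, one_mul, zero_mul, Finset.sum_ite_eq, Finset.mem_univ, ↓reduceIte, Matrix.fromBlocks_apply₁₂, Matrix.zero_apply, Finset.sum_const_zero, add_zero]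

theorem ri_embG (g : GG ι' p m) (x : VV (κ ⊕ ι') p m) :
    ri κ ι' p m (embG κ g • x) = g • ri κ ι' p m x := by
  rw [smul_eq_mat g]
  funext i
  rw [ri_apply, embG_smul]
  simp only [Matrix.mulVec, dotProduct, Fintype.sum_sum_type, Matrix.fromBlocks_apply₂₁, Matrix.zero_apply, zero_mul, Finset.sum_const_zero, Matrix.fromBlocks_apply₂₂, zero_add, ri_apply]

theorem emb_smul (g : GG ι' p m) (L : Sb ι' p m) : emb κ (g • L) = embG κ g • emb κ L := by
  ext x
  constructor
  · rintro ⟨h1, h2⟩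
    obtain ⟨y, hy, hyx⟩ := Submodule.mem_smul_pointwise_iff_exists _ _ _ |>.1 h2
    refine (Submodule.mem_smul_pointwise_iff_exists _ _ _).2
      ⟨inck κ ι' p m (rk κ ι' p m x) + inc κ ι' p m y, ?_, ?_⟩
    · rw [mem_emb, map_add, map_add, rk_inck, rk_inc, ri_inck, ri_inc, add_zero, zero_add]
      exact ⟨h1, hy⟩
    · apply ext_split
      · rw [rk_embG, map_add, rk_inck, rk_inc, add_zero]
      · rw [ri_embG, map_add, ri_inck, ri_inc, zero_add, hyx]
  · intro h
    obtain ⟨y, hy, rfl⟩ := (Submodule.mem_smul_pointwise_iff_exists _ _ _).1 h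
    rw [mem_emb, rk_embG, ri_embG]
    exact ⟨hy.1, Submodule.smul_mem_pointwise_smul _ _ _ hy.2⟩

theorem isForm_emb {Wf : Sb ι' p m} (h : IsForm Wf) : IsForm (emb κ Wf) := by
  obtain ⟨g, rfl⟩ := h
  exact ⟨embG κ g, by rw [emb_smul, emb_W0]⟩

theorem image_emb_mem {σ : Finset (Sb ι' p m)} (hσ : σ ∈ XX ι' p m) :
    σ.image (emb κ) ∈ XX (κ ⊕ ι') p m := by
  obtain ⟨Wf, hW, c, hc, hcW, rfl⟩ := hσ
  refine ⟨emb κ Wf, isForm_emb hW, c.image (incS κ), ?_, ?_, ?_⟩
  · rw [Finset.coe_image]
    rintro _ ⟨S, hS, rfl⟩ _ ⟨S', hS', rfl⟩ _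
    rcases hc.total hS hS' with h | h
    · exact Or.inl (incS_mono h)
    · exact Or.inr (incS_mono h)
  · intro S' hS'
    obtain ⟨S, hS, rfl⟩ := Finset.mem_image.1 hS'
    have hlt := hcW S hS
    refine lt_of_le_of_ne ?_ ?_
    · intro x hx
      obtain ⟨h1, h2⟩ := mem_incS.1 hx
      exact mem_emb.2 ⟨by rw [h1]; exact Submodule.zero_mem _, hlt.le h2⟩
    · intro he
      apply hlt.ne
      apply le_antisymm hlt.le
      intro w hw
      have : inc κ ι' p m w ∈ incS κ S := by
        rw [he, mem_emb, rk_inc, ri_inc]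
        exact ⟨Submodule.zero_mem _, hw⟩
      have h2 := (mem_incS.1 this).2
      rwa [ri_inc] at h2
  · rw [Finset.image_image, Finset.image_image]
    apply Finset.image_congr
    intro S _
    exact emb_vtx Wf S

theorem mem_W0_iff_cR {ι : Type} {x : VV ι p m} : x ∈ W0 ι p m ↔ ∀ i, x i ∈ cR p m := by
  constructor
  · rintro ⟨v, rfl⟩ i
    exact ⟨v i, rfl⟩
  · intro h
    choose v hv using h
    exact ⟨v, funext hv⟩

theorem ext_eq_emb (L : Sb ι' p m) : ext κ L = emb κ L := by
  apply Submodule.ext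
  intro x
  rw [mem_emb, mem_W0_iff_cR]
  rfl

theorem ext_eq_emb' : (ext κ : Sb ι' p m → Sb (κ ⊕ ι') p m) = emb κ := funext ext_eq_emb

theorem FdX_sub : FdX κ ι' p m ⊆ XX (κ ⊕ ι') p m := by
  rintro _ ⟨σ, hσ, rfl⟩
  simp only [ext_eq_emb']
  exact image_emb_mem hσ

theorem FdX_down : DownClosed (FdX κ ι' p m) := by
  rintro _ ⟨σ, hσ, rfl⟩ τ hτ
  obtain ⟨σ', hσ', rfl⟩ := Finset.subset_image_iff.1 hτ
  exact ⟨σ', downClosed_XX σ hσ σ' (by exact_mod_cast hσ'), rfl⟩

theorem mem_FdX_iff {σ : Finset (Sb (κ ⊕ ι') p m)} :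
    σ ∈ FdX κ ι' p m ↔ ∃ τ ∈ XX ι' p m, τ.image (emb κ) = σ := by
  unfold FdX
  simp only [ext_eq_emb']
  rfl

theorem mem_FdX_image {σ : Finset (Sb ι' p m)} : σ.image (emb κ) ∈ FdX κ ι' p m ↔ σ ∈ XX ι' p m := by
  rw [mem_FdX_iff]
  constructor
  · rintro ⟨τ, hτ, h⟩
    have := Finset.image_injective emb_injective h
    rwa [← this]
  · intro h
    exact ⟨σ, h, rfl⟩

end Vale.Agent.P067
end
end

section

section

/-! # P067: double orthogonals for a perfect pairing -/

set_option autoImplicit false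

namespace Vale.Agent.P067

variable {F V : Type*} [Field F] [AddCommGroup V] [Module F V] [FiniteDimensional F V]

/-- Every linear form is given by pairing with a vector. -/
theorem exists_vec_of_linear (B : LinearMap.BilinForm F V)
    (hB : ∀ x, (∀ y, B x y = 0) → x = 0) (hs : ∀ x y, B x y = B y x) (ℓ : V →ₗ[F] F) :
    ∃ y, ∀ x, ℓ x = B x y := by
  have hinj : Function.Injective (B : V →ₗ[F] Module.Dual F V) := by
    rw [injective_iff_map_eq_zero]
    intro x hx
    exact hB x (fun y => LinearMap.congr_fun hx y)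
  have hsurj : Function.Surjective (B : V →ₗ[F] Module.Dual F V) :=
    (LinearMap.injective_iff_surjective_of_finrank_eq_finrank
      (Subspace.dual_finrank_eq (K := F) (V := V)).symm).1 hinj
  obtain ⟨y, hy⟩ := hsurj ℓ
  exact ⟨y, fun x => by rw [← hy, hs]⟩

/-- A vector is orthogonal to the orthogonal complement of a subspace iff it is in the subspace. -/
theorem orthogonal_orthogonal_iff (B : LinearMap.BilinForm F V)
    (hB : ∀ x, (∀ y, B x y = 0) → x = 0) (hs : ∀ x y, B x y = B y x) (L : Submodule F V) (y : V) :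
    (∀ x, (∀ z ∈ L, B x z = 0) → B x y = 0) ↔ y ∈ L := by
  constructor
  · intro h
    by_contra hy
    obtain ⟨f, hf, hfL⟩ := Submodule.exists_le_ker_of_notMem hy
    obtain ⟨x, hx⟩ := exists_vec_of_linear B hB hs f
    apply hf
    rw [hx, hs]
    apply h
    intro z hz
    rw [hs, ← hx]
    exact hfL hz
  · intro hy x hx
    exact hx y hy

end Vale.Agent.P067
end
end

section

section

/-!
# P067, (S2): the unipotent group `x ↦ x + e₁ φ(x')`
-/

set_option autoImplicit false

namespace Vale.Agent.P067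

attribute [local instance] Classical.propDecidable

open scoped Pointwise
open Matrix

variable {p m : ℕ} [Fact p.Prime] {ι' : Type} [Fintype ι'] [DecidableEq ι']

/-! ### coefficients -/

theorem co_add_mul_tt_pow (c j : ℕ) (h : c + j < m) (r : Rg p m) :
    co p m (c + j) (tt p m ^ j * r) = co p m c r := by
  induction j with
  | zero => simp
  | succ j ih =>
    rw [pow_succ', mul_assoc, ← add_assoc, co_succ_mul_t _ (by omega)]
    exact ih (by omega)

theorem co_last (c : ℕ) (hc : c < m) (r : Rg p m) :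
    co p m (m - 1) (tt p m ^ (m - 1 - c) * r) = co p m c r := by
  have h : m - 1 = c + (m - 1 - c) := by omega
  conv_lhs => rw [h]
  rw [show c + (m - 1 - c) - c = m - 1 - c by omega]
  exact co_add_mul_tt_pow c _ (by omega) r

theorem mem_range_algebraMap_iff (hm : 0 < m) (r : Rg p m) :
    (∃ a : ZMod p, algebraMap (ZMod p) (Rg p m) a = r) ↔ ∀ c, 1 ≤ c → c < m → co p m c r = 0 := by
  constructor
  · rintro ⟨a, rfl⟩ c hc _
    rw [co_algebraMap c hm, if_neg (by omega)]
  · intro h
    refine ⟨co p m 0 r, Rg_ext fun c hc => ?_⟩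
    rw [co_algebraMap c hm]
    split_ifs with h0
    · rw [h0]
    · rw [h c (by omega) hc]

/-! ### the pairing -/

/-- The pairing `(φ, x) ↦ res(φ(x))`. -/
noncomputable def prB (ι' : Type) [Fintype ι'] (p m : ℕ) [Fact p.Prime] :
    LinearMap.BilinForm (ZMod p) (VV ι' p m) :=
  LinearMap.mk₂ (ZMod p) (fun φ x => co p m (m - 1) (φ ⬝ᵥ x))
    (fun a b x => by rw [add_dotProduct, map_add])
    (fun c a x => by rw [smul_dotProduct, map_smul])
    (fun a x y => by rw [dotProduct_add, map_add])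
    (fun c a x => by rw [dotProduct_smul, map_smul])

theorem prB_apply (φ x : VV ι' p m) : prB ι' p m φ x = co p m (m - 1) (φ ⬝ᵥ x) := rfl

theorem prB_symm (φ x : VV ι' p m) : prB ι' p m φ x = prB ι' p m x φ := by
  rw [prB_apply, prB_apply, dotProduct_comm]

theorem prB_nondeg (φ : VV ι' p m) (h : ∀ x, prB ι' p m φ x = 0) : φ = 0 := by
  funext i
  apply Rg_ext
  intro c hc
  have := h (Pi.single i (tt p m ^ (m - 1 - c)))
  rw [prB_apply, dotProduct_single, mul_comm, co_last c hc] at this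
  rw [this, Pi.zero_apply, map_zero]

/-- `φ` takes constant values on `L` iff it is orthogonal to all `t^j L`, `j ≤ m - 2`. -/
theorem const_on_iff (hm : 0 < m) (L : Sb ι' p m) (φ : VV ι' p m) :
    (∀ x ∈ L, ∃ a : ZMod p, algebraMap (ZMod p) (Rg p m) a = φ ⬝ᵥ x) ↔
      ∀ x ∈ L, ∀ j, j + 2 ≤ m → prB ι' p m φ (tt p m ^ j • x) = 0 := by
  constructor
  · intro h x hx j hj
    have h1 := (mem_range_algebraMap_iff hm _).1 (h x hx) (m - 1 - j) (by omega) (by omega)
    rw [← co_last _ (by omega), show m - 1 - (m - 1 - j) = j by omega] at h1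
    rw [prB_apply, dotProduct_smul, smul_eq_mul]
    exact h1
  · intro h x hx
    rw [mem_range_algebraMap_iff hm]
    intro c hc hcm
    have h1 := h x hx (m - 1 - c) (by omega)
    rw [prB_apply, dotProduct_smul, smul_eq_mul, co_last c hcm] at h1
    exact h1

/-! ### the group -/

/-- The unipotent element `x ↦ x + e₁ φ(x')`. -/
noncomputable def rowU (φ : VV ι' p m) : GG (Unit ⊕ ι') p m :=
  ofMat ⟨Matrix.fromBlocks 1 (Matrix.of fun _ j => φ j) 0 1, by
    rw [Matrix.det_fromBlocks_zero₂₁, Matrix.det_one, Matrix.det_one, one_mul]⟩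

theorem rowU_smul (φ : VV ι' p m) (x : VV (Unit ⊕ ι') p m) :
    rowU φ • x = (Matrix.fromBlocks 1 (Matrix.of fun _ j => φ j) 0 1 :
      Matrix (Unit ⊕ ι') (Unit ⊕ ι') (Rg p m)).mulVec x := rfl

theorem rk_rowU (φ : VV ι' p m) (x : VV (Unit ⊕ ι') p m) :
    rk Unit ι' p m (rowU φ • x) = rk Unit ι' p m x + fun _ => φ ⬝ᵥ ri Unit ι' p m x := by
  funext i
  rw [rk_apply, rowU_smul, Pi.add_apply, rk_apply]
  simp only [mulVec, dotProduct, Fintype.sum_sum_type, Finset.univ_unique, PUnit.default_eq_unit, fromBlocks_apply₁₁, one_apply_eq, one_mul, Finset.sum_singleton, fromBlocks_apply₁₂, of_apply, ri_apply]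

theorem ri_rowU (φ : VV ι' p m) (x : VV (Unit ⊕ ι') p m) :
    ri Unit ι' p m (rowU φ • x) = ri Unit ι' p m x := by
  funext i
  rw [ri_apply, rowU_smul, ri_apply]
  simp only [mulVec, dotProduct, Fintype.sum_sum_type, Finset.univ_unique, PUnit.default_eq_unit, fromBlocks_apply₂₁, Matrix.zero_apply, zero_mul, Finset.sum_const_zero, fromBlocks_apply₂₂, Matrix.one_apply, ite_mul, one_mul, Finset.sum_ite_eq, Finset.mem_univ, ↓reduceIte, zero_add]

theorem rowU_zero : rowU (0 : VV ι' p m) = 1 := by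
  apply SpecialLinearGroup.ext
  intro x
  change rowU (0 : VV ι' p m) • x = x
  apply ext_split
  · rw [rk_rowU]
    funext i
    simp only [zero_dotProduct, Pi.add_apply, add_zero]
  · rw [ri_rowU]

theorem rowU_add (φ ψ : VV ι' p m) : rowU (φ + ψ) = rowU φ * rowU ψ := by
  apply SpecialLinearGroup.ext
  intro x
  change rowU (φ + ψ) • x = (rowU φ * rowU ψ) • x
  rw [mul_smul]
  apply ext_split
  · rw [rk_rowU, rk_rowU, rk_rowU, ri_rowU]
    funext i
    simp only [Pi.add_apply, add_dotProduct]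
    ring
  · rw [ri_rowU, ri_rowU, ri_rowU]

/-- The group `Q_v`. -/
def Qrow (ι' : Type) (p m : ℕ) : Type := Multiplicative (VV ι' p m)

noncomputable instance : CommGroup (Qrow ι' p m) :=
  inferInstanceAs (CommGroup (Multiplicative (VV ι' p m)))

instance : Finite (Qrow ι' p m) :=
  Finite.of_equiv (VV ι' p m) Multiplicative.ofAdd

/-- The homomorphism from `Q_v` to `G`. -/
noncomputable def rowHom : Qrow ι' p m →* GG (Unit ⊕ ι') p m where
  toFun φ := rowU (Multiplicative.toAdd φ)
  map_one' := rowU_zero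
  map_mul' φ ψ := rowU_add _ _

noncomputable instance : MulAction (Qrow ι' p m) (Sb (Unit ⊕ ι') p m) :=
  MulAction.compHom _ rowHom

theorem rowU_emb_eq (φ : VV ι' p m) {L L' : Sb ι' p m}
    (h : rowU φ • emb Unit L = emb Unit L') : L = L' := by
  rw [← map_ri_emb (κ := Unit) L', ← h]
  ext x
  rw [Submodule.mem_map]
  constructor
  · intro hx
    refine ⟨rowU φ • inc Unit ι' p m x, Submodule.smul_mem_pointwise_smul _ _ _ ?_, ?_⟩
    · rw [mem_emb, rk_inc, ri_inc]
      exact ⟨Submodule.zero_mem _, hx⟩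
    · rw [ri_rowU, ri_inc]
  · rintro ⟨y, hy, rfl⟩
    obtain ⟨z, hz, rfl⟩ := (Submodule.mem_smul_pointwise_iff_exists _ _ _).1 hy
    rw [ri_rowU]
    exact hz.2

theorem rowU_stab_iff (φ : VV ι' p m) (L : Sb ι' p m) :
    rowU φ • emb Unit L = emb Unit L ↔
      ∀ x ∈ L, ∃ a : ZMod p, algebraMap (ZMod p) (Rg p m) a = φ ⬝ᵥ x := by
  constructor
  · intro h x hx
    have h1 : rowU φ • inc Unit ι' p m x ∈ emb Unit L := by
      rw [← h]
      apply Submodule.smul_mem_pointwise_smul
      rw [mem_emb, rk_inc, ri_inc]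
      exact ⟨Submodule.zero_mem _, hx⟩
    obtain ⟨⟨a, ha⟩, _⟩ := mem_emb.1 h1
    rw [rk_rowU, rk_inc, ri_inc, zero_add] at ha
    exact ⟨a (), congrFun ha ()⟩
  · intro h
    have key : ∀ ψ : VV ι' p m, (∀ x ∈ L, ∃ a : ZMod p, algebraMap (ZMod p) (Rg p m) a = ψ ⬝ᵥ x) →
        rowU ψ • emb Unit L ≤ emb Unit L := by
      intro ψ hψ y hy
      obtain ⟨z, hz, rfl⟩ := (Submodule.mem_smul_pointwise_iff_exists _ _ _).1 hy
      obtain ⟨h1, h2⟩ := mem_emb.1 hz
      rw [mem_emb, rk_rowU, ri_rowU]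
      refine ⟨Submodule.add_mem _ h1 ?_, h2⟩
      obtain ⟨a, ha⟩ := hψ _ h2
      exact ⟨fun _ => a, by funext i; exact ha⟩
    apply le_antisymm (key φ h)
    have h2 := key (-φ) (fun x hx => by
      obtain ⟨a, ha⟩ := h x hx
      exact ⟨-a, by rw [map_neg, ha, neg_dotProduct]⟩)
    have h3 : rowU φ • (rowU (-φ) • emb Unit L) = emb Unit L := by
      rw [← mul_smul, ← rowU_add, add_neg_cancel, rowU_zero, one_smul]
    conv_lhs => rw [← h3]
    intro y hy
    obtain ⟨z, hz, rfl⟩ := (Submodule.mem_smul_pointwise_iff_exists _ _ _).1 hy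
    exact Submodule.smul_mem_pointwise_smul _ _ _ (h2 hz)

end Vale.Agent.P067
end
end

section

section

/-! # P067: the group elements which preserve the homology class of a cycle form a subgroup -/

set_option autoImplicit false

open Finset

namespace Vale.Agent.P067

attribute [local instance] Classical.propDecidable

variable {α : Type*} {k : Type*} [Field k]

/-- The subgroup of elements preserving the homology class of `c` in `K`. -/
noncomputable def classStab (G : Type*) [Group G] [MulAction G α] [CharP k 2] (K : Set (Finset α))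
    (hK : ∀ (g : G), ∀ σ ∈ K, σ.image (fun x => g • x) ∈ K) (q : ℕ) (c : Finset α →₀ k) :
    Subgroup G where
  carrier := {g | ∃ y : Finset α →₀ k, ChainIn K (q + 1) y ∧ P067.act g c + c = bd y}
  one_mem' := ⟨0, ChainIn.zero K _, by rw [act_one, map_zero, add_self_zero]⟩
  mul_mem' := by
    rintro g h ⟨y, hy, hyc⟩ ⟨z, hz, hzc⟩
    refine ⟨P067.act g z + y, (ChainIn.act hK hz g).add hy, ?_⟩
    rw [map_add, bd_act, ← hyc, ← hzc, map_add, ← act_mul]
    have := add_self_zero (P067.act g c)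
    calc P067.act (g * h) c + c = P067.act (g * h) c + (P067.act g c + P067.act g c) + c := by
          rw [this, add_zero]
      _ = _ := by abel
  inv_mem' := by
    rintro g ⟨y, hy, hyc⟩
    refine ⟨P067.act g⁻¹ y, ChainIn.act hK hy _, ?_⟩
    rw [bd_act, ← hyc, map_add, ← act_mul, inv_mul_cancel, act_one, add_comm]

end Vale.Agent.P067
end
end

section

section

/-!
# P067, (S2): the group `Q_v` acts trivially on the classes of the cycles of `F × X(ι')`
-/

set_option autoImplicit false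

namespace Vale.Agent.P067

attribute [local instance] Classical.propDecidable

open scoped Pointwise
open Matrix

variable {p m : ℕ} [Fact p.Prime] {ι' : Type} [Fintype ι'] [DecidableEq ι']

theorem chain_XX {ι : Type} [Fintype ι] [DecidableEq ι] {σ : Finset (Sb ι p m)}
    (hσ : σ ∈ XX ι p m) {L L' : Sb ι p m} (hL : L ∈ σ) (hL' : L' ∈ σ) : L ≤ L' ∨ L' ≤ L := by
  obtain ⟨Wf, _, c, hc, _, rfl⟩ := hσ
  obtain ⟨S, hS, rfl⟩ := Finset.mem_image.1 hL
  obtain ⟨S', hS', rfl⟩ := Finset.mem_image.1 hL'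
  rcases hc.total hS hS' with h | h
  · exact Or.inl (sup_le_sup_left (Submodule.map_mono h) _)
  · exact Or.inr (sup_le_sup_left (Submodule.map_mono h) _)

theorem exists_top_of_XX {ι : Type} [Fintype ι] [DecidableEq ι] {σ : Finset (Sb ι p m)}
    (hσ : σ ∈ XX ι p m) (hne : σ.Nonempty) : ∃ L0 ∈ σ, ∀ L ∈ σ, L ≤ L0 := by
  obtain ⟨L0, h0, hmax⟩ := σ.exists_maximal hne
  refine ⟨L0, h0, fun L hL => ?_⟩
  rcases chain_XX hσ hL h0 with h | h
  · exact h
  · exact hmax hL h

theorem odd_card_Qrow (hp : p ≠ 2) : Odd (Nat.card (Qrow ι' p m)) := by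
  have h1 : Nat.card (Qrow ι' p m) = Nat.card (VV ι' p m) :=
    Nat.card_congr Multiplicative.toAdd
  rw [h1, Module.natCard_eq_pow_finrank (K := ZMod p), Nat.card_zmod]
  apply Odd.pow
  exact (Fact.out : p.Prime).odd_of_ne_two hp

/-- The orbit of the fundamental domain under `Q_v`. -/
def KQ (ι' : Type) [Fintype ι'] [DecidableEq ι'] (p m : ℕ) [Fact p.Prime] :
    Set (Finset (Sb (Unit ⊕ ι') p m)) :=
  {σ | ∃ g : Qrow ι' p m, ∃ τ ∈ FdX Unit ι' p m, σ = τ.image (fun x => g • x)}

theorem KQ_sub : KQ ι' p m ⊆ XX (Unit ⊕ ι') p m := by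
  rintro _ ⟨g, τ, hτ, rfl⟩
  exact smul_mem_XX (rowHom g) (FdX_sub hτ)

theorem fix_of_FdX {g : Qrow ι' p m} {σ : Finset (Sb (Unit ⊕ ι') p m)}
    (hσ : σ ∈ FdX Unit ι' p m) (hg : σ.image (fun x => g • x) ∈ FdX Unit ι' p m) :
    ∀ x ∈ σ, g • x = x := by
  obtain ⟨σ', _, rfl⟩ := mem_FdX_iff.1 hσ
  obtain ⟨τ', _, hτ⟩ := mem_FdX_iff.1 hg
  intro x hx
  have h1 : g • x ∈ τ'.image (emb Unit) := by
    rw [hτ]
    exact Finset.mem_image_of_mem _ hx
  obtain ⟨L, _, rfl⟩ := Finset.mem_image.1 hx
  obtain ⟨L', _, h2⟩ := Finset.mem_image.1 h1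
  have h3 : rowU (Multiplicative.toAdd g) • emb Unit L = emb Unit L' := h2.symm
  have h4 := rowU_emb_eq _ h3
  rw [h4]
  rw [h4] at h3
  exact h3

theorem image_eq_of_fix {G α : Type*} [Group G] [MulAction G α] {g : G} {σ : Finset α}
    (h : ∀ x ∈ σ, g • x = x) : σ.image (fun x => g • x) = σ := by
  ext y
  rw [Finset.mem_image]
  constructor
  · rintro ⟨x, hx, rfl⟩
    rw [h x hx]; exact hx
  · intro hy
    exact ⟨y, hy, h y hy⟩

theorem strictDom_row : StrictDom (Qrow ι' p m) (KQ ι' p m) (FdX Unit ι' p m) where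
  sub := fun τ hτ => ⟨1, τ, hτ, (image_smul_one τ).symm⟩
  down := FdX_down
  inv := by
    rintro g _ ⟨h, τ, hτ, rfl⟩
    exact ⟨g * h, τ, hτ, (image_smul_mul g h τ).symm⟩
  cov := by
    rintro _ ⟨h, τ, hτ, rfl⟩
    refine ⟨h⁻¹, ?_⟩
    have e := image_smul_inv h τ
    exact Eq.mpr (congrArg (fun s => s ∈ FdX Unit ι' p m) e) hτ
  strict := by
    intro g σ hσ hg
    exact image_eq_of_fix (fix_of_FdX hσ hg)

theorem tm_pow_apply {ι : Type} (j : ℕ) (x : VV ι p m) : (tm ι p m ^ j) x = tt p m ^ j • x := by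
  induction j with
  | zero => simp
  | succ j ih =>
    rw [pow_succ', Module.End.mul_apply, ih, tm_apply, smul_smul, pow_succ']

/-- The subspaces `Λ^(m-2)` and constancy. -/
theorem const_on_iff_pw (hm : 3 ≤ m) (L : Sb ι' p m) (φ : VV ι' p m) :
    (∀ x ∈ L, ∃ a : ZMod p, algebraMap (ZMod p) (Rg p m) a = φ ⬝ᵥ x) ↔
      ∀ z ∈ pw (tm ι' p m) L (m - 2), prB ι' p m φ z = 0 := by
  rw [const_on_iff (by omega)]
  have h1 : (∀ z ∈ pw (tm ι' p m) L (m - 2), prB ι' p m φ z = 0) ↔
      pw (tm ι' p m) L (m - 2) ≤ LinearMap.ker (prB ι' p m φ) := Iff.rfl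
  rw [h1, pw_le_iff]
  constructor
  · intro h c hc
    rintro _ ⟨x, hx, rfl⟩
    rw [LinearMap.mem_ker, tm_pow_apply]
    exact h x hx c (by omega)
  · intro h x hx j hj
    have := h j (by omega) (Submodule.mem_map_of_mem hx)
    rwa [LinearMap.mem_ker, tm_pow_apply] at this

/-- Hypothesis (M) for `X(ι')` in size `q`. -/
def HypM (k : Type*) [Field k] (ι' : Type) [Fintype ι'] [DecidableEq ι'] (p m : ℕ)
    [Fact p.Prime] (q : ℕ) : Prop :=
  ∀ y : VV ι' p m, y ≠ 0 → RelAcyc k (XX ι' p m)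
    {σ | σ ∈ XX ι' p m ∧ ∀ L ∈ σ, y ∉ pw (tm ι' p m) L (m - 2)} q

variable {k : Type*} [Field k]

theorem char_dom_eq (hm : 3 ≤ m) (ψ : Qrow ι' p m →* kˣ) (hψ : ψ ≠ 1) :
    ∃ y : VV ι' p m, y ≠ 0 ∧
      {σ | σ ∈ FdX Unit ι' p m ∧ ∃ g : Qrow ι' p m, σ.image (fun x => g • x) = σ ∧ ψ g ≠ 1} =
      (fun s : Finset (Sb ι' p m) => s.image (emb Unit)) ''
        {σ | σ ∈ XX ι' p m ∧ ∀ L ∈ σ, y ∉ pw (tm ι' p m) L (m - 2)} := by
  obtain ⟨ℓ, hℓ0, hℓ⟩ := exists_linear_of_char (p := p) (A := VV ι' p m) (k := k) ψ hψ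
  obtain ⟨y, hy⟩ := exists_vec_of_linear (prB ι' p m) prB_nondeg prB_symm ℓ
  have hy0 : y ≠ 0 := by
    rintro rfl
    apply hℓ0
    apply LinearMap.ext
    intro x
    rw [hy, map_zero, LinearMap.zero_apply]
  refine ⟨y, hy0, ?_⟩
  -- the condition for a simplex `σ'` of `X(ι')`
  have key : ∀ σ' ∈ XX ι' p m,
      (∃ g : Qrow ι' p m, (σ'.image (emb Unit)).image (fun x => g • x) = σ'.image (emb Unit) ∧
        ψ g ≠ 1) ↔ ∀ L ∈ σ', y ∉ pw (tm ι' p m) L (m - 2) := by
    intro σ' hσ'
    have h1 : ∀ g : Qrow ι' p m,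
        ((σ'.image (emb Unit)).image (fun x => g • x) = σ'.image (emb Unit)) ↔
          ∀ L ∈ σ', ∀ z ∈ pw (tm ι' p m) L (m - 2),
            prB ι' p m (Multiplicative.toAdd g) z = 0 := by
      intro g
      constructor
      · intro h L hL
        rw [← const_on_iff_pw hm, ← rowU_stab_iff]
        have hF : σ'.image (emb Unit) ∈ FdX Unit ι' p m := mem_FdX_image.2 hσ'
        exact fix_of_FdX hF (by rw [h]; exact hF) _ (Finset.mem_image_of_mem _ hL)
      · intro h
        apply image_eq_of_fix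
        intro x hx
        obtain ⟨L, hL, rfl⟩ := Finset.mem_image.1 hx
        exact (rowU_stab_iff _ _).2 ((const_on_iff_pw hm _ _).2 (h L hL))
    have h2 : ∀ g : Qrow ι' p m, ψ g ≠ 1 ↔ prB ι' p m (Multiplicative.toAdd g) y ≠ 0 := by
      intro g
      rw [← hy]
      exact not_congr (hℓ (Multiplicative.toAdd g))
    rcases σ'.eq_empty_or_nonempty with rfl | hne
    · simp only [Finset.image_empty, Finset.notMem_empty, false_imp_iff, implies_true, true_and,
        iff_true]
      by_contra hcon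
      push Not at hcon
      exact hψ (MonoidHom.ext hcon)
    · obtain ⟨L0, h0, hmax⟩ := exists_top_of_XX hσ' hne
      have h3 : (∀ L ∈ σ', y ∉ pw (tm ι' p m) L (m - 2)) ↔ y ∉ pw (tm ι' p m) L0 (m - 2) :=
        ⟨fun h => h L0 h0, fun h L hL hyL => h (pw_mono _ (hmax L hL) _ hyL)⟩
      rw [h3, ← orthogonal_orthogonal_iff (prB ι' p m) prB_nondeg prB_symm]
      push Not
      constructor
      · rintro ⟨g, hg, hg1⟩
        exact ⟨Multiplicative.toAdd g, (h1 g).1 hg L0 h0, (h2 g).1 hg1⟩
      · rintro ⟨x, hx, hxy⟩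
        refine ⟨Multiplicative.ofAdd x, (h1 _).2 fun L hL z hz => ?_, (h2 _).2 hxy⟩
        exact hx z (pw_mono _ (hmax L hL) _ hz)
  ext σ
  constructor
  · rintro ⟨hσ, hg⟩
    obtain ⟨σ', hσ', rfl⟩ := mem_FdX_iff.1 hσ
    exact ⟨σ', ⟨hσ', (key σ' hσ').1 hg⟩, rfl⟩
  · rintro ⟨σ', ⟨hσ', h⟩, rfl⟩
    exact ⟨mem_FdX_image.2 hσ', (key σ' hσ').2 h⟩

theorem relAcyc_row [CharP k 2] (hm : 3 ≤ m) {q : ℕ} (hM : HypM k ι' p m q)
    (ψ : Qrow ι' p m →* kˣ) (hψ : ψ ≠ 1) :
    RelAcyc k (FdX Unit ι' p m)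
      {σ | σ ∈ FdX Unit ι' p m ∧ ∃ g : Qrow ι' p m, σ.image (fun x => g • x) = σ ∧ ψ g ≠ 1} q := by
  obtain ⟨y, hy0, hy⟩ := char_dom_eq hm ψ hψ
  rw [hy]
  have h := RelAcyc.image (emb_injective (κ := Unit)) (hM y hy0)
  have e : (fun s : Finset (Sb ι' p m) => s.image (emb Unit)) '' XX ι' p m = FdX Unit ι' p m := by
    ext σ
    rw [mem_FdX_iff]
    rfl
  exact Eq.mp (congrArg (fun K => RelAcyc k K _ q) e) h

/-- (S2) -/
theorem s2_act [IsAlgClosed k] [CharP k 2] (hp : p ≠ 2) (hm : 3 ≤ m) {q : ℕ}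
    (hM : HypM k ι' p m q) (a : Finset (Sb (Unit ⊕ ι') p m) →₀ k)
    (ha : ChainIn (FdX Unit ι' p m) q a) (hbd : bd a = 0) (φ : VV ι' p m) :
    ∃ y : Finset (Sb (Unit ⊕ ι') p m) →₀ k,
      ChainIn (XX (Unit ⊕ ι') p m) (q + 1) y ∧ act (rowU φ) a + a = bd y := by
  obtain ⟨y, hy, hya⟩ := act_homologous_of_comm_odd (k := k) (odd_card_Qrow (ι' := ι') (m := m) hp)
    (KQ ι' p m) (FdX Unit ι' p m) strictDom_row q (fun ψ hψ => relAcyc_row hm hM ψ hψ) a ha hbd
    (Multiplicative.ofAdd φ)
  exact ⟨y, hy.mono KQ_sub, hya⟩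

end Vale.Agent.P067
end
end

section

section

/-! # P067: over a local ring the special linear group is generated by transvections -/

set_option autoImplicit false

namespace Vale.Agent.P067

variable {ι : Type*} [Fintype ι] [DecidableEq ι] {R : Type*} [CommRing R]

/-- column `j` of `M` is the `j`-th standard vector -/
def StdCol (M : Matrix.SpecialLinearGroup ι R) (j : ι) : Prop :=
  ∀ i, (M : Matrix ι ι R) i j = if i = j then 1 else 0

theorem coe_transvection_mul_same {i j : ι} (h : i ≠ j) (a : R) (M : Matrix.SpecialLinearGroup ι R) (k : ι) :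
    ((Matrix.SpecialLinearGroup.transvection h a * M : Matrix.SpecialLinearGroup ι R) : Matrix ι ι R) i k
      = (M : Matrix ι ι R) i k + a * (M : Matrix ι ι R) j k := by
  rw [Matrix.SpecialLinearGroup.coe_mul]
  exact Matrix.transvection_mul_apply_same i j k a M

theorem coe_transvection_mul_of_ne {i j : ι} (h : i ≠ j) (a : R) (M : Matrix.SpecialLinearGroup ι R)
    (l k : ι) (hl : l ≠ i) :
    ((Matrix.SpecialLinearGroup.transvection h a * M : Matrix.SpecialLinearGroup ι R) : Matrix ι ι R) l k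
      = (M : Matrix ι ι R) l k := by
  rw [Matrix.SpecialLinearGroup.coe_mul]
  exact Matrix.transvection_mul_apply_of_ne i j l k hl a M

theorem stdCol_transvection_mul {i j : ι} (h : i ≠ j) (a : R) (M : Matrix.SpecialLinearGroup ι R) (k : ι)
    (hk : StdCol M k) (hjk : j ≠ k) : StdCol (Matrix.SpecialLinearGroup.transvection h a * M) k := by
  intro l
  by_cases hl : l = i
  · subst hl
    rw [coe_transvection_mul_same, hk l, hk j, if_neg hjk, mul_zero, add_zero]
  · rw [coe_transvection_mul_of_ne h a M l k hl, hk l]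

theorem exists_unit_entry [IsLocalRing R] (M : Matrix.SpecialLinearGroup ι R) (S : Finset ι)
    (hS : ∀ j ∈ S, StdCol M j) (j0 : ι) (hj0 : j0 ∉ S) :
    ∃ i, i ∉ S ∧ IsUnit ((M : Matrix ι ι R) i j0) := by
  classical
  by_contra hcon
  push Not at hcon
  have hinv : ((M⁻¹ : Matrix.SpecialLinearGroup ι R) : Matrix ι ι R) * (M : Matrix ι ι R) = 1 := by
    rw [← Matrix.SpecialLinearGroup.coe_mul, inv_mul_cancel, Matrix.SpecialLinearGroup.coe_one]
  set N := ((M⁻¹ : Matrix.SpecialLinearGroup ι R) : Matrix ι ι R) with hN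
  have hz : ∀ i ∈ S, N j0 i = 0 := by
    intro i hi
    have h1 := congrFun (congrFun hinv j0) i
    rw [Matrix.mul_apply, Matrix.one_apply_ne (show j0 ≠ i from fun e => hj0 (by rw [e]; exact hi))] at h1
    rw [Finset.sum_eq_single i] at h1
    · rwa [hS i hi i, if_pos rfl, mul_one] at h1
    · intro k _ hk
      rw [hS i hi k, if_neg hk, mul_zero]
    · intro h; exact absurd (Finset.mem_univ _) h
  have h2 := congrFun (congrFun hinv j0) j0
  rw [Matrix.mul_apply, Matrix.one_apply_eq] at h2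
  have h3 : (1 : R) ∈ IsLocalRing.maximalIdeal R := by
    rw [← h2]
    apply Ideal.sum_mem
    intro i _
    by_cases hi : i ∈ S
    · rw [hz i hi, zero_mul]; exact Ideal.zero_mem _
    · exact Ideal.mul_mem_left _ _ ((IsLocalRing.mem_maximalIdeal _).2 (hcon i hi))
  exact (Ideal.ne_top_iff_one _).1 (IsLocalRing.maximalIdeal.isMaximal R).ne_top h3

theorem entry_eq_one_of_last (M : Matrix.SpecialLinearGroup ι R) (j0 : ι)
    (hS : ∀ j, j ≠ j0 → StdCol M j) : (M : Matrix ι ι R) j0 j0 = 1 := by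
  have h1 : (M : Matrix ι ι R) = (1 : Matrix ι ι R).updateCol j0 (fun i => (M : Matrix ι ι R) i j0) := by
    ext i j
    by_cases hj : j = j0
    · subst hj; simp
    · rw [Matrix.updateCol_ne hj, hS j hj i, Matrix.one_apply]
  have h2 := M.det_coe
  rw [h1, ← Matrix.cramer_apply, Matrix.cramer_one] at h2
  exact h2

/-- make the pivot equal to `1` -/
theorem exists_pivot [IsLocalRing R] (H : Subgroup (Matrix.SpecialLinearGroup ι R))
    (hH : ∀ (i j : ι) (h : i ≠ j) (a : R), Matrix.SpecialLinearGroup.transvection h a ∈ H)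
    (M : Matrix.SpecialLinearGroup ι R) (S : Finset ι) (hS : ∀ j ∈ S, StdCol M j) (j0 : ι) (hj0 : j0 ∉ S) :
    ∃ h ∈ H, (∀ j ∈ S, StdCol (h * M) j) ∧
      ((h * M : Matrix.SpecialLinearGroup ι R) : Matrix ι ι R) j0 j0 = 1 := by
  classical
  -- first case: a unit off the diagonal
  have key : ∀ (M : Matrix.SpecialLinearGroup ι R), (∀ j ∈ S, StdCol M j) → ∀ i1, i1 ∉ S → i1 ≠ j0 →
      IsUnit ((M : Matrix ι ι R) i1 j0) → ∃ h ∈ H, (∀ j ∈ S, StdCol (h * M) j) ∧
      ((h * M : Matrix.SpecialLinearGroup ι R) : Matrix ι ι R) j0 j0 = 1 := by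
    intro M hS i1 hi1 hne hu
    obtain ⟨v, hv⟩ := hu.exists_left_inv
    refine ⟨Matrix.SpecialLinearGroup.transvection hne.symm ((1 - (M : Matrix ι ι R) j0 j0) * v),
      hH _ _ _ _, ?_, ?_⟩
    · intro j hj
      exact stdCol_transvection_mul _ _ M j (hS j hj) (fun e => hi1 (e ▸ hj))
    · rw [coe_transvection_mul_same, mul_assoc, hv, mul_one]
      ring
  by_cases h1 : ∃ i1, i1 ∉ S ∧ i1 ≠ j0 ∧ IsUnit ((M : Matrix ι ι R) i1 j0)
  · obtain ⟨i1, h1, h2, h3⟩ := h1
    exact key M hS i1 h1 h2 h3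
  · push Not at h1
    obtain ⟨i, hi, hu⟩ := exists_unit_entry M S hS j0 hj0
    have hi0 : i = j0 := by
      by_contra hne
      exact h1 i hi hne hu
    subst hi0
    by_cases h2 : ∃ i1, i1 ∉ S ∧ i1 ≠ i
    · obtain ⟨i1, hi1, hne⟩ := h2
      have hnu := h1 i1 hi1 hne
      -- add row `i` to row `i1`
      set T := Matrix.SpecialLinearGroup.transvection hne (1 : R) with hT
      have hS' : ∀ j ∈ S, StdCol (T * M) j := fun j hj =>
        stdCol_transvection_mul _ _ M j (hS j hj) (fun e => hi (e ▸ hj))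
      have hu' : IsUnit (((T * M : Matrix.SpecialLinearGroup ι R) : Matrix ι ι R) i1 i) := by
        rw [coe_transvection_mul_same, one_mul]
        by_contra hcon
        have h3 : (M : Matrix ι ι R) i1 i + (M : Matrix ι ι R) i i ∈ IsLocalRing.maximalIdeal R :=
          (IsLocalRing.mem_maximalIdeal _).2 hcon
        have h4 : (M : Matrix ι ι R) i1 i ∈ IsLocalRing.maximalIdeal R :=
          (IsLocalRing.mem_maximalIdeal _).2 hnu
        have h5 := Ideal.sub_mem _ h3 h4
        rw [add_sub_cancel_left] at h5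
        exact (IsLocalRing.mem_maximalIdeal _).1 h5 hu
      obtain ⟨h, hh, h6, h7⟩ := key (T * M) hS' i1 hi1 hne hu'
      refine ⟨h * T, H.mul_mem hh (hH _ _ _ _), ?_, ?_⟩
      · intro j hj; rw [mul_assoc]; exact h6 j hj
      · rw [mul_assoc]; exact h7
    · push Not at h2
      refine ⟨1, H.one_mem, ?_, ?_⟩
      · simpa only [one_mul] using hS
      · rw [one_mul]
        apply entry_eq_one_of_last
        intro j hj
        apply hS
        by_contra hj'
        exact hj (h2 j hj')

/-- clear the column -/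
theorem exists_clear (H : Subgroup (Matrix.SpecialLinearGroup ι R))
    (hH : ∀ (i j : ι) (h : i ≠ j) (a : R), Matrix.SpecialLinearGroup.transvection h a ∈ H)
    (M : Matrix.SpecialLinearGroup ι R) (S : Finset ι) (hS : ∀ j ∈ S, StdCol M j) (j0 : ι) (hj0 : j0 ∉ S)
    (h1 : (M : Matrix ι ι R) j0 j0 = 1) (T : Finset ι) (hT : j0 ∉ T) :
    ∃ h ∈ H, (∀ j ∈ S, StdCol (h * M) j) ∧
      ((h * M : Matrix.SpecialLinearGroup ι R) : Matrix ι ι R) j0 j0 = 1 ∧
      ∀ i ∈ T, ((h * M : Matrix.SpecialLinearGroup ι R) : Matrix ι ι R) i j0 = 0 := by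
  classical
  induction T using Finset.induction_on with
  | empty =>
    exact ⟨1, H.one_mem, by simpa only [one_mul] using hS, by simpa only [one_mul] using h1, by simp⟩
  | insert i T hi ih =>
    obtain ⟨h, hh, h2, h3, h4⟩ := ih (fun h => hT (Finset.mem_insert_of_mem h))
    have hij : i ≠ j0 := fun e => hT (e ▸ Finset.mem_insert_self _ _)
    refine ⟨Matrix.SpecialLinearGroup.transvection hij
      (-((h * M : Matrix.SpecialLinearGroup ι R) : Matrix ι ι R) i j0) * h, H.mul_mem (hH _ _ _ _) hh, ?_,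
      ?_, ?_⟩
    · intro j hj
      rw [mul_assoc]
      exact stdCol_transvection_mul _ _ _ j (h2 j hj) (fun e => hj0 (e ▸ hj))
    · rw [mul_assoc, coe_transvection_mul_of_ne _ _ _ _ _ hij.symm, h3]
    · intro l hl
      rw [Finset.mem_insert] at hl
      rw [mul_assoc]
      by_cases hli : l = i
      · subst hli
        rw [coe_transvection_mul_same, h3, mul_one, add_neg_cancel]
      · rw [coe_transvection_mul_of_ne _ _ _ _ _ hli]
        exact h4 l (hl.resolve_left hli)

/-- A subgroup of `SL` over a local ring containing all transvections is everything. -/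
theorem eq_top_of_transvections [IsLocalRing R] (H : Subgroup (Matrix.SpecialLinearGroup ι R))
    (hH : ∀ (i j : ι) (h : i ≠ j) (a : R), Matrix.SpecialLinearGroup.transvection h a ∈ H) : H = ⊤ := by
  classical
  have main : ∀ (n : ℕ) (S : Finset ι), (Finset.univ \ S).card = n →
      ∀ M : Matrix.SpecialLinearGroup ι R, (∀ j ∈ S, StdCol M j) → M ∈ H := by
    intro n
    induction n with
    | zero =>
      intro S hS M hM
      have hS' : ∀ j, j ∈ S := by
        intro j
        by_contra hj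
        have : j ∈ Finset.univ \ S := Finset.mem_sdiff.2 ⟨Finset.mem_univ _, hj⟩
        rw [Finset.card_eq_zero] at hS
        rw [hS] at this
        exact absurd this (Finset.notMem_empty _)
      have : M = 1 := by
        ext i j
        rw [hM j (hS' j) i, Matrix.SpecialLinearGroup.coe_one, Matrix.one_apply]
      rw [this]; exact H.one_mem
    | succ n ih =>
      intro S hS M hM
      have hne : (Finset.univ \ S).Nonempty := by
        rw [← Finset.card_pos, hS]; omega
      obtain ⟨j0, hj0⟩ := hne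
      have hj0' : j0 ∉ S := (Finset.mem_sdiff.1 hj0).2
      obtain ⟨h, hh, h1, h2⟩ := exists_pivot H hH M S hM j0 hj0'
      obtain ⟨g, hg, h3, h4, h5⟩ := exists_clear H hH (h * M) S h1 j0 hj0' h2
        (Finset.univ.erase j0) (Finset.notMem_erase _ _)
      have h6 : g * (h * M) ∈ H := by
        apply ih (insert j0 S)
        · rw [Finset.sdiff_insert, Finset.card_erase_of_mem hj0, hS]; rfl
        · intro j hj
          rcases Finset.mem_insert.1 hj with rfl | hj
          · intro i
            by_cases hi : i = j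
            · subst hi; rw [if_pos rfl, h4]
            · rw [if_neg hi]; exact h5 i (Finset.mem_erase.2 ⟨hi, Finset.mem_univ _⟩)
          · exact h3 j hj
      have : M = h⁻¹ * (g⁻¹ * (g * (h * M))) := by group
      rw [this]
      exact H.mul_mem (H.inv_mem hh) (H.mul_mem (H.inv_mem hg) h6)
  rw [eq_top_iff]
  intro M _
  exact main _ ∅ rfl M (fun j hj => absurd hj (Finset.notMem_empty _))

/-- commutator formula for transvections -/
theorem transvection_comm {i k j : ι} (hik : i ≠ k) (hkj : k ≠ j) (hij : i ≠ j) (a b : R) :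
    Matrix.SpecialLinearGroup.transvection hij (a * b)
      = Matrix.SpecialLinearGroup.transvection hik a * Matrix.SpecialLinearGroup.transvection hkj b
        * (Matrix.SpecialLinearGroup.transvection hik a)⁻¹
        * (Matrix.SpecialLinearGroup.transvection hkj b)⁻¹ := by
  rw [eq_mul_inv_iff_mul_eq, eq_mul_inv_iff_mul_eq]
  apply Subtype.ext
  simp only [Matrix.SpecialLinearGroup.coe_mul, Matrix.SpecialLinearGroup.transvection_coe]
  have h1 : (Matrix.single k j b : Matrix ι ι R) * Matrix.single i k a = 0 :=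
    Matrix.single_mul_single_of_ne _ _ _ _ hij.symm _
  have h2 : (Matrix.single i j (a * b) : Matrix ι ι R) * Matrix.single k j b = 0 :=
    Matrix.single_mul_single_of_ne _ _ _ _ hkj.symm _
  have h3 : (Matrix.single i j (a * b) : Matrix ι ι R) * Matrix.single i k a = 0 :=
    Matrix.single_mul_single_of_ne _ _ _ _ hij.symm _
  have h4 : (Matrix.single i k a : Matrix ι ι R) * Matrix.single k j b = Matrix.single i j (a * b) :=
    Matrix.single_mul_single_same _ _ _ _ _
  simp only [Matrix.add_mul, Matrix.mul_add, Matrix.one_mul, Matrix.mul_one, h1, h2, h3, h4,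
    Matrix.zero_mul, add_zero, zero_mul]
  abel

/-- It suffices to have the transvections in one row and one column. -/
theorem eq_top_of_row_col [IsLocalRing R] (H : Subgroup (Matrix.SpecialLinearGroup ι R)) (i0 : ι)
    (hrow : ∀ (j : ι) (h : i0 ≠ j) (a : R), Matrix.SpecialLinearGroup.transvection h a ∈ H)
    (hcol : ∀ (i : ι) (h : i ≠ i0) (a : R), Matrix.SpecialLinearGroup.transvection h a ∈ H) : H = ⊤ := by
  apply eq_top_of_transvections
  intro i j hij a
  by_cases hi : i = i0
  · subst hi; exact hrow j hij a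
  · by_cases hj : j = i0
    · subst hj; exact hcol i hij a
    · have hj' : i0 ≠ j := fun e => hj e.symm
      have := transvection_comm hi hj' hij a 1
      rw [mul_one] at this
      rw [this]
      exact H.mul_mem (H.mul_mem (H.mul_mem (hcol _ _ _) (hrow _ _ _)) (H.inv_mem (hcol _ _ _)))
        (H.inv_mem (hrow _ _ _))

end Vale.Agent.P067
end
end

section

section

/-!
# P067, (ZERO MAP): cycles of `F × X(ι')` are boundaries in `X(1 ⊕ ι')`
-/

set_option autoImplicit false
set_option linter.unusedSectionVars false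

namespace Vale.Agent.P067

attribute [local instance] Classical.propDecidable

open scoped Pointwise

variable {p m : ℕ} [Fact p.Prime]

section cong

variable {ι : Type} [Fintype ι] [DecidableEq ι]

/-- The congruence subgroup: `g ≡ 1` modulo `t`. -/
def redP (ι : Type) [Fintype ι] [DecidableEq ι] (p m : ℕ) [Fact p.Prime] :
    Subgroup (GG ι p m) where
  carrier := {g | ∀ x : VV ι p m, cof ι p m 0 (g • x) = cof ι p m 0 x}
  one_mem' := fun x => by rw [one_smul]
  mul_mem' := fun {g h} hg hh x => by rw [mul_smul, hg, hh]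
  inv_mem' := fun {g} hg x => by rw [← hg (g⁻¹ • x), smul_inv_smul]

instance finite_GG : Finite (GG ι p m) := by
  have h : Function.Injective (fun g : GG ι p m => fun x : VV ι p m => g • x) := by
    intro g h hgh
    apply SpecialLinearGroup.ext
    intro x
    exact congrFun hgh x
  exact Finite.of_injective _ h

theorem smul_tm_pow (g : GG ι p m) (c : ℕ) (x : VV ι p m) :
    g • ((tm ι p m ^ c) x) = (tm ι p m ^ c) (g • x) := by
  rw [tm_pow_apply, tm_pow_apply, smul_comm]

theorem odd_card_redP (hp : p ≠ 2) (hm : 0 < m) : Odd (Nat.card (redP ι p m)) := by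
  rw [← Nat.not_even_iff_odd, even_iff_two_dvd]
  intro h2
  obtain ⟨g, hg⟩ := exists_prime_orderOf_dvd_card' 2 h2
  have hg1 : g ≠ 1 := by
    rintro rfl
    rw [orderOf_one] at hg
    omega
  have hgg : g * g = 1 := by
    have := pow_orderOf_eq_one g
    rw [hg, pow_two] at this
    exact this
  obtain ⟨x, hx⟩ : ∃ x : VV ι p m, (g : GG ι p m) • x ≠ x := by
    by_contra hcon
    push Not at hcon
    apply hg1
    apply Subtype.ext
    apply SpecialLinearGroup.ext
    intro x
    exact hcon x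
  set y : VV ι p m := (g : GG ι p m) • x - x with hy
  have hy0 : y ≠ 0 := sub_ne_zero.2 hx
  have hgy : (g : GG ι p m) • y = -y := by
    have h3 : (g : GG ι p m) • (g : GG ι p m) • x = x := by
      rw [← mul_smul]
      have : (g : GG ι p m) * (g : GG ι p m) = 1 := congrArg Subtype.val hgg
      rw [this, one_smul]
    rw [hy, smul_sub, h3]
    abel
  -- the first nonzero coefficient of `y`
  have hex : ∃ c, c < m ∧ cof ι p m c y ≠ 0 := by
    by_contra hcon
    push Not at hcon
    exact hy0 (VV_ext fun c hc => by rw [hcon c hc, map_zero])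
  have hc1 := Nat.find_spec hex
  set c := Nat.find hex with hc
  have hmin : ∀ i < c, cof ι p m i y = 0 := by
    intro i hi
    by_contra hne
    exact Nat.find_min hex hi ⟨by omega, hne⟩
  obtain ⟨z, hz⟩ := exists_tm_pow c hc1.1.le y hmin
  have h4 : cof ι p m c y = cof ι p m 0 z := by
    have := cof_add_tm_pow 0 c (by omega) z
    rw [zero_add] at this
    rw [hz, this]
  have h5 : cof ι p m c ((g : GG ι p m) • y) = cof ι p m 0 z := by
    have := cof_add_tm_pow 0 c (by omega) ((g : GG ι p m) • z)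
    rw [zero_add] at this
    rw [hz, smul_tm_pow, this, g.2]
  rw [hgy, map_neg, h4] at h5
  have h6 : (2 : ZMod p) • cof ι p m 0 z = 0 := by
    rw [two_smul]
    nth_rewrite 1 [← h5]
    exact neg_add_cancel _
  have h7 : (2 : ZMod p) ≠ 0 := by
    intro h
    have h8 : ((2 : ℕ) : ZMod p) = 0 := by exact_mod_cast h
    rw [ZMod.natCast_eq_zero_iff] at h8
    exact hp ((Nat.prime_dvd_prime_iff_eq Fact.out Nat.prime_two).1 h8)
  rcases smul_eq_zero.1 h6 with h | h
  · exact h7 h
  · exact hc1.2 (by rw [h4, h])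

/-- The star of the standard form. -/
def star0 (ι : Type) [Fintype ι] [DecidableEq ι] (p m : ℕ) [Fact p.Prime] :
    Set (Finset (Sb ι p m)) :=
  {σ | ∃ c : Finset (Sb ι p m), IsChain (· ≤ ·) (c : Set (Sb ι p m)) ∧
    (∀ S ∈ c, S < W0 ι p m) ∧ σ = c.image (vtx (W0 ι p m))}

theorem star0_sub : star0 ι p m ⊆ XX ι p m := by
  rintro σ ⟨c, h1, h2, h3⟩
  exact ⟨_, isForm_W0, c, h1, h2, h3⟩

theorem star0_down : DownClosed (star0 ι p m) := by
  rintro s ⟨c, hc, hlt, rfl⟩ t ht
  obtain ⟨c', hc', rfl⟩ := Finset.subset_image_iff.1 ht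
  exact ⟨c', hc.mono (by exact_mod_cast hc'), fun S hS => hlt S (hc' hS), rfl⟩

/-- The constant part of an element of `G`. -/
theorem exists_const_part (hm : 0 < m) (g : GG ι p m) :
    ∃ h : GG ι p m, h • W0 ι p m = W0 ι p m ∧
      ∀ x : VV ι p m, cof ι p m 0 (h • x) = cof ι p m 0 (g • x) := by
  obtain ⟨M, rfl⟩ := exists_toG g
  set N : Matrix.SpecialLinearGroup ι (ZMod p) := M.map (rs0 p m hm) with hN
  have key : ∀ (A : Matrix.SpecialLinearGroup ι (ZMod p)),
      toG (A.map (algebraMap (ZMod p) (Rg p m))) • W0 ι p m ≤ W0 ι p m := by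
    intro A x hx
    obtain ⟨y, ⟨v, rfl⟩, rfl⟩ := (Submodule.mem_smul_pointwise_iff_exists _ _ _).1 hx
    refine ⟨(A : Matrix ι ι (ZMod p)).mulVec v, ?_⟩
    funext i
    rw [toG_smul, cst_apply]
    unfold Matrix.mulVec dotProduct
    rw [map_sum]
    refine Finset.sum_congr rfl fun j _ => ?_
    rw [map_mul]
    rfl
  refine ⟨toG (N.map (algebraMap (ZMod p) (Rg p m))), ?_, ?_⟩
  · apply le_antisymm (key N)
    intro x hx
    rw [mem_smul_iff, ← toG_inv, ← map_inv]
    exact key N⁻¹ (Submodule.smul_mem_pointwise_smul x _ _ hx)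
  · intro x
    funext i
    rw [cof_apply, cof_apply, toG_smul, toG_smul]
    unfold Matrix.mulVec dotProduct
    rw [← rs0_eq hm, ← rs0_eq hm, map_sum, map_sum]
    refine Finset.sum_congr rfl fun j _ => ?_
    rw [map_mul, map_mul]
    congr 1
    change rs0 p m hm (algebraMap (ZMod p) (Rg p m) (rs0 p m hm _)) = _
    rw [rs0_eq hm (algebraMap (ZMod p) (Rg p m) _), co_algebraMap 0 hm, if_pos rfl]

theorem redP_smul_eq (hm : 3 ≤ m) {g : GG ι p m} (hg : g ∈ redP ι p m) {S S' : Sb ι p m}
    (hS : S ≤ W0 ι p m) (hS' : S' ≤ W0 ι p m)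
    (h : g • vtx (W0 ι p m) S = vtx (W0 ι p m) S') : S' = S := by
  have h1 : g • S = S' := by
    rw [← Sp_vtx_W0 hm hS', ← h, Sp_smul, Sp_vtx_W0 hm hS]
  have h2 : ∀ s ∈ S, g • s = s := by
    intro s hs
    have h3 : g • s ∈ W0 ι p m := hS' (by rw [← h1]; exact Submodule.smul_mem_pointwise_smul _ _ _ hs)
    rw [eq_cst_of_mem_W0 (by omega) h3, hg s, ← eq_cst_of_mem_W0 (by omega) (hS hs)]
  apply le_antisymm
  · intro x hx
    rw [← h1] at hx
    obtain ⟨s, hs, rfl⟩ := (Submodule.mem_smul_pointwise_iff_exists _ _ _).1 hx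
    rw [h2 s hs]
    exact hs
  · intro s hs
    rw [← h1, ← h2 s hs]
    exact Submodule.smul_mem_pointwise_smul _ _ _ hs

theorem strictDom_star0 (hm : 3 ≤ m) : StrictDom (redP ι p m) (XX ι p m) (star0 ι p m) where
  sub := star0_sub
  down := star0_down
  inv := fun g σ hσ => smul_mem_XX (g : GG ι p m) hσ
  cov := by
    rintro _ ⟨Wf, ⟨g, rfl⟩, c, hc, hlt, rfl⟩
    obtain ⟨h, h1, h2⟩ := exists_const_part (m := m) (by omega) g
    have hmem : h * g⁻¹ ∈ redP ι p m := by
      intro x
      rw [mul_smul, h2, smul_inv_smul]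
    refine ⟨⟨h * g⁻¹, hmem⟩, c.image (fun S => (h * g⁻¹) • S), ?_, ?_, ?_⟩
    · intro x hx y hy hxy
      rw [Finset.coe_image] at hx hy
      obtain ⟨a, ha, rfl⟩ := hx
      obtain ⟨b, hb, rfl⟩ := hy
      have hab : a ≠ b := fun e => hxy (by rw [e])
      rcases hc ha hb hab with h | h
      · exact Or.inl ((smul_le_smul_Sb _).2 h)
      · exact Or.inr ((smul_le_smul_Sb _).2 h)
    · intro S hS
      obtain ⟨a, ha, rfl⟩ := Finset.mem_image.1 hS
      have h3 := (smul_lt_smul_Sb (h * g⁻¹)).2 (hlt a ha)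
      rwa [mul_smul h g⁻¹ (g • W0 ι p m), inv_smul_smul, h1] at h3
    · rw [Finset.image_image, Finset.image_image]
      apply Finset.image_congr
      intro S _
      change (h * g⁻¹) • vtx (g • W0 ι p m) S = vtx (W0 ι p m) ((h * g⁻¹) • S)
      rw [smul_vtx, mul_smul h g⁻¹ (g • W0 ι p m), inv_smul_smul, h1]
  strict := by
    rintro g σ ⟨c, hc, hlt, rfl⟩ ⟨c', hc', hlt', he⟩
    apply image_eq_of_fix
    intro x hx
    have h1 : g • x ∈ c'.image (vtx (W0 ι p m)) := by
      rw [← he]
      exact Finset.mem_image_of_mem _ hx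
    obtain ⟨S, hS, rfl⟩ := Finset.mem_image.1 hx
    obtain ⟨S', hS', h2⟩ := Finset.mem_image.1 h1
    have h3 := redP_smul_eq hm g.2 (hlt S hS).le (hlt' S' hS').le h2.symm
    rw [← h2, h3]

theorem acyc_star0 {k : Type*} [Field k] [CharP k 2] [Nonempty ι] (hm : 0 < m) (q : ℕ) :
    Acyc k (star0 ι p m) q := by
  intro c hc hbd
  apply exists_bd_of_cone (x := vtx (W0 ι p m) ⊥) _ hbd
  intro s hs
  obtain ⟨⟨d, hd, hlt, rfl⟩, hcard⟩ := hc s hs
  refine ⟨⟨insert ⊥ d, ?_, ?_, ?_⟩, hcard⟩
  · rw [Finset.coe_insert]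
    exact hd.insert (fun b _ _ => Or.inl bot_le)
  · intro S hS
    rcases Finset.mem_insert.1 hS with rfl | hS
    · rw [bot_lt_iff_ne_bot]
      intro h0
      have h1 := finrank_form (p := p) (m := m) hm (isForm_W0 (ι := ι))
      rw [h0, finrank_bot] at h1
      have : 0 < Fintype.card ι := Fintype.card_pos
      omega
    · exact hlt S hS
  · ext y
    simp only [Finset.mem_insert, Finset.mem_image, exists_eq_or_imp]
    constructor
    · rintro (h | h)
      · exact Or.inl h.symm
      · exact Or.inr h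
    · rintro (h | h)
      · exact Or.inl h.symm
      · exact Or.inr h

end cong

variable {ι' : Type} [Fintype ι'] [DecidableEq ι']

theorem transvection_row (j : ι') (a : Rg p m)
    (h : (Sum.inl () : Unit ⊕ ι') ≠ Sum.inr j) :
    toG (Matrix.SpecialLinearGroup.transvection h a) = rowU (Pi.single j a) := by
  apply SpecialLinearGroup.ext
  intro x
  change toG (Matrix.SpecialLinearGroup.transvection h a) • x = rowU (Pi.single j a) • x
  rw [toG_smul, Matrix.SpecialLinearGroup.transvection_coe, Matrix.add_mulVec, Matrix.one_mulVec]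
  apply ext_split
  · rw [rk_rowU]
    funext i
    simp only [Matrix.single_mulVec, rk_apply, Pi.add_apply, Function.update_self, single_dotProduct, ri_apply]
  · rw [ri_rowU]
    funext i
    simp [ri_apply, Matrix.single_mulVec]

theorem transvection_col (i : ι') (a : Rg p m)
    (h : (Sum.inr i : Unit ⊕ ι') ≠ Sum.inl ()) :
    ∃ C : QS Unit ι' p m, toG (Matrix.SpecialLinearGroup.transvection h a) = shear C := by
  refine ⟨Multiplicative.ofAdd (Matrix.single i () a), ?_⟩
  change toG _ = toG (blkM (Matrix.single i () a) 1)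
  congr 1
  apply Subtype.ext
  rw [Matrix.SpecialLinearGroup.transvection_coe]
  ext x y
  rcases x with x | x <;> rcases y with y | y <;>
    simp [blkM, Matrix.single_apply, Matrix.one_apply]

/-- (ZERO MAP) -/
theorem zero_map_of {k : Type*} [Field k] [IsAlgClosed k] [CharP k 2] (hp : p ≠ 2) (hm : 3 ≤ m)
    {q : ℕ} (hM : HypM k ι' p m q) (a : Finset (Sb (Unit ⊕ ι') p m) →₀ k)
    (ha : ChainIn (FdX Unit ι' p m) q a) (hbd : bd a = 0)
    (hS : ∀ C : QS Unit ι' p m, ∃ y : Finset (Sb (Unit ⊕ ι') p m) →₀ k,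
      ChainIn (XX (Unit ⊕ ι') p m) (q + 1) y ∧ act C a + a = bd y) :
    ∃ y : Finset (Sb (Unit ⊕ ι') p m) →₀ k,
      ChainIn (XX (Unit ⊕ ι') p m) (q + 1) y ∧ bd y = a := by
  have hloc : IsLocalRing (Rg p m) := isLocalRing_Rg (by omega)
  set H : Subgroup (GG (Unit ⊕ ι') p m) :=
    classStab (GG (Unit ⊕ ι') p m) (XX (Unit ⊕ ι') p m) (fun g σ hσ => smul_mem_XX g hσ) q a with hH
  have htop : H.comap (Matrix.SpecialLinearGroup.toLin'_equiv :
      Matrix.SpecialLinearGroup (Unit ⊕ ι') (Rg p m) ≃* GG (Unit ⊕ ι') p m).toMonoidHom = ⊤ := by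
    apply eq_top_of_row_col _ (Sum.inl ())
    · rintro (j | j) h b
      · exact absurd rfl h
      · change toG (Matrix.SpecialLinearGroup.transvection h b) ∈ H
        rw [transvection_row]
        exact s2_act hp hm hM a ha hbd _
    · rintro (j | j) h b
      · exact absurd rfl h
      · change toG (Matrix.SpecialLinearGroup.transvection h b) ∈ H
        obtain ⟨C, hC⟩ := transvection_col (p := p) (m := m) j b h
        rw [hC]
        exact hS C
  have hall : ∀ g : GG (Unit ⊕ ι') p m, g ∈ H := by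
    intro g
    obtain ⟨M, rfl⟩ := exists_toG g
    have : M ∈ H.comap (Matrix.SpecialLinearGroup.toLin'_equiv :
      Matrix.SpecialLinearGroup (Unit ⊕ ι') (Rg p m) ≃* GG (Unit ⊕ ι') p m).toMonoidHom := by
      rw [htop]; exact Subgroup.mem_top _
    exact this
  exact boundary_of_class_invariant (odd_card_redP hp (by omega)) (XX (Unit ⊕ ι') p m)
    (star0 (Unit ⊕ ι') p m) (strictDom_star0 hm) q (acyc_star0 (by omega) q) a
    (ha.mono FdX_sub) hbd (fun g => hall (g : GG (Unit ⊕ ι') p m))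

end Vale.Agent.P067
end
end

section

section

/-!
# P067: vanishing of the homology of `X` (pillar A), main induction
-/

set_option autoImplicit false
set_option linter.unusedSectionVars false

open Finset

namespace Vale.Agent.P067

attribute [local instance] Classical.propDecidable

open scoped Pointwise
open Matrix

variable {p m : ℕ} [Fact p.Prime]
variable {ι : Type} [Fintype ι] [DecidableEq ι]

theorem resR_surjective (hm : 0 < m) : Function.Surjective (resR p m hm) := fun a =>
  ⟨_, resR_algebraMap hm a⟩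

theorem isLocalHom_resR (hm : 0 < m) : IsLocalHom (resR p m hm) := by
  constructor
  intro x hx
  obtain ⟨f, rfl⟩ := AdjoinRoot.mk_surjective x
  have h0 : resR p m hm (AdjoinRoot.mk _ f) = f.coeff 0 := by
    rw [resR_eq_co, co_mk 0 f hm]
  rw [h0] at hx
  have h1 : f = Polynomial.C (f.coeff 0) + Polynomial.X * f.divX := by
    conv_lhs => rw [← Polynomial.divX_mul_X_add f]
    ring
  rw [h1, map_add, map_mul]
  have hu : IsUnit (AdjoinRoot.mk ((Polynomial.X : Polynomial (ZMod p)) ^ m)
      (Polynomial.C (f.coeff 0))) := (hx.map Polynomial.C).map _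
  have hn : IsNilpotent (AdjoinRoot.mk ((Polynomial.X : Polynomial (ZMod p)) ^ m)
      Polynomial.X * AdjoinRoot.mk ((Polynomial.X : Polynomial (ZMod p)) ^ m) f.divX) := by
    refine ⟨m, ?_⟩
    rw [mul_pow, ← map_pow, AdjoinRoot.mk_self, zero_mul]
  rw [add_comm]
  exact IsNilpotent.isUnit_add_right_of_commute hn hu (Commute.all _ _)

/-- Independent rows can be moved to the first coordinates. -/
theorem exists_std (hm : 0 < m) {κ ι' : Type} [Fintype κ] [DecidableEq κ] [Fintype ι']
    [DecidableEq ι'] [Nonempty ι'] (r : κ → VV ι p m)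
    (hr : LinearIndependent (ZMod p) (fun i => cof ι p m 0 (r i)))
    (hcard : Fintype.card κ + Fintype.card ι' = Fintype.card ι) :
    ∃ E : VV ι p m ≃ₗ[Rg p m] VV (κ ⊕ ι') p m, IsForm (mE E (W0 ι p m)) ∧
      IsForm (mE E.symm (W0 (κ ⊕ ι') p m)) ∧ ∀ i x, E x (Sum.inl i) = r i ⬝ᵥ x := by
  have hc : Fintype.card ι = Fintype.card (κ ⊕ ι') := by
    rw [Fintype.card_sum, hcard]
  let ε : ι ≃ κ ⊕ ι' := Fintype.equivOfCardEq hc
  have := isLocalHom_resR (p := p) hm
  obtain ⟨M, hM⟩ := exists_SL_rows (resR p m hm) (resR_surjective hm) ε r (by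
    convert hr using 1
    funext i j
    rw [resR_eq_co]
    rfl)
  refine ⟨EM M ε, isForm_EM M ε, isForm_EM_symm M ε, fun i x => ?_⟩
  rw [EM_apply]
  change (M : Matrix ι ι (Rg p m)) (ε.symm (Sum.inl i)) ⬝ᵥ x = r i ⬝ᵥ x
  rw [hM i]

section transport

variable {κ ι' : Type} [Fintype κ] [DecidableEq κ] [Fintype ι'] [DecidableEq ι']

theorem downClosed_Xcal : DownClosed (Xcal κ ι' p m) := fun s hs t hts =>
  ⟨downClosed_XX s hs.1 t hts, fun L hL => hs.2 L (hts hL)⟩

/-- The lower links in `Xcal` are those of `X`. -/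
theorem lowLk_Xcal (hm : 3 ≤ m) {L : Sb (κ ⊕ ι') p m}
    (hL : ({L} : Finset (Sb (κ ⊕ ι') p m)) ∈ Xcal κ ι' p m) :
    lowLk (Xcal κ ι' p m) ty L = lowLk (XX (κ ⊕ ι') p m) ty L := by
  ext τ
  constructor
  · rintro ⟨h1, h2, h3⟩
    exact ⟨h1, h2.1, h3⟩
  · rintro ⟨h1, h2, h3⟩
    refine ⟨h1, ⟨h2, ?_⟩, h3⟩
    have hL2 := hL.2 L (Finset.mem_singleton_self L)
    intro y hy
    rcases Finset.mem_insert.1 hy with h | h
    · rw [h]
      exact hL2
    · have h4 : ({L, y} : Finset (Sb (κ ⊕ ι') p m)) ∈ XX (κ ⊕ ι') p m := by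
        refine downClosed_XX _ h2 _ ?_
        intro z hz
        rcases Finset.mem_insert.1 hz with h5 | h5
        · rw [h5]
          exact Finset.mem_insert_self _ _
        · rw [Finset.mem_singleton.1 h5]
          exact Finset.mem_insert_of_mem h
      have hne : L ≠ y := fun e => h1 (by rw [e]; exact h)
      have h5 : y < L := (ty_lt_iff hm h4 hne).1 (h3 y h)
      exact ⟨fun x hx i => hL2.1 x (h5.le hx) i, lt_trans (h3 y h) hL2.2⟩

variable (E : VV ι p m ≃ₗ[Rg p m] VV (κ ⊕ ι') p m)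

theorem image_mem_types (h0 : IsForm (mE E (W0 ι p m))) (r : κ → VV ι p m)
    (hE : ∀ i x, E x (Sum.inl i) = r i ⬝ᵥ x) {ρ : ℕ} (hρ : ρ < Fintype.card ι')
    {σ : Finset (Sb ι p m)} (hσ : σ ∈ types (XX ι p m) ty ρ)
    (hrel : ∀ i, ∀ L ∈ σ, relV (r i) L) :
    σ.image (mE E) ∈ types (Xcal κ ι' p m) ty ρ := by
  have hty : ∀ L ∈ σ.image (mE E), ty L ≤ ρ := by
    intro L hL
    obtain ⟨L', hL', rfl⟩ := Finset.mem_image.1 hL
    rw [ty_mE]
    exact hσ.2 L' hL'
  refine ⟨⟨image_mE_mem_XX E h0 hσ.1, fun L hL => ⟨?_, lt_of_le_of_lt (hty L hL) hρ⟩⟩, hty⟩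
  obtain ⟨L', hL', rfl⟩ := Finset.mem_image.1 hL
  intro x hx i
  have h1 := hrel i L' hL' _ (mem_mE.1 hx)
  rw [← hE, E.apply_symm_apply] at h1
  exact h1

theorem image_symm_mem_types (h0 : IsForm (mE E.symm (W0 (κ ⊕ ι') p m))) (r : κ → VV ι p m)
    (hE : ∀ i x, E x (Sum.inl i) = r i ⬝ᵥ x) {ρ : ℕ}
    {σ : Finset (Sb (κ ⊕ ι') p m)} (hσ : σ ∈ types (Xcal κ ι' p m) ty ρ) :
    σ.image (mE E.symm) ∈ types (XX ι p m) ty ρ ∧
      ∀ i, ∀ L ∈ σ.image (mE E.symm), relV (r i) L := by
  refine ⟨⟨image_mE_mem_XX E.symm h0 hσ.1.1, ?_⟩, ?_⟩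
  · intro L hL
    obtain ⟨L', hL', rfl⟩ := Finset.mem_image.1 hL
    rw [ty_mE]
    exact hσ.2 L' hL'
  · intro i L hL
    obtain ⟨L', hL', rfl⟩ := Finset.mem_image.1 hL
    intro x hx
    rw [mem_mE, LinearEquiv.symm_symm] at hx
    rw [← hE]
    exact (hσ.1.2 L' hL').1 _ hx i

end transport

/-- The induction step of the vanishing theorem. -/
theorem vanish_step {k : Type} [Field k] [IsAlgClosed k] [CharP k 2] (hp2 : p ≠ 2) (hm : 3 ≤ m)
    (i : ℕ) (hn : 2 * i + 3 ≤ Fintype.card ι)
    (hlow : ∀ (ι₁ : Type) [Fintype ι₁] [DecidableEq ι₁], Fintype.card ι₁ ≤ Fintype.card ι →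
      ∀ L : Sb ι₁ p m, ({L} : Finset (Sb ι₁ p m)) ∈ XX ι₁ p m → ∀ q, q + 1 ≤ ty L →
      Acyc k (lowLk (XX ι₁ p m) ty L) q)
    (hH : ∀ (ι₁ : Type) [Fintype ι₁] [DecidableEq ι₁], Fintype.card ι₁ ≤ Fintype.card ι →
      ∀ H : Sb ι₁ p m, H ≠ ⊤ → ∀ q, q + 1 ≤ Fintype.card ι₁ →
      RelAcyc k (XX ι₁ p m) {σ | σ ∈ XX ι₁ p m ∧ ∀ L ∈ σ, ¬ L ≤ H} q)
    (hy : ∀ (ι₁ : Type) [Fintype ι₁] [DecidableEq ι₁], Fintype.card ι₁ ≤ Fintype.card ι →
      ∀ q, q + 1 ≤ Fintype.card ι₁ → HypM k ι₁ p m q)
    (IH : ∀ (ι₁ : Type) [Fintype ι₁] [DecidableEq ι₁], Fintype.card ι₁ < Fintype.card ι →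
      ∀ j, 2 * j + 3 ≤ Fintype.card ι₁ → Acyc k (XX ι₁ p m) (j + 1)) :
    Acyc k (XX ι p m) (i + 1) := by
  have hm0 : 0 < m := by omega
  refine acyc_step (XX ι p m) downClosed_XX ty (K1 ι p m) K1_down empty_mem_K1 relV i (i + 1)
    (by omega) ?_ ?_ ?_ ?_
  · -- push down
    refine relAcyc_types (XX ι p m) downClosed_XX ty (ty_injOn_XX hm) i (i + 1) ?_
    intro L hL hr _
    exact hlow ι le_rfl L hL _ (by omega)
  · -- the rows
    intro σ hσ hcard
    exact acyc_rows hm hσ.1 i (i + 1 - σ.card) hσ.2 (by omega)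
  · -- at least two rows
    intro T hT h2 hTc
    have hTlt : T.card < Fintype.card ι := by omega
    let κ : Type := {u // u ∈ T}
    let ι' : Type := Fin (Fintype.card ι - T.card)
    have hκ : Fintype.card κ = T.card := Fintype.card_coe T
    have hι' : Fintype.card ι' = Fintype.card ι - T.card := Fintype.card_fin _
    have hne : Nonempty ι' := ⟨⟨0, by omega⟩⟩
    have hlin : LinearIndependent (ZMod p) (fun u : κ => cof ι p m 0 u.1) := hT
    obtain ⟨E, hE0, hE1, hE⟩ := exists_std hm0 (κ := κ) (ι' := ι') (fun u => u.1) hlin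
      (by rw [hκ, hι']; omega)
    set q := i + 1 + 1 - T.card with hq
    have hA : Acyc k (XX ι' p m) q := by
      rcases Nat.eq_zero_or_pos q with h0 | h0
      · rw [h0]
        have hbot : (⊥ : Sb ι' p m) < W0 ι' p m := by
          rw [bot_lt_iff_ne_bot]
          intro h
          have h3 := finrank_form hm0 (isForm_W0 (ι := ι') (p := p) (m := m))
          rw [h, finrank_bot] at h3
          omega
        refine acyc_zero (v := vtx (W0 ι' p m) ⊥) ⟨W0 ι' p m, isForm_W0, {⊥}, by simp only [coe_singleton, IsChain.singleton], ?_, by simp⟩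
        intro S hS
        rw [Finset.mem_singleton.1 hS]
        exact hbot
      · obtain ⟨j, hj⟩ : ∃ j, q = j + 1 := ⟨q - 1, by omega⟩
        rw [hj]
        exact IH ι' (by omega) j (by omega)
    have hcal : Acyc k (Xcal κ ι' p m) q :=
      S2star_acyc hp2 hm q (fun H hHt => hH ι' (by omega) H hHt q (by omega)) hA
    have hcard2 : Fintype.card (κ ⊕ ι') ≤ Fintype.card ι := by
      rw [Fintype.card_sum, hκ, hι']
      omega
    have hty : Acyc k (types (Xcal κ ι' p m) ty i) q := by
      refine acyc_types _ downClosed_Xcal ty (fun σ hσ => ty_injOn_XX hm σ hσ.1) i q ?_ hcal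
      intro L hL hr
      rw [lowLk_Xcal hm hL]
      exact hlow (κ ⊕ ι') hcard2 L hL.1 q (by omega)
    refine acyc_of_iso (mE E) (mE E.symm) ?_ ?_ hty
    · intro σ hσ
      exact ⟨image_mem_types E hE0 (fun u : κ => u.1) hE (by omega) hσ.1
        (fun u L hL => hσ.2 u.1 u.2 L hL), fun L _ => mE_symm_mE E L⟩
    · intro σ hσ
      obtain ⟨h3, h4⟩ := image_symm_mem_types E hE1 (fun u : κ => u.1) hE hσ
      exact ⟨⟨h3, fun u hu L hL => h4 ⟨u, hu⟩ L hL⟩, fun L _ => mE_mE_symm E L⟩
  · -- one row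
    intro u hu z hz hbd
    let ι' : Type := Fin (Fintype.card ι - 1)
    have hι' : Fintype.card ι' = Fintype.card ι - 1 := Fintype.card_fin _
    have hne : Nonempty ι' := ⟨⟨0, by omega⟩⟩
    have hlin : LinearIndependent (ZMod p) (fun _ : Unit => cof ι p m 0 u) := by
      have h1 : LinearIndepOn (ZMod p) (cof ι p m 0) (({u} : Finset (VV ι p m)) : Set _) := hu
      rw [Finset.coe_singleton, linearIndepOn_singleton_iff] at h1
      exact LinearIndependent.of_subsingleton () h1
    obtain ⟨E, hE0, hE1, hE⟩ := exists_std hm0 (κ := Unit) (ι' := ι') (fun _ => u) hlin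
      (by rw [hι', Fintype.card_unit]; omega)
    have hz' : ChainIn (Xcal Unit ι' p m) (i + 1) (mapC (mE E) z) := by
      refine hz.mapC (mE E) ?_
      intro σ hσ _
      exact ⟨(image_mem_types E hE0 (fun _ : Unit => u) hE (by omega) hσ.1
        (fun _ L hL => hσ.2 L hL)).1, (mE_injective E).injOn⟩
    have hbd' : bd (mapC (mE E) z) = 0 := by
      rw [bd_mapC (mE E) z (fun s _ => (mE_injective E).injOn), hbd, map_zero]
    have hHi : ∀ H : Sb ι' p m, H ≠ ⊤ →
        RelAcyc k (XX ι' p m) {σ | σ ∈ XX ι' p m ∧ ∀ L ∈ σ, ¬ L ≤ H} (i + 1) :=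
      fun H hHt => hH ι' (by omega) H hHt (i + 1) (by omega)
    obtain ⟨a, y, ha, hbda, hyc, hzay⟩ := S2star_homologous hp2 hm (i + 1) hHi _ hz' hbd'
    obtain ⟨w, hw, hwa⟩ := zero_map_of hp2 hm (hy ι' (by omega) (i + 1) (by omega)) a ha hbda
      (by
        intro C
        obtain ⟨v, hv, hva⟩ := S2star_act hp2 hm (i + 1) hHi a ha hbda C
        exact ⟨v, hv.mono (fun s hs => hs.1), hva⟩)
    have hsum : ChainIn (XX (Unit ⊕ ι') p m) (i + 1 + 1) (w + y) :=
      hw.add (hyc.mono (fun s hs => hs.1))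
    refine ⟨mapC (mE E.symm) (w + y), ?_, ?_⟩
    · refine hsum.mapC (mE E.symm) ?_
      intro σ hσ _
      exact ⟨image_mE_mem_XX E.symm hE1 hσ, (mE_injective E.symm).injOn⟩
    · rw [bd_mapC (mE E.symm) _ (fun s _ => (mE_injective E.symm).injOn), map_add, hwa, ← hzay]
      exact mapC_mapC_of_leftInv (mE E) (mE E.symm) z (fun s _ x _ => mE_symm_mE E x)

end Vale.Agent.P067
end
end

section

section

/-!
# P067: vanishing of the homology of `X` over `F₂` (pillar A), final form
-/

set_option autoImplicit false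

open Finset

namespace Vale.Agent.P067

attribute [local instance] Classical.propDecidable

/-- Acyclicity descends from an extension field to `F₂`. -/
theorem acyc_descend {α : Type*} {k : Type*} [Field k] [Algebra (ZMod 2) k]
    (K : Set (Finset α)) (q : ℕ) (h : Acyc k K q) : Acyc (ZMod 2) K q := by
  intro c hc hbd
  obtain ⟨ρ, hρ⟩ := LinearMap.exists_leftInverse_of_injective
    (Algebra.linearMap (ZMod 2) k) (LinearMap.ker_eq_bot.2 (algebraMap (ZMod 2) k).injective)
  have hρ1 : ∀ a : ZMod 2, ρ (algebraMap (ZMod 2) k a) = a := fun a => LinearMap.congr_fun hρ a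
  let up : (Finset α →₀ ZMod 2) →+ (Finset α →₀ k) :=
    Finsupp.mapRange.addMonoidHom (algebraMap (ZMod 2) k).toAddMonoidHom
  let dn : (Finset α →₀ k) →+ (Finset α →₀ ZMod 2) :=
    Finsupp.mapRange.addMonoidHom ρ.toAddMonoidHom
  have hup : ∀ x : Finset α →₀ ZMod 2, bd (up x) = up (bd x) := by
    intro x
    have : (bd (k := k) (α := α)).toAddMonoidHom.comp up
        = up.comp (bd (k := ZMod 2) (α := α)).toAddMonoidHom := by
      apply Finsupp.addHom_ext
      intro s a
      change bd (up (Finsupp.single s a)) = up (bd (Finsupp.single s a))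
      rw [bd_single, map_sum]
      simp only [up, Finsupp.mapRange.addMonoidHom_apply, Finsupp.mapRange_single]
      rw [bd_single]
    exact DFunLike.congr_fun this x
  have hdn : ∀ x : Finset α →₀ k, bd (dn x) = dn (bd x) := by
    intro x
    have : (bd (k := ZMod 2) (α := α)).toAddMonoidHom.comp dn
        = dn.comp (bd (k := k) (α := α)).toAddMonoidHom := by
      apply Finsupp.addHom_ext
      intro s a
      change bd (dn (Finsupp.single s a)) = dn (bd (Finsupp.single s a))
      rw [bd_single, map_sum]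
      simp only [dn, Finsupp.mapRange.addMonoidHom_apply, Finsupp.mapRange_single]
      rw [bd_single]
    exact DFunLike.congr_fun this x
  have hdu : ∀ x : Finset α →₀ ZMod 2, dn (up x) = x := by
    intro x
    ext s
    exact hρ1 (x s)
  have hsup : ∀ x : Finset α →₀ ZMod 2, (up x).support ⊆ x.support := by
    intro x s hs
    rw [Finsupp.mem_support_iff] at hs ⊢
    intro h0
    apply hs
    change algebraMap (ZMod 2) k (x s) = 0
    rw [h0, map_zero]
  have hsdn : ∀ x : Finset α →₀ k, (dn x).support ⊆ x.support := by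
    intro x s hs
    rw [Finsupp.mem_support_iff] at hs ⊢
    intro h0
    apply hs
    change ρ (x s) = 0
    rw [h0, map_zero]
  obtain ⟨y, hy, hyc⟩ := h (up c) (fun s hs => hc s (hsup c hs)) (by rw [hup, hbd, map_zero])
  refine ⟨dn y, fun s hs => hy s (hsdn y hs), ?_⟩
  rw [hdn, hyc, hdu]

/-- Vanishing over algebraically closed fields of characteristic two. -/
theorem vanish_algClosed (n : ℕ) : ∃ p0 : ℕ, ∀ (p m : ℕ) [Fact p.Prime] (ι : Type) [Fintype ι]
    [DecidableEq ι], Fintype.card ι = n → p0 ≤ p → 3 ≤ m → ∀ i, 2 * i + 3 ≤ n →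
    Acyc (AlgebraicClosure (ZMod 2)) (XX ι p m) (i + 1) := by
  have hchar : CharP (AlgebraicClosure (ZMod 2)) 2 := inferInstance
  choose NL hNL using acyc_lowLk_XX
  choose NH hNH using relAcyc_H_XX
  choose NY hNY using relAcyc_y_XX
  induction n using Nat.strong_induction_on with
  | _ n IH =>
    choose! q0 hq0 using IH
    refine ⟨3 + ∑ l ∈ range (n + 1), (NL l + NH l + NY l) + ∑ l ∈ range n, q0 l, ?_⟩
    intro p m _ ι _ _ hcard hp hm i hi
    subst hcard
    have hsum : ∀ l, l ≤ Fintype.card ι → NL l + NH l + NY l ≤ p := by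
      intro l hl
      have h1 : NL l + NH l + NY l ≤ ∑ l ∈ range (Fintype.card ι + 1), (NL l + NH l + NY l) :=
        Finset.single_le_sum (f := fun l => NL l + NH l + NY l) (fun _ _ => Nat.zero_le _)
          (Finset.mem_range.2 (by omega))
      omega
    have hsum2 : ∀ l, l < Fintype.card ι → q0 l ≤ p := by
      intro l hl
      have h1 : q0 l ≤ ∑ l ∈ range (Fintype.card ι), q0 l :=
        Finset.single_le_sum (f := fun l => q0 l) (fun _ _ => Nat.zero_le _)
          (Finset.mem_range.2 hl)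
      omega
    refine vanish_step (p := p) (by omega) hm i hi ?_ ?_ ?_ ?_
    · intro ι₁ _ _ h1 L hL q hq
      exact hNL (Fintype.card ι₁) ι₁ p m _ rfl hm (by have := hsum _ h1; omega) L hL q hq
    · intro ι₁ _ _ h1 H hH q hq
      exact hNH (Fintype.card ι₁) ι₁ p m _ rfl hm (by have := hsum _ h1; omega) H hH q hq
    · intro ι₁ _ _ h1 q hq y hy
      exact hNY (Fintype.card ι₁) ι₁ p m _ rfl hm (by have := hsum _ h1; omega) y hy q hq
    · intro ι₁ _ _ h1 j hj
      exact hq0 (Fintype.card ι₁) h1 p m ι₁ rfl (hsum2 _ h1) hm j hj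

/-- Pillar A: the reduced homology of `X` over `F₂` vanishes in low dimensions. -/
theorem vanish (n : ℕ) : ∃ p0 : ℕ, ∀ (p m : ℕ) [Fact p.Prime] (ι : Type) [Fintype ι]
    [DecidableEq ι], Fintype.card ι = n → p0 ≤ p → 3 ≤ m → ∀ i, 2 * i + 3 ≤ n →
    Acyc (ZMod 2) (XX ι p m) (i + 1) := by
  obtain ⟨p0, h⟩ := vanish_algClosed n
  exact ⟨p0, fun p m _ ι _ _ hc hp hm i hi => acyc_descend _ _ (h p m ι hc hp hm i hi)⟩

end Vale.Agent.P067
end
end

section

section

/-! # P067, module M10a: from the weights of `X(n)` to the official weights of the `d`-skeleton -/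

set_option autoImplicit false

open Finset

namespace Vale.Agent.P067

attribute [local instance] Classical.propDecidable

attribute [-instance] Subtype.instDecidableEq

section Conv

variable {α : Type} [Fintype α] (top : Finset (Finset α)) (d : ℕ)

/-- The vertices of the complex. -/
abbrev Vx : Type := {v : α // 0 < W top {v}}

/-- A set of vertices as a subset of `α`. -/
def up (s : Finset (Vx top)) : Finset α := s.map (Function.Embedding.subtype _)

omit [Fintype α] in
theorem card_up (s : Finset (Vx top)) : (up top s).card = s.card := card_map _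

omit [Fintype α] in
theorem up_subset_iff {s t : Finset (Vx top)} : up top s ⊆ up top t ↔ s ⊆ t := map_subset_map

omit [Fintype α] in
theorem up_injective : Function.Injective (up top) := map_injective _

omit [Fintype α] in
theorem exists_up {τ : Finset α} (h : 0 < W top τ) : ∃ s : Finset (Vx top), up top s = τ := by
  refine ⟨τ.subtype _, ?_⟩
  rw [up, subtype_map]
  refine filter_true_of_mem fun v hv => ?_
  exact lt_of_lt_of_le h (W_anti top (singleton_subset_iff.2 hv))

omit [Fintype α] in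
theorem up_erase (s : Finset (Vx top)) (v : Vx top) :
    up top (s.erase v) = (up top s).erase v.1 := by
  unfold up
  rw [map_erase]
  rfl

/-- The `d`-skeleton of the complex with top simplices `top`. -/
noncomputable def skelX : AbstractSimplicialComplex (Vx top) where
  faces := {s | s.Nonempty ∧ s.card ≤ d + 1 ∧ 0 < W top (up top s)}
  isRelLowerSet_faces := by
    rintro s ⟨h1, h2, h3⟩
    refine ⟨h1, fun t hts ht => ⟨ht, (card_le_card hts).trans h2, ?_⟩⟩
    exact lt_of_lt_of_le h3 (W_anti top ((up_subset_iff top).2 hts))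
  singleton_mem v := by
    refine ⟨singleton_nonempty v, by simp, ?_⟩
    have : up top {v} = {v.1} := by simp [up]
    rw [this]
    exact v.2

omit [Fintype α] in
theorem mem_skelX {s : Finset (Vx top)} :
    s ∈ skelX top d ↔ s.Nonempty ∧ s.card ≤ d + 1 ∧ 0 < W top (up top s) := Iff.rfl

omit [Fintype α] in
theorem skelX_pure {N : ℕ} (hN : ∀ C ∈ top, C.card = N) (hdN : d + 2 ≤ N) :
    IsPure (skelX top d) d := by
  rintro s ⟨h1, h2, h3⟩
  obtain ⟨C, hC, hsC⟩ := W_pos_iff.1 h3
  obtain ⟨t, hst, htC, ht⟩ := exists_subsuperset_card_eq hsC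
    (by rw [card_up]; exact h2 : (up top s).card ≤ d + 1) (by rw [hN C hC]; omega)
  have hW : 0 < W top t := W_pos_iff.2 ⟨C, hC, htC⟩
  obtain ⟨t', rfl⟩ := exists_up top hW
  rw [card_up] at ht
  rw [up_subset_iff] at hst
  refine ⟨t', ⟨h1.mono hst, ht.le, hW⟩, ht, hst⟩

omit [Fintype α] in
theorem skelX_connected {N : ℕ} (hN : ∀ C ∈ top, C.card = N) (hd : 1 ≤ d) (hdN : d + 2 ≤ N)
    (hne : top.Nonempty) (hconn : LinkConn top ∅) : (skel (skelX top d)).Connected := by
  have hnonempty : Nonempty (Vx top) := by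
    obtain ⟨C, hC⟩ := hne
    have hc : 0 < C.card := by rw [hN C hC]; omega
    obtain ⟨v, hv⟩ := card_pos.1 hc
    exact ⟨⟨v, W_pos_iff.2 ⟨C, hC, singleton_subset_iff.2 hv⟩⟩⟩
  refine { preconnected := fun u v => ?_, nonempty := hnonempty }
  have key := hconn {w : α | ∃ h : 0 < W top {w}, (skel (skelX top d)).Reachable u ⟨w, h⟩} ?_
    u.1 v.1 (notMem_empty _) (notMem_empty _)
    (by simpa using u.2) (by simpa using v.2)
  · obtain ⟨_, h⟩ := key.1 ⟨u.2, SimpleGraph.Reachable.refl _⟩
    exact h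
  · intro a b _ _ hab hW
    have ha : 0 < W top {a} := lt_of_lt_of_le hW (W_anti top (by simp))
    have hb : 0 < W top {b} := lt_of_lt_of_le hW (W_anti top (by
      intro x hx
      simp only [mem_singleton] at hx
      subst hx
      simp))
    have hadj : (skel (skelX top d)).Adj ⟨a, ha⟩ ⟨b, hb⟩ := by
      refine ⟨fun h => hab (congrArg Subtype.val h), ?_⟩
      rw [mem_skelX]
      refine ⟨⟨⟨a, ha⟩, by simp⟩, ?_, ?_⟩
      · refine (card_insert_le _ _).trans ?_
        rw [card_singleton]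
        omega
      · have : up top {⟨a, ha⟩, ⟨b, hb⟩} = insert a (insert b ∅) := by
          ext x
          simp [up]
        rw [this]
        exact hW
    constructor
    · rintro ⟨_, h⟩
      exact ⟨hb, h.trans hadj.reachable⟩
    · rintro ⟨_, h⟩
      exact ⟨ha, h.trans hadj.symm.reachable⟩

/-- The faces of size `d + 1` containing `τ`. -/
noncomputable def Tof (τ : Finset α) : Finset (Finset α) :=
  univ.filter fun t : Finset α => t.card = d + 1 ∧ τ ⊆ t ∧ 0 < W top t

theorem card_Tof_le {N : ℕ} (hN : ∀ C ∈ top, C.card = N) (τ : Finset α) :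
    (Tof top d τ).card ≤ 2 ^ N * W top τ := by
  have h1 : Tof top d τ ⊆ (top.filter (fun C => τ ⊆ C)).biUnion fun C => C.powerset := by
    intro t ht
    simp only [Tof, mem_filter, mem_univ, true_and] at ht
    obtain ⟨C, hC, htC⟩ := W_pos_iff.1 ht.2.2
    simp only [mem_biUnion, mem_filter, mem_powerset]
    exact ⟨C, ⟨hC, ht.2.1.trans htC⟩, htC⟩
  refine (card_le_card h1).trans (card_biUnion_le.trans ?_)
  have h2 : ∀ C ∈ top.filter (fun C => τ ⊆ C), C.powerset.card ≤ 2 ^ N := by
    intro C hC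
    rw [card_powerset, hN C (mem_filter.1 hC).1]
  refine (sum_le_card_nsmul _ _ _ h2).trans (le_of_eq ?_)
  rw [smul_eq_mul, mul_comm]
  rfl

theorem W_le_card_Tof {N D' : ℕ} (hN : ∀ C ∈ top, C.card = N) (hdN : d + 2 ≤ N)
    (hD : ∀ v : α, W top {v} ≤ D') (τ : Finset α) (hτ : τ.card ≤ d + 1) :
    W top τ ≤ D' * (Tof top d τ).card := by
  have h1 : top.filter (fun C => τ ⊆ C) ⊆
      (Tof top d τ).biUnion fun t => top.filter (fun C => t ⊆ C) := by
    intro C hC
    rw [mem_filter] at hC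
    obtain ⟨t, hst, htC, ht⟩ := exists_subsuperset_card_eq hC.2 hτ (by rw [hN C hC.1]; omega)
    simp only [mem_biUnion, mem_filter, Tof, mem_univ, true_and]
    exact ⟨t, ⟨ht, hst, W_pos_iff.2 ⟨C, hC.1, htC⟩⟩, hC.1, htC⟩
  refine (card_le_card h1).trans (card_biUnion_le.trans ?_)
  refine (sum_le_card_nsmul _ _ D' fun t ht => ?_).trans (le_of_eq (by rw [smul_eq_mul, mul_comm]))
  simp only [Tof, mem_filter, mem_univ, true_and] at ht
  obtain ⟨v, hv⟩ : t.Nonempty := card_pos.1 (by omega)
  exact (W_anti top (singleton_subset_iff.2 hv)).trans (hD v)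

/-- The number of `d`-faces containing `s`. -/
theorem card_filter_face (s : Finset (Vx top)) :
    ((univ : Finset (Face (skelX top d) d)).filter fun t => s ⊆ t.1).card =
      (Tof top d (up top s)).card := by
  refine card_bij (fun t _ => up top t.1) ?_ ?_ ?_
  · intro t ht
    rw [mem_filter] at ht
    simp only [Tof, mem_filter, mem_univ, true_and]
    exact ⟨by rw [card_up]; exact t.2.2, (up_subset_iff top).2 ht.2, t.2.1.2.2⟩
  · intro t _ t' _ e
    exact Subtype.ext (up_injective top e)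
  · intro t ht
    simp only [Tof, mem_filter, mem_univ, true_and] at ht
    obtain ⟨t', rfl⟩ := exists_up top ht.2.2
    rw [card_up] at ht
    refine ⟨⟨t', ⟨card_pos.1 (by omega), ht.1.le, ht.2.2⟩, ht.1⟩, ?_, rfl⟩
    rw [mem_filter]
    exact ⟨mem_univ _, (up_subset_iff top).1 ht.2.1⟩

theorem skelX_degree {N D' : ℕ} (hN : ∀ C ∈ top, C.card = N)
    (hD : ∀ v : α, W top {v} ≤ D') : degree (skelX top d) d ≤ 2 ^ N * D' := by
  unfold degree
  refine Finset.sup_le fun v _ => ?_
  have h1 : ((univ : Finset (Face (skelX top d) d)).filter fun t => v ∈ t.1).card =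
      ((univ : Finset (Face (skelX top d) d)).filter fun t => {v} ⊆ t.1).card := by
    congr 1
    ext t
    simp only [mem_filter, mem_univ, true_and, singleton_subset_iff]
  refine h1.le.trans ?_
  rw [card_filter_face]
  refine (card_Tof_le top d hN _).trans (Nat.mul_le_mul_left _ ?_)
  have : up top {v} = {v.1} := by simp [up]
  rw [this]
  exact hD _

/-- Comparison of the norms. -/
theorem nrm_eq_sum_face {i : ℕ} (hi : i ≤ d) (g : Finset α → ZMod 2) :
    nrm top (i + 1) g = ∑ s ∈ (univ : Finset (Face (skelX top d) i)).filter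
      (fun s => g (up top s.1) ≠ 0), W top (up top s.1) := by
  unfold nrm
  rw [← sum_filter_ne_zero]
  symm
  refine sum_bij (fun s _ => up top s.1) ?_ ?_ ?_ ?_
  · intro s hs
    rw [mem_filter] at hs
    simp only [mem_filter, mem_univ, true_and]
    exact ⟨⟨by rw [card_up]; exact s.2.2, hs.2⟩, s.2.1.2.2.ne'⟩
  · intro t _ t' _ e
    exact Subtype.ext (up_injective top e)
  · intro t ht
    simp only [mem_filter, mem_univ, true_and] at ht
    obtain ⟨t', rfl⟩ := exists_up top (Nat.pos_of_ne_zero ht.2)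
    rw [card_up] at ht
    refine ⟨⟨t', ⟨card_pos.1 (by omega), by omega, Nat.pos_of_ne_zero ht.2⟩, ht.1.1⟩, ?_, rfl⟩
    rw [mem_filter]
    exact ⟨mem_univ _, ht.1.2⟩
  · intro s _
    rfl

theorem dd_up {i : ℕ} (g : Finset α → ZMod 2) (t : Face (skelX top d) (i + 1)) :
    dd g (up top t.1) =
      ∑ s ∈ (univ : Finset (Face (skelX top d) i)).filter (fun s => s.1 ⊆ t.1), g (up top s.1) := by
  have h1 : dd g (up top t.1) = ∑ v ∈ t.1, g (up top (t.1.erase v)) := by
    unfold dd
    rw [up, sum_map]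
    refine sum_congr rfl fun v _ => ?_
    rw [up_erase]
    rfl
  rw [h1]
  refine sum_bij (fun v hv => ⟨t.1.erase v, ?_, ?_⟩) ?_ ?_ ?_ ?_
  · have hc : (t.1.erase v).card = i + 1 := by rw [card_erase_of_mem hv, t.2.2]; rfl
    refine ⟨card_pos.1 (by omega), ?_, ?_⟩
    · have := t.2.1.2.1
      rw [t.2.2] at this
      omega
    · exact lt_of_lt_of_le t.2.1.2.2 (W_anti top ((up_subset_iff top).2 (erase_subset _ _)))
  · rw [card_erase_of_mem hv, t.2.2]; rfl
  · intro v hv
    rw [mem_filter]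
    exact ⟨mem_univ _, erase_subset _ _⟩
  · intro v hv w hw e
    have e1 : t.1.erase v = t.1.erase w := congrArg Subtype.val e
    by_contra hne
    have : v ∈ t.1.erase w := mem_erase.2 ⟨hne, hv⟩
    rw [← e1] at this
    exact notMem_erase v _ this
  · intro s hs
    rw [mem_filter] at hs
    have hc : (t.1 \ s.1).card = 1 := by
      rw [card_sdiff_of_subset hs.2, t.2.2, s.2.2]
      omega
    obtain ⟨v, hv⟩ := card_eq_one.1 hc
    have hvt : v ∈ t.1 \ s.1 := by rw [hv]; exact mem_singleton_self v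
    refine ⟨v, (mem_sdiff.1 hvt).1, ?_⟩
    apply Subtype.ext
    change t.1.erase v = s.1
    rw [← sdiff_singleton_eq_erase, ← hv, Finset.sdiff_sdiff_eq_self hs.2]
  · intro v _
    rfl

theorem cnorm_le {N : ℕ} (hN : ∀ C ∈ top, C.card = N) {i : ℕ} (hi : i ≤ d)
    (f : Face (skelX top d) i → ZMod 2) (g : Finset α → ZMod 2)
    (hg : ∀ s : Face (skelX top d) i, g (up top s.1) = f s) :
    cnorm (skelX top d) d f ≤
      (Fintype.card (Face (skelX top d) d) : ℝ)⁻¹ * (2 ^ N * nrm top (i + 1) g) := by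
  rw [nrm_eq_sum_face top d hi, cnorm, Nat.cast_sum, mul_sum, mul_sum]
  have e1 : (univ : Finset (Face (skelX top d) i)).filter (fun s => g (up top s.1) ≠ 0) =
      (univ : Finset (Face (skelX top d) i)).filter (fun s => f s ≠ 0) := by
    ext s
    simp only [mem_filter, mem_univ, true_and, hg]
  rw [e1]
  refine sum_le_sum fun s _ => ?_
  rw [wt, card_filter_face]
  have h1 : ((Tof top d (up top s.1)).card : ℝ) ≤ 2 ^ N * W top (up top s.1) := by
    exact_mod_cast card_Tof_le top d hN (up top s.1)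
  have h2 : (1 : ℝ) ≤ (Nat.choose (d + 1) (i + 1) : ℝ) := by
    exact_mod_cast Nat.choose_pos (by omega : i + 1 ≤ d + 1)
  rw [div_eq_mul_inv, mul_inv, ← mul_assoc, mul_comm _ ((Fintype.card _ : ℝ)⁻¹)]
  refine mul_le_mul_of_nonneg_left ?_ (by (clear * -; positivity))
  refine le_trans ?_ h1
  exact mul_le_of_le_one_right (by (clear * -; positivity)) (inv_le_one_of_one_le₀ h2)

theorem le_cnorm {N D' : ℕ} (hN : ∀ C ∈ top, C.card = N) (hdN : d + 2 ≤ N)
    (hD : ∀ v : α, W top {v} ≤ D') {i : ℕ} (hi : i ≤ d)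
    (f : Face (skelX top d) i → ZMod 2) (g : Finset α → ZMod 2)
    (hg : ∀ s : Face (skelX top d) i, g (up top s.1) = f s) :
    (Fintype.card (Face (skelX top d) d) : ℝ)⁻¹ * (nrm top (i + 1) g / ((D' + 1) * 2 ^ (d + 1))) ≤
      cnorm (skelX top d) d f := by
  rw [nrm_eq_sum_face top d hi, cnorm, Nat.cast_sum, sum_div, mul_sum]
  have e1 : (univ : Finset (Face (skelX top d) i)).filter (fun s => g (up top s.1) ≠ 0) =
      (univ : Finset (Face (skelX top d) i)).filter (fun s => f s ≠ 0) := by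
    ext s
    simp only [mem_filter, mem_univ, true_and, hg]
  rw [e1]
  refine sum_le_sum fun s _ => ?_
  rw [wt, card_filter_face]
  have h1 : (W top (up top s.1) : ℝ) ≤ D' * (Tof top d (up top s.1)).card := by
    exact_mod_cast W_le_card_Tof top d hN hdN hD (up top s.1) (by rw [card_up, s.2.2]; omega)
  have h2 : (0 : ℝ) < (Nat.choose (d + 1) (i + 1) : ℝ) := by
    exact_mod_cast Nat.choose_pos (by omega : i + 1 ≤ d + 1)
  have h3 : (Nat.choose (d + 1) (i + 1) : ℝ) ≤ 2 ^ (d + 1) := by
    exact_mod_cast Nat.choose_le_two_pow (d + 1) (i + 1)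
  rw [div_eq_mul_inv (((Tof top d (up top s.1)).card : ℝ)), mul_inv, ← mul_assoc,
    mul_comm _ ((Fintype.card _ : ℝ)⁻¹)]
  refine mul_le_mul_of_nonneg_left ?_ (by (clear * -; positivity))
  rw [← div_eq_mul_inv, div_le_div_iff₀ (by positivity) h2]
  have h4 : (0 : ℝ) ≤ (Tof top d (up top s.1)).card := Nat.cast_nonneg _
  have h5 : (0 : ℝ) ≤ D' := Nat.cast_nonneg _
  calc (W top (up top s.1) : ℝ) * (Nat.choose (d + 1) (i + 1) : ℝ)
      ≤ (D' * (Tof top d (up top s.1)).card) * 2 ^ (d + 1) :=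
        mul_le_mul h1 h3 h2.le (by (clear * -; positivity))
    _ ≤ (Tof top d (up top s.1)).card * ((D' + 1) * 2 ^ (d + 1)) := by
        have : (0 : ℝ) ≤ (Tof top d (up top s.1)).card * 2 ^ (d + 1) := by (clear * -; positivity)
        nlinarith only [this]

theorem cnorm_nonneg {i : ℕ} (f : Face (skelX top d) i → ZMod 2) :
    0 ≤ cnorm (skelX top d) d f := by
  refine sum_nonneg fun s _ => ?_
  unfold wt
  (clear * -; positivity)

theorem skelX_expander {N D' : ℕ} (hN : ∀ C ∈ top, C.card = N) (hdN : d + 2 ≤ N)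
    (hD : ∀ v : α, W top {v} ≤ D') {ε0 : ℝ} (h0 : 0 < ε0)
    (hexp : ∀ s : ℕ, 1 ≤ s → s ≤ d → ∀ f : Finset α → ZMod 2, ∃ e : Finset α → ZMod 2,
        ε0 * (nrm top s (fun τ => f τ + dd e τ) : ℝ) ≤ (nrm top (s + 1) (dd f) : ℝ)) :
    IsCoboundaryExpander (skelX top d) d (ε0 / ((D' + 1) * 2 ^ (d + 1) * 2 ^ N)) := by
  intro i hi f
  let F : Finset α → ZMod 2 := fun τ =>
    if h : ∃ s : Face (skelX top d) i, up top s.1 = τ then f h.choose else 0
  have hF : ∀ s : Face (skelX top d) i, F (up top s.1) = f s := by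
    intro s
    have h : ∃ s' : Face (skelX top d) i, up top s'.1 = up top s.1 := ⟨s, rfl⟩
    change (if h : ∃ s' : Face (skelX top d) i, up top s'.1 = up top s.1 then f h.choose else 0) = _
    rw [dif_pos h]
    congr 1
    exact Subtype.ext (up_injective top h.choose_spec)
  obtain ⟨e, he⟩ := hexp (i + 1) (by omega) (by omega) F
  set a : Face (skelX top d) i → ZMod 2 := fun s => dd e (up top s.1) with ha
  have hmem : a ∈ cobs (skelX top d) i := by
    cases i with
    | zero =>
      refine ⟨e ∅, fun s => ?_⟩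
      rw [ha]
      obtain ⟨v, hv⟩ := card_eq_one.1 (s.2.2 : s.1.card = 0 + 1)
      have : up top s.1 = {v.1} := by rw [hv]; simp [up]
      simp only [this]
      simp [dd]
    | succ j => exact ⟨fun r => e (up top r.1), funext fun t => (dd_up top d e t).symm⟩
  have h1 : cdist (skelX top d) d f (cobs (skelX top d) i) ≤ cnorm (skelX top d) d (f - a) := by
    refine csInf_le ⟨0, ?_⟩ ⟨a, hmem, rfl⟩
    rintro _ ⟨b, _, rfl⟩
    exact cnorm_nonneg top d _
  have h2 := cnorm_le top d hN hi.le (f - a) (fun τ => F τ + dd e τ) (fun s => by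
    rw [hF, Pi.sub_apply, ha]
    exact (CharTwo.sub_eq_add _ _).symm)
  have h3 := le_cnorm top d hN hdN hD (i := i + 1) hi (cobd (skelX top d) i f) (dd F) (fun t => by
    rw [dd_up top d F t, cobd]
    exact sum_congr rfl fun s _ => hF s)
  refine le_trans ?_ h3
  set c : ℝ := (Fintype.card (Face (skelX top d) d) : ℝ)⁻¹ with hc
  have hc0 : 0 ≤ c := by (clear * -; positivity)
  calc ε0 / ((D' + 1) * 2 ^ (d + 1) * 2 ^ N) * cdist (skelX top d) d f (cobs (skelX top d) i)
      ≤ ε0 / ((D' + 1) * 2 ^ (d + 1) * 2 ^ N) *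
        (c * (2 ^ N * nrm top (i + 1) fun τ => F τ + dd e τ)) :=
        mul_le_mul_of_nonneg_left (h1.trans h2) (by (clear * - h0; positivity))
    _ = c * ((ε0 * nrm top (i + 1) fun τ => F τ + dd e τ) / ((D' + 1) * 2 ^ (d + 1))) := by
        (clear * - h0; field_simp)
    _ ≤ c * (nrm top (i + 1 + 1) (dd F) / ((D' + 1) * 2 ^ (d + 1))) := by
        refine mul_le_mul_of_nonneg_left ?_ hc0
        exact div_le_div_of_nonneg_right he (by (clear * -; positivity))

end Conv

/-- From the coboundary inequality for the weights of a pure complex with top simplices of size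
`N ≥ d + 2` to coboundary expansion of its `d`-skeleton. -/
theorem expander_of_weights (d N D' : ℕ) (hd : 1 ≤ d) (hN : d + 2 ≤ N) (ε0 : ℝ) (h0 : 0 < ε0) :
    ∃ (D : ℕ) (ε : ℝ), 0 < ε ∧ ∀ (α : Type) [Fintype α] (top : Finset (Finset α)),
      (∀ C ∈ top, C.card = N) → top.Nonempty → (∀ v : α, W top {v} ≤ D') → LinkConn top ∅ →
      (∀ s : ℕ, 1 ≤ s → s ≤ d → ∀ f : Finset α → ZMod 2, ∃ e : Finset α → ZMod 2,
        ε0 * (nrm top s (fun τ => f τ + dd e τ) : ℝ) ≤ (nrm top (s + 1) (dd f) : ℝ)) →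
      ∃ (V : Type) (_ : Fintype V) (X : AbstractSimplicialComplex V),
        Fintype.card V = ((univ : Finset α).filter (fun v => 0 < W top {v})).card ∧
        IsPure X d ∧ (skel X).Connected ∧ degree X d ≤ D ∧ IsCoboundaryExpander X d ε := by
  refine ⟨2 ^ N * D', ε0 / ((D' + 1) * 2 ^ (d + 1) * 2 ^ N), by positivity, ?_⟩
  intro α _ top htop hne hD hconn hexp
  refine ⟨Vx top, inferInstance, skelX top d, Fintype.card_subtype _, skelX_pure top d htop hN,
    skelX_connected top d htop hd hN hne hconn, skelX_degree top d htop hD,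
    skelX_expander top d htop hN hD h0 hexp⟩

end Vale.Agent.P067
end
end

section

section

/-! # P067, module M10: assembly -/

set_option autoImplicit false

open Finset Filter

namespace Vale.Agent.P067

attribute [local instance] Classical.propDecidable

attribute [-instance] Submodule.decidableEq

/-- Coboundary inequality for the complexes `X`, from vanishing. -/
theorem coboundary_XX (d n : ℕ) (hd : 1 ≤ d) (hn : d + 2 ≤ n)
    (hvan : ∃ p0 : ℕ, ∀ (p m : ℕ) [Fact p.Prime] (ι : Type) [Fintype ι] [DecidableEq ι],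
      Fintype.card ι = n → p0 ≤ p → 3 ≤ m → ∀ q : ℕ, 1 ≤ q → q ≤ d →
        Acyc (ZMod 2) (XX ι p m) q) :
    ∃ p : ℕ, ∃ _ : Fact p.Prime, ∃ (D' : ℕ) (ε0 : ℝ), 0 < ε0 ∧ ∀ m : ℕ, 3 ≤ m →
      ∀ [Fintype (Sb (Fin n) p m)],
      (∀ C ∈ topX (Fin n) p m, C.card = n) ∧ (topX (Fin n) p m).Nonempty ∧
      (∀ v, W (topX (Fin n) p m) {v} ≤ D') ∧ LinkConn (topX (Fin n) p m) ∅ ∧
      (∀ s : ℕ, 1 ≤ s → s ≤ d → ∀ f : Finset (Sb (Fin n) p m) → ZMod 2,
        ∃ e : Finset (Sb (Fin n) p m) → ZMod 2,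
        ε0 * (nrm (topX (Fin n) p m) s (fun τ => f τ + dd e τ) : ℝ) ≤
          (nrm (topX (Fin n) p m) (s + 1) (dd f) : ℝ)) := by
  obtain ⟨p1, hvan⟩ := hvan
  obtain ⟨β, p2, hβ, hLE⟩ := linkExp_topX n
  obtain ⟨lam, hlam, hC2⟩ := coboundary_expansion_of_local n β hβ
  obtain ⟨lam0, hlam0, hE⟩ := edgeMix_of_base n lam hlam
  obtain ⟨p3, hLC⟩ := linkConn_topX n
  obtain ⟨p4, hp4⟩ := exists_nat_ge (1 / lam0 ^ 2)
  obtain ⟨p, hp, hprime⟩ := Nat.exists_infinite_primes (p1 + p2 + p3 + p4)
  have hfact : Fact p.Prime := ⟨hprime⟩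
  obtain ⟨D', hD'⟩ := W_topX_le (Fin n) p
  obtain ⟨ε0, hε0, hexp⟩ := hC2 D'
  refine ⟨p, hfact, D', ε0, hε0, ?_⟩
  intro m hm _
  have hcardn : Fintype.card (Fin n) = n := Fintype.card_fin n
  have htop : ∀ C ∈ topX (Fin n) p m, C.card = n := fun C hC => by
    rw [(mem_topX.1 hC).2, hcardn]
  have hne : (topX (Fin n) p m).Nonempty := by
    have h0 : (∅ : Finset (Sb (Fin n) p m)) ∈ XX (Fin n) p m :=
      ⟨W0 (Fin n) p m, isForm_W0, ∅, by simp, by simp, by simp⟩
    obtain ⟨C, hC, _⟩ := exists_topX hm h0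
    exact ⟨C, hC⟩
  have hconn0 : LinkConn (topX (Fin n) p m) ∅ := by
    apply linkConn_of_acyc
    have h1 := hvan p m (Fin n) hcardn (by omega) hm 1 le_rfl hd
    have h2 : {τ : Finset (Sb (Fin n) p m) | Disjoint τ ∅ ∧ 0 < W (topX (Fin n) p m) (∅ ∪ τ)} =
        XX (Fin n) p m := by
      ext τ
      rw [Set.mem_ofPred_eq, empty_union]
      exact ⟨fun h => (W_topX_pos_iff hm τ).1 h.2,
        fun h => ⟨disjoint_empty_right τ, (W_topX_pos_iff hm τ).2 h⟩⟩
    rw [h2]
    exact h1
  have hconn : ∀ θ : Finset (Sb (Fin n) p m), 0 < W (topX (Fin n) p m) θ → θ.card + 2 ≤ n →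
      LinkConn (topX (Fin n) p m) θ := by
    intro θ hW hθ
    rcases θ.eq_empty_or_nonempty with h | h
    · rw [h]; exact hconn0
    · exact hLC p m (Fin n) hcardn (by omega) hm θ h hW hθ
  have hbase : ∀ θ : Finset (Sb (Fin n) p m), 0 < W (topX (Fin n) p m) θ → θ.card + 2 = n →
      SpecGap (topX (Fin n) p m) n θ lam0 := by
    intro θ hW hθ
    have h1 : 1 ≤ lam0 ^ 2 * (p : ℝ) := by
      have h2 : (p4 : ℝ) ≤ p := by exact_mod_cast (by omega : p4 ≤ p)
      have h3 : 1 / lam0 ^ 2 ≤ (p : ℝ) := hp4.trans h2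
      rwa [div_le_iff₀' (by positivity)] at h3
    have h2 := specGap_base (ι := Fin n) hm (by rw [hcardn]; omega) hlam0 h1 θ hW
      (by rw [hcardn]; exact hθ)
    rwa [hcardn] at h2
  have hEM : EdgeMix (topX (Fin n) p m) n lam := hE _ htop hconn hbase
  have hL : LinkExp (topX (Fin n) p m) n β := hLE p m (Fin n) hcardn (by omega) hm
  refine ⟨htop, hne, hD' m hm, hconn0, ?_⟩
  intro s hs hsd
  refine hexp _ (topX (Fin n) p m) htop (hD' m hm) hL hEM s hs (by omega) ?_
  intro f hf
  obtain ⟨e, he⟩ := cocycle_eq_coboundary (XX (Fin n) p m) s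
    (hvan p m (Fin n) hcardn (by omega) hm s hs hsd) f
    (fun ρ hρ hc => hf ρ hc ((W_topX_pos_iff hm ρ).2 hρ))
  exact ⟨e, fun τ hτ hW => he τ ((W_topX_pos_iff hm τ).1 hW) hτ⟩

/-- Coboundary expanders of bounded degree in every dimension, from vanishing. -/
theorem main_of_vanish (d n : ℕ) (hd : 1 ≤ d) (hn : d + 2 ≤ n)
    (hvan : ∃ p0 : ℕ, ∀ (p m : ℕ) [Fact p.Prime] (ι : Type) [Fintype ι] [DecidableEq ι],
      Fintype.card ι = n → p0 ≤ p → 3 ≤ m → ∀ q : ℕ, 1 ≤ q → q ≤ d →
        Acyc (ZMod 2) (XX ι p m) q) :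
    ∃ (D : ℕ) (ε : ℝ), 0 < ε ∧ ∃ (V : ℕ → Type) (_ : ∀ m, Fintype (V m))
      (X : ∀ m, AbstractSimplicialComplex (V m)),
      Tendsto (fun m => Fintype.card (V m)) atTop atTop ∧
      ∀ m, IsPure (X m) d ∧ (skel (X m)).Connected ∧ degree (X m) d ≤ D ∧
        IsCoboundaryExpander (X m) d ε := by
  obtain ⟨p, hfact, D', ε0, hε0, h⟩ := coboundary_XX d n hd hn hvan
  obtain ⟨D, ε, hε, hconv⟩ := expander_of_weights d n D' hd hn ε0 hε0
  refine ⟨D, ε, hε, ?_⟩
  have key : ∀ M : ℕ, ∃ (V : Type) (_ : Fintype V) (X : AbstractSimplicialComplex V),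
      M ≤ Fintype.card V ∧ IsPure X d ∧ (skel X).Connected ∧ degree X d ≤ D ∧
        IsCoboundaryExpander X d ε := by
    intro M
    obtain ⟨m, hm, A, hMA, hA⟩ := many_vertices (ι := Fin n) (by rw [Fintype.card_fin]; omega) p M
    let _ : Fintype (Sb (Fin n) p m) := Fintype.ofFinite _
    obtain ⟨h1, h2, h3, h4, h5⟩ := h m hm
    obtain ⟨V, hV, X, hc, hP, hC, hD, hE⟩ := hconv _ (topX (Fin n) p m) h1 h2 h3 h4 h5
    refine ⟨V, hV, X, ?_, hP, hC, hD, hE⟩
    rw [hc]
    refine hMA.trans (card_le_card ?_)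
    intro v hv
    rw [mem_filter]
    exact ⟨mem_univ _, (W_topX_pos_iff hm _).2 (hA v hv)⟩
  choose V hV X h1 h2 using key
  exact ⟨V, hV, X, tendsto_atTop_mono h1 tendsto_id, h2⟩

end Vale.Agent.P067
end
end

section

section

/-! # P067: main theorem -/

set_option autoImplicit false

open Filter

namespace Vale.Agent.P067

/-- Coboundary expanders of bounded degree in every dimension. -/
theorem main (d : ℕ) (hd : 1 ≤ d) :
    ∃ (D : ℕ) (ε : ℝ), 0 < ε ∧ ∃ (V : ℕ → Type) (_ : ∀ m, Fintype (V m))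
      (X : ∀ m, AbstractSimplicialComplex (V m)),
      Tendsto (fun m => Fintype.card (V m)) atTop atTop ∧
      ∀ m, IsPure (X m) d ∧ (skel (X m)).Connected ∧ degree (X m) d ≤ D ∧
        IsCoboundaryExpander (X m) d ε := by
  obtain ⟨p0, h⟩ := vanish (2 * d + 1)
  refine main_of_vanish d (2 * d + 1) hd (by omega) ⟨p0, ?_⟩
  intro p m _ ι _ _ hι hp hm q hq1 hq
  obtain ⟨i, rfl⟩ : ∃ i, q = i + 1 := ⟨q - 1, by omega⟩
  exact h p m ι hι hp hm i (by omega)

end Vale.Agent.P067
end
end
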